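import Mathlib

set_option linter.all false

@[reducible] def Vale.Agent.P002Fast.coeU1 {M : Type*} [Monoid M] (u : Mˣ) : CoeT Mˣ u M := ⟨Units.val u⟩
attribute [local instance] Vale.Agent.P002Fast.coeU1

section

/-!
# P002, relative version: surface groups with punctures and prescribed boundary classes
-/

namespace Vale.Agent.P002R

open Matrix

/-- Square matrices of size `r`. -/
abbrev Mat (r : ℕ) (S : Type*) := Matrix (Fin r) (Fin r) S

section general

variable {κ : Type*} {r : ℕ} {S T : Type*} [CommRing S] [CommRing T]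

/-- Evaluation of a polynomial in the entries of all group words at a representation. -/
noncomputable def evalW [Algebra ℂ S] (x : FreeGroup κ →* (Mat r S)ˣ) :
    MvPolynomial (FreeGroup κ × Fin r × Fin r) ℂ →ₐ[ℂ] S :=
  MvPolynomial.aeval fun p => (x p.1 : Mat r S) p.2.1 p.2.2

/-- Evaluation of a polynomial in the entries of the generators and of their inverses at a tuple
of invertible matrices. -/
noncomputable def evalP [Algebra ℂ S] (X : κ → (Mat r S)ˣ) :
    MvPolynomial (κ × Bool × Fin r × Fin r) ℂ →ₐ[ℂ] S :=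
  MvPolynomial.aeval fun p => if p.2.1 then (((X p.1)⁻¹ : (Mat r S)ˣ) : Mat r S) p.2.2.1 p.2.2.2
    else (X p.1 : Mat r S) p.2.2.1 p.2.2.2

/-- The same for a tuple of complex matrices (with the nonsingular inverse). -/
noncomputable def evalM (X : κ → Mat r ℂ) :
    MvPolynomial (κ × Bool × Fin r × Fin r) ℂ →ₐ[ℂ] ℂ :=
  MvPolynomial.aeval fun p => if p.2.1 then (X p.1)⁻¹ p.2.2.1 p.2.2.2
    else X p.1 p.2.2.1 p.2.2.2

/-- Evaluation of a polynomial in the entries of the generators at a representation. -/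
noncomputable def evalG (x : FreeGroup κ →* (Mat r ℂ)ˣ) :
    MvPolynomial (κ × Fin r × Fin r) ℂ →ₐ[ℂ] ℂ :=
  MvPolynomial.aeval fun p => (x (FreeGroup.of p.1) : Mat r ℂ) p.2.1 p.2.2

/-- `x` is an `S`-point of the Zariski closure of `D`. -/
def InZ [Algebra ℂ S] (D : Set (FreeGroup κ →* (Mat r ℂ)ˣ)) (x : FreeGroup κ →* (Mat r S)ˣ) :
    Prop :=
  ∀ f : MvPolynomial (FreeGroup κ × Fin r × Fin r) ℂ, (∀ y ∈ D, evalW y f = 0) → evalW x f = 0

/-- Change the value at the generator `k` from `x k` to `x k * z`. -/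
def flow [DecidableEq κ] (x : FreeGroup κ →* (Mat r S)ˣ) (k : κ) (z : (Mat r S)ˣ) :
    FreeGroup κ →* (Mat r S)ˣ :=
  FreeGroup.lift fun l => if l = k then x (FreeGroup.of k) * z else x (FreeGroup.of l)

/-- Base change of a representation. -/
def baseChange (θ : S →+* T) (x : FreeGroup κ →* (Mat r S)ˣ) : FreeGroup κ →* (Mat r T)ˣ :=
  (Units.map (RingHom.mapMatrix θ).toMonoidHom).comp x

/-- `E` is a derivation over the representation `x`. -/
def IsDer (x : FreeGroup κ →* (Mat r ℂ)ˣ) (E : FreeGroup κ → Mat r ℂ) : Prop :=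
  ∀ w w' : FreeGroup κ, E (w * w') = E w * (x w' : Mat r ℂ) + (x w : Mat r ℂ) * E w'

/-- A family of invertible matrices is semisimple: every invariant subspace has an invariant
complement. -/
def SS {G : Type*} [Group G] {r : ℕ} (x : G →* (Mat r ℂ)ˣ) : Prop :=
  ∀ W : Submodule ℂ (Fin r → ℂ), (∀ w, ∀ v ∈ W, (x w : Mat r ℂ) *ᵥ v ∈ W) →
    ∃ W' : Submodule ℂ (Fin r → ℂ), (∀ w, ∀ v ∈ W', (x w : Mat r ℂ) *ᵥ v ∈ W') ∧ IsCompl W W'

end general

/-! ### Integral matrices up to scalars -/

/-- The scalar matrix `c` as a unit. -/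
noncomputable def scalarU {r : ℕ} : ℂˣ →* (Mat r ℂ)ˣ :=
  Units.map (algebraMap ℂ (Mat r ℂ)).toMonoidHom

/-- The invertible complex matrix attached to an element of `SL_r(R)` and a ring homomorphism. -/
noncomputable def slU {r : ℕ} {R : Type*} [CommRing R] (φ : R →+* ℂ) :
    SpecialLinearGroup (Fin r) R →* (Mat r ℂ)ˣ :=
  SpecialLinearGroup.toGL.comp (SpecialLinearGroup.map φ)

theorem scalarU_comm {r : ℕ} (c : ℂˣ) (x : (Mat r ℂ)ˣ) : scalarU c * x = x * scalarU c := by
  ext1
  simp only [Units.val_mul]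
  exact Algebra.commutes (c : ℂ) (x : Mat r ℂ)

/-- The group `ℂ^* · SL_r(R)`. -/
noncomputable def GR (r : ℕ) {R : Type*} [CommRing R] (φ : R →+* ℂ) : Subgroup (Mat r ℂ)ˣ where
  carrier := {x | ∃ (c : ℂˣ) (y : SpecialLinearGroup (Fin r) R), x = scalarU c * slU φ y}
  mul_mem' := by
    rintro a b ⟨c, y, rfl⟩ ⟨c', y', rfl⟩
    refine ⟨c * c', y * y', ?_⟩
    rw [map_mul, map_mul, mul_assoc, ← mul_assoc (slU φ y), ← scalarU_comm c' (slU φ y),
      mul_assoc, mul_assoc]
  one_mem' := ⟨1, 1, by simp⟩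
  inv_mem' := by
    rintro a ⟨c, y, rfl⟩
    refine ⟨c⁻¹, y⁻¹, ?_⟩
    rw [_root_.mul_inv_rev, map_inv (slU φ), map_inv scalarU, ← map_inv scalarU, scalarU_comm]

/-! ### The framed surface group: generators `a_i, b_i, d_j, e_j` and `c_j = d_j e_j d_j⁻¹` -/

/-- Generators: `inl (i, false) = a_i`, `inl (i, true) = b_i`, `inr (j, false) = d_j`,
`inr (j, true) = e_j`. -/
abbrev Gen (g n : ℕ) := (Fin g × Bool) ⊕ (Fin n × Bool)

/-- The free group on the `a_i, b_i, d_j, e_j`. -/
abbrev FF (g n : ℕ) := FreeGroup (Gen g n)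

variable {g m n r : ℕ}

/-- The generator `a_i`. -/
def gA (i : Fin g) : FF g n := FreeGroup.of (Sum.inl (i, false))

/-- The generator `b_i`. -/
def gB (i : Fin g) : FF g n := FreeGroup.of (Sum.inl (i, true))

/-- The generator `d_j`. -/
def gD (j : Fin n) : FF g n := FreeGroup.of (Sum.inr (j, false))

/-- The generator `e_j`. -/
def gE (j : Fin n) : FF g n := FreeGroup.of (Sum.inr (j, true))

/-- The boundary loop `c_j = d_j e_j d_j⁻¹`. -/
def gC (j : Fin n) : FF g n := gD j * gE j * (gD j)⁻¹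

/-- The commutator `[a_i, b_i]`. -/
def hcomm (i : Fin g) : FF g n := gA i * gB i * (gA i)⁻¹ * (gB i)⁻¹

/-- The surface relator `c_0 ... c_{n-1} [a_0,b_0] ... [a_{g-1},b_{g-1}]`. -/
def relator (g n : ℕ) : FF g n :=
  (List.ofFn fun j : Fin n => gC j).prod * (List.ofFn fun i : Fin g => hcomm i).prod

/-- The subgroup generated by the `a_i, b_i, c_j`. -/
def Fc (g n : ℕ) : Subgroup (FF g n) :=
  Subgroup.closure ({w | ∃ k, w = FreeGroup.of (Sum.inl k)} ∪ {w | ∃ j, w = gC j})

/-- Admissible automorphisms. -/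
structure Adm (τ : FF g n ≃* FF g n) : Prop where
  rel : τ (relator g n) = relator g n
  he : ∀ j, τ (gE j) = gE j
  hd : ∀ j, ∃ u ∈ Fc g n, τ (gD j) = u * gD j
  hab : ∀ k, τ (FreeGroup.of (Sum.inl k)) ∈ Fc g n

/-- Framed representations of the surface group which are integral up to scalars, with
`e_j ↦ J_j`. -/
def DFr {R : Type*} [CommRing R] (φ : R →+* ℂ) (J : Fin n → (Mat r ℂ)ˣ) :
    Set (FF g n →* (Mat r ℂ)ˣ) :=
  {x | x (relator g n) = 1 ∧ (∀ j, x (gE j) = J j) ∧
    (∀ k, x (FreeGroup.of (Sum.inl k)) ∈ GR r φ) ∧ ∀ j, x (gC j) ∈ GR r φ}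

/-- The relation for a tuple of matrices. -/
noncomputable def relM (X : Gen g n → Mat r ℂ) : Mat r ℂ :=
  (List.ofFn fun j : Fin n =>
    X (Sum.inr (j, false)) * X (Sum.inr (j, true)) * (X (Sum.inr (j, false)))⁻¹).prod *
  (List.ofFn fun i : Fin g =>
    X (Sum.inl (i, false)) * X (Sum.inl (i, true)) * (X (Sum.inl (i, false)))⁻¹ *
      (X (Sum.inl (i, true)))⁻¹).prod

/-! ### Slides of the last handle -/

/-- Loops around which the last handle is slid: `inl j` is `c_j`, `inr (i, false)` is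
`b_i a_i⁻¹ b_i⁻¹` and `inr (i, true)` is `b_i⁻¹` (each conjugated, see `loopW`). -/
abbrev Loop (m n : ℕ) := Fin n ⊕ (Fin m × Bool)

/-- The blocks of the relator before the last handle. -/
def blocks (m n : ℕ) : List (Fin n ⊕ Fin m) :=
  (List.finRange n).map Sum.inl ++ (List.finRange m).map Sum.inr

/-- The word of a block. -/
def bw : Fin n ⊕ Fin m → FF (m + 1) n
  | Sum.inl j => gC j
  | Sum.inr i => hcomm i.castSucc

/-- The product of the blocks of the list `l` after the (first) block `b`. -/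
def aftL (b : Fin n ⊕ Fin m) : List (Fin n ⊕ Fin m) → FF (m + 1) n
  | [] => 1
  | b' :: l => if b' = b then (l.map bw).prod else aftL b l

/-- The block of a loop. -/
def blk : Loop m n → Fin n ⊕ Fin m
  | Sum.inl j => Sum.inl j
  | Sum.inr (i, _) => Sum.inr i

/-- The product of the blocks after the block of the loop `q`, before the last handle. -/
def kap (q : Loop m n) : FF (m + 1) n := aftL (blk q) (blocks m n)

/-- The unconjugated loop. -/
def loop0 : Loop m n → FF (m + 1) n
  | Sum.inl j => gC j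
  | Sum.inr (i, false) => gB i.castSucc * (gA i.castSucc)⁻¹ * (gB i.castSucc)⁻¹
  | Sum.inr (i, true) => (gB i.castSucc)⁻¹

/-- The loop around which the last handle is slid. -/
def loopW (q : Loop m n) : FF (m + 1) n := (kap q)⁻¹ * loop0 q * kap q

/-- The effect of a slide on derivations. -/
noncomputable def Lam (x : FF (m + 1) n →* (Mat r ℂ)ˣ) (q : Loop m n) (ε : Mat r ℂ)
    (k : Gen (m + 1) n) : Mat r ℂ :=
  let ε' : Mat r ℂ := (x (kap q) : Mat r ℂ) * ε * (((x (kap q))⁻¹ : (Mat r ℂ)ˣ) : Mat r ℂ)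
  match q with
  | Sum.inl j => if k = Sum.inr (j, false) then -(ε' * (x (gD j) : Mat r ℂ)) else 0
  | Sum.inr (i, false) =>
      if k = Sum.inl (i.castSucc, true) then -(ε' * (x (gB i.castSucc) : Mat r ℂ)) else 0
  | Sum.inr (i, true) =>
      if k = Sum.inl (i.castSucc, false) then (x (gA i.castSucc) : Mat r ℂ) * ε'
      else if k = Sum.inl (i.castSucc, true) then
        (x (gB i.castSucc) : Mat r ℂ) * ε' - ε' * (x (gB i.castSucc) : Mat r ℂ)
      else 0

/-! ### The dual lemma -/

/-- Genericity conditions on a matrix. -/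
def Gen3 (A : Mat r ℂ) : Prop :=
  (∀ i j, A i j ≠ 0) ∧ ∀ i j k, i ≠ j → j ≠ k → i ≠ k →
    A i j * A j k * A k i ≠ A i k * A k j * A j i

/-- Product of a word. -/
def wP {L : Type*} (P : L → (Mat r ℂ)ˣ) : List L → (Mat r ℂ)ˣ
  | [] => 1
  | q :: p => P q * wP P p

/-- The cocycle of a word. -/
def theta {L : Type*} (P : L → (Mat r ℂ)ˣ) (R : L → Mat r ℂ) : List L → Mat r ℂ
  | [] => 0
  | q :: p => R q + (P q : Mat r ℂ) * theta P R p * (((P q)⁻¹ : (Mat r ℂ)ˣ) : Mat r ℂ)

/-! ### The base representation -/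

/-- The representation with `a_m ↦ B`, `d_j ↦ k_j` and the other generators as in `ρ`. -/
noncomputable def baseRep {S : Type*} [CommRing S] [Algebra ℂ S]
    (ρ : FF (m + 1) n →* (Mat r ℂ)ˣ) (B : (Mat r S)ˣ) (k : Fin n → (Mat r S)ˣ) :
    FF (m + 1) n →* (Mat r S)ˣ :=
  FreeGroup.lift fun l =>
    match l with
    | Sum.inl i => if i = (Fin.last m, false) then B
        else baseChange (algebraMap ℂ S) ρ (FreeGroup.of (Sum.inl i))
    | Sum.inr (j, false) => k j
    | Sum.inr (j, true) => baseChange (algebraMap ℂ S) ρ (FreeGroup.of (Sum.inr (j, true)))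

/-! ### The unframed surface group -/

/-- Generators: `inl (i, false) = a_i`, `inl (i, true) = b_i`, `inr j = c_j`. -/
abbrev GenU (g n : ℕ) := (Fin g × Bool) ⊕ Fin n

/-- The free group on the `a_i, b_i, c_j`. -/
abbrev FU (g n : ℕ) := FreeGroup (GenU g n)

/-- The surface relator `c_0 ... c_{n-1} [a_0,b_0] ... [a_{g-1},b_{g-1}]`. -/
def relatorU (g n : ℕ) : FU g n :=
  (List.ofFn fun j : Fin n => (FreeGroup.of (Sum.inr j) : FU g n)).prod *
  (List.ofFn fun i : Fin g => (FreeGroup.of (Sum.inl (i, false)) * FreeGroup.of (Sum.inl (i, true)) *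
    (FreeGroup.of (Sum.inl (i, false)))⁻¹ * (FreeGroup.of (Sum.inl (i, true)))⁻¹ : FU g n)).prod

/-- Semisimple representations of the surface group with boundary classes `C_j`. -/
def YU (g : ℕ) (C : Fin n → (Mat r ℂ)ˣ) : Set (FU g n →* (Mat r ℂ)ˣ) :=
  {x | x (relatorU g n) = 1 ∧ (∀ j, IsConj (C j) (x (FreeGroup.of (Sum.inr j)))) ∧ SS x}

/-- Semisimple representations of the surface group with boundary classes `C_j` which are
integral up to scalars. -/
def DU (g : ℕ) {R : Type*} [CommRing R] (φ : R →+* ℂ) (C : Fin n → (Mat r ℂ)ˣ) :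
    Set (FU g n →* (Mat r ℂ)ˣ) :=
  {x | x ∈ YU g C ∧ ∀ k, x (FreeGroup.of k) ∈ GR r φ}

/-! ### Equations (stated here so that they are generated in this file) -/

theorem gA_eqn (i : Fin g) : (gA i : FF g n) = FreeGroup.of (Sum.inl (i, false)) := by rw [gA]

theorem gB_eqn (i : Fin g) : (gB i : FF g n) = FreeGroup.of (Sum.inl (i, true)) := by rw [gB]

theorem gD_eqn (j : Fin n) : (gD j : FF g n) = FreeGroup.of (Sum.inr (j, false)) := by rw [gD]

theorem gE_eqn (j : Fin n) : (gE j : FF g n) = FreeGroup.of (Sum.inr (j, true)) := by rw [gE]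

theorem gC_eqn (j : Fin n) : (gC j : FF g n) = gD j * gE j * (gD j)⁻¹ := by rw [gC]

theorem hcomm_eqn (i : Fin g) : (hcomm i : FF g n) = gA i * gB i * (gA i)⁻¹ * (gB i)⁻¹ := by
  rw [hcomm]

theorem relator_eqn : relator g n =
    (List.ofFn fun j : Fin n => gC j).prod * (List.ofFn fun i : Fin g => hcomm i).prod := by
  rw [relator]

theorem relatorU_eqn : relatorU g n = (List.ofFn fun j : Fin n =>
    (FreeGroup.of (Sum.inr j) : FU g n)).prod * (List.ofFn fun i : Fin g =>
      (FreeGroup.of (Sum.inl (i, false)) * FreeGroup.of (Sum.inl (i, true)) *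
        (FreeGroup.of (Sum.inl (i, false)))⁻¹ * (FreeGroup.of (Sum.inl (i, true)))⁻¹ :
          FU g n)).prod := by
  rw [relatorU]

theorem evalG_eqn {κ : Type*} (x : FreeGroup κ →* (Mat r ℂ)ˣ)
    (f : MvPolynomial (κ × Fin r × Fin r) ℂ) : evalG x f =
      MvPolynomial.aeval (fun p => (x (FreeGroup.of p.1) : Mat r ℂ) p.2.1 p.2.2) f := by
  rw [evalG]

end Vale.Agent.P002R
end

section

/-!
# General groups and general coefficient rings: definitions
-/

namespace Vale.Agent.P002R

open Matrix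

/-- Conditions on the coefficient ring. `E` is a group of complex numbers that contains `-1` and
all eigenvalues of the boundary classes; the ring contains all `k`-th roots of elements of `E`,
`k ≤ r`, and a unit which is free modulo `E`. -/
structure CoefOK {R : Type*} [CommRing R] (φ : R →+* ℂ) (E : Subgroup ℂˣ) (r : ℕ) : Prop where
  inj : Function.Injective φ
  neg : (-1 : ℂˣ) ∈ E
  root : ∀ k : ℕ, 0 < k → k ≤ r → ∀ z : ℂˣ, z ^ k ∈ E → (z : ℂ) ∈ Set.range φ
  unit : ∃ u : Rˣ, ∀ k : ℕ, 0 < k → Units.map (φ : R →* ℂ) u ^ k ∉ E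

/-- All eigenvalues are in `E`. -/
def EigIn (E : Subgroup ℂˣ) {r : ℕ} (M : Mat r ℂ) : Prop :=
  ∀ z : ℂ, M.charpoly.IsRoot z → ∃ e ∈ E, (e : ℂ) = z

variable {κ ι κ₁ ι₁ κ₂ ι₂ : Type} {r : ℕ}

/-- Semisimple representations of the group with generators `κ ⊕ ι` and relators `Rel`, with the
boundary generator `j : ι` in the class of `C j`. -/
def YG (Rel : Set (FreeGroup (κ ⊕ ι))) (C : ι → (Mat r ℂ)ˣ) :
    Set (FreeGroup (κ ⊕ ι) →* (Mat r ℂ)ˣ) :=
  {x | (∀ w ∈ Rel, x w = 1) ∧ (∀ j, IsConj (C j) (x (FreeGroup.of (Sum.inr j)))) ∧ SS x}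

/-- Those which are integral up to scalars. -/
def DG (Rel : Set (FreeGroup (κ ⊕ ι))) {R : Type*} [CommRing R] (φ : R →+* ℂ)
    (C : ι → (Mat r ℂ)ˣ) : Set (FreeGroup (κ ⊕ ι) →* (Mat r ℂ)ˣ) :=
  {x | x ∈ YG Rel C ∧ ∀ k, x (FreeGroup.of k) ∈ GR r φ}

/-- Those which are integral up to scalars and absolutely irreducible. -/
def DGT (Rel : Set (FreeGroup (κ ⊕ ι))) {R : Type*} [CommRing R] (φ : R →+* ℂ)
    (C : ι → (Mat r ℂ)ˣ) : Set (FreeGroup (κ ⊕ ι) →* (Mat r ℂ)ˣ) :=
  {x | x ∈ DG Rel φ C ∧ Algebra.adjoin ℂ (Set.range fun w => (x w : Mat r ℂ)) = ⊤}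

/-- Characters which are trivial on the boundary generators respect the relators. -/
def CharOK (Rel : Set (FreeGroup (κ ⊕ ι))) : Prop :=
  ∀ w ∈ Rel, ∀ (A : Type) [CommGroup A] (χ : FreeGroup (κ ⊕ ι) →* A),
    (∀ j, χ (FreeGroup.of (Sum.inr j)) = 1) → χ w = 1

/-- Irreducible representations of dimension `r` are in the Zariski closure of the irreducible
integral ones (integral up to scalars), with the same boundary classes. -/
def IrrDense (Rel : Set (FreeGroup (κ ⊕ ι))) {R : Type*} [CommRing R] (φ : R →+* ℂ)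
    (E : Subgroup ℂˣ) (r : ℕ) : Prop :=
  ∀ C : ι → (Mat r ℂ)ˣ, (∀ j, EigIn E (C j : Mat r ℂ)) → ∀ x ∈ YG Rel C,
    (∀ M : Mat r ℂ, (∀ w, Commute M (x w : Mat r ℂ)) → ∃ c : ℂ, M = c • (1 : Mat r ℂ)) →
    ∀ f : MvPolynomial ((κ ⊕ ι) × Fin r × Fin r) ℂ, (∀ y ∈ DGT Rel φ C, evalG y f = 0) →
      evalG x f = 0

/-! ### Products -/

/-- Inclusion of the generators of the first factor. -/
def inc₁ : κ₁ ⊕ ι₁ → (κ₁ ⊕ κ₂) ⊕ (ι₁ ⊕ ι₂) := Sum.map Sum.inl Sum.inl

/-- Inclusion of the generators of the second factor. -/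
def inc₂ : κ₂ ⊕ ι₂ → (κ₁ ⊕ κ₂) ⊕ (ι₁ ⊕ ι₂) := Sum.map Sum.inr Sum.inr

/-- The relators of the product of two groups. -/
def prodRel (Rel₁ : Set (FreeGroup (κ₁ ⊕ ι₁))) (Rel₂ : Set (FreeGroup (κ₂ ⊕ ι₂))) :
    Set (FreeGroup ((κ₁ ⊕ κ₂) ⊕ (ι₁ ⊕ ι₂))) :=
  (FreeGroup.map inc₁ '' Rel₁) ∪ (FreeGroup.map inc₂ '' Rel₂) ∪
    {w | ∃ (k : κ₁ ⊕ ι₁) (l : κ₂ ⊕ ι₂), w =
      FreeGroup.of (inc₁ k) * FreeGroup.of (inc₂ l) * (FreeGroup.of (inc₁ k))⁻¹ *
        (FreeGroup.of (inc₂ l))⁻¹}

/-! ### Block data over a general coefficient ring -/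

/-- Multiplicative independence modulo `E`, up to degree `D`. -/
def FreeMod (E : Subgroup ℂˣ) (D : ℕ) (τ : Fin r → ℂ) : Prop :=
  ∀ e e' : Fin r → ℕ, ∑ i, e i = ∑ i, e' i → ∑ i, e i ≤ D →
    (∃ ε ∈ E, ∏ i, τ i ^ e i = (ε : ℂ) * ∏ i, τ i ^ e' i) → e = e'

/-- Block data: after conjugation by `U` the matrices `P q` are block upper triangular for the
block function `c`, the blocks are irreducible, `P q₀` is diagonal with distinct entries `α`, which
are the product of a block scalar `τ`, multiplicatively independent modulo `E`, and of elements of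
`E`. -/
structure BlockDataE (E : Subgroup ℂˣ) {L : Type*} (P : L → (Mat r ℂ)ˣ) (q₀ : L) (U : (Mat r ℂ)ˣ)
    (α : Fin r → ℂ) (c : Fin r → Fin r) (τ : Fin r → ℂ) : Prop where
  diag : (P q₀ : Mat r ℂ) = (U : Mat r ℂ) * diagonal α * ((U⁻¹ : (Mat r ℂ)ˣ) : Mat r ℂ)
  inj : Function.Injective α
  tri : ∀ q i j, c j < c i → ((U⁻¹ * P q * U : (Mat r ℂ)ˣ) : Mat r ℂ) i j = 0
  conn : ∀ i j, c i = c j → Relation.ReflTransGen
    (fun i j => ∃ q, ((U⁻¹ * P q * U : (Mat r ℂ)ˣ) : Mat r ℂ) i j ≠ 0) i j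
  fac : ∀ i, ∃ ε ∈ E, α i = τ (c i) * (ε : ℂ)
  free : FreeMod E (2 * r + 3) τ

end Vale.Agent.P002R
end

section

/-! Jordan normal form over `ℂ`, with integral nilpotent part of arbitrary scale. -/

namespace Vale.Agent.P002

open Matrix

universe u

theorem jordan_vector {V : Type u} [AddCommGroup V] [Module ℂ V] [FiniteDimensional ℂ V]
    [Nontrivial V] (T : Module.End ℂ V) :
    ∃ (lam : ℂ) (m : ℕ) (v : V) (φ : V →ₗ[ℂ] ℂ), 0 < m ∧ ((T - lam • 1) ^ m) v = 0 ∧
      (∀ x, φ (((T - lam • 1) ^ m) x) = 0) ∧ φ (((T - lam • 1) ^ (m - 1)) v) ≠ 0 := by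
  classical
  obtain ⟨lam, hlam⟩ := Module.End.exists_eigenvalue T
  set N : Module.End ℂ V := T - lam • 1 with hN
  have hex : ∃ k : ℕ, LinearMap.ker (N ^ k) = LinearMap.ker (N ^ (k + 1)) := by
    obtain ⟨k, _, hk⟩ := Module.End.exists_ker_pow_eq_ker_pow_succ N
    exact ⟨k, hk⟩
  have hspec := Nat.find_spec hex
  set m := Nat.find hex with hm
  have hm0 : 0 < m := by
    rcases Nat.eq_zero_or_pos m with h0 | h0
    · exfalso
      rw [h0] at hspec
      have h1 : LinearMap.ker N = ⊥ := by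
        rw [zero_add, pow_one, pow_zero] at hspec
        rw [← hspec]
        exact LinearMap.ker_id
      apply hlam
      change Module.End.eigenspace T lam = ⊥
      rw [Module.End.eigenspace_def]
      exact h1
    · exact h0
  have hmin : LinearMap.ker (N ^ (m - 1)) ≠ LinearMap.ker (N ^ m) := by
    have := Nat.find_min hex (m := m - 1) (by omega)
    rwa [Nat.sub_add_cancel hm0] at this
  have hle : LinearMap.ker (N ^ (m - 1)) ≤ LinearMap.ker (N ^ m) := by
    intro x hx
    rw [LinearMap.mem_ker] at hx ⊢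
    have : N ^ m = N * N ^ (m - 1) := by
      rw [← pow_succ', Nat.sub_add_cancel hm0]
    rw [this, Module.End.mul_apply, hx, map_zero]
  obtain ⟨v, hv, hv'⟩ : ∃ v ∈ LinearMap.ker (N ^ m), v ∉ LinearMap.ker (N ^ (m - 1)) := by
    by_contra hcon
    push Not at hcon
    exact hmin (le_antisymm hle hcon)
  have hnot : (N ^ (m - 1)) v ∉ LinearMap.range (N ^ m) := by
    rintro ⟨w, hw⟩
    have h1 : (N ^ (m + 1)) w = 0 := by
      rw [pow_succ', Module.End.mul_apply, hw]
      have : N ^ m = N * N ^ (m - 1) := by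
        rw [← pow_succ', Nat.sub_add_cancel hm0]
      rw [LinearMap.mem_ker, this, Module.End.mul_apply] at hv
      exact hv
    have h2 : w ∈ LinearMap.ker (N ^ m) := by
      rw [hspec]
      exact h1
    rw [LinearMap.mem_ker] at h2 hv'
    rw [h2] at hw
    exact hv' hw.symm
  obtain ⟨φ, hφ1, hφ2⟩ := Submodule.exists_le_ker_of_notMem hnot
  exact ⟨lam, m, v, φ, hm0, hv, fun x => hφ2 ⟨x, rfl⟩, hφ1⟩

/-- a Jordan basis indexed by a finite type -/
def HasJordan (V : Type u) [AddCommGroup V] [Module ℂ V] (T : Module.End ℂ V) : Prop :=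
  ∃ (ι : Type) (_ : Fintype ι) (_ : DecidableEq ι) (b : Module.Basis ι ℂ V) (d : ι → ℂ)
    (pre : ι → Option ι) (h : ι → ℕ),
    (∀ j, T (b j) = d j • b j + (pre j).elim 0 b) ∧ ∀ i j, pre j = some i → h j = h i + 1

theorem exists_jordan_aux (n : ℕ) : ∀ (V : Type u) [AddCommGroup V] [Module ℂ V]
    [FiniteDimensional ℂ V] (T : Module.End ℂ V), Module.finrank ℂ V = n → HasJordan V T := by
  classical
  induction n using Nat.strong_induction_on with
  | _ n ih =>
  intro V _ _ _ T hV
  rcases Nat.eq_zero_or_pos n with rfl | hn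
  · have : Subsingleton V := Module.finrank_zero_iff.mp hV
    exact ⟨Empty, inferInstance, inferInstance, Module.Basis.empty V, fun j => j.elim,
      fun j => j.elim, fun j => j.elim, fun j => j.elim, fun i => i.elim⟩
  have : Nontrivial V := Module.finrank_pos_iff.mp (by omega : 0 < Module.finrank ℂ V)
  obtain ⟨lam, m, v, φ, hm, hv, hφ0, hφ1⟩ := jordan_vector T
  set N : Module.End ℂ V := T - lam • 1 with hN
  have hT : ∀ x, T x = lam • x + N x := by
    intro x
    simp [hN]
  let α : (Fin m → ℂ) →ₗ[ℂ] V := Fintype.linearCombination ℂ fun k : Fin m => (N ^ (k : ℕ)) v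
  have hα : ∀ a, α a = ∑ k, a k • (N ^ (k : ℕ)) v := fun a =>
    Fintype.linearCombination_apply ℂ _ a
  let β : V →ₗ[ℂ] (Fin m → ℂ) := LinearMap.pi fun k : Fin m => φ ∘ₗ (N ^ (k : ℕ))
  have hβ : ∀ x k, β x k = φ ((N ^ (k : ℕ)) x) := fun x k => rfl
  have hvbig : ∀ k, m ≤ k → (N ^ k) v = 0 := by
    intro k hk
    obtain ⟨l, rfl⟩ := Nat.exists_eq_add_of_le' hk
    rw [pow_add, Module.End.mul_apply, hv, map_zero]
  have hinj : ∀ a, β (α a) = 0 → a = 0 := by
    intro a ha
    by_contra hne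
    have hex : ∃ k : ℕ, ∃ hk : k < m, a ⟨k, hk⟩ ≠ 0 := by
      by_contra hcon
      push Not at hcon
      exact hne (funext fun k => hcon k k.2)
    obtain ⟨hk, hak⟩ := Nat.find_spec hex
    set k₀ := Nat.find hex with hk₀
    have hmin : ∀ k (hk : k < m), k < k₀ → a ⟨k, hk⟩ = 0 := by
      intro k hk' hlt
      by_contra hcon
      exact Nat.find_min hex hlt ⟨hk', hcon⟩
    have h1 := congrFun ha ⟨m - 1 - k₀, by omega⟩
    rw [hβ, hα, map_sum, map_sum, Finset.sum_eq_single ⟨k₀, hk⟩] at h1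
    · rw [map_smul, map_smul, ← Module.End.mul_apply, ← pow_add, smul_eq_mul] at h1
      simp only [Pi.zero_apply] at h1
      have e : m - 1 - k₀ + k₀ = m - 1 := by omega
      rw [e] at h1
      rcases mul_eq_zero.mp h1 with h2 | h2
      · exact hak h2
      · exact hφ1 h2
    · intro k _ hkne
      rcases lt_or_ge (k : ℕ) k₀ with hlt | hge
      · rw [hmin k k.2 hlt, zero_smul, map_zero, map_zero]
      · have hgt : k₀ < (k : ℕ) := by
          rcases Nat.lt_or_eq_of_le hge with h | h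
          · exact h
          · exact absurd (Fin.ext h.symm) hkne
        rw [map_smul, ← Module.End.mul_apply, ← pow_add, hvbig _ (by
          simp only
          omega), smul_zero, map_zero]
    · intro h
      exact absurd (Finset.mem_univ _) h
  let U := LinearMap.ker β
  have hUN : ∀ x ∈ U, N x ∈ U := by
    intro x hx
    rw [LinearMap.mem_ker] at hx ⊢
    funext k
    rw [hβ, ← Module.End.mul_apply, ← pow_succ]
    by_cases hk : (k : ℕ) + 1 < m
    · have := congrFun hx ⟨(k : ℕ) + 1, hk⟩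
      rw [hβ] at this
      exact this
    · have : (k : ℕ) + 1 = m := by omega
      rw [this, hφ0]
      rfl
  have hUT : ∀ x ∈ U, T x ∈ U := by
    intro x hx
    rw [hT]
    exact U.add_mem (U.smul_mem _ hx) (hUN x hx)
  let Φ : ((Fin m → ℂ) × U) →ₗ[ℂ] V := LinearMap.coprod α U.subtype
  have hΦ : ∀ p, Φ p = α p.1 + (p.2 : V) := fun p => rfl
  have hβU : ∀ x : U, β (x : V) = 0 := fun x => x.2
  have hΦinj : Function.Injective Φ := by
    rw [← LinearMap.ker_eq_bot, LinearMap.ker_eq_bot']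
    rintro ⟨a, x⟩ hp
    rw [hΦ] at hp
    have h1 : β (α a) = 0 := by
      have := congrArg β hp
      rw [map_add, hβU, add_zero, map_zero] at this
      exact this
    have ha := hinj a h1
    subst ha
    rw [map_zero, zero_add] at hp
    ext1
    · rfl
    · exact Subtype.ext hp
  have hsurj0 : Function.Surjective (β ∘ₗ α) := by
    rw [← LinearMap.injective_iff_surjective, ← LinearMap.ker_eq_bot, LinearMap.ker_eq_bot']
    exact hinj
  have hΦsurj : Function.Surjective Φ := by
    intro x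
    obtain ⟨a, ha⟩ := hsurj0 (β x)
    refine ⟨(a, ⟨x - α a, ?_⟩), ?_⟩
    · rw [LinearMap.mem_ker, map_sub, ← ha]
      exact sub_self _
    · rw [hΦ]
      simp
  let Ψ : ((Fin m → ℂ) × U) ≃ₗ[ℂ] V := LinearEquiv.ofBijective Φ ⟨hΦinj, hΦsurj⟩
  have hdim : Module.finrank ℂ U < n := by
    have h1 := Ψ.finrank_eq
    rw [Module.finrank_prod, Module.finrank_fin_fun, hV] at h1
    omega
  obtain ⟨ι, _, _, b, d, pre, h, hb1, hb2⟩ := ih _ hdim U (T.restrict hUT) rfl
  refine ⟨Fin m ⊕ ι, inferInstance, inferInstance,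
    (Module.Basis.prod (Pi.basisFun ℂ (Fin m)) b).map Ψ,
    Sum.elim (fun _ => lam) d,
    Sum.elim (fun k => if hk : (k : ℕ) + 1 < m then some (Sum.inl ⟨(k : ℕ) + 1, hk⟩) else none)
      (fun j => (pre j).map Sum.inr),
    Sum.elim (fun k => m - 1 - (k : ℕ)) h, ?_, ?_⟩
  · have hl : ∀ k : Fin m, ((Module.Basis.prod (Pi.basisFun ℂ (Fin m)) b).map Ψ) (Sum.inl k) =
        (N ^ (k : ℕ)) v := by
      intro k
      rw [Module.Basis.map_apply]
      change Φ _ = _
      rw [hΦ, hα]
      simp [Pi.single_apply]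
    have hr : ∀ j : ι, ((Module.Basis.prod (Pi.basisFun ℂ (Fin m)) b).map Ψ) (Sum.inr j) =
        (b j : V) := by
      intro j
      rw [Module.Basis.map_apply]
      change Φ _ = _
      rw [hΦ, hα]
      simp
    rintro (k | j)
    · simp only [hl, Sum.elim_inl]
      rw [hT, ← Module.End.mul_apply, ← pow_succ']
      congr 1
      by_cases hk : (k : ℕ) + 1 < m
      · rw [dif_pos hk, Option.elim_some, hl]
      · rw [dif_neg hk, Option.elim_none]
        exact hvbig _ (by omega)
    · simp only [hr, Sum.elim_inr]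
      have h1 := congrArg (fun z : U => (z : V)) (hb1 j)
      simp only [LinearMap.coe_restrict_apply, Submodule.coe_add, Submodule.coe_smul] at h1
      rw [h1]
      congr 1
      cases pre j with
      | none => rfl
      | some i => simp [hr]
  · rintro (i | i) (j | j) hij
    · simp only [Sum.elim_inl] at hij ⊢
      by_cases hk : (j : ℕ) + 1 < m
      · rw [dif_pos hk] at hij
        have : (i : ℕ) = (j : ℕ) + 1 := by
          have := Sum.inl.inj (Option.some.inj hij)
          rw [← this]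
        omega
      · rw [dif_neg hk] at hij
        exact absurd hij (by simp)
    · simp only [Sum.elim_inr] at hij
      cases hp : pre j with
      | none => rw [hp] at hij; simp at hij
      | some i' => rw [hp] at hij; simp at hij
    · simp only [Sum.elim_inl] at hij
      by_cases hk : (j : ℕ) + 1 < m
      · rw [dif_pos hk] at hij
        simp at hij
      · rw [dif_neg hk] at hij
        exact absurd hij (by simp)
    · simp only [Sum.elim_inr] at hij ⊢
      cases hp : pre j with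
      | none => rw [hp] at hij; simp at hij
      | some i' =>
        rw [hp] at hij
        simp only [Option.map_some, Option.some.injEq, Sum.inr.injEq] at hij
        subst hij
        exact hb2 _ _ hp


theorem charpoly_diag_add {r : ℕ} (d : Fin r → ℂ) (ν : Matrix (Fin r) (Fin r) ℤ)
    (hν : ∀ i j, ¬ i < j → ν i j = 0) (N₀ : ℂ) :
    (diagonal d + N₀ • ν.map (Int.cast : ℤ → ℂ)).charpoly =
      ∏ i, (Polynomial.X - Polynomial.C (d i)) := by
  rw [Matrix.charpoly_of_isUpperTriangular]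
  · refine Finset.prod_congr rfl fun k _ => ?_
    rw [Matrix.add_apply, Matrix.diagonal_apply_eq, Matrix.smul_apply, Matrix.map_apply,
      hν k k (lt_irrefl k)]
    simp
  · intro i j hij
    have hji : j < i := hij
    have h1 : (diagonal d + N₀ • ν.map (Int.cast : ℤ → ℂ)) i j = 0 := by
      rw [Matrix.add_apply, Matrix.smul_apply, Matrix.map_apply,
        hν i j (not_lt.mpr (le_of_lt hji)), Matrix.diagonal_apply_ne _ (ne_of_gt hji)]
      simp
    exact h1

/-- JORDAN FORM. Every complex matrix is conjugate to `diagonal d + N • ν` with `ν` a strictly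
upper triangular matrix of zeros and ones, for every nonzero scale `N`. -/
theorem exists_jordan {r : ℕ} (C : Matrix (Fin r) (Fin r) ℂ) :
    ∃ (d : Fin r → ℂ) (ν : Matrix (Fin r) (Fin r) ℤ),
      (∀ i j, ν i j = 0 ∨ ν i j = 1) ∧ (∀ i j, ¬ i < j → ν i j = 0) ∧
      C.charpoly = ∏ i, (Polynomial.X - Polynomial.C (d i)) ∧
      ∀ N₀ : ℂ, N₀ ≠ 0 → ∃ P : (Matrix (Fin r) (Fin r) ℂ)ˣ,
        C = (P : Matrix (Fin r) (Fin r) ℂ) * (diagonal d + N₀ • ν.map (Int.cast : ℤ → ℂ)) *
          ((P⁻¹ : (Matrix (Fin r) (Fin r) ℂ)ˣ) : Matrix (Fin r) (Fin r) ℂ) := by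
  classical
  obtain ⟨ι, _, _, b, d, pre, h, hb, hpre⟩ :=
    exists_jordan_aux r (Fin r → ℂ) (Matrix.mulVecLin C) (by simp)
  have hcard : Fintype.card ι = r := by
    rw [← Module.finrank_eq_card_basis b]
    simp
  let e₀ : ι ≃ Fin r := Fintype.equivFinOfCardEq hcard
  let f : Fin r → ℕ := fun k => h (e₀.symm k)
  let τ : Equiv.Perm (Fin r) := Tuple.sort f
  have hmono : Monotone (f ∘ τ) := Tuple.monotone_sort f
  let e : ι ≃ Fin r := e₀.trans τ.symm
  have he : ∀ k, h (e.symm k) = (f ∘ τ) k := fun k => rfl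
  have hlt : ∀ i j, h i < h j → e i < e j := by
    intro i j hij
    by_contra hcon
    push Not at hcon
    have := hmono hcon
    rw [← he, ← he, Equiv.symm_apply_apply, Equiv.symm_apply_apply] at this
    omega
  let ν : Matrix (Fin r) (Fin r) ℤ := Matrix.of fun i j =>
    if pre (e.symm j) = some (e.symm i) then 1 else 0
  have hν : ∀ i j, ν i j = if pre (e.symm j) = some (e.symm i) then 1 else 0 := fun i j => rfl
  have hνlt : ∀ i j, ¬ i < j → ν i j = 0 := by
    intro i j hij
    rw [hν]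
    by_cases hp : pre (e.symm j) = some (e.symm i)
    · exfalso
      apply hij
      have h1 := hpre _ _ hp
      have h2 := hlt (e.symm i) (e.symm j) (by omega)
      simpa using h2
    · rw [if_neg hp]
  have hconj : ∀ N₀ : ℂ, N₀ ≠ 0 → ∃ P : (Matrix (Fin r) (Fin r) ℂ)ˣ,
        C = (P : Matrix (Fin r) (Fin r) ℂ) * (diagonal (fun k => d (e.symm k)) +
          N₀ • ν.map (Int.cast : ℤ → ℂ)) *
          ((P⁻¹ : (Matrix (Fin r) (Fin r) ℂ)ˣ) : Matrix (Fin r) (Fin r) ℂ) := by
    intro N₀ hN₀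
    let b' : Module.Basis (Fin r) ℂ (Fin r → ℂ) := b.reindex e
    let b'' : Module.Basis (Fin r) ℂ (Fin r → ℂ) :=
      b'.unitsSMul fun k => (Units.mk0 N₀ hN₀) ^ (h (e.symm k))
    have hb'' : ∀ k, b'' k = N₀ ^ (h (e.symm k)) • b (e.symm k) := by
      intro k
      simp only [b'', b', Module.Basis.unitsSMul_apply, Module.Basis.reindex_apply]
      rw [Units.smul_def]
      simp
    let P₀ : Matrix (Fin r) (Fin r) ℂ := (Pi.basisFun ℂ (Fin r)).toMatrix b''
    have hP₀ : ∀ i j, P₀ i j = b'' j i := by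
      intro i j
      simp [P₀, Module.Basis.toMatrix_apply]
    have hu : IsUnit P₀ := by
      have := (Pi.basisFun ℂ (Fin r)).invertibleToMatrix b''
      exact isUnit_of_invertible _
    obtain ⟨P, hP⟩ := hu
    refine ⟨P, ?_⟩
    have key : C * P₀ = P₀ * (diagonal (fun k => d (e.symm k)) +
        N₀ • ν.map (Int.cast : ℤ → ℂ)) := by
      ext i j
      have h1 := congrFun (hb (e.symm j)) i
      rw [Matrix.mulVecLin_apply] at h1
      have h2 : (C * P₀) i j = N₀ ^ (h (e.symm j)) * (C *ᵥ (b (e.symm j))) i := by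
        rw [Matrix.mul_apply, Matrix.mulVec, dotProduct, Finset.mul_sum]
        refine Finset.sum_congr rfl fun k _ => ?_
        rw [hP₀, hb'', Pi.smul_apply, smul_eq_mul]
        ring
      rw [h2, h1, Matrix.mul_add, Matrix.add_apply, Matrix.mul_diagonal, hP₀, hb'']
      simp only [Pi.add_apply, Pi.smul_apply, smul_eq_mul, mul_add]
      congr 1
      · ring
      · rw [Matrix.mul_smul, Matrix.smul_apply, smul_eq_mul, Matrix.mul_apply]
        cases hp : pre (e.symm j) with
        | none =>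
          rw [Option.elim_none]
          rw [Finset.sum_eq_zero]
          · simp
          · intro k _
            rw [Matrix.map_apply, hν, hp]
            simp
        | some i' =>
          rw [Option.elim_some, Finset.sum_eq_single (e i')]
          · rw [Matrix.map_apply, hν, hp, Equiv.symm_apply_apply, if_pos rfl, hP₀, hb'',
              Equiv.symm_apply_apply, Pi.smul_apply, smul_eq_mul, Int.cast_one, mul_one,
              hpre _ _ hp, pow_succ]
            ring
          · intro k _ hk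
            rw [Matrix.map_apply, hν, hp, if_neg, Int.cast_zero, mul_zero]
            intro hcon
            apply hk
            rw [Option.some.inj hcon, Equiv.apply_symm_apply]
          · intro hcon
            exact absurd (Finset.mem_univ _) hcon
    rw [← hP] at key
    rw [← key, Matrix.mul_assoc, ← Units.val_mul, mul_inv_cancel, Units.val_one, Matrix.mul_one]
  refine ⟨fun k => d (e.symm k), ν, ?_, hνlt, ?_, hconj⟩
  · intro i j
    rw [hν]
    by_cases hp : pre (e.symm j) = some (e.symm i)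
    · right; rw [if_pos hp]
    · left; rw [if_neg hp]
  · obtain ⟨P, hP⟩ := hconj 1 one_ne_zero
    rw [hP, Matrix.mul_assoc, Matrix.charpoly_mul_comm, Matrix.mul_assoc, ← Units.val_mul,
      inv_mul_cancel, Units.val_one, Matrix.mul_one]
    exact charpoly_diag_add _ ν hνlt 1

end Vale.Agent.P002
end

section

/-! TASK Q: Jordan form. -/

namespace Vale.Agent.P002R

open Matrix

variable {r : ℕ}

theorem nilpotent_eigen (C : Mat r ℂ) (N : ℕ) (hC : IsNilpotent (C ^ N - 1)) (c : ℂ)
    (hc : C.charpoly.IsRoot c) : c ^ N = 1 := by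
  have h0 : (Matrix.scalar (Fin r) c - C).det = 0 := by
    rw [← Matrix.eval_charpoly]
    exact hc
  obtain ⟨v, hv0, hv⟩ := Matrix.exists_mulVec_eq_zero_iff.mpr h0
  have h1 : C *ᵥ v = c • v := by
    rw [Matrix.sub_mulVec, sub_eq_zero] at hv
    rw [← hv]
    ext i
    simp [Matrix.mulVec_diagonal]
  have h2 : ∀ k : ℕ, (C ^ k) *ᵥ v = c ^ k • v := by
    intro k
    induction k with
    | zero => simp
    | succ k ih =>
      rw [pow_succ', ← mulVec_mulVec, ih, mulVec_smul, h1, smul_smul, pow_succ]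
  have h3 : (C ^ N - 1) *ᵥ v = (c ^ N - 1) • v := by
    rw [Matrix.sub_mulVec, h2, one_mulVec, sub_smul, one_smul]
  have h4 : ∀ k : ℕ, ((C ^ N - 1) ^ k) *ᵥ v = (c ^ N - 1) ^ k • v := by
    intro k
    induction k with
    | zero => simp
    | succ k ih =>
      rw [pow_succ', ← mulVec_mulVec, ih, mulVec_smul, h3, smul_smul, pow_succ]
  obtain ⟨k, hk⟩ := hC
  have h5 := h4 k
  rw [hk, zero_mulVec] at h5
  have h6 : (c ^ N - 1) ^ k = 0 := by
    rcases smul_eq_zero.mp h5.symm with h | h
    · exact h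
    · exact absurd h hv0
  exact sub_eq_zero.mp (eq_zero_of_pow_eq_zero h6)

end Vale.Agent.P002R
end

section

/-!
# Restricting the test set to absolutely irreducible representations
-/

namespace Vale.Agent.P002R

open Matrix

variable {K : Type*} {r : ℕ}

/-- The generic matrix of a positive word. -/
noncomputable def posW (l : List K) :
    Matrix (Fin r) (Fin r) (MvPolynomial (K × Fin r × Fin r) ℂ) :=
  (l.map fun k => Matrix.of fun i j => MvPolynomial.X (k, i, j)).prod

theorem evalG_posW (y : FreeGroup K →* (Mat r ℂ)ˣ) (l : List K) (i j : Fin r) :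
    evalG y (posW l i j) = ((l.map fun k => (y (FreeGroup.of k) : Mat r ℂ)).prod) i j := by
  have h : (evalG y).toRingHom.mapMatrix (posW l) =
      (l.map fun k => (y (FreeGroup.of k) : Mat r ℂ)).prod := by
    rw [posW, map_list_prod, List.map_map]
    congr 1
    apply List.map_congr_left
    intro k _
    ext a b
    simp [evalG]
  rw [← h]
  rfl

/-- The inverse of an element of a finite dimensional subalgebra is in the subalgebra. -/
theorem inv_mem_of_mem (A : Subalgebra ℂ (Mat r ℂ)) (u : (Mat r ℂ)ˣ) (hu : (u : Mat r ℂ) ∈ A) :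
    ((u⁻¹ : (Mat r ℂ)ˣ) : Mat r ℂ) ∈ A := by
  obtain ⟨L, hL⟩ : ∃ L : A →ₗ[ℂ] A, ∀ a, L a = ⟨(u : Mat r ℂ), hu⟩ * a :=
    ⟨LinearMap.mulLeft ℂ (⟨(u : Mat r ℂ), hu⟩ : A), fun a => rfl⟩
  have hinj : Function.Injective L := by
    intro a b hab
    rw [hL, hL] at hab
    have h1 := congrArg Subtype.val hab
    simp only [MulMemClass.coe_mul] at h1
    exact Subtype.ext (u.isUnit.mul_left_cancel h1)
  obtain ⟨a, ha⟩ := (LinearMap.injective_iff_surjective.1 hinj) 1
  rw [hL] at ha
  have h2 : (u : Mat r ℂ) * (a : Mat r ℂ) = 1 := congrArg Subtype.val ha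
  have h3 : ((u⁻¹ : (Mat r ℂ)ˣ) : Mat r ℂ) = (a : Mat r ℂ) := by
    have := Units.inv_mul u
    calc ((u⁻¹ : (Mat r ℂ)ˣ) : Mat r ℂ) = ((u⁻¹ : (Mat r ℂ)ˣ) : Mat r ℂ) * (u * a) := by
          rw [h2, mul_one]
      _ = a := by rw [← mul_assoc, Units.inv_mul, one_mul]
  rw [h3]
  exact a.2

theorem adjoin_gen (x : FreeGroup K →* (Mat r ℂ)ˣ) :
    Algebra.adjoin ℂ (Set.range fun w => (x w : Mat r ℂ)) =
      Algebra.adjoin ℂ (Set.range fun k => (x (FreeGroup.of k) : Mat r ℂ)) := by
  apply le_antisymm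
  · rw [Algebra.adjoin_le_iff]
    rintro _ ⟨w, rfl⟩
    obtain ⟨A, hA⟩ : ∃ A, A = Algebra.adjoin ℂ (Set.range fun k => (x (FreeGroup.of k) : Mat r ℂ)) :=
      ⟨_, rfl⟩
    rw [← hA]
    change (x w : Mat r ℂ) ∈ A
    have h1 : (⊤ : Subgroup (FreeGroup K)) ≤
        (Subgroup.comap x ({
          carrier := {y : (Mat r ℂ)ˣ | (y : Mat r ℂ) ∈ A}
          mul_mem' := fun {a b} ha hb => by
            rw [Set.mem_ofPred_eq, Units.val_mul]
            exact mul_mem ha hb
          one_mem' := one_mem A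
          inv_mem' := fun {a} ha => inv_mem_of_mem A a ha } : Subgroup (Mat r ℂ)ˣ)) := by
      rw [← FreeGroup.closure_range_of, Subgroup.closure_le]
      rintro _ ⟨k, rfl⟩
      change (x (FreeGroup.of k) : Mat r ℂ) ∈ A
      rw [hA]
      exact Algebra.subset_adjoin ⟨k, rfl⟩
    exact h1 (Subgroup.mem_top w)
  · apply Algebra.adjoin_mono
    rintro _ ⟨k, rfl⟩
    exact ⟨FreeGroup.of k, rfl⟩

theorem adjoin_pos (X : K → Mat r ℂ) :
    Subalgebra.toSubmodule (Algebra.adjoin ℂ (Set.range X)) =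
      Submodule.span ℂ (Set.range fun l : List K => (l.map X).prod) := by
  rw [Algebra.adjoin_eq_span]
  congr 1
  ext M
  constructor
  · intro h
    obtain ⟨l, hl, rfl⟩ := Submonoid.exists_list_of_mem_closure h
    clear h
    induction l with
    | nil => exact ⟨[], rfl⟩
    | cons a l ih =>
      obtain ⟨l', hl'⟩ := ih fun y hy => hl y (List.mem_cons_of_mem _ hy)
      obtain ⟨k, rfl⟩ := hl a List.mem_cons_self
      refine ⟨k :: l', ?_⟩
      simp only [List.map_cons, List.prod_cons] at hl' ⊢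
      rw [hl']
  · rintro ⟨l, rfl⟩
    apply Submonoid.list_prod_mem
    intro y hy
    rw [List.mem_map] at hy
    obtain ⟨k, -, rfl⟩ := hy
    exact Submonoid.subset_closure ⟨k, rfl⟩

theorem linearIndependent_entries (v : Fin r × Fin r → Mat r ℂ) :
    LinearIndependent ℂ v ↔ (Matrix.of fun p q : Fin r × Fin r => v p q.1 q.2).det ≠ 0 := by
  rw [← isUnit_iff_ne_zero, ← Matrix.isUnit_iff_isUnit_det, ← Matrix.linearIndependent_rows_iff_isUnit,
    Fintype.linearIndependent_iff, Fintype.linearIndependent_iff]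
  have h : ∀ g : Fin r × Fin r → ℂ, (∑ p, g p • v p = 0 ↔
      ∑ p, g p • (Matrix.of fun p q : Fin r × Fin r => v p q.1 q.2).row p = 0) := by
    intro g
    constructor
    · intro h
      funext q
      have := congrFun (congrFun h q.1) q.2
      simpa [Matrix.sum_apply] using this
    · intro h
      ext i j
      have := congrFun h (i, j)
      simpa [Matrix.sum_apply] using this
  constructor
  · intro h1 g hg
    exact h1 g ((h g).2 hg)
  · intro h1 g hg
    exact h1 g ((h g).1 hg)

theorem upgrade (x : FreeGroup K →* (Mat r ℂ)ˣ)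
    (hx : Algebra.adjoin ℂ (Set.range fun w => (x w : Mat r ℂ)) = ⊤)
    (D : Set (FreeGroup K →* (Mat r ℂ)ˣ))
    (hall : ∀ f' : MvPolynomial (K × Fin r × Fin r) ℂ, (∀ y ∈ D, evalG y f' = 0) → evalG x f' = 0)
    (f : MvPolynomial (K × Fin r × Fin r) ℂ)
    (hf : ∀ y ∈ D, Algebra.adjoin ℂ (Set.range fun w => (y w : Mat r ℂ)) = ⊤ → evalG y f = 0) :
    evalG x f = 0 := by
  classical
  have hspan : Submodule.span ℂ (Set.range fun l : List K =>
      (l.map fun k => (x (FreeGroup.of k) : Mat r ℂ)).prod) = ⊤ := by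
    rw [← adjoin_pos, ← adjoin_gen, hx]
    rfl
  obtain ⟨s, hs1, hs2, hs3⟩ := exists_linearIndependent ℂ (Set.range fun l : List K =>
      (l.map fun k => (x (FreeGroup.of k) : Mat r ℂ)).prod)
  rw [hspan] at hs2
  have hfin : Fintype s := FiniteDimensional.fintypeBasisIndex (Module.Basis.mk hs3 (by
    rw [Subtype.range_coe, hs2]))
  have hcard : Fintype.card s = Fintype.card (Fin r × Fin r) := by
    have h1 := finrank_span_eq_card hs3
    rw [Subtype.range_coe, hs2, finrank_top, Module.finrank_matrix] at h1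
    rw [← h1]
    simp
  obtain ⟨e⟩ : Nonempty (Fin r × Fin r ≃ s) := Fintype.card_eq.1 hcard.symm
  have hw : ∀ p : Fin r × Fin r, ∃ l : List K,
      (l.map fun k => (x (FreeGroup.of k) : Mat r ℂ)).prod = (e p : Mat r ℂ) := by
    intro p
    obtain ⟨l, hl⟩ := hs1 (e p).2
    exact ⟨l, hl⟩
  choose w hw using hw
  obtain ⟨h, hh⟩ : ∃ h : MvPolynomial (K × Fin r × Fin r) ℂ, h =
      (Matrix.of fun p q : Fin r × Fin r => posW (r := r) (w p) q.1 q.2).det := ⟨_, rfl⟩
  have heval : ∀ y : FreeGroup K →* (Mat r ℂ)ˣ, evalG y h = (Matrix.of fun p q : Fin r × Fin r =>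
      (((w p).map fun k => (y (FreeGroup.of k) : Mat r ℂ)).prod) q.1 q.2).det := by
    intro y
    rw [hh, AlgHom.map_det]
    congr 1
    ext p q
    exact evalG_posW y (w p) q.1 q.2
  have hx1 : evalG x h ≠ 0 := by
    rw [heval]
    have h1 : LinearIndependent ℂ (fun p : Fin r × Fin r => (e p : Mat r ℂ)) :=
      hs3.comp e e.injective
    have h2 : (fun p : Fin r × Fin r =>
        ((w p).map fun k => (x (FreeGroup.of k) : Mat r ℂ)).prod) = fun p => (e p : Mat r ℂ) :=
      funext hw
    rw [← h2, linearIndependent_entries] at h1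
    exact h1
  have hy1 : ∀ y : FreeGroup K →* (Mat r ℂ)ˣ, evalG y h ≠ 0 →
      Algebra.adjoin ℂ (Set.range fun w => (y w : Mat r ℂ)) = ⊤ := by
    intro y hy
    rw [heval] at hy
    have h1 := (linearIndependent_entries (fun p : Fin r × Fin r =>
      ((w p).map fun k => (y (FreeGroup.of k) : Mat r ℂ)).prod)).2 hy
    have h2 : Submodule.span ℂ (Set.range fun p : Fin r × Fin r =>
        ((w p).map fun k => (y (FreeGroup.of k) : Mat r ℂ)).prod) = ⊤ := by
      apply h1.span_eq_top_of_card_eq_finrank'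
      rw [Module.finrank_matrix]
      simp
    rw [adjoin_gen]
    apply Subalgebra.toSubmodule_injective
    rw [adjoin_pos, Algebra.top_toSubmodule, eq_top_iff, ← h2]
    apply Submodule.span_mono
    rintro _ ⟨p, rfl⟩
    exact ⟨w p, rfl⟩
  have hprod := hall (h * f) (fun y hy => by
    rw [map_mul]
    by_cases hy0 : evalG y h = 0
    · rw [hy0, zero_mul]
    · rw [hf y hy (hy1 y hy0), mul_zero])
  rw [map_mul] at hprod
  exact (mul_eq_zero.1 hprod).resolve_left hx1

end Vale.Agent.P002R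
end

section

namespace Vale.Agent.P002R

open Matrix

variable {m n r : ℕ}

/-- The relation with explicit inverses. -/
def relR {g : ℕ} {R : Type*} [CommRing R] (X Y : Gen g n → Mat r R) : Mat r R :=
  (List.ofFn fun j : Fin n =>
    X (Sum.inr (j, false)) * X (Sum.inr (j, true)) * Y (Sum.inr (j, false))).prod *
  (List.ofFn fun i : Fin g =>
    X (Sum.inl (i, false)) * X (Sum.inl (i, true)) * Y (Sum.inl (i, false)) *
      Y (Sum.inl (i, true))).prod

theorem relM_eq_relR {g : ℕ} (X : Gen g n → Mat r ℂ) : relM X = relR X (fun k => (X k)⁻¹) := rfl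

/-- The part of the relation before the last handle. -/
def relW {R : Type*} [CommRing R] (X Y : Gen (m + 1) n → Mat r R) : Mat r R :=
  (List.ofFn fun j : Fin n =>
    X (Sum.inr (j, false)) * X (Sum.inr (j, true)) * Y (Sum.inr (j, false))).prod *
  (List.ofFn fun i : Fin m =>
    X (Sum.inl (i.castSucc, false)) * X (Sum.inl (i.castSucc, true)) *
      Y (Sum.inl (i.castSucc, false)) * Y (Sum.inl (i.castSucc, true))).prod

theorem relR_eq {R : Type*} [CommRing R] (X Y : Gen (m + 1) n → Mat r R) :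
    relR X Y = relW X Y * (X (Sum.inl (Fin.last m, false)) * X (Sum.inl (Fin.last m, true)) *
      Y (Sum.inl (Fin.last m, false)) * Y (Sum.inl (Fin.last m, true))) := by
  unfold relR relW
  rw [List.ofFn_succ', List.prod_concat, ← mul_assoc]

theorem relR_map {g : ℕ} {R S : Type*} [CommRing R] [CommRing S] (φ : R →+* S)
    (X Y : Gen g n → Mat r R) :
    (relR X Y).map φ = relR (fun k => (X k).map φ) (fun k => (Y k).map φ) := by
  unfold relR
  have h1 : ∀ M : Mat r R, M.map φ = (RingHom.mapMatrix φ) M := fun M => rfl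
  rw [h1, map_mul, map_list_prod, map_list_prod, List.map_ofFn, List.map_ofFn]
  congr 1
  · congr 1
    congr 1
    funext i
    simp only [Function.comp, map_mul, RingHom.mapMatrix_apply]
  · congr 1
    congr 1
    funext i
    simp only [Function.comp, map_mul, RingHom.mapMatrix_apply]

theorem relW_map {R S : Type*} [CommRing R] [CommRing S] (φ : R →+* S)
    (X Y : Gen (m + 1) n → Mat r R) :
    (relW X Y).map φ = relW (fun k => (X k).map φ) (fun k => (Y k).map φ) := by
  unfold relW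
  have h1 : ∀ M : Mat r R, M.map φ = (RingHom.mapMatrix φ) M := fun M => rfl
  rw [h1, map_mul, map_list_prod, map_list_prod, List.map_ofFn, List.map_ofFn]
  congr 1
  · congr 1
    congr 1
    funext i
    simp only [Function.comp, map_mul, RingHom.mapMatrix_apply]
  · congr 1
    congr 1
    funext i
    simp only [Function.comp, map_mul, RingHom.mapMatrix_apply]

theorem relW_congr {R : Type*} [CommRing R] (X Y X' Y' : Gen (m + 1) n → Mat r R)
    (h : ∀ k, k ≠ Sum.inl (Fin.last m, false) → k ≠ Sum.inl (Fin.last m, true) →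
      X k = X' k ∧ Y k = Y' k) : relW X Y = relW X' Y' := by
  unfold relW
  congr 1
  · congr 1
    congr 1
    funext j
    rw [(h (Sum.inr (j, false)) (by simp) (by simp)).1, (h (Sum.inr (j, true)) (by simp) (by simp)).1,
      (h (Sum.inr (j, false)) (by simp) (by simp)).2]
  · congr 1
    congr 1
    funext i
    have hi : i.castSucc ≠ Fin.last m := (Fin.castSucc_lt_last i).ne
    have h1 : ∀ b, (Sum.inl (i.castSucc, b) : Gen (m + 1) n) ≠ Sum.inl (Fin.last m, false) ∧
        (Sum.inl (i.castSucc, b) : Gen (m + 1) n) ≠ Sum.inl (Fin.last m, true) := by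
      intro b
      constructor
      · intro he
        simp only [Sum.inl.injEq, Prod.mk.injEq] at he
        exact hi he.1
      · intro he
        simp only [Sum.inl.injEq, Prod.mk.injEq] at he
        exact hi he.1
    rw [(h _ (h1 false).1 (h1 false).2).1, (h _ (h1 true).1 (h1 true).2).1,
      (h _ (h1 false).1 (h1 false).2).2, (h _ (h1 true).1 (h1 true).2).2]

theorem relW_det {R : Type*} [CommRing R] (X Y : Gen (m + 1) n → Mat r R)
    (h : ∀ k, X k * Y k = 1) :
    det (relW X Y) = ∏ j : Fin n, det (X (Sum.inr (j, true))) := by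
  have hl : ∀ (N : ℕ) (F : Fin N → Mat r R), det (List.ofFn F).prod = ∏ i, det (F i) := by
    intro N F
    rw [← Matrix.coe_detMonoidHom, map_list_prod, List.map_ofFn, List.prod_ofFn]
    rfl
  have h2 : ∀ k, det (X k) * det (Y k) = 1 := fun k => by rw [← det_mul, h, det_one]
  unfold relW
  rw [det_mul, hl, hl]
  have e2 : ∏ i : Fin m, det (X (Sum.inl (i.castSucc, false)) * X (Sum.inl (i.castSucc, true)) *
      Y (Sum.inl (i.castSucc, false)) * Y (Sum.inl (i.castSucc, true))) = 1 := by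
    apply Finset.prod_eq_one
    intro i _
    rw [det_mul, det_mul, det_mul]
    calc _ = (det (X (Sum.inl (i.castSucc, false))) * det (Y (Sum.inl (i.castSucc, false)))) *
          (det (X (Sum.inl (i.castSucc, true))) * det (Y (Sum.inl (i.castSucc, true)))) := by ring
      _ = 1 := by rw [h2, h2, one_mul]
  rw [e2, mul_one]
  apply Finset.prod_congr rfl
  intro j _
  rw [det_mul, det_mul]
  calc _ = det (X (Sum.inr (j, true))) *
        (det (X (Sum.inr (j, false))) * det (Y (Sum.inr (j, false)))) := by ring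
    _ = det (X (Sum.inr (j, true))) := by rw [h2, mul_one]

/-- Evaluation at a tuple with explicit inverses. -/
noncomputable def evalR {κ : Type*} {T : Type*} [CommRing T] [Algebra ℂ T] (X Y : κ → Mat r T) :
    MvPolynomial (κ × Bool × Fin r × Fin r) ℂ →ₐ[ℂ] T :=
  MvPolynomial.aeval fun p => if p.2.1 then Y p.1 p.2.2.1 p.2.2.2
    else X p.1 p.2.2.1 p.2.2.2

theorem evalM_eq_evalR {κ : Type*} (X : κ → Mat r ℂ) : evalM X = evalR X (fun k => (X k)⁻¹) := rfl

theorem evalR_map {κ : Type*} {T : Type*} [CommRing T] [Algebra ℂ T] (φ : T →+* ℂ)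
    (hφ : ∀ c : ℂ, φ (algebraMap ℂ T c) = c) (X Y : κ → Mat r T)
    (F : MvPolynomial (κ × Bool × Fin r × Fin r) ℂ) :
    φ (evalR X Y F) = evalR (fun k => (X k).map φ) (fun k => (Y k).map φ) F := by
  let φ' : T →ₐ[ℂ] ℂ := { φ with commutes' := hφ }
  have h : (φ'.comp (evalR X Y)) = evalR (fun k => (X k).map φ) (fun k => (Y k).map φ) := by
    apply MvPolynomial.algHom_ext
    intro p
    simp only [evalR, φ', AlgHom.comp_apply, MvPolynomial.aeval_X, AlgHom.coe_mk]
    split_ifs
    · rfl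
    · rfl
  exact DFunLike.congr_fun h F

/-- A polynomial identity on the complex points of the framed representation variety holds on
points in every domain. -/
theorem rtransfer {g : ℕ} {T : Type*} [CommRing T] [IsDomain T] [Algebra ℂ T]
    (J : Fin n → Mat r ℂ)
    (F : MvPolynomial (Gen g n × Bool × Fin r × Fin r) ℂ)
    (hF : ∀ X : Gen g n → Mat r ℂ, (∀ k, IsUnit (X k)) →
      (∀ j, X (Sum.inr (j, true)) = J j) → relM X = 1 → evalM X F = 0)
    (X Y : Gen g n → Mat r T) (hXY : ∀ k, X k * Y k = 1)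
    (hJ : ∀ j, X (Sum.inr (j, true)) = (J j).map (algebraMap ℂ T)) (hrel : relR X Y = 1) :
    evalR X Y F = 0 := by
  classical
  let σ := Gen g n × Bool × Fin r × Fin r
  let ψ : MvPolynomial σ ℂ →ₐ[ℂ] T := evalR X Y
  let P : Ideal (MvPolynomial σ ℂ) := RingHom.ker ψ
  have hP : P.IsPrime := RingHom.ker_isPrime _
  change F ∈ P
  rw [← MvPolynomial.IsPrime.vanishingIdeal_zeroLocus (K := ℂ) P,
    MvPolynomial.mem_vanishingIdeal_iff]
  intro x hx
  rw [MvPolynomial.mem_zeroLocus_iff] at hx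
  let 𝒳 : Gen g n → Mat r (MvPolynomial σ ℂ) := fun k => Matrix.of fun i j =>
    MvPolynomial.X (k, false, i, j)
  let 𝒴 : Gen g n → Mat r (MvPolynomial σ ℂ) := fun k => Matrix.of fun i j =>
    MvPolynomial.X (k, true, i, j)
  have h𝒳 : ∀ k, (𝒳 k).map ψ = X k := by
    intro k; ext i j
    change ψ (MvPolynomial.X (k, false, i, j)) = _
    simp [ψ, evalR]
  have h𝒴 : ∀ k, (𝒴 k).map ψ = Y k := by
    intro k; ext i j
    change ψ (MvPolynomial.X (k, true, i, j)) = _
    simp [ψ, evalR]
  let ev : MvPolynomial σ ℂ →ₐ[ℂ] ℂ := MvPolynomial.aeval x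
  let A : Gen g n → Mat r ℂ := fun k => (𝒳 k).map ev
  let B : Gen g n → Mat r ℂ := fun k => (𝒴 k).map ev
  have hmem : ∀ M N : Mat r (MvPolynomial σ ℂ), M.map ψ = N.map ψ → M.map ev = N.map ev := by
    intro M N h
    ext i j
    have h1 : M i j - N i j ∈ P := by
      change ψ (M i j - N i j) = 0
      have := congrFun (congrFun h i) j
      simp only [Matrix.map_apply] at this
      rw [map_sub, this, sub_self]
    have h2 := hx _ h1
    simp only [Matrix.map_apply]
    have h3 : ev (M i j - N i j) = 0 := h2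
    rw [map_sub, sub_eq_zero] at h3
    exact h3
  have hmul : ∀ k, A k * B k = 1 := by
    intro k
    have h1 := hmem (𝒳 k * 𝒴 k) 1 (by
      have e1 := Matrix.map_mul (L := 𝒳 k) (M := 𝒴 k) (f := ψ.toRingHom)
      have e2 : (𝒳 k * 𝒴 k).map ψ = (𝒳 k).map ψ * (𝒴 k).map ψ := e1
      rw [e2, h𝒳, h𝒴, hXY, Matrix.map_one _ (map_zero ψ) (map_one ψ)])
    have e1 := Matrix.map_mul (L := 𝒳 k) (M := 𝒴 k) (f := ev.toRingHom)
    have e2 : (𝒳 k * 𝒴 k).map ev = (𝒳 k).map ev * (𝒴 k).map ev := e1
    rw [e2, Matrix.map_one _ (map_zero ev) (map_one ev)] at h1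
    exact h1
  have hrelA : relR A B = 1 := by
    have h1 := hmem (relR 𝒳 𝒴) 1 (by
      have e1 := relR_map ψ.toRingHom 𝒳 𝒴
      have e2 : (relR 𝒳 𝒴).map ψ = relR (fun k => (𝒳 k).map ψ) (fun k => (𝒴 k).map ψ) := e1
      rw [e2, Matrix.map_one _ (map_zero ψ) (map_one ψ)]
      simp only [h𝒳, h𝒴]
      exact hrel)
    have e1 := relR_map ev.toRingHom 𝒳 𝒴
    have e2 : (relR 𝒳 𝒴).map ev = relR (fun k => (𝒳 k).map ev) (fun k => (𝒴 k).map ev) := e1
    rw [e2, Matrix.map_one _ (map_zero ev) (map_one ev)] at h1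
    exact h1
  have hJA : ∀ j, A (Sum.inr (j, true)) = J j := by
    intro j
    have h1 := hmem (𝒳 (Sum.inr (j, true))) ((J j).map (algebraMap ℂ (MvPolynomial σ ℂ))) (by
      rw [h𝒳, hJ]
      ext a b
      simp)
    change (𝒳 (Sum.inr (j, true))).map ev = J j
    rw [h1]
    ext a b
    simp
  have hB : ∀ k, B k = (A k)⁻¹ := fun k => (Matrix.inv_eq_right_inv (hmul k)).symm
  have hBf : B = fun k => (A k)⁻¹ := funext hB
  have hrelT : relM A = 1 := by
    rw [relM_eq_relR, ← hBf]
    exact hrelA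
  have hunit : ∀ k, IsUnit (A k) := fun k =>
    (Matrix.isUnit_iff_isUnit_det _).2 (Matrix.isUnit_det_of_right_inverse (hmul k))
  have h0 := hF A hunit hJA hrelT
  have h1 : MvPolynomial.aeval x F = evalM A F := by
    rw [evalM_eq_evalR, ← hBf]
    have : (MvPolynomial.aeval x : MvPolynomial σ ℂ →ₐ[ℂ] ℂ) = evalR A B := by
      apply MvPolynomial.algHom_ext
      rintro ⟨k, b, i, j⟩
      cases b
      · simp only [evalR, MvPolynomial.aeval_X]
        change x (k, false, i, j) = ev (MvPolynomial.X (k, false, i, j))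
        simp [ev]
      · simp only [evalR, MvPolynomial.aeval_X]
        change x (k, true, i, j) = ev (MvPolynomial.X (k, true, i, j))
        simp [ev]
    rw [this]
  rw [h1]
  exact h0

end Vale.Agent.P002R
end

section

/-!
# P002R TASK G1: generic matrices over a countable subfield
-/

namespace Vale.Agent.P002R

open Matrix

variable {g m n r : ℕ}

theorem generic_mul {K₀ : Subfield ℂ} {A : Mat r ℂ}
    (hA : AlgebraicIndependent K₀ fun p : Fin r × Fin r => A p.1 p.2) (P Q : Mat r ℂ)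
    (hP : ∀ i j, P i j ∈ K₀) (hQ : ∀ i j, Q i j ∈ K₀) (hPu : IsUnit P) (hQu : IsUnit Q) :
    AlgebraicIndependent K₀ fun p : Fin r × Fin r => (P * A * Q) p.1 p.2 := by
  obtain ⟨P', hP'⟩ : ∃ P' : Mat r K₀, P'.map K₀.subtype = P :=
    ⟨Matrix.of fun i j => ⟨P i j, hP i j⟩, by ext i j; rfl⟩
  obtain ⟨Q', hQ'⟩ : ∃ Q' : Mat r K₀, Q'.map K₀.subtype = Q :=
    ⟨Matrix.of fun i j => ⟨Q i j, hQ i j⟩, by ext i j; rfl⟩
  have hdet : ∀ (M' : Mat r K₀) (M : Mat r ℂ), M'.map K₀.subtype = M → IsUnit M →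
      IsUnit M'.det := by
    intro M' M h hM
    rw [Matrix.isUnit_iff_isUnit_det, isUnit_iff_ne_zero] at hM
    rw [isUnit_iff_ne_zero]
    intro h0
    apply hM
    rw [← h]
    have : (M'.map K₀.subtype).det = K₀.subtype M'.det := (K₀.subtype.map_det M').symm
    rw [this, h0, map_zero]
  have hP'u := hdet P' P hP' hPu
  have hQ'u := hdet Q' Q hQ' hQu
  rw [algebraicIndependent_iff]
  intro f hf
  -- the substituted polynomial
  obtain ⟨G, hG⟩ : ∃ G : MvPolynomial (Fin r × Fin r) K₀, G =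
      MvPolynomial.aeval (fun p : Fin r × Fin r =>
        (P'.map (algebraMap K₀ (MvPolynomial (Fin r × Fin r) K₀)) *
          mvPolynomialX (Fin r) (Fin r) K₀ *
          Q'.map (algebraMap K₀ (MvPolynomial (Fin r × Fin r) K₀)) :
            Mat r (MvPolynomial (Fin r × Fin r) K₀)) p.1 p.2) f := ⟨_, rfl⟩
  have key : ∀ {S : Type} [CommRing S] [Algebra K₀ S] (M : Mat r S),
      MvPolynomial.aeval (fun p : Fin r × Fin r => M p.1 p.2) G =
        MvPolynomial.aeval (fun p : Fin r × Fin r =>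
          (P'.map (algebraMap K₀ S) * M * Q'.map (algebraMap K₀ S)) p.1 p.2) f := by
    intro S _ _ M
    rw [hG]
    rw [← AlgHom.comp_apply, MvPolynomial.comp_aeval]
    congr 2
    funext p
    simp only [Matrix.mul_apply, mvPolynomialX_apply, Matrix.map_apply, map_sum, map_mul,
      MvPolynomial.aeval_X, AlgHom.commutes]
  have hG0 : G = 0 := by
    refine (algebraicIndependent_iff.1 hA) G ((key A).trans ?_)
    rw [← hf]
    congr 2
    funext p
    rw [← hP', ← hQ']
    rfl
  refine MvPolynomial.funext fun x => ?_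
  obtain ⟨N, hN⟩ : ∃ N : Mat r K₀, N = Matrix.of fun i j => x (i, j) := ⟨_, rfl⟩
  have h1 := key (P'⁻¹ * N * Q'⁻¹)
  have hid : ∀ M : Mat r K₀, M.map (algebraMap K₀ K₀) = M := by
    intro M
    ext i j
    rfl
  have hcancel : P' * (P'⁻¹ * N * Q'⁻¹) * Q' = N := by
    calc P' * (P'⁻¹ * N * Q'⁻¹) * Q' = (P' * P'⁻¹) * N * (Q'⁻¹ * Q') := by
          simp only [Matrix.mul_assoc]
      _ = N := by
          rw [Matrix.mul_nonsing_inv _ hP'u, Matrix.nonsing_inv_mul _ hQ'u, Matrix.one_mul,
            Matrix.mul_one]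
  rw [hid, hid, hcancel, hG0, map_zero] at h1
  rw [map_zero]
  have h2 : (fun p : Fin r × Fin r => N p.1 p.2) = x := by
    funext p; rw [hN]; rfl
  rw [h2] at h1
  rw [h1]
  rfl

theorem generic_gen3 {K₀ : Subfield ℂ} {A : Mat r ℂ}
    (hA : AlgebraicIndependent K₀ fun p : Fin r × Fin r => A p.1 p.2) : Gen3 A := by
  classical
  constructor
  · intro i j h
    exact hA.ne_zero (i, j) h
  · intro i j k hij hjk hik h
    have h1 : (MvPolynomial.aeval fun p : Fin r × Fin r => A p.1 p.2)
        ((MvPolynomial.X (i, j) * MvPolynomial.X (j, k) * MvPolynomial.X (k, i) -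
          MvPolynomial.X (i, k) * MvPolynomial.X (k, j) * MvPolynomial.X (j, i) :
            MvPolynomial (Fin r × Fin r) K₀)) = 0 := by
      simp only [map_sub, map_mul, MvPolynomial.aeval_X]
      rw [h, sub_self]
    have h2 := (algebraicIndependent_iff.1 hA) _ h1
    have h3 := congrArg (MvPolynomial.eval (fun p : Fin r × Fin r =>
      if p = (i, j) ∨ p = (j, k) ∨ p = (k, i) then (1 : K₀) else 0)) h2
    have hji : j ≠ i := fun h => hij h.symm
    have hkj : k ≠ j := fun h => hjk h.symm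
    have hki : k ≠ i := fun h => hik h.symm
    simp [hij, hjk, hik, hji, hkj, hki] at h3

theorem exists_countable_subfield (s : Set ℂ) (hs : s.Countable) :
    ∃ K₀ : Subfield ℂ, Countable K₀ ∧ s ⊆ (K₀ : Set ℂ) := by
  refine ⟨Subfield.closure s, ?_, Subfield.subset_closure⟩
  rw [← Cardinal.mk_le_aleph0_iff]
  refine (Subfield.cardinalMk_closure_le_max s).trans ?_
  exact max_le (Cardinal.le_aleph0_iff_set_countable.2 hs) le_rfl

end Vale.Agent.P002R
end

section

/-!
# P002, genus 0: the cell of products (upper unitriangular) * (lower triangular)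
-/

namespace Vale.Agent.P002R

open Matrix

variable {n : ℕ} {S T : Type*} [CommRing S] [CommRing T]

/-- The upper unitriangular matrix with the strict upper entries of `X`. -/
def uU (X : Matrix (Fin n) (Fin n) S) : Matrix (Fin n) (Fin n) S :=
  Matrix.of fun i j => if i = j then 1 else if i < j then X i j else 0

/-- The lower triangular part of `X`. -/
def lL (X : Matrix (Fin n) (Fin n) S) : Matrix (Fin n) (Fin n) S :=
  Matrix.of fun i j => if j ≤ i then X i j else 0

/-- The element of the cell with coordinates `X`. -/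
def zZ (X : Matrix (Fin n) (Fin n) S) : Matrix (Fin n) (Fin n) S := uU X * lL X

theorem zZ_eqn (X : Matrix (Fin n) (Fin n) S) : zZ X = uU X * lL X := rfl

theorem uU_apply (X : Matrix (Fin n) (Fin n) S) (i j : Fin n) :
    uU X i j = if i = j then 1 else if i < j then X i j else 0 := rfl

theorem lL_apply (X : Matrix (Fin n) (Fin n) S) (i j : Fin n) :
    lL X i j = if j ≤ i then X i j else 0 := rfl

/-- Upper triangular matrices. -/
def UpT (A : Matrix (Fin n) (Fin n) S) : Prop := ∀ i j, j < i → A i j = 0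

/-- Lower triangular matrices. -/
def LoT (A : Matrix (Fin n) (Fin n) S) : Prop := ∀ i j, i < j → A i j = 0

theorem upT_uU (X : Matrix (Fin n) (Fin n) S) : UpT (uU X) := by
  intro i j h
  rw [uU_apply, if_neg h.ne', if_neg h.not_gt]

theorem loT_lL (X : Matrix (Fin n) (Fin n) S) : LoT (lL X) := by
  intro i j h
  rw [lL_apply, if_neg h.not_ge]

theorem uU_diag (X : Matrix (Fin n) (Fin n) S) (i : Fin n) : uU X i i = 1 := by
  rw [uU_apply, if_pos rfl]

theorem lL_diag (X : Matrix (Fin n) (Fin n) S) (i : Fin n) : lL X i i = X i i := by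
  rw [lL_apply, if_pos le_rfl]

theorem UpT.mul {A B : Matrix (Fin n) (Fin n) S} (hA : UpT A) (hB : UpT B) : UpT (A * B) := by
  intro i j h
  rw [Matrix.mul_apply]
  refine Finset.sum_eq_zero fun k _ => ?_
  rcases lt_or_ge k i with hk | hk
  · rw [hA i k hk, zero_mul]
  · rw [hB k j (h.trans_le hk), mul_zero]

theorem LoT.mul {A B : Matrix (Fin n) (Fin n) S} (hA : LoT A) (hB : LoT B) : LoT (A * B) := by
  intro i j h
  rw [Matrix.mul_apply]
  refine Finset.sum_eq_zero fun k _ => ?_
  rcases lt_or_ge i k with hk | hk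
  · rw [hA i k hk, zero_mul]
  · rw [hB k j (hk.trans_lt h), mul_zero]

theorem UpT.mul_diag {A B : Matrix (Fin n) (Fin n) S} (hA : UpT A) (hB : UpT B) (i : Fin n) :
    (A * B) i i = A i i * B i i := by
  rw [Matrix.mul_apply, Finset.sum_eq_single i]
  · intro k _ hk
    rcases lt_or_gt_of_ne hk with h | h
    · rw [hA i k h, zero_mul]
    · rw [hB k i h, mul_zero]
  · intro h; exact absurd (Finset.mem_univ i) h

theorem LoT.mul_diag {A B : Matrix (Fin n) (Fin n) S} (hA : LoT A) (hB : LoT B) (i : Fin n) :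
    (A * B) i i = A i i * B i i := by
  rw [Matrix.mul_apply, Finset.sum_eq_single i]
  · intro k _ hk
    rcases lt_or_gt_of_ne hk with h | h
    · rw [hB k i h, mul_zero]
    · rw [hA i k h, zero_mul]
  · intro h; exact absurd (Finset.mem_univ i) h

theorem UpT.det {A : Matrix (Fin n) (Fin n) S} (hA : UpT A) : A.det = ∏ i, A i i :=
  Matrix.det_of_isUpperTriangular fun i j h => hA i j h

theorem LoT.det {A : Matrix (Fin n) (Fin n) S} (hA : LoT A) : A.det = ∏ i, A i i :=
  Matrix.det_of_isLowerTriangular A fun i j h => hA i j (by simpa using h)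

theorem UpT.transpose {A : Matrix (Fin n) (Fin n) S} (hA : UpT A) : LoT Aᵀ :=
  fun i j h => hA j i h

theorem LoT.transpose {A : Matrix (Fin n) (Fin n) S} (hA : LoT A) : UpT Aᵀ :=
  fun i j h => hA j i h

theorem upT_one : UpT (1 : Matrix (Fin n) (Fin n) S) := fun _ _ h => Matrix.one_apply_ne h.ne'

theorem loT_one : LoT (1 : Matrix (Fin n) (Fin n) S) := fun _ _ h => Matrix.one_apply_ne h.ne

theorem upT_diagonal (d : Fin n → S) : UpT (diagonal d) := fun _ _ h =>
  Matrix.diagonal_apply_ne _ h.ne'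

theorem loT_diagonal (d : Fin n → S) : LoT (diagonal d) := fun _ _ h =>
  Matrix.diagonal_apply_ne _ h.ne

theorem det_uU (X : Matrix (Fin n) (Fin n) S) : (uU X).det = 1 := by
  rw [(upT_uU X).det]
  exact Finset.prod_eq_one fun i _ => uU_diag X i

theorem det_lL (X : Matrix (Fin n) (Fin n) S) : (lL X).det = ∏ i, X i i := by
  rw [(loT_lL X).det]
  exact Finset.prod_congr rfl fun i _ => lL_diag X i

theorem det_zZ (X : Matrix (Fin n) (Fin n) S) : (zZ X).det = ∏ i, X i i := by
  rw [zZ, det_mul, det_uU, det_lL, one_mul]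

theorem uU_map (φ : S →+* T) (X : Matrix (Fin n) (Fin n) S) : (uU X).map φ = uU (X.map φ) := by
  ext i j
  simp only [Matrix.map_apply, uU_apply]
  split_ifs
  · exact map_one φ
  · rfl
  · exact map_zero φ

theorem lL_map (φ : S →+* T) (X : Matrix (Fin n) (Fin n) S) : (lL X).map φ = lL (X.map φ) := by
  ext i j
  simp only [Matrix.map_apply, lL_apply]
  split_ifs
  · rfl
  · exact map_zero φ

theorem zZ_map (φ : S →+* T) (X : Matrix (Fin n) (Fin n) S) : (zZ X).map φ = zZ (X.map φ) := by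
  rw [zZ, Matrix.map_mul, uU_map, lL_map, zZ]

/-- The coordinates of a pair of triangular matrices. -/
theorem exists_coord (U L : Matrix (Fin n) (Fin n) S) (hU : UpT U) (hU1 : ∀ i, U i i = 1)
    (hL : LoT L) : ∃ X : Matrix (Fin n) (Fin n) S, uU X = U ∧ lL X = L ∧ ∀ i, X i i = L i i := by
  refine ⟨Matrix.of fun i j => if i < j then U i j else L i j, ?_, ?_, fun i => ?_⟩
  · ext i j
    rw [uU_apply, Matrix.of_apply]
    split_ifs with h1 h2
    · rw [← h1, hU1]
    · rfl
    · exact (hU i j (lt_of_le_of_ne (not_lt.1 h2) (Ne.symm h1))).symm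
  · ext i j
    rw [lL_apply, Matrix.of_apply]
    split_ifs with h1 h2
    · exact absurd h2 (not_lt.2 h1)
    · rfl
    · exact (hL i j (not_le.1 h1)).symm
  · rw [Matrix.of_apply, if_neg (lt_irrefl i)]

/-! ### Inverses of triangular matrices over a field -/

section field

variable {F : Type*} [Field F]

theorem UpT.inv {A : Matrix (Fin n) (Fin n) F} (hA : UpT A) (hd : ∀ i, A i i ≠ 0) : UpT A⁻¹ := by
  have hdet : IsUnit A.det := by
    rw [hA.det, isUnit_iff_ne_zero, Finset.prod_ne_zero_iff]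
    exact fun i _ => hd i
  have := Matrix.invertibleOfIsUnitDet A hdet
  intro i j h
  exact Matrix.blockTriangular_inv_of_blockTriangular (M := A) (b := id)
    (fun i j h => hA i j h) h

theorem inv_diag {A : Matrix (Fin n) (Fin n) F} (hA : UpT A) (hd : ∀ i, A i i ≠ 0) (i : Fin n) :
    A⁻¹ i i = (A i i)⁻¹ := by
  have hdet : IsUnit A.det := by
    rw [hA.det, isUnit_iff_ne_zero, Finset.prod_ne_zero_iff]
    exact fun i _ => hd i
  have h1 := (hA.inv hd).mul_diag hA i
  rw [Matrix.nonsing_inv_mul _ hdet, Matrix.one_apply_eq] at h1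
  exact eq_inv_of_mul_eq_one_left h1.symm

theorem LoT.inv {A : Matrix (Fin n) (Fin n) F} (hA : LoT A) (hd : ∀ i, A i i ≠ 0) : LoT A⁻¹ := by
  have h1 : UpT (Aᵀ)⁻¹ := hA.transpose.inv hd
  rw [← Matrix.transpose_nonsing_inv] at h1
  exact h1.transpose

theorem LoT.inv_diag {A : Matrix (Fin n) (Fin n) F} (hA : LoT A) (hd : ∀ i, A i i ≠ 0)
    (i : Fin n) : A⁻¹ i i = (A i i)⁻¹ := by
  have hdet : IsUnit A.det := by
    rw [hA.det, isUnit_iff_ne_zero, Finset.prod_ne_zero_iff]
    exact fun i _ => hd i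
  have h1 := (hA.inv hd).mul_diag hA i
  rw [Matrix.nonsing_inv_mul _ hdet, Matrix.one_apply_eq] at h1
  exact eq_inv_of_mul_eq_one_left h1.symm

/-- Existence of the decomposition (upper unitriangular) * (lower triangular). -/
theorem exists_UL : ∀ {n : ℕ} (Z : Matrix (Fin n) (Fin n) F),
    (∀ k : ℕ, k ≤ n → (Z.submatrix (fun i : {i : Fin n // k ≤ (i : ℕ)} => (i : Fin n))
      (fun i : {i : Fin n // k ≤ (i : ℕ)} => (i : Fin n))).det ≠ 0) →
    ∃ X : Matrix (Fin n) (Fin n) F, Z = zZ X ∧ ∀ i, X i i ≠ 0 := by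
  intro n
  induction n with
  | zero => exact fun Z _ => ⟨Z, Matrix.ext fun i => i.elim0, fun i => i.elim0⟩
  | succ n ih =>
    intro Z hZ
    obtain ⟨N, hN⟩ : ∃ N : Matrix (Fin n) (Fin n) F, N = Z.submatrix Fin.succ Fin.succ := ⟨_, rfl⟩
    obtain ⟨XN, hXN, hXN0⟩ := ih N (by
      intro k hk
      have h1 := hZ (k + 1) (by omega)
      obtain ⟨e, he⟩ : ∃ e : {i : Fin n // k ≤ (i : ℕ)} ≃ {i : Fin (n + 1) // k + 1 ≤ (i : ℕ)},
          ∀ i, ((e i : {i : Fin (n + 1) // k + 1 ≤ (i : ℕ)}) : Fin (n + 1)) =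
            Fin.succ (i : Fin n) := by
        refine ⟨{
          toFun := fun i => ⟨Fin.succ i.1, by rw [Fin.val_succ]; exact Nat.succ_le_succ i.2⟩
          invFun := fun i => ⟨⟨(i.1 : ℕ) - 1, by have := i.1.2; have := i.2; omega⟩, by
            have := i.2; simp only; omega⟩
          left_inv := fun i => by ext; simp
          right_inv := fun i => by
            have := i.2
            ext
            simp only [Fin.val_succ]
            omega }, fun i => rfl⟩
      rw [← Matrix.det_submatrix_equiv_self e] at h1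
      have h2 : ((Z.submatrix (fun i : {i : Fin (n + 1) // k + 1 ≤ (i : ℕ)} => (i : Fin (n + 1)))
          (fun i : {i : Fin (n + 1) // k + 1 ≤ (i : ℕ)} => (i : Fin (n + 1)))).submatrix e e) =
          N.submatrix (fun i : {i : Fin n // k ≤ (i : ℕ)} => (i : Fin n))
            (fun i : {i : Fin n // k ≤ (i : ℕ)} => (i : Fin n)) := by
        ext i j
        rw [hN]
        simp only [Matrix.submatrix_apply, he]
      rw [h2] at h1
      exact h1)
    have hLu : IsUnit (lL XN).det := by
      rw [det_lL, isUnit_iff_ne_zero, Finset.prod_ne_zero_iff]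
      exact fun i _ => hXN0 i
    have hUu : IsUnit (uU XN).det := by rw [det_uU]; exact isUnit_one
    obtain ⟨u, hu⟩ : ∃ u : Fin n → F, u ᵥ* lL XN = fun j => Z 0 j.succ :=
      ⟨(fun j => Z 0 j.succ) ᵥ* (lL XN)⁻¹, by
        rw [Matrix.vecMul_vecMul, Matrix.nonsing_inv_mul _ hLu, Matrix.vecMul_one]⟩
    obtain ⟨l, hl⟩ : ∃ l : Fin n → F, uU XN *ᵥ l = fun i => Z i.succ 0 :=
      ⟨(uU XN)⁻¹ *ᵥ (fun i => Z i.succ 0), by
        rw [Matrix.mulVec_mulVec, Matrix.mul_nonsing_inv _ hUu, Matrix.one_mulVec]⟩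
    obtain ⟨X, hX⟩ : ∃ X : Matrix (Fin (n + 1)) (Fin (n + 1)) F, X =
        Matrix.of (Fin.cons (Fin.cons (Z 0 0 - u ⬝ᵥ l) u) fun i => Fin.cons (l i) (XN i)) :=
      ⟨_, rfl⟩
    have hX00 : X 0 0 = Z 0 0 - u ⬝ᵥ l := by rw [hX]; rfl
    have hX0s : ∀ j, X 0 (Fin.succ j) = u j := fun j => by rw [hX]; rfl
    have hXs0 : ∀ i, X (Fin.succ i) 0 = l i := fun i => by rw [hX]; rfl
    have hXss : ∀ i j, X (Fin.succ i) (Fin.succ j) = XN i j := fun i j => by rw [hX]; rfl
    have hU00 : uU X 0 0 = 1 := uU_diag X 0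
    have hU0s : ∀ j, uU X 0 (Fin.succ j) = u j := fun j => by
      rw [uU_apply, if_neg (Fin.succ_ne_zero j).symm, if_pos (Fin.succ_pos j), hX0s]
    have hUs0 : ∀ i, uU X (Fin.succ i) 0 = 0 := fun i => upT_uU X _ _ (Fin.succ_pos i)
    have hUss : ∀ i j, uU X (Fin.succ i) (Fin.succ j) = uU XN i j := fun i j => by
      rw [uU_apply, uU_apply, hXss]
      simp only [Fin.succ_inj, Fin.succ_lt_succ_iff]
    have hL00 : lL X 0 0 = Z 0 0 - u ⬝ᵥ l := by rw [lL_diag, hX00]
    have hL0s : ∀ j, lL X 0 (Fin.succ j) = 0 := fun j => loT_lL X _ _ (Fin.succ_pos j)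
    have hLs0 : ∀ i, lL X (Fin.succ i) 0 = l i := fun i => by
      rw [lL_apply, if_pos (Fin.zero_le _), hXs0]
    have hLss : ∀ i j, lL X (Fin.succ i) (Fin.succ j) = lL XN i j := fun i j => by
      rw [lL_apply, lL_apply, hXss]
      simp only [Fin.succ_le_succ_iff]
    have hZX : Z = zZ X := by
      ext i j
      rw [zZ, Matrix.mul_apply, Fin.sum_univ_succ]
      refine Fin.cases ?_ (fun i => ?_) i
      · refine Fin.cases ?_ (fun j => ?_) j
        · rw [hU00, hL00]
          simp only [hU0s, hLs0]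
          rw [one_mul]
          exact (sub_add_cancel _ _).symm
        · rw [hU00, hL0s]
          simp only [hU0s, hLss]
          rw [mul_zero, zero_add]
          exact (congrFun hu j).symm
      · refine Fin.cases ?_ (fun j => ?_) j
        · rw [hUs0, zero_mul, zero_add]
          simp only [hUss, hLs0]
          exact (congrFun hl i).symm
        · rw [hUs0, zero_mul, zero_add]
          simp only [hUss, hLss]
          have h1 := congrFun (congrFun hXN i) j
          rw [zZ, Matrix.mul_apply] at h1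
          rw [← h1, hN, Matrix.submatrix_apply]
    refine ⟨X, hZX, fun i => ?_⟩
    have hdet : Z.det ≠ 0 := by
      have h1 := hZ 0 (Nat.zero_le _)
      obtain ⟨e, he⟩ : ∃ e : Fin (n + 1) ≃ {i : Fin (n + 1) // 0 ≤ (i : ℕ)}, ∀ i,
          ((e i : {i : Fin (n + 1) // 0 ≤ (i : ℕ)}) : Fin (n + 1)) = i :=
        ⟨(Equiv.subtypeUnivEquiv fun i => Nat.zero_le _).symm, fun i => rfl⟩
      rw [← Matrix.det_submatrix_equiv_self e] at h1
      have h2 : ((Z.submatrix (fun i : {i : Fin (n + 1) // 0 ≤ (i : ℕ)} => (i : Fin (n + 1)))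
          (fun i : {i : Fin (n + 1) // 0 ≤ (i : ℕ)} => (i : Fin (n + 1)))).submatrix e e) = Z := by
        ext i j
        simp only [Matrix.submatrix_apply, he]
      rw [h2] at h1
      exact h1
    rw [hZX, det_zZ, Finset.prod_ne_zero_iff] at hdet
    exact hdet i (Finset.mem_univ i)

end field

end Vale.Agent.P002R
end

section

/-!
# Polynomial functions on complex vector spaces, rational functions, density
-/

namespace Vale.Agent.P002G

open Matrix

/-- The algebra of polynomial functions: generated by the linear functionals. -/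
def polyAlg (V : Type*) [AddCommGroup V] [Module ℂ V] : Subalgebra ℂ (V → ℂ) :=
  Algebra.adjoin ℂ {f | ∃ l : V →ₗ[ℂ] ℂ, ⇑l = f}

variable {V W : Type*} [AddCommGroup V] [Module ℂ V] [AddCommGroup W] [Module ℂ W]

/-- Polynomial functions. -/
def IsPoly (f : V → ℂ) : Prop := f ∈ polyAlg V

theorem isPoly_linear (l : V →ₗ[ℂ] ℂ) : IsPoly fun x => l x :=
  Algebra.subset_adjoin ⟨l, rfl⟩

theorem isPoly_const (c : ℂ) : IsPoly fun _ : V => c :=
  (polyAlg V).algebraMap_mem c

theorem IsPoly.add {f g : V → ℂ} (hf : IsPoly f) (hg : IsPoly g) : IsPoly fun x => f x + g x :=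
  (polyAlg V).add_mem hf hg

theorem IsPoly.sub {f g : V → ℂ} (hf : IsPoly f) (hg : IsPoly g) : IsPoly fun x => f x - g x :=
  (polyAlg V).sub_mem hf hg

theorem IsPoly.mul {f g : V → ℂ} (hf : IsPoly f) (hg : IsPoly g) : IsPoly fun x => f x * g x :=
  (polyAlg V).mul_mem hf hg

theorem IsPoly.pow {f : V → ℂ} (hf : IsPoly f) (n : ℕ) : IsPoly fun x => f x ^ n :=
  (polyAlg V).pow_mem hf n

theorem IsPoly.sum {ι : Type*} (s : Finset ι) {f : ι → V → ℂ} (hf : ∀ i ∈ s, IsPoly (f i)) :
    IsPoly fun x => ∑ i ∈ s, f i x := by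
  have := (polyAlg V).sum_mem hf
  unfold IsPoly
  convert this using 1
  ext x
  simp

theorem IsPoly.prod {ι : Type*} (s : Finset ι) {f : ι → V → ℂ} (hf : ∀ i ∈ s, IsPoly (f i)) :
    IsPoly fun x => ∏ i ∈ s, f i x := by
  have := (polyAlg V).prod_mem hf
  unfold IsPoly
  convert this using 1
  ext x
  simp

theorem IsPoly.congr {f g : V → ℂ} (hf : IsPoly f) (h : ∀ x, f x = g x) : IsPoly g := by
  rwa [show g = f from funext fun x => (h x).symm]

/-- Quotients of polynomial functions by powers of `d` (as functions on `d ≠ 0`). -/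
def IsRat (d f : V → ℂ) : Prop :=
  ∃ (M : ℕ) (g : V → ℂ), IsPoly g ∧ ∀ x, d x ≠ 0 → g x = d x ^ M * f x

theorem IsRat.mul {d f f' : V → ℂ} (hf : IsRat d f) (hf' : IsRat d f') :
    IsRat d fun x => f x * f' x := by
  obtain ⟨M, g, hg, h⟩ := hf
  obtain ⟨M', g', hg', h'⟩ := hf'
  refine ⟨M + M', fun x => g x * g' x, hg.mul hg', fun x hx => ?_⟩
  beta_reduce
  rw [h x hx, h' x hx]
  ring

theorem IsRat.add {d f f' : V → ℂ} (hd : IsPoly d) (hf : IsRat d f) (hf' : IsRat d f') :
    IsRat d fun x => f x + f' x := by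
  obtain ⟨M, g, hg, h⟩ := hf
  obtain ⟨M', g', hg', h'⟩ := hf'
  refine ⟨M + M', fun x => g x * d x ^ M' + g' x * d x ^ M,
    (hg.mul (hd.pow M')).add (hg'.mul (hd.pow M)), fun x hx => ?_⟩
  beta_reduce
  rw [h x hx, h' x hx]
  ring

theorem IsPoly.isRat {d f : V → ℂ} (hf : IsPoly f) : IsRat d f :=
  ⟨0, f, hf, fun x _ => by simp⟩

theorem isRat_inv {d : V → ℂ} : IsRat d fun x => (d x)⁻¹ :=
  ⟨1, fun _ => 1, isPoly_const 1, fun x hx => by rw [pow_one, mul_inv_cancel₀ hx]⟩

theorem IsRat.congr {d f g : V → ℂ} (hf : IsRat d f) (h : ∀ x, d x ≠ 0 → f x = g x) :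
    IsRat d g := by
  obtain ⟨M, G, hG, hG'⟩ := hf
  exact ⟨M, G, hG, fun x hx => by rw [hG' x hx, h x hx]⟩

theorem IsRat.sum {ι : Type*} {d : V → ℂ} (hd : IsPoly d) (s : Finset ι) {f : ι → V → ℂ}
    (hf : ∀ i ∈ s, IsRat d (f i)) : IsRat d fun x => ∑ i ∈ s, f i x := by
  classical
  induction s using Finset.induction_on with
  | empty => simpa using (isPoly_const (V := V) 0).isRat
  | insert i s hi ih =>
    refine ((hf i (Finset.mem_insert_self i s)).add hd
      (ih fun j hj => hf j (Finset.mem_insert_of_mem hj))).congr fun x _ => ?_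
    rw [Finset.sum_insert hi]

theorem IsRat.prod {ι : Type*} {d : V → ℂ} (s : Finset ι) {f : ι → V → ℂ}
    (hf : ∀ i ∈ s, IsRat d (f i)) : IsRat d fun x => ∏ i ∈ s, f i x := by
  classical
  induction s using Finset.induction_on with
  | empty => simpa using (isPoly_const (V := V) 1).isRat
  | insert i s hi ih =>
    refine ((hf i (Finset.mem_insert_self i s)).mul
      (ih fun j hj => hf j (Finset.mem_insert_of_mem hj))).congr fun x _ => ?_
    rw [Finset.prod_insert hi]

/-- A map is rational with denominators `d`. -/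
def RatMap (d : V → ℂ) (ψ : V → W) : Prop :=
  ∀ l : W →ₗ[ℂ] ℂ, IsRat d fun x => l (ψ x)

/-- A map is polynomial. -/
def PolyMap (ψ : V → W) : Prop := ∀ l : W →ₗ[ℂ] ℂ, IsPoly fun x => l (ψ x)

theorem RatMap.comp {d : V → ℂ} (hd : IsPoly d) {ψ : V → W} (h : RatMap d ψ) {f : W → ℂ}
    (hf : IsPoly f) : IsRat d fun x => f (ψ x) := by
  unfold IsPoly polyAlg at hf
  induction hf using Algebra.adjoin_induction with
  | mem f hf =>
    obtain ⟨l, rfl⟩ := hf
    exact h l
  | algebraMap c => exact (isPoly_const c).isRat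
  | add f g _ _ hf hg => exact hf.add hd hg
  | mul f g _ _ hf hg => exact hf.mul hg

theorem PolyMap.comp {ψ : V → W} (h : PolyMap ψ) {f : W → ℂ} (hf : IsPoly f) :
    IsPoly fun x => f (ψ x) := by
  unfold IsPoly polyAlg at hf
  induction hf using Algebra.adjoin_induction with
  | mem f hf =>
    obtain ⟨l, rfl⟩ := hf
    exact h l
  | algebraMap c => exact isPoly_const c
  | add f g _ _ hf hg => exact hf.add hg
  | mul f g _ _ hf hg => exact hf.mul hg

theorem PolyMap.ratMap {d : V → ℂ} {ψ : V → W} (h : PolyMap ψ) : RatMap d ψ :=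
  fun l => (h l).isRat

theorem polyMap_linear (l : V →ₗ[ℂ] W) : PolyMap fun x => l x :=
  fun l' => isPoly_linear (l'.comp l)

theorem polyMap_const (w : W) : PolyMap fun _ : V => w := fun _ => isPoly_const _

theorem PolyMap.prodMk {X : Type*} [AddCommGroup X] [Module ℂ X] {ψ : V → W} {ψ' : V → X}
    (h : PolyMap ψ) (h' : PolyMap ψ') : PolyMap fun x => (ψ x, ψ' x) := by
  intro l
  refine ((h (l.comp (LinearMap.inl ℂ W X))).add (h' (l.comp (LinearMap.inr ℂ W X)))).congr
    fun x => ?_
  simp [← map_add]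

theorem polyMap_pi {ι : Type*} [Finite ι] {ψ : V → ι → W}
    (h : ∀ i, PolyMap fun x => ψ x i) : PolyMap ψ := by
  classical
  have := Fintype.ofFinite ι
  intro l
  refine (IsPoly.sum Finset.univ (f := fun i x =>
    l.comp (LinearMap.single ℂ (fun _ : ι => W) i) (ψ x i)) fun i _ => h i _).congr fun x => ?_
  conv_rhs => rw [← Finset.univ_sum_single (ψ x)]
  rw [map_sum]
  rfl

theorem ratMap_pi {ι : Type*} [Finite ι] {d : V → ℂ} (hd : IsPoly d) {ψ : V → ι → W}
    (h : ∀ i, RatMap d fun x => ψ x i) : RatMap d ψ := by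
  classical
  have := Fintype.ofFinite ι
  intro l
  refine (IsRat.sum hd Finset.univ (f := fun i x =>
    l.comp (LinearMap.single ℂ (fun _ : ι => W) i) (ψ x i)) fun i _ => h i _).congr fun x _ => ?_
  conv_rhs => rw [← Finset.univ_sum_single (ψ x)]
  rw [map_sum]
  rfl

theorem lin_one (l : ℂ →ₗ[ℂ] ℂ) (z : ℂ) : l z = l 1 * z := by
  rw [mul_comm, ← smul_eq_mul z, ← map_smul, smul_eq_mul, mul_one]

theorem IsPoly.polyMap {f : V → ℂ} (hf : IsPoly f) : PolyMap f := fun l =>
  ((isPoly_const (l 1)).mul hf).congr fun x => (lin_one l _).symm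

theorem IsRat.ratMap {d f : V → ℂ} (hf : IsRat d f) : RatMap d f := fun l =>
  ((isPoly_const (l 1)).isRat.mul hf).congr fun x _ => (lin_one l _).symm

theorem isPoly_coord {ι : Type*} (i : ι) : IsPoly fun x : ι → ℂ => x i :=
  isPoly_linear (LinearMap.proj (R := ℂ) (φ := fun _ : ι => ℂ) i)

/-! ### Matrices -/

section matrices

variable {m n k : Type*} [Finite m] [Finite n]

theorem polyMap_matrix {ψ : V → Matrix m n ℂ} (h : ∀ i j, IsPoly fun x => ψ x i j) :
    PolyMap ψ :=
  polyMap_pi fun i => polyMap_pi fun j => (h i j).polyMap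

theorem ratMap_matrix {d : V → ℂ} (hd : IsPoly d) {ψ : V → Matrix m n ℂ}
    (h : ∀ i j, IsRat d fun x => ψ x i j) : RatMap d ψ :=
  ratMap_pi hd fun i => ratMap_pi hd fun j => (h i j).ratMap

omit [Finite m] [Finite n] in
theorem PolyMap.entry {ψ : V → Matrix m n ℂ} (h : PolyMap ψ) (i : m) (j : n) :
    IsPoly fun x => ψ x i j :=
  h ((LinearMap.proj j).comp (LinearMap.proj i : Matrix m n ℂ →ₗ[ℂ] n → ℂ))

omit [Finite m] [Finite n] in
theorem RatMap.entry {d : V → ℂ} {ψ : V → Matrix m n ℂ} (h : RatMap d ψ) (i : m) (j : n) :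
    IsRat d fun x => ψ x i j :=
  h ((LinearMap.proj j).comp (LinearMap.proj i : Matrix m n ℂ →ₗ[ℂ] n → ℂ))

omit [Finite m] in
theorem PolyMap.coord {ψ : V → m → ℂ} (h : PolyMap ψ) (i : m) : IsPoly fun x => ψ x i :=
  h (LinearMap.proj (R := ℂ) (φ := fun _ : m => ℂ) i)

theorem IsPoly.matrix_mul [Fintype k] {A : V → Matrix m k ℂ} {B : V → Matrix k n ℂ}
    (hA : PolyMap A) (hB : PolyMap B) : PolyMap fun x => A x * B x :=
  polyMap_matrix fun i j => by
    simp only [Matrix.mul_apply]
    exact IsPoly.sum _ fun l _ => (hA.entry i l).mul (hB.entry l j)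

theorem IsRat.matrix_mul [Fintype k] {d : V → ℂ} (hd : IsPoly d) {A : V → Matrix m k ℂ}
    {B : V → Matrix k n ℂ} (hA : RatMap d A) (hB : RatMap d B) : RatMap d fun x => A x * B x :=
  ratMap_matrix hd fun i j => by
    simp only [Matrix.mul_apply]
    exact IsRat.sum hd _ fun l _ => (hA.entry i l).mul (hB.entry l j)

end matrices

section square

variable {n : Type*} [Fintype n] [DecidableEq n]

theorem isPoly_det {A : V → Matrix n n ℂ} (hA : PolyMap A) : IsPoly fun x => (A x).det := by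
  simp only [Matrix.det_apply']
  exact IsPoly.sum _ fun σ _ => (isPoly_const _).mul (IsPoly.prod _ fun i _ => hA.entry _ _)

theorem polyMap_adjugate {A : V → Matrix n n ℂ} (hA : PolyMap A) :
    PolyMap fun x => (A x).adjugate :=
  polyMap_matrix fun i j => by
    simp only [Matrix.adjugate_apply]
    refine isPoly_det (polyMap_matrix fun a b => ?_)
    by_cases h : a = j
    · subst h
      simp only [Matrix.updateRow_self]
      exact isPoly_const _
    · simp only [Matrix.updateRow_ne h]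
      exact hA.entry a b

theorem ratMap_inv {A : V → Matrix n n ℂ} (hA : PolyMap A) :
    RatMap (fun x => (A x).det) fun x => (A x)⁻¹ := by
  refine ratMap_matrix (isPoly_det hA) fun i j => ?_
  refine (isRat_inv.mul ((polyMap_adjugate hA).entry i j).isRat).congr fun x hx => ?_
  rw [Matrix.inv_def, Ring.inverse_eq_inv', Matrix.smul_apply, smul_eq_mul]

end square

/-! ### Zeros -/

/-- Polynomial functions of one variable. -/
theorem IsPoly.exists_poly {f : ℂ → ℂ} (hf : IsPoly f) :
    ∃ p : Polynomial ℂ, ∀ x, f x = p.eval x := by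
  unfold IsPoly polyAlg at hf
  induction hf using Algebra.adjoin_induction with
  | mem f hf =>
    obtain ⟨l, rfl⟩ := hf
    refine ⟨Polynomial.C (l 1) * Polynomial.X, fun x => ?_⟩
    rw [Polynomial.eval_mul, Polynomial.eval_C, Polynomial.eval_X]
    exact lin_one l x
  | algebraMap c => exact ⟨Polynomial.C c, fun x => by simp⟩
  | add f g _ _ hf hg =>
    obtain ⟨p, hp⟩ := hf
    obtain ⟨q, hq⟩ := hg
    exact ⟨p + q, fun x => by rw [Pi.add_apply, hp, hq, Polynomial.eval_add]⟩
  | mul f g _ _ hf hg =>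
    obtain ⟨p, hp⟩ := hf
    obtain ⟨q, hq⟩ := hg
    exact ⟨p * q, fun x => by rw [Pi.mul_apply, hp, hq, Polynomial.eval_mul]⟩

theorem IsPoly.eq_zero_of_infinite {f : ℂ → ℂ} (hf : IsPoly f) (s : Set ℂ) (hs : s.Infinite)
    (h : ∀ x ∈ s, f x = 0) (x : ℂ) : f x = 0 := by
  obtain ⟨p, hp⟩ := hf.exists_poly
  have : p = 0 := by
    apply Polynomial.eq_zero_of_infinite_isRoot
    refine hs.mono fun y hy => ?_
    change p.eval y = 0
    rw [← hp]
    exact h y hy
  rw [hp, this, Polynomial.eval_zero]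

/-- The line through two points is a polynomial map. -/
theorem polyMap_line (x y : V) : PolyMap fun t : ℂ => x + t • (y - x) := by
  intro l
  refine ((isPoly_const (l x)).add ((isPoly_linear LinearMap.id).mul
    (isPoly_const (l (y - x))))).congr fun t => ?_
  rw [map_add, map_smul, smul_eq_mul]
  rfl

/-- Products of polynomial functions. -/
theorem IsPoly.eq_zero_of_mul {f g : V → ℂ} (hf : IsPoly f) (hg : IsPoly g)
    (h : ∀ x, f x * g x = 0) (y : V) (hy : g y ≠ 0) (x : V) : f x = 0 := by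
  have h1 := (polyMap_line x y).comp hf
  have h2 := (polyMap_line x y).comp hg
  obtain ⟨p, hp⟩ := h1.exists_poly
  obtain ⟨q, hq⟩ := h2.exists_poly
  have h3 : p * q = 0 := by
    apply Polynomial.funext
    intro t
    rw [Polynomial.eval_mul, ← hp, ← hq, h, Polynomial.eval_zero]
  rcases mul_eq_zero.1 h3 with h4 | h4
  · have := hp 0
    rw [h4, Polynomial.eval_zero, zero_smul, add_zero] at this
    exact this
  · exfalso
    have := hq 1
    rw [h4, Polynomial.eval_zero, one_smul, add_sub_cancel] at this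
    exact hy this

/-- A polynomial function on `ι → ℂ` that vanishes on a product of infinite sets is zero. -/
theorem IsPoly.eq_zero_of_pi {ι : Type*} [Finite ι] {f : (ι → ℂ) → ℂ} (hf : IsPoly f)
    (s : ι → Set ℂ) (hs : ∀ i, (s i).Infinite) (h : ∀ x, (∀ i, x i ∈ s i) → f x = 0)
    (x : ι → ℂ) : f x = 0 := by
  classical
  have := Fintype.ofFinite ι
  have key : ∀ (t : Finset ι) (x : ι → ℂ), (∀ i, i ∉ t → x i ∈ s i) → f x = 0 := by
    intro t
    induction t using Finset.induction_on with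
    | empty => exact fun x hx => h x fun i => hx i (Finset.notMem_empty i)
    | insert j t hj ih =>
      intro x hx
      have hm : PolyMap fun z : ℂ => Function.update x j z := by
        apply polyMap_pi
        intro i
        by_cases hij : i = j
        · subst hij
          simp only [Function.update_self]
          exact polyMap_linear LinearMap.id
        · simp only [Function.update_of_ne hij]
          exact (isPoly_const _).polyMap
      have := (hm.comp hf).eq_zero_of_infinite (s j) (hs j) (fun z hz => ?_) (x j)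
      · simpa using this
      · apply ih
        intro i hi
        by_cases hij : i = j
        · subst hij
          simpa using hz
        · rw [Function.update_of_ne hij]
          exact hx i fun h' => by
            rcases Finset.mem_insert.1 h' with h' | h'
            · exact hij h'
            · exact hi h'
  exact key Finset.univ x fun i hi => absurd (Finset.mem_univ i) hi

/-- Polynomials in several variables define polynomial functions. -/
theorem isPoly_mvPoly {σ : Type*} (F : MvPolynomial σ ℂ) :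
    IsPoly fun x : σ → ℂ => MvPolynomial.eval x F := by
  induction F using MvPolynomial.induction_on with
  | C a => simpa using isPoly_const (V := σ → ℂ) a
  | add p q hp hq => simpa using hp.add hq
  | mul_X p i hp => simpa using hp.mul (isPoly_coord i)

end Vale.Agent.P002G
end

section

/-!
# Integral points of arbitrary conjugacy classes with unit lower right minors
-/

namespace Vale.Agent.P002G

open Matrix
open Vale.Agent.P002R (UpT LoT upT_one loT_one)

variable {n m p : ℕ} {S T : Type*} [CommRing S] [CommRing T]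

/-- Products (upper unitriangular) * (lower triangular with unit diagonal). -/
def InC (Z : Matrix (Fin n) (Fin n) S) : Prop :=
  ∃ U L : Matrix (Fin n) (Fin n) S, UpT U ∧ (∀ i, U i i = 1) ∧ LoT L ∧ (∀ i, IsUnit (L i i)) ∧
    Z = U * L

theorem isUnit_of_upT {U : Matrix (Fin n) (Fin n) S} (hU : UpT U) (h : ∀ i, U i i = 1) :
    IsUnit U := by
  rw [Matrix.isUnit_iff_isUnit_det, hU.det]
  simp [h]

theorem isUnit_of_loT {L : Matrix (Fin n) (Fin n) S} (hL : LoT L) (h : ∀ i, IsUnit (L i i)) :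
    IsUnit L := by
  rw [Matrix.isUnit_iff_isUnit_det, hL.det, IsUnit.prod_univ_iff]
  exact h

theorem InC.isUnit {Z : Matrix (Fin n) (Fin n) S} (h : InC Z) : IsUnit Z := by
  obtain ⟨U, L, hU, hU1, hL, hL1, rfl⟩ := h
  exact (isUnit_of_upT hU hU1).mul (isUnit_of_loT hL hL1)

theorem inC_one : InC (1 : Matrix (Fin n) (Fin n) S) :=
  ⟨1, 1, upT_one, fun i => Matrix.one_apply_eq i, loT_one, fun i => by
    rw [Matrix.one_apply_eq]; exact isUnit_one, (one_mul 1).symm⟩

theorem InC.mul_up {Z A : Matrix (Fin n) (Fin n) S} (h : InC Z) (hA : UpT A)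
    (hA1 : ∀ i, A i i = 1) : InC (A * Z) := by
  obtain ⟨U, L, hU, hU1, hL, hL1, rfl⟩ := h
  exact ⟨A * U, L, hA.mul hU, fun i => by rw [hA.mul_diag hU, hA1, hU1, one_mul], hL, hL1,
    (mul_assoc A U L).symm⟩

theorem InC.mul_low {Z B : Matrix (Fin n) (Fin n) S} (h : InC Z) (hB : LoT B)
    (hB1 : ∀ i, IsUnit (B i i)) : InC (Z * B) := by
  obtain ⟨U, L, hU, hU1, hL, hL1, rfl⟩ := h
  exact ⟨U, L * B, hU, hU1, hL.mul hB, fun i => by rw [hL.mul_diag hB]; exact (hL1 i).mul (hB1 i),
    mul_assoc U L B⟩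

theorem InC.smul {Z : Matrix (Fin n) (Fin n) S} (h : InC Z) {c : S} (hc : IsUnit c) :
    InC (c • Z) := by
  obtain ⟨U, L, hU, hU1, hL, hL1, rfl⟩ := h
  refine ⟨U, c • L, hU, hU1, fun i j hij => ?_, fun i => ?_, (Matrix.mul_smul U c L).symm⟩
  · rw [Matrix.smul_apply, hL i j hij, smul_zero]
  · rw [Matrix.smul_apply, smul_eq_mul]
    exact hc.mul (hL1 i)

/-- Bordering. -/
theorem InC.bord {Z : Matrix (Fin (n + 1)) (Fin (n + 1)) S}
    (hN : InC (Z.submatrix Fin.succ Fin.succ)) (hd : IsUnit Z) : InC Z := by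
  obtain ⟨U, L, hU, hU1, hL, hL1, hUL⟩ := hN
  have hUu := (Matrix.isUnit_iff_isUnit_det _).1 (isUnit_of_upT hU hU1)
  have hLu := (Matrix.isUnit_iff_isUnit_det _).1 (isUnit_of_loT hL hL1)
  obtain ⟨u, hu⟩ : ∃ u : Fin n → S, u ᵥ* L = fun j => Z 0 j.succ :=
    ⟨(fun j => Z 0 j.succ) ᵥ* L⁻¹, by
      rw [Matrix.vecMul_vecMul, Matrix.nonsing_inv_mul _ hLu, Matrix.vecMul_one]⟩
  obtain ⟨l, hl⟩ : ∃ l : Fin n → S, U *ᵥ l = fun i => Z i.succ 0 :=
    ⟨U⁻¹ *ᵥ (fun i => Z i.succ 0), by
      rw [Matrix.mulVec_mulVec, Matrix.mul_nonsing_inv _ hUu, Matrix.one_mulVec]⟩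
  obtain ⟨U', hU'⟩ : ∃ U' : Matrix (Fin (n + 1)) (Fin (n + 1)) S, U' =
      Matrix.of (Fin.cons (Fin.cons 1 u) fun i => Fin.cons 0 (U i)) := ⟨_, rfl⟩
  obtain ⟨L', hL'⟩ : ∃ L' : Matrix (Fin (n + 1)) (Fin (n + 1)) S, L' =
      Matrix.of (Fin.cons (Fin.cons (Z 0 0 - u ⬝ᵥ l) 0) fun i => Fin.cons (l i) (L i)) := ⟨_, rfl⟩
  have hU00 : U' 0 0 = 1 := by rw [hU']; rfl
  have hU0s : ∀ j, U' 0 (Fin.succ j) = u j := fun j => by rw [hU']; rfl
  have hUs0 : ∀ i, U' (Fin.succ i) 0 = 0 := fun i => by rw [hU']; rfl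
  have hUss : ∀ i j, U' (Fin.succ i) (Fin.succ j) = U i j := fun i j => by rw [hU']; rfl
  have hL00 : L' 0 0 = Z 0 0 - u ⬝ᵥ l := by rw [hL']; rfl
  have hL0s : ∀ j, L' 0 (Fin.succ j) = 0 := fun j => by rw [hL']; rfl
  have hLs0 : ∀ i, L' (Fin.succ i) 0 = l i := fun i => by rw [hL']; rfl
  have hLss : ∀ i j, L' (Fin.succ i) (Fin.succ j) = L i j := fun i j => by rw [hL']; rfl
  have hZ : Z = U' * L' := by
    ext i j
    rw [Matrix.mul_apply, Fin.sum_univ_succ]
    refine Fin.cases ?_ (fun i => ?_) i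
    · refine Fin.cases ?_ (fun j => ?_) j
      · rw [hU00, hL00]
        simp only [hU0s, hLs0]
        rw [one_mul]
        exact (sub_add_cancel _ _).symm
      · rw [hU00, hL0s]
        simp only [hU0s, hLss]
        rw [mul_zero, zero_add]
        exact (congrFun hu j).symm
    · refine Fin.cases ?_ (fun j => ?_) j
      · rw [hUs0, zero_mul, zero_add]
        simp only [hUss, hLs0]
        exact (congrFun hl i).symm
      · rw [hUs0, zero_mul, zero_add]
        simp only [hUss, hLss]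
        have h1 := congrFun (congrFun hUL i) j
        rw [Matrix.mul_apply] at h1
        rw [← h1, Matrix.submatrix_apply]
  have hUt : UpT U' := by
    intro i j hij
    revert hij
    refine Fin.cases ?_ (fun i => ?_) i
    · intro hij; exact absurd hij (Fin.not_lt_zero j)
    · refine Fin.cases ?_ (fun j => ?_) j
      · intro _; exact hUs0 i
      · intro hij; rw [hUss]; exact hU i j (Fin.succ_lt_succ_iff.1 hij)
  have hLt : LoT L' := by
    intro i j hij
    revert hij
    refine Fin.cases ?_ (fun j => ?_) j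
    · intro hij; exact absurd hij (Fin.not_lt_zero i)
    · refine Fin.cases ?_ (fun i => ?_) i
      · intro _; exact hL0s j
      · intro hij; rw [hLss]; exact hL i j (Fin.succ_lt_succ_iff.1 hij)
  have hU1' : ∀ i, U' i i = 1 := by
    intro i
    refine Fin.cases hU00 (fun i => ?_) i
    rw [hUss, hU1]
  refine ⟨U', L', hUt, hU1', hLt, ?_, hZ⟩
  have h1 : IsUnit L' := by
    have h2 : IsUnit (U' * L') := hZ ▸ hd
    rw [Matrix.isUnit_iff_isUnit_det, Matrix.det_mul] at h2
    rw [Matrix.isUnit_iff_isUnit_det]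
    exact isUnit_of_mul_isUnit_right h2
  rw [Matrix.isUnit_iff_isUnit_det, hLt.det, IsUnit.prod_univ_iff] at h1
  exact h1

/-! ### Blocks -/

/-- Block matrices. -/
def blk (A : Matrix (Fin m) (Fin m) S) (B : Matrix (Fin m) (Fin p) S)
    (C : Matrix (Fin p) (Fin m) S) (D : Matrix (Fin p) (Fin p) S) :
    Matrix (Fin (m + p)) (Fin (m + p)) S :=
  (Matrix.fromBlocks A B C D).submatrix finSumFinEquiv.symm finSumFinEquiv.symm

theorem blk_mul (A : Matrix (Fin m) (Fin m) S) (B : Matrix (Fin m) (Fin p) S)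
    (C : Matrix (Fin p) (Fin m) S) (D : Matrix (Fin p) (Fin p) S)
    (A' : Matrix (Fin m) (Fin m) S) (B' : Matrix (Fin m) (Fin p) S)
    (C' : Matrix (Fin p) (Fin m) S) (D' : Matrix (Fin p) (Fin p) S) :
    blk A B C D * blk A' B' C' D' =
      blk (A * A' + B * C') (A * B' + B * D') (C * A' + D * C') (C * B' + D * D') := by
  rw [blk, blk, blk, Matrix.submatrix_mul_equiv, Matrix.fromBlocks_multiply]

theorem blk_one : blk (1 : Matrix (Fin m) (Fin m) S) 0 0 (1 : Matrix (Fin p) (Fin p) S) = 1 := by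
  rw [blk, Matrix.fromBlocks_one, Matrix.submatrix_one_equiv]

omit [CommRing S] in
theorem blk_apply₁₁ (A : Matrix (Fin m) (Fin m) S) (B : Matrix (Fin m) (Fin p) S)
    (C : Matrix (Fin p) (Fin m) S) (D : Matrix (Fin p) (Fin p) S) (i j) :
    blk A B C D (Fin.castAdd p i) (Fin.castAdd p j) = A i j := by
  simp [blk]

omit [CommRing S] in
theorem blk_apply₁₂ (A : Matrix (Fin m) (Fin m) S) (B : Matrix (Fin m) (Fin p) S)
    (C : Matrix (Fin p) (Fin m) S) (D : Matrix (Fin p) (Fin p) S) (i j) :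
    blk A B C D (Fin.castAdd p i) (Fin.natAdd m j) = B i j := by
  simp [blk]

omit [CommRing S] in
theorem blk_apply₂₁ (A : Matrix (Fin m) (Fin m) S) (B : Matrix (Fin m) (Fin p) S)
    (C : Matrix (Fin p) (Fin m) S) (D : Matrix (Fin p) (Fin p) S) (i j) :
    blk A B C D (Fin.natAdd m i) (Fin.castAdd p j) = C i j := by
  simp [blk]

omit [CommRing S] in
theorem blk_apply₂₂ (A : Matrix (Fin m) (Fin m) S) (B : Matrix (Fin m) (Fin p) S)
    (C : Matrix (Fin p) (Fin m) S) (D : Matrix (Fin p) (Fin p) S) (i j) :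
    blk A B C D (Fin.natAdd m i) (Fin.natAdd m j) = D i j := by
  simp [blk]

theorem upT_blk {A : Matrix (Fin m) (Fin m) S} (B : Matrix (Fin m) (Fin p) S)
    {D : Matrix (Fin p) (Fin p) S} (hA : UpT A) (hD : UpT D) : UpT (blk A B 0 D) := by
  intro i j
  refine Fin.addCases (fun i => ?_) (fun i => ?_) i <;>
    refine Fin.addCases (fun j => ?_) (fun j => ?_) j
  · intro h
    rw [blk_apply₁₁]
    exact hA i j (by rwa [Fin.lt_def, Fin.val_castAdd, Fin.val_castAdd] at h)
  · intro h
    exfalso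
    rw [Fin.lt_def, Fin.val_natAdd, Fin.val_castAdd] at h
    have := i.2
    omega
  · intro _
    rw [blk_apply₂₁]
    rfl
  · intro h
    rw [blk_apply₂₂]
    exact hD i j (by simpa using h)

theorem loT_blk {A : Matrix (Fin m) (Fin m) S} (C : Matrix (Fin p) (Fin m) S)
    {D : Matrix (Fin p) (Fin p) S} (hA : LoT A) (hD : LoT D) : LoT (blk A 0 C D) := by
  intro i j
  refine Fin.addCases (fun i => ?_) (fun i => ?_) i <;>
    refine Fin.addCases (fun j => ?_) (fun j => ?_) j
  · intro h
    rw [blk_apply₁₁]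
    exact hA i j (by rwa [Fin.lt_def, Fin.val_castAdd, Fin.val_castAdd] at h)
  · intro _
    rw [blk_apply₁₂]
    rfl
  · intro h
    exfalso
    rw [Fin.lt_def, Fin.val_natAdd, Fin.val_castAdd] at h
    have := j.2
    omega
  · intro h
    rw [blk_apply₂₂]
    exact hD i j (by simpa using h)

theorem InC.blk {V : Matrix (Fin m) (Fin m) S} {H : Matrix (Fin p) (Fin p) S} (hV : InC V)
    (hH : InC H) (Y : Matrix (Fin p) (Fin m) S) : InC (blk V 0 Y H) := by
  obtain ⟨U, L, hU, hU1, hL, hL1, rfl⟩ := hV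
  obtain ⟨U', L', hU', hU1', hL', hL1', rfl⟩ := hH
  have hUu := (Matrix.isUnit_iff_isUnit_det _).1 (isUnit_of_upT hU' hU1')
  refine ⟨P002G.blk U 0 0 U', P002G.blk L 0 (U'⁻¹ * Y) L', upT_blk 0 hU hU', fun i => ?_,
    loT_blk _ hL hL', fun i => ?_, ?_⟩
  · refine Fin.addCases (fun i => ?_) (fun i => ?_) i
    · rw [blk_apply₁₁, hU1]
    · rw [blk_apply₂₂, hU1']
  · refine Fin.addCases (fun i => ?_) (fun i => ?_) i
    · rw [blk_apply₁₁]; exact hL1 i
    · rw [blk_apply₂₂]; exact hL1' i
  · rw [blk_mul]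
    simp only [Matrix.mul_zero, Matrix.zero_mul, add_zero, zero_add]
    rw [← Matrix.mul_assoc, Matrix.mul_nonsing_inv _ hUu, Matrix.one_mul]

end Vale.Agent.P002G
end

section

/-!
# Density of integral pairs of reflections
-/

namespace Vale.Agent.P002G

open Matrix
open Vale.Agent.P002R (UpT LoT upT_one loT_one)

variable {n m p : ℕ} {S R : Type*} [CommRing S] [CommRing R]

/-- `1 + t μ` is in the cell if the products are differences of units. -/
theorem inC_one_add : ∀ {n : ℕ} (t μ : Fin n → S) (ρ : Fin (n + 1) → S) (_ : ∀ i, IsUnit (ρ i))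
    (_ : ρ (Fin.last n) = 1) (_ : ∀ i, μ i * t i = ρ i.castSucc - ρ i.succ),
    InC (1 + vecMulVec t μ) ∧ μ ⬝ᵥ t = ρ 0 - 1 := by
  intro n
  induction n with
  | zero =>
    intro t μ ρ _ h1 _
    refine ⟨⟨1, 1, upT_one, fun i => i.elim0, loT_one, fun i => i.elim0,
      Matrix.ext fun i => i.elim0⟩, ?_⟩
    rw [show (0 : Fin 1) = Fin.last 0 from rfl, h1, sub_self, dotProduct, Finset.univ_eq_empty,
      Finset.sum_empty]
  | succ n ih =>
    intro t μ ρ h0 h1 h
    obtain ⟨h2, h3⟩ := ih (fun i => t i.succ) (fun i => μ i.succ) (fun i => ρ i.succ)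
      (fun i => h0 _) (by rw [Fin.succ_last]; exact h1) (fun i => by
        rw [h i.succ, Fin.succ_castSucc])
    have h4 : μ ⬝ᵥ t = ρ 0 - 1 := by
      rw [dotProduct, Fin.sum_univ_succ, h 0]
      rw [dotProduct] at h3
      rw [h3, Fin.castSucc_zero]
      ring
    refine ⟨InC.bord ?_ ?_, h4⟩
    · convert h2 using 1
      ext i j
      rw [Matrix.submatrix_apply, Matrix.add_apply, Matrix.add_apply, Matrix.one_apply,
        Matrix.one_apply, vecMulVec_apply, vecMulVec_apply]
      simp only [Fin.succ_inj]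
    · rw [Matrix.isUnit_iff_isUnit_det, Matrix.vecMulVec_eq Unit, Matrix.det_one_add_mul_comm,
        Matrix.det_unique, Matrix.add_apply, Matrix.one_apply_eq, Matrix.mul_apply]
      have h5 : ∑ j, replicateRow Unit μ default j * replicateCol Unit t j default = μ ⬝ᵥ t := rfl
      rw [h5, h4, add_sub_cancel]
      exact h0 0

/-- The set of powers of a unit without torsion is infinite. -/
theorem infinite_powers (φ : R →+* ℂ) (u : Rˣ) (hu : ∀ k : ℕ, 0 < k → φ u ^ k ≠ 1) :
    (Set.range fun k : ℕ => φ u ^ k).Infinite := by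
  apply Set.infinite_range_of_injective
  intro a b hab
  by_contra hne
  wlog h : a < b generalizing a b
  · exact this hab.symm (Ne.symm hne) (lt_of_le_of_ne (not_lt.1 h) (Ne.symm hne))
  have hu0 : φ u ≠ 0 := (u.isUnit.map φ).ne_zero
  apply hu (b - a) (by omega)
  have h1 : φ u ^ b = φ u ^ a * φ u ^ (b - a) := by rw [← pow_add]; congr 1; omega
  beta_reduce at hab
  rw [h1] at hab
  exact (mul_left_cancel₀ (pow_ne_zero a hu0) (by rw [mul_one]; exact hab)).symm

theorem mul_one_add (t s μ : Fin n → S) (h : ∀ i, s i + t i + t i * (μ ⬝ᵥ s) = 0) :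
    (1 + vecMulVec t μ) * (1 + vecMulVec s μ) = 1 := by
  have h1 : vecMulVec t μ * vecMulVec s μ = (μ ⬝ᵥ s) • vecMulVec t μ := by
    ext i j
    rw [Matrix.mul_apply, Matrix.smul_apply, smul_eq_mul, vecMulVec_apply, dotProduct,
      Finset.sum_mul]
    refine Finset.sum_congr rfl fun k _ => ?_
    rw [vecMulVec_apply, vecMulVec_apply]
    ring
  rw [add_mul, mul_add, mul_add, h1, one_mul, one_mul, mul_one]
  ext i j
  simp only [Matrix.add_apply, vecMulVec_apply, Matrix.smul_apply, smul_eq_mul]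
  have := h i
  linear_combination (μ j) * this

/-- Density of the integral reflections `1 + s μ` whose inverses are in the cell, with `μ`
divisible by `D`. -/
theorem refl_dense (φ : R →+* ℂ) (u : Rˣ) (hu : ∀ k : ℕ, 0 < k → φ u ^ k ≠ 1) (D : R)
    (hD : ∃ M : ℕ, 0 < M ∧ D ∣ (u : R) ^ M - 1)
    (F : (Fin n → ℂ) × (Fin n → ℂ) → ℂ) (hF : IsPoly F)
    (h : ∀ s μ : Fin n → R, (∀ i, D ∣ μ i) → (∃ t, InC (1 + vecMulVec t μ) ∧
      (1 + vecMulVec t μ) * (1 + vecMulVec s μ) = 1) →
        F (fun i => φ (s i), fun i => φ (μ i)) = 0) (s μ : Fin n → ℂ) : F (s, μ) = 0 := by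
  have hinf := infinite_powers φ u hu
  obtain ⟨M, hM, hDM⟩ := hD
  have hinf' := infinite_powers φ (u ^ M) (by
    intro k hk h1
    apply hu (M * k) (Nat.mul_pos hM hk)
    rw [pow_mul, ← h1, Units.val_pow_eq_pow_val, map_pow])
  -- unit `s`
  have h1 : ∀ (k : Fin n → ℕ) (μ : Fin n → ℂ), F (fun i => φ u ^ k i, μ) = 0 := by
    intro k μ
    -- coordinates `σ`
    obtain ⟨g, hg⟩ : ∃ g : (Fin n → ℂ) → Fin n → ℂ, g = fun σ i =>
        ((Fin.cons 1 σ : Fin (n + 1) → ℂ) i.succ - (Fin.cons 1 σ : Fin (n + 1) → ℂ) i.castSucc) *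
          (φ u ^ k i)⁻¹ := ⟨_, rfl⟩
    have hgp : PolyMap g := by
      rw [hg]
      apply polyMap_pi
      intro i
      apply IsPoly.polyMap
      refine IsPoly.mul (IsPoly.sub ?_ ?_) (isPoly_const _)
      · simp only [Fin.cons_succ]
        exact isPoly_coord i
      · obtain ⟨j, hj⟩ : ∃ j, j = i.castSucc := ⟨_, rfl⟩
        rw [← hj]
        refine Fin.cases ?_ (fun j => ?_) j
        · simp only [Fin.cons_zero]
          exact isPoly_const 1
        · simp only [Fin.cons_succ]
          exact isPoly_coord j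
    have h2 : ∀ σ : Fin n → ℂ, F (fun i => φ u ^ k i, g σ) = 0 := by
      apply IsPoly.eq_zero_of_pi (f := fun σ => F (fun i => φ u ^ k i, g σ))
        (((polyMap_const _).prodMk hgp).comp hF)
        (fun _ => Set.range fun k : ℕ => φ (u ^ M : Rˣ) ^ k) (fun _ => hinf')
      intro σ hσ
      choose l hl using hσ
      beta_reduce at hl
      obtain ⟨L, hL⟩ : ∃ L : Fin (n + 1) → Rˣ, L = Fin.cons 1 (fun i => (u ^ M) ^ l i) := ⟨_, rfl⟩
      have hLφ : ∀ i, φ (L i : R) = (Fin.cons 1 σ : Fin (n + 1) → ℂ) i := by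
        intro i
        rw [hL]
        refine Fin.cases ?_ (fun i => ?_) i
        · simp
        · simp only [Fin.cons_succ, ← hl, Units.val_pow_eq_pow_val, map_pow]
      have hLD : ∀ i, D ∣ (L i : R) - 1 := by
        intro i
        rw [hL]
        refine Fin.cases ?_ (fun i => ?_) i
        · simp
        · rw [Fin.cons_succ, Units.val_pow_eq_pow_val, Units.val_pow_eq_pow_val]
          exact hDM.trans (sub_one_dvd_pow_sub_one _ _)
      have h3 := h (fun i => ((u ^ k i : Rˣ) : R))
        (fun i => ((L i.succ : R) - (L i.castSucc : R)) * ((u ^ k i)⁻¹ : Rˣ)) ?_ ?_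
      · convert h3 using 3
        · ext i
          rw [Units.val_pow_eq_pow_val, map_pow]
        · ext i
          rw [hg]
          simp only [map_mul, map_sub, hLφ]
          congr 1
          have h5 : φ ((u ^ k i : Rˣ) : R) * φ (((u ^ k i)⁻¹ : Rˣ) : R) = 1 := by
            rw [← map_mul, Units.mul_inv, map_one]
          rw [Units.val_pow_eq_pow_val, map_pow] at h5
          exact inv_eq_of_mul_eq_one_right h5
      · intro i
        apply Dvd.dvd.mul_right
        have h4 := dvd_sub (hLD i.succ) (hLD i.castSucc)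
        rwa [sub_sub_sub_cancel_right] at h4
      · -- the inverse
        obtain ⟨c, hc⟩ : ∃ c : Rˣ, c = (L (Fin.last n))⁻¹ := ⟨_, rfl⟩
        have hdot : ∀ (n : ℕ) (a : Fin (n + 1) → R), ∑ i : Fin n, (a i.succ - a i.castSucc) =
            a (Fin.last n) - a 0 := by
          intro n
          induction n with
          | zero => intro a; simp
          | succ n ih =>
            intro a
            rw [Fin.sum_univ_succ]
            have := ih fun i => a i.succ
            simp only [Fin.succ_last, Fin.succ_castSucc] at this ⊢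
            rw [this, Fin.castSucc_zero]
            have h9 : a (Fin.last n.succ) = a (Fin.last (n + 1)) := rfl
            rw [h9]
            ring
        have hL0 : (L 0 : R) = 1 := by rw [hL]; simp
        have hms : (fun i => ((L i.succ : R) - (L i.castSucc : R)) * ((u ^ k i)⁻¹ : Rˣ)) ⬝ᵥ
            (fun i => ((u ^ k i : Rˣ) : R)) = (L (Fin.last n) : R) - 1 := by
          rw [← hL0, ← hdot n (fun i => (L i : R)), dotProduct]
          refine Finset.sum_congr rfl fun i _ => ?_
          rw [mul_assoc, Units.inv_mul, mul_one]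
        refine ⟨fun i => -((u ^ k i : Rˣ) : R) * c, ?_, ?_⟩
        · refine (inC_one_add _ _ (fun i => (L i : R) * c) (fun i => (L i * c).isUnit) ?_
            fun i => ?_).1
          · rw [hc, Units.mul_inv]
          · have : ((u ^ k i : Rˣ) : R) * ((u ^ k i)⁻¹ : Rˣ) = 1 := Units.mul_inv _
            linear_combination (-((L i.succ : R) - (L i.castSucc : R)) * c) * this
        · apply mul_one_add
          intro i
          rw [hms]
          have : (c : R) * (L (Fin.last n) : R) = 1 := by rw [hc, Units.inv_mul]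
          linear_combination (-((u ^ k i : Rˣ) : R)) * this
    -- every `μ` is of this form
    obtain ⟨σ, hσ⟩ : ∃ σ : Fin n → ℂ, σ = fun i => 1 + ∑ j ∈ Finset.univ.filter (· ≤ i),
        μ j * φ u ^ k j := ⟨_, rfl⟩
    have hu0 : φ u ≠ 0 := (u.isUnit.map φ).ne_zero
    have hσ1 : ∀ i : Fin n, (Fin.cons 1 σ : Fin (n + 1) → ℂ) i.castSucc =
        1 + ∑ j ∈ Finset.univ.filter (· < i), μ j * φ u ^ k j := by
      intro i
      rcases Nat.eq_zero_or_pos (i : ℕ) with h0 | h0
      · have h3 : i.castSucc = 0 := Fin.ext h0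
        rw [h3, Fin.cons_zero, Finset.sum_eq_zero, add_zero]
        intro j hj
        rw [Finset.mem_filter, Fin.lt_def] at hj
        omega
      · obtain ⟨j, hj⟩ : ∃ j : Fin n, i.castSucc = j.succ :=
          ⟨⟨i - 1, by omega⟩, Fin.ext (by simp; omega)⟩
        have hj' : (i : ℕ) = (j : ℕ) + 1 := by
          have := congrArg Fin.val hj
          simpa using this
        rw [hj, Fin.cons_succ, hσ]
        beta_reduce
        congr 2
        ext k'
        rw [Finset.mem_filter, Finset.mem_filter, Fin.le_def, Fin.lt_def]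
        simp only [Finset.mem_univ, true_and]
        omega
    have h3 := h2 σ
    have h4 : g σ = μ := by
      rw [hg]
      ext i
      beta_reduce
      rw [hσ1, Fin.cons_succ, hσ]
      beta_reduce
      have h5 : Finset.univ.filter (fun j : Fin n => j ≤ i) =
          insert i (Finset.univ.filter fun j : Fin n => j < i) := by
        ext j
        simp [le_iff_eq_or_lt]
      rw [h5, Finset.sum_insert (by simp)]
      have := pow_ne_zero (k i) hu0
      field_simp
      ring
    rwa [h4] at h3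
  -- all `s`
  have h2 : PolyMap fun s : Fin n → ℂ => (s, μ) :=
    (polyMap_linear LinearMap.id).prodMk (polyMap_const μ)
  apply IsPoly.eq_zero_of_pi (f := fun s => F (s, μ)) (h2.comp hF)
    (fun _ => Set.range fun k : ℕ => φ u ^ k) (fun _ => hinf)
  intro s hs
  choose k hk using hs
  rw [show s = fun i => φ u ^ k i from funext fun i => (hk i).symm]
  exact h1 k μ

end Vale.Agent.P002G
end

section

/-!
# P002, genus 0, one regular class: definitions
-/

namespace Vale.Agent.P002L

open Matrix Vale.Agent.P002R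

/-- Upper unitriangular matrices. -/
def UU {S : Type*} [CommRing S] {r : ℕ} (u : Mat r S) : Prop := UpT u ∧ ∀ i, u i i = 1

/-- Matrices with diagonal entries `l (κ i)`, which are strictly upper triangular with respect to
the labels `κ` off the diagonal. -/
def Kup {S : Type*} [CommRing S] {r : ℕ} (κ : Fin r → ℕ) (l : ℕ → S) (M : Mat r S) : Prop :=
  (∀ i, M i i = l (κ i)) ∧ ∀ i j, i ≠ j → ¬ κ i < κ j → M i j = 0

/-- Exponent of the edge from `b` to `a` at the vertex `v`. -/
def eb {r : ℕ} (a b v : Fin r) : ℤ := (if v = a then 1 else 0) - (if v = b then 1 else 0)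

/-- A ring `A` between `R` and `ℂ` such that all complex numbers lift to `A`, the nonzero ones to
units, and such that the `R`-points of `A` are dense near the given complex point. -/
structure Lifting {R A : Type} [CommRing R] [CommRing A] (φ : R →+* ℂ) (ι : R →+* A)
    (ψ : A →+* ℂ) : Prop where
  comp : ∀ a, ψ (ι a) = φ a
  inj : Function.Injective φ
  surj : ∀ c : ℂ, ∃ a, ψ a = c
  unit : ∀ c : ℂˣ, ∃ a : Aˣ, ψ a = c
  dens : ∀ {σ : Type} (f : MvPolynomial σ ℂ) (a : σ → A),
    (∀ η : A →+* R, (∀ s, η (ι s) = s) → MvPolynomial.eval (fun i => φ (η (a i))) f = 0) →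
    MvPolynomial.eval (fun i => ψ (a i)) f = 0

end Vale.Agent.P002L
end

section

/-!
# P002, genus 0, one regular class: unitriangular matrices, permutations, letters
-/

namespace Vale.Agent.P002L

open Matrix Vale.Agent.P002R

variable {S T : Type*} [CommRing S] [CommRing T] {r : ℕ}

theorem UU.mul {u v : Mat r S} (hu : UU u) (hv : UU v) : UU (u * v) :=
  ⟨hu.1.mul hv.1, fun i => by rw [hu.1.mul_diag hv.1, hu.2, hv.2, mul_one]⟩

theorem uu_one : UU (1 : Mat r S) := ⟨upT_one, fun i => one_apply_eq i⟩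

theorem UU.det {u : Mat r S} (hu : UU u) : u.det = 1 := by
  rw [hu.1.det]
  exact Finset.prod_eq_one fun i _ => hu.2 i

theorem UU.isUnit {u : Mat r S} (hu : UU u) : IsUnit u.det := by
  rw [hu.det]
  exact isUnit_one

theorem UU.map {u : Mat r S} (hu : UU u) (f : S →+* T) : UU (u.map f) :=
  ⟨fun i j h => by rw [map_apply, hu.1 i j h, map_zero], fun i => by
    rw [map_apply, hu.2, map_one]⟩

theorem upT_map {u : Mat r S} (hu : UpT u) (f : S →+* T) : UpT (u.map f) :=
  fun i j h => by rw [map_apply, hu i j h, map_zero]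

theorem upT_inv {A : Mat r S} (hA : UpT A) (h : IsUnit A.det) : UpT A⁻¹ := by
  have := Matrix.invertibleOfIsUnitDet A h
  intro i j h
  exact Matrix.blockTriangular_inv_of_blockTriangular (M := A) (b := id)
    (fun i j h => hA i j h) h

theorem UU.inv {u : Mat r S} (hu : UU u) : UU u⁻¹ := by
  have h1 := upT_inv hu.1 hu.isUnit
  refine ⟨h1, fun i => ?_⟩
  have h2 := hu.1.mul_diag h1 i
  rw [mul_nonsing_inv _ hu.isUnit, one_apply_eq, hu.2, one_mul] at h2
  exact h2.symm

theorem UU.mul_inv {u : Mat r S} (hu : UU u) : u * u⁻¹ = 1 := mul_nonsing_inv _ hu.isUnit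

theorem UU.inv_mul {u : Mat r S} (hu : UU u) : u⁻¹ * u = 1 := nonsing_inv_mul _ hu.isUnit

theorem UU.map_inv {u : Mat r S} (hu : UU u) (f : S →+* T) : (u⁻¹).map f = (u.map f)⁻¹ := by
  symm
  refine Matrix.inv_eq_left_inv ?_
  rw [← Matrix.map_mul, hu.inv_mul, Matrix.map_one _ (map_zero f) (map_one f)]

/-! ### Permutation matrices -/

/-- The permutation matrix `e_j ↦ e_{w j}`. -/
def pm (w : Equiv.Perm (Fin r)) : Mat r S := Matrix.of fun i j => if i = w j then 1 else 0

theorem pm_apply (w : Equiv.Perm (Fin r)) (i j : Fin r) :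
    (pm w : Mat r S) i j = if i = w j then 1 else 0 := rfl

theorem mul_pm (A : Mat r S) (w : Equiv.Perm (Fin r)) (i j : Fin r) :
    (A * (pm w : Mat r S)) i j = A i (w j) := by
  rw [mul_apply, Finset.sum_eq_single (w j)]
  · rw [pm_apply, if_pos rfl, mul_one]
  · intro k _ hk
    rw [pm_apply, if_neg hk, mul_zero]
  · intro h
    exact absurd (Finset.mem_univ _) h

theorem pm_mul (A : Mat r S) (w : Equiv.Perm (Fin r)) (i j : Fin r) :
    ((pm w : Mat r S) * A) (w i) j = A i j := by
  rw [mul_apply, Finset.sum_eq_single i]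
  · rw [pm_apply, if_pos rfl, one_mul]
  · intro k _ hk
    rw [pm_apply, if_neg fun h => hk (w.injective h).symm, zero_mul]
  · intro h
    exact absurd (Finset.mem_univ _) h

theorem pm_mul_pm (w w' : Equiv.Perm (Fin r)) : (pm w * pm w' : Mat r S) = pm (w * w') := by
  ext i j
  rw [mul_pm, pm_apply, pm_apply, Equiv.Perm.mul_apply]

theorem pm_one : (pm 1 : Mat r S) = 1 := by
  ext i j
  rw [pm_apply, one_apply, Equiv.Perm.one_apply]

theorem pm_map (w : Equiv.Perm (Fin r)) (f : S →+* T) : (pm w : Mat r S).map f = pm w := by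
  ext i j
  rw [map_apply, pm_apply, pm_apply]
  split_ifs
  · exact map_one f
  · exact map_zero f

/-- `pm w * A = A' * pm w`. -/
theorem pm_comm {w : Equiv.Perm (Fin r)} {A A' : Mat r S} (h : ∀ i j, A' (w i) (w j) = A i j) :
    (pm w : Mat r S) * A = A' * (pm w : Mat r S) := by
  ext i j
  obtain ⟨i, rfl⟩ := w.surjective i
  rw [pm_mul, mul_pm, h]

/-! ### Letters -/

/-- The elementary matrix. -/
def xx (a b : Fin r) (z : S) : Mat r S := 1 + Matrix.single a b z

theorem xx_map (a b : Fin r) (z : S) (f : S →+* T) : (xx a b z).map f = xx a b (f z) := by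
  ext i j
  simp only [xx, map_apply, Matrix.add_apply, map_add, one_apply, single_apply]
  congr 1
  · split_ifs
    · exact map_one f
    · exact map_zero f
  · split_ifs
    · rfl
    · exact map_zero f

theorem uu_xx {a b : Fin r} (h : a < b) (z : S) : UU (xx a b z) := by
  refine ⟨fun i j hij => ?_, fun i => ?_⟩
  · rw [xx, Matrix.add_apply, one_apply_ne hij.ne', single_apply, if_neg, add_zero]
    rintro ⟨rfl, rfl⟩
    exact absurd h (not_lt.2 hij.le)
  · rw [xx, Matrix.add_apply, one_apply_eq, single_apply, if_neg, add_zero]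
    rintro ⟨rfl, h2⟩
    exact absurd h2 h.ne'

theorem xx_mul_xx {a b : Fin r} (h : a ≠ b) (y z : S) : xx a b y * xx a b z = xx a b (y + z) := by
  rw [xx, xx, xx, mul_add, mul_one, add_mul, one_mul, single_mul_single_of_ne _ _ _ _ h.symm,
    add_zero, add_assoc, single_add]

theorem xx_zero (a b : Fin r) : xx a b (0 : S) = 1 := by
  rw [xx, single_zero, add_zero]

theorem xx_mul_apply {a b : Fin r} (z : S) (A : Mat r S) (i j : Fin r) :
    (xx a b z * A) i j = A i j + if i = a then z * A b j else 0 := by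
  rw [xx, add_mul, one_mul, Matrix.add_apply]
  congr 1
  split_ifs with h
  · rw [h, single_mul_apply_same]
  · rw [single_mul_apply_of_ne _ _ _ _ _ h]

theorem mul_xx_apply {a b : Fin r} (z : S) (A : Mat r S) (i j : Fin r) :
    (A * xx a b z) i j = A i j + if j = b then A i a * z else 0 := by
  rw [xx, mul_add, mul_one, Matrix.add_apply]
  congr 1
  split_ifs with h
  · rw [h, mul_single_apply_same]
  · rw [mul_single_apply_of_ne _ _ _ _ _ h]

theorem pm_xx (w : Equiv.Perm (Fin r)) (a b : Fin r) (z : S) :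
    pm w * xx a b z = xx (w a) (w b) z * pm w := by
  refine pm_comm fun i j => ?_
  simp only [xx, Matrix.add_apply, one_apply, single_apply, EmbeddingLike.apply_eq_iff_eq]

/-- The diagonal matrix with `y` at `a`, `-1/y` at `b`. -/
def dd (a b : Fin r) (y : Sˣ) : Mat r S :=
  diagonal fun i => if i = a then (y : S) else if i = b then -((y⁻¹ : Sˣ) : S) else 1

theorem pm_dd (w : Equiv.Perm (Fin r)) (a b : Fin r) (y : Sˣ) :
    pm w * dd a b y = dd (w a) (w b) y * pm w := by
  refine pm_comm fun i j => ?_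
  simp only [dd, diagonal_apply, EmbeddingLike.apply_eq_iff_eq]

theorem pm_swap {a b : Fin r} (h : a ≠ b) : (pm (Equiv.swap a b) : Mat r S) =
    1 - single a a 1 - single b b 1 + single a b 1 + single b a 1 := by
  ext i j
  simp only [pm_apply, Matrix.add_apply, Matrix.sub_apply, one_apply, single_apply, Equiv.swap_apply_def]
  by_cases hi : i = a
  · subst hi
    by_cases hj : j = i
    · subst hj
      simp [h, h.symm]
    · by_cases hj' : j = b
      · subst hj'
        simp [h, h.symm]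
      · simp [h, h.symm, hj, hj', Ne.symm hj, Ne.symm hj']
  · by_cases hi' : i = b
    · subst hi'
      by_cases hj : j = a
      · subst hj
        simp [h, h.symm]
      · by_cases hj' : j = i
        · subst hj'
          simp [h, h.symm]
        · simp [h, h.symm, hj, hj', Ne.symm hj, Ne.symm hj']
    · by_cases hj : j = a
      · subst hj
        simp [h, hi, hi', Ne.symm hi, Ne.symm hi']
      · by_cases hj' : j = b
        · subst hj'
          simp [h, h.symm, hi, hi', hj, Ne.symm hi, Ne.symm hi']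
        · simp [hi, hi', hj, hj', Ne.symm hi, Ne.symm hi', Ne.symm hj, Ne.symm hj']

theorem dd_eq {a b : Fin r} (h : a ≠ b) (y : Sˣ) : dd a b y =
    1 - single a a 1 - single b b 1 + single a a (y : S) - single b b ((y⁻¹ : Sˣ) : S) := by
  ext i j
  simp only [dd, diagonal_apply, Matrix.add_apply, Matrix.sub_apply, one_apply, single_apply]
  by_cases hij : i = j
  · subst hij
    by_cases hi : i = a
    · subst hi
      simp [h, h.symm]
    · by_cases hi' : i = b
      · subst hi'
        simp [h, h.symm]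
      · simp [hi, hi', Ne.symm hi, Ne.symm hi']
  · have h1 : ∀ c : Fin r, ¬ (c = i ∧ c = j) := fun c hc => hij (hc.1.symm.trans hc.2)
    simp [hij, h1]

/-- The stay identity. -/
theorem stay_id {a b : Fin r} (h : a ≠ b) (y : Sˣ) : xx a b (y : S) * pm (Equiv.swap a b) =
    xx b a ((y⁻¹ : Sˣ) : S) * dd a b y * xx a b ((y⁻¹ : Sˣ) : S) := by
  rw [pm_swap h, dd_eq h]
  simp only [xx, mul_add, add_mul, mul_sub, sub_mul, mul_one, one_mul, single_mul_single_same,
    single_mul_single_of_ne _ _ _ _ h, single_mul_single_of_ne _ _ _ _ h.symm, Units.inv_mul,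
    Units.mul_inv, add_zero, sub_zero, zero_mul, mul_zero]
  abel

end Vale.Agent.P002L
end

section

/-!
# P002, genus 0, one regular class: simultaneously adapted bases
-/

namespace Vale.Agent.P002L

open Matrix Vale.Agent.P002R

variable {r : ℕ}

theorem exists_position (c : Mat r ℂ) (s : ℕ) (ξ : ℕ → ℂ)
    (E : ℕ → Submodule ℂ (Fin r → ℂ)) (h0 : E 0 = ⊥) (hs : E s = ⊤) (hmono : Monotone E)
    (hE : ∀ j, ∀ v ∈ E (j + 1), c *ᵥ v - ξ j • v ∈ E j) :
    ∃ (κ : Fin r → ℕ) (u M : Mat r ℂ), UU u ∧ Kup κ ξ M ∧ c * u = u * M ∧ (∀ i, κ i < s) ∧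
      ∀ j ≤ s, Module.finrank ℂ (E j) = (Finset.univ.filter fun i => κ i < j).card := by
  classical
  rcases Nat.eq_zero_or_pos r with hr | hr
  · subst hr
    refine ⟨fun i => i.elim0, 1, 1, uu_one, ⟨fun i => i.elim0, fun i => i.elim0⟩,
      Subsingleton.elim _ _, fun i => i.elim0, fun j _ => ?_⟩
    have : Subsingleton (Fin 0 → ℂ) := inferInstance
    rw [Subsingleton.elim (Finset.univ.filter _ : Finset (Fin 0)) ∅, Finset.card_empty]
    exact Module.finrank_zero_of_subsingleton
  have hs0 : 0 < s := by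
    rcases Nat.eq_zero_or_pos s with h | h
    · rw [h, h0] at hs
      have h1 : (Pi.single ⟨0, hr⟩ 1 : Fin r → ℂ) ∈ (⊥ : Submodule ℂ (Fin r → ℂ)) := by
        rw [hs]; trivial
      rw [Submodule.mem_bot] at h1
      have h2 := congrFun h1 ⟨0, hr⟩
      rw [Pi.single_eq_same] at h2
      exact absurd h2 one_ne_zero
    · exact h
  have hex : ∀ i : Fin r, ∃ j, ∃ v ∈ E (j + 1), v i = 1 ∧ ∀ k, i < k → v k = 0 := by
    intro i
    refine ⟨s - 1, Pi.single i 1, ?_, Pi.single_eq_same _ _, fun k hk => ?_⟩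
    · rw [Nat.sub_add_cancel hs0, hs]; trivial
    · exact Pi.single_eq_of_ne hk.ne' _
  obtain ⟨κ, hκ⟩ : ∃ κ : Fin r → ℕ, κ = fun i => Nat.find (hex i) := ⟨_, rfl⟩
  have hκm : ∀ i j, (∃ v ∈ E (j + 1), v i = 1 ∧ ∀ k, i < k → v k = 0) → κ i ≤ j := by
    intro i j h
    rw [hκ]
    exact Nat.find_min' (hex i) h
  have hκs : ∀ i, κ i < s := by
    intro i
    have h1 := hκm i (s - 1) ⟨Pi.single i 1, by
      rw [Nat.sub_add_cancel hs0, hs]; trivial, Pi.single_eq_same _ _, fun k hk =>
        Pi.single_eq_of_ne hk.ne' _⟩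
    omega
  have hf : ∀ i, ∃ v ∈ E (κ i + 1), v i = 1 ∧ ∀ k, i < k → v k = 0 := by
    intro i
    rw [hκ]
    exact Nat.find_spec (hex i)
  choose f hfE hf1 hf0 using hf
  obtain ⟨u, hu⟩ : ∃ u : Mat r ℂ, u = Matrix.of fun k i => f i k := ⟨_, rfl⟩
  have huU : UU u := by
    rw [hu]
    exact ⟨fun i j h => hf0 j i h, fun i => hf1 i⟩
  have hus : ∀ i, u *ᵥ Pi.single i 1 = f i := by
    intro i
    rw [mulVec_single_one, hu]
    rfl
  have hui : ∀ i, u⁻¹ *ᵥ f i = Pi.single i 1 := by
    intro i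
    rw [← hus, mulVec_mulVec, huU.inv_mul, one_mulVec]
  -- the coordinates of the elements of `E j`
  have key : ∀ j, ∀ n : ℕ, ∀ v ∈ E j, (∀ k : Fin r, n ≤ (k : ℕ) → v k = 0) →
      ∀ i, (u⁻¹ *ᵥ v) i ≠ 0 → κ i < j := by
    intro j n
    induction n with
    | zero =>
      intro v _ hv i hi
      have h1 : v = 0 := funext fun k => hv k (Nat.zero_le _)
      rw [h1, mulVec_zero] at hi
      exact absurd rfl hi
    | succ n ih =>
      intro v hvE hv i hi
      by_cases hn : n < r
      · by_cases ha : v ⟨n, hn⟩ = 0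
        · refine ih v hvE (fun k hk => ?_) i hi
          rcases Nat.eq_or_lt_of_le hk with h | h
          · have h1 : k = ⟨n, hn⟩ := Fin.ext h.symm
            rw [h1]
            exact ha
          · exact hv k h
        · have hκj : κ ⟨n, hn⟩ < j := by
            rcases Nat.eq_zero_or_pos j with hj | hj
            · rw [hj, h0, Submodule.mem_bot] at hvE
              rw [hvE] at ha
              exact absurd rfl ha
            · have h1 := hκm ⟨n, hn⟩ (j - 1) ⟨(v ⟨n, hn⟩)⁻¹ • v, by
                rw [Nat.sub_add_cancel hj]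
                exact (E j).smul_mem _ hvE, by
                rw [Pi.smul_apply, smul_eq_mul, inv_mul_cancel₀ ha], fun k hk => by
                rw [Pi.smul_apply, hv k (by rw [Fin.lt_def] at hk; exact hk), smul_zero]⟩
              omega
          have hfj : f ⟨n, hn⟩ ∈ E j := hmono hκj (hfE ⟨n, hn⟩)
          by_cases hin : i = ⟨n, hn⟩
          · rw [hin]; exact hκj
          · refine ih (v - v ⟨n, hn⟩ • f ⟨n, hn⟩) ((E j).sub_mem hvE ((E j).smul_mem _ hfj))
              (fun k hk => ?_) i ?_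
            · rw [Pi.sub_apply, Pi.smul_apply, smul_eq_mul]
              rcases Nat.eq_or_lt_of_le hk with h | h
              · have h1 : k = ⟨n, hn⟩ := Fin.ext h.symm
                rw [h1, hf1, mul_one, sub_self]
              · rw [hv k h, hf0 ⟨n, hn⟩ k (by rw [Fin.lt_def]; exact h), mul_zero, sub_zero]
            · rw [mulVec_sub, mulVec_smul, hui, Pi.sub_apply, Pi.smul_apply,
                Pi.single_eq_of_ne hin, smul_zero, sub_zero]
              exact hi
      · exact ih v hvE (fun k hk => absurd (hk.trans_lt k.2) hn) i hi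
  have key' : ∀ j, ∀ v ∈ E j, ∀ i, (u⁻¹ *ᵥ v) i ≠ 0 → κ i < j := fun j v hv =>
    key j r v hv fun k hk => absurd k.2 (not_lt.2 hk)
  have hMe : ∀ i, (u⁻¹ * c * u) *ᵥ Pi.single i 1 =
      u⁻¹ *ᵥ (c *ᵥ f i - ξ (κ i) • f i) + ξ (κ i) • Pi.single i 1 := by
    intro i
    rw [mulVec_sub, mulVec_smul, hui, sub_add_cancel, ← mulVec_mulVec, hus, mulVec_mulVec]
  refine ⟨κ, u, u⁻¹ * c * u, huU, ⟨fun i => ?_, fun k i hki hκ' => ?_⟩, ?_, hκs, fun j _ => ?_⟩
  · have h1 := congrFun (hMe i) i
    rw [mulVec_single_one, col_apply, Pi.add_apply, Pi.smul_apply, Pi.single_eq_same, smul_eq_mul,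
      mul_one] at h1
    rw [h1]
    by_contra hne
    refine lt_irrefl _ (key' (κ i) _ (hE (κ i) (f i) (hfE i)) i fun h2 => hne ?_)
    rw [h2, zero_add]
  · have h1 := congrFun (hMe i) k
    rw [mulVec_single_one, col_apply, Pi.add_apply, Pi.smul_apply, Pi.single_eq_of_ne hki,
      smul_zero, add_zero] at h1
    rw [h1]
    by_contra hne
    exact hκ' (key' (κ i) _ (hE (κ i) (f i) (hfE i)) k hne)
  · rw [← mul_assoc, ← mul_assoc, huU.mul_inv, one_mul]
  · have hspan : E j = Submodule.span ℂ (Set.range fun i : {i // κ i < j} => f i) := by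
      apply le_antisymm
      · intro v hv
        have h1 : v = ∑ i, (u⁻¹ *ᵥ v) i • f i := by
          have h2 : v = u *ᵥ (u⁻¹ *ᵥ v) := by
            rw [mulVec_mulVec, huU.mul_inv, one_mulVec]
          conv_lhs => rw [h2]
          funext k
          rw [Finset.sum_apply, mulVec, dotProduct]
          refine Finset.sum_congr rfl fun i _ => ?_
          rw [Pi.smul_apply, smul_eq_mul, mul_comm]
          congr 1
          rw [hu]
          rfl
        rw [h1]
        refine Submodule.sum_mem _ fun i _ => ?_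
        by_cases hi : (u⁻¹ *ᵥ v) i = 0
        · rw [hi, zero_smul]
          exact Submodule.zero_mem _
        · exact Submodule.smul_mem _ _ (Submodule.subset_span ⟨⟨i, key' j v hv i hi⟩, rfl⟩)
      · rw [Submodule.span_le]
        rintro _ ⟨i, rfl⟩
        exact hmono i.2 (hfE i)
    have hli : LinearIndependent ℂ f := by
      have h1 : LinearIndependent ℂ u.col := by
        rw [Matrix.linearIndependent_cols_iff_isUnit, Matrix.isUnit_iff_isUnit_det]
        exact huU.isUnit
      have h2 : u.col = f := by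
        rw [hu]
        rfl
      rwa [h2] at h1
    have hli' : LinearIndependent ℂ fun i : {i // κ i < j} => f i :=
      hli.comp _ Subtype.val_injective
    rw [hspan, finrank_span_eq_card hli', Fintype.card_subtype]

end Vale.Agent.P002L
end

section

/-!
# P002, genus 0, two regular classes: coordinate subspaces
-/

namespace Vale.Agent.P002R

open Matrix

variable {r : ℕ}

/-- The projector on a coordinate subspace. -/
def pI (I : Finset (Fin r)) : Mat r ℂ := diagonal fun i => if i ∈ I then 1 else 0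

theorem pI_mul (I : Finset (Fin r)) (M : Mat r ℂ) (i j : Fin r) :
    (pI I * M) i j = if i ∈ I then M i j else 0 := by
  rw [pI, Matrix.diagonal_mul]
  split_ifs
  · rw [one_mul]
  · rw [zero_mul]

theorem mul_pI (I : Finset (Fin r)) (M : Mat r ℂ) (i j : Fin r) :
    (M * pI I) i j = if j ∈ I then M i j else 0 := by
  rw [pI, Matrix.mul_diagonal]
  split_ifs
  · rw [mul_one]
  · rw [mul_zero]

theorem pI_sq (I : Finset (Fin r)) : pI I * pI I = pI I := by
  ext i j
  rw [pI_mul]
  split_ifs with h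
  · rfl
  · rw [pI]
    by_cases hij : i = j
    · rw [hij, Matrix.diagonal_apply_eq, if_neg (hij ▸ h)]
    · rw [Matrix.diagonal_apply_ne _ hij]

theorem upT_pI (I : Finset (Fin r)) : UpT (pI I) := upT_diagonal _

theorem loT_pI (I : Finset (Fin r)) : LoT (pI I) := loT_diagonal _

theorem UpT.add {A B : Mat r ℂ} (hA : UpT A) (hB : UpT B) : UpT (A + B) := fun i j h => by
  rw [Matrix.add_apply, hA i j h, hB i j h, add_zero]

theorem LoT.add {A B : Mat r ℂ} (hA : LoT A) (hB : LoT B) : LoT (A + B) := fun i j h => by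
  rw [Matrix.add_apply, hA i j h, hB i j h, add_zero]

theorem UpT.sub {A B : Mat r ℂ} (hA : UpT A) (hB : UpT B) : UpT (A - B) := fun i j h => by
  rw [Matrix.sub_apply, hA i j h, hB i j h, sub_zero]

theorem LoT.sub {A B : Mat r ℂ} (hA : LoT A) (hB : LoT B) : LoT (A - B) := fun i j h => by
  rw [Matrix.sub_apply, hA i j h, hB i j h, sub_zero]

/-- If a coordinate subspace is stable under a product of an upper and a lower triangular matrix,
then it is stable under both. -/
theorem stab_UL {U L : Mat r ℂ} (hU : UpT U) (hU0 : ∀ i, U i i ≠ 0) (hL : LoT L)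
    (hL0 : ∀ i, L i i ≠ 0) (I : Finset (Fin r)) (h : ∀ i, i ∉ I → ∀ j ∈ I, (U * L) i j = 0) :
    (∀ i, i ∉ I → ∀ j ∈ I, U i j = 0) ∧ ∀ i, i ∉ I → ∀ j ∈ I, L i j = 0 := by
  obtain ⟨e, he⟩ : ∃ e : Mat r ℂ, e = pI I := ⟨_, rfl⟩
  obtain ⟨f, hf⟩ : ∃ f : Mat r ℂ, f = 1 - pI I := ⟨_, rfl⟩
  have hee : e * e = e := by rw [he, pI_sq]
  have hfe : f * e = 0 := by rw [hf, ← he, Matrix.sub_mul, Matrix.one_mul, hee, sub_self]
  have hef : e * f = 0 := by rw [hf, ← he, Matrix.mul_sub, Matrix.mul_one, hee, sub_self]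
  have hff : f * f = f := by
    have h1 : f * f = f - f * e := by
      conv_lhs => rw [hf, ← he, Matrix.mul_sub, Matrix.mul_one, Matrix.sub_mul, Matrix.one_mul, hee]
      rw [hfe, hf, ← he]
      abel
    rw [h1, hfe, sub_zero]
  have hef1 : e + f = 1 := by rw [hf, ← he]; abel
  have hUd : IsUnit U.det := by
    rw [hU.det, isUnit_iff_ne_zero, Finset.prod_ne_zero_iff]
    exact fun i _ => hU0 i
  have hLd : IsUnit L.det := by
    rw [hL.det, isUnit_iff_ne_zero, Finset.prod_ne_zero_iff]
    exact fun i _ => hL0 i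
  obtain ⟨V, hV⟩ : ∃ V : Mat r ℂ, V = U⁻¹ := ⟨_, rfl⟩
  have hVU : V * U = 1 := by rw [hV]; exact Matrix.nonsing_inv_mul _ hUd
  have hVt : UpT V := by rw [hV]; exact hU.inv hU0
  have hV0 : ∀ i, V i i ≠ 0 := fun i => by
    rw [hV, inv_diag hU hU0]
    exact inv_ne_zero (hU0 i)
  have hZ : f * (U * L * e) = 0 := by
    ext i j
    rw [hf, Matrix.sub_mul, Matrix.one_mul, Matrix.sub_apply, pI_mul, he, mul_pI,
      Matrix.zero_apply]
    by_cases hi : i ∈ I
    · rw [if_pos hi, sub_self]
    · rw [if_neg hi, sub_zero]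
      split_ifs with hj
      · exact h i hi j hj
      · rfl
  have hZ' : e * (U * L * e) = U * L * e := by
    have h1 : (e + f) * (U * L * e) = U * L * e := by rw [hef1, Matrix.one_mul]
    rwa [Matrix.add_mul, hZ, add_zero] at h1
  have hLe : L * e = V * (e * (U * L * e)) := by
    rw [hZ', ← Matrix.mul_assoc, ← Matrix.mul_assoc, hVU, Matrix.one_mul]
  -- block matrices
  obtain ⟨L', hL'⟩ : ∃ L' : Mat r ℂ, L' = e * L * e + f := ⟨_, rfl⟩
  obtain ⟨V', hV'⟩ : ∃ V' : Mat r ℂ, V' = e * V * e + f := ⟨_, rfl⟩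
  have hft : LoT f := by rw [hf]; exact loT_one.sub (loT_pI I)
  have hfu : UpT f := by rw [hf]; exact upT_one.sub (upT_pI I)
  have hdiag : ∀ (M : Mat r ℂ) i, (e * M * e + f) i i = if i ∈ I then M i i else 1 := by
    intro M i
    rw [Matrix.add_apply, he, mul_pI, pI_mul, hf, Matrix.sub_apply, Matrix.one_apply_eq, pI,
      Matrix.diagonal_apply_eq]
    split_ifs
    · rw [sub_self, add_zero]
    · rw [sub_zero, zero_add]
  have hL't : LoT L' := by
    rw [hL']
    exact (((he ▸ loT_pI I).mul hL).mul (he ▸ loT_pI I)).add hft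
  have hV't : UpT V' := by
    rw [hV']
    exact (((he ▸ upT_pI I).mul hVt).mul (he ▸ upT_pI I)).add hfu
  have hL'0 : ∀ i, L' i i ≠ 0 := fun i => by
    rw [hL', hdiag]
    split_ifs
    · exact hL0 i
    · exact one_ne_zero
  have hV'0 : ∀ i, V' i i ≠ 0 := fun i => by
    rw [hV', hdiag]
    split_ifs
    · exact hV0 i
    · exact one_ne_zero
  have hL'd : IsUnit L'.det := by
    rw [hL't.det, isUnit_iff_ne_zero, Finset.prod_ne_zero_iff]
    exact fun i _ => hL'0 i
  have hV'd : IsUnit V'.det := by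
    rw [hV't.det, isUnit_iff_ne_zero, Finset.prod_ne_zero_iff]
    exact fun i _ => hV'0 i
  -- the key identity
  obtain ⟨M, hM⟩ : ∃ M : Mat r ℂ, M = e * (U * L * e) := ⟨_, rfl⟩
  rw [← hM] at hLe
  have heM : e * M = M := by rw [hM, ← Matrix.mul_assoc, hee]
  have hMe : M * e = M := by
    rw [hM]
    simp only [Matrix.mul_assoc]
    rw [hee]
  have hL'V' : L' = V' * (M + f) := by
    have hfM : f * M = 0 := by rw [← heM, ← Matrix.mul_assoc, hfe, Matrix.zero_mul]
    rw [hL', hV', Matrix.add_mul, Matrix.mul_add, Matrix.mul_add, hff, hfM, zero_add,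
      Matrix.mul_assoc (e * V) e f, hef, Matrix.mul_zero, add_zero, Matrix.mul_assoc (e * V) e M,
      heM, Matrix.mul_assoc e L e, hLe, Matrix.mul_assoc]
  have hT : f * L * e * L'⁻¹ = f * V * e * V'⁻¹ := by
    have h1 : f * L * e = f * V * e * V'⁻¹ * L' := by
      rw [hL'V', ← Matrix.mul_assoc, Matrix.mul_assoc (f * V * e) V'⁻¹ V',
        Matrix.nonsing_inv_mul _ hV'd, Matrix.mul_one, Matrix.mul_add, Matrix.mul_assoc (f * V) e M,
        heM, Matrix.mul_assoc (f * V) e f, hef, Matrix.mul_zero, add_zero, Matrix.mul_assoc f L e,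
        hLe, Matrix.mul_assoc]
    rw [h1, Matrix.mul_assoc, Matrix.mul_nonsing_inv _ hL'd, Matrix.mul_one]
  have hTl : LoT (f * L * e * L'⁻¹) :=
    (((hft.mul hL).mul (he ▸ loT_pI I)).mul (hL't.inv hL'0))
  have hTu : UpT (f * L * e * L'⁻¹) := by
    rw [hT]
    exact (((hfu.mul hVt).mul (he ▸ upT_pI I)).mul (hV't.inv hV'0))
  have hT0 : f * L * e * L'⁻¹ = 0 := by
    ext i j
    rcases lt_trichotomy i j with hij | rfl | hij
    · exact hTl i j hij
    · rw [LoT.mul_diag ((hft.mul hL).mul (he ▸ loT_pI I)) (hL't.inv hL'0),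
        LoT.mul_diag (hft.mul hL) (he ▸ loT_pI I), LoT.mul_diag hft hL, hf, he, Matrix.sub_apply,
        Matrix.one_apply_eq, pI, Matrix.diagonal_apply_eq, Matrix.zero_apply]
      split_ifs
      · ring
      · ring
    · exact hTu i j hij
  have hfLe : f * L * e = 0 := by
    have h1 : f * L * e * L'⁻¹ * L' = 0 := by rw [hT0, Matrix.zero_mul]
    rwa [Matrix.mul_assoc, Matrix.nonsing_inv_mul _ hL'd, Matrix.mul_one] at h1
  have hfVe : f * V * e = 0 := by
    have h1 : f * V * e * V'⁻¹ * V' = 0 := by rw [← hT, hT0, Matrix.zero_mul]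
    rwa [Matrix.mul_assoc, Matrix.nonsing_inv_mul _ hV'd, Matrix.mul_one] at h1
  have heVe : e * V * e = V * e := by
    have h1 : (e + f) * (V * e) = V * e := by rw [hef1, Matrix.one_mul]
    rwa [Matrix.add_mul, ← Matrix.mul_assoc, ← Matrix.mul_assoc f, hfVe, add_zero] at h1
  have hUV : U * V = 1 := by rw [hV]; exact Matrix.mul_nonsing_inv _ hUd
  have hfUe : f * U * e = 0 := by
    have h1 : f * U * e * V' = 0 := by
      rw [hV', Matrix.mul_add, Matrix.mul_assoc (f * U) e f, hef, Matrix.mul_zero, add_zero, heVe,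
        Matrix.mul_assoc (f * U) e, ← Matrix.mul_assoc e V e, heVe, Matrix.mul_assoc f U,
        ← Matrix.mul_assoc U V e, hUV, Matrix.one_mul, hfe]
    have h2 : f * U * e * V' * V'⁻¹ = 0 := by rw [h1, Matrix.zero_mul]
    rwa [Matrix.mul_assoc, Matrix.mul_nonsing_inv _ hV'd, Matrix.mul_one] at h2
  have hconv : ∀ M : Mat r ℂ, f * M * e = 0 → ∀ i, i ∉ I → ∀ j ∈ I, M i j = 0 := by
    intro M hM i hi j hj
    have h1 := congrFun (congrFun hM i) j
    rwa [he, mul_pI, if_pos hj, hf, Matrix.sub_mul, Matrix.one_mul, Matrix.sub_apply, pI_mul,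
      if_neg hi, sub_zero] at h1
  exact ⟨hconv U hfUe, hconv L hfLe⟩

end Vale.Agent.P002R
end


theorem P002.eqforce_aftL : True := by
  have _h := @Vale.Agent.P002R.aftL.eq_1
  exact trivial

theorem P002.eqforce_wP : True := by
  have _h := @Vale.Agent.P002R.wP.eq_1.{0}
  exact trivial

theorem P002.eqforce_theta : True := by
  have _h := @Vale.Agent.P002R.theta.eq_1.{0}
  exact trivial
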