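import Mathlib

set_option linter.all false

@[reducible] def Vale.Agent.P002Fast.coeU2 {M : Type*} [Monoid M] (u : Mˣ) : CoeT Mˣ u M := ⟨Units.val u⟩
attribute [local instance] Vale.Agent.P002Fast.coeU2

section

namespace Vale.Agent.P002

open Matrix

/-- Free group on `a_0, b_0, ..., a_{g-1}, b_{g-1}`: `(i, false)` is `a_i` and `(i, true)` is `b_i`. -/
abbrev F (g : ℕ) := FreeGroup (Fin g × Bool)

/-- The generator `a_i`. -/
def ga {g : ℕ} (i : Fin g) : F g := FreeGroup.of (i, false)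

/-- The generator `b_i`. -/
def gb {g : ℕ} (i : Fin g) : F g := FreeGroup.of (i, true)

/-- The commutator `[a_i, b_i]`. -/
def hcomm {g : ℕ} (i : Fin g) : F g := ga i * gb i * (ga i)⁻¹ * (gb i)⁻¹

/-- Square matrices of size `r`. -/
abbrev Mat (r : ℕ) (S : Type*) := Matrix (Fin r) (Fin r) S

variable {g r : ℕ} {S T : Type*} [CommRing S] [CommRing T]

/-- The invertible complex matrix attached to an element of `SL_r(R)` and a ring homomorphism. -/
noncomputable def slU {r : ℕ} {R : Type*} [CommRing R] (φ : R →+* ℂ) :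
    SpecialLinearGroup (Fin r) R →* (Mat r ℂ)ˣ :=
  SpecialLinearGroup.toGL.comp (SpecialLinearGroup.map φ)

/-- A family of invertible matrices is semisimple: every invariant subspace has an invariant
complement. -/
def SS {G : Type*} [Group G] {r : ℕ} (x : G →* (Mat r ℂ)ˣ) : Prop :=
  ∀ W : Submodule ℂ (Fin r → ℂ), (∀ w, ∀ v ∈ W, (x w : Mat r ℂ) *ᵥ v ∈ W) →
    ∃ W' : Submodule ℂ (Fin r → ℂ), (∀ w, ∀ v ∈ W', (x w : Mat r ℂ) *ᵥ v ∈ W') ∧ IsCompl W W'

/-- The relation of the surface group for a tuple of matrices. -/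
noncomputable def relT (X : Fin g × Bool → Mat r ℂ) : Mat r ℂ :=
  (List.ofFn fun i : Fin g =>
    X (i, false) * X (i, true) * (X (i, false))⁻¹ * (X (i, true))⁻¹).prod

/-! ### Equations (stated here so that they are generated in this file) -/

end Vale.Agent.P002
end

section

namespace Vale.Agent.P002

open Matrix

variable {r : ℕ}

/-- Polynomials vanishing on the scaled integral unimodular matrices. -/
def VanT (f : MvPolynomial (Fin r × Fin r) ℂ) : Prop :=
  ∀ (c : ℂˣ) (X : SpecialLinearGroup (Fin r) ℤ),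
    MvPolynomial.eval (fun p => (c : ℂ) * ((X.1 p.1 p.2 : ℤ) : ℂ)) f = 0

/-- The Zariski closure of the scaled integral unimodular matrices. -/
def ZT (M : Mat r ℂ) : Prop :=
  ∀ f : MvPolynomial (Fin r × Fin r) ℂ, VanT f →
    MvPolynomial.eval (fun p => M p.1 p.2) f = 0

/-- Substitution of `A * M` for `M`. -/
noncomputable def lsub (A : Mat r ℂ) :
    MvPolynomial (Fin r × Fin r) ℂ →ₐ[ℂ] MvPolynomial (Fin r × Fin r) ℂ :=
  MvPolynomial.aeval fun p => ∑ k, MvPolynomial.C (A p.1 k) * MvPolynomial.X (k, p.2)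

theorem eval_lsub (A M : Mat r ℂ) (f : MvPolynomial (Fin r × Fin r) ℂ) :
    MvPolynomial.eval (fun p => M p.1 p.2) (lsub A f) =
      MvPolynomial.eval (fun p => (A * M) p.1 p.2) f := by
  induction f using MvPolynomial.induction_on with
  | C a => simp [lsub]
  | add f g hf hg => simp [map_add, hf, hg]
  | mul_X f p hf =>
    rw [map_mul, map_mul, map_mul, hf]
    congr 1
    simp [lsub, Matrix.mul_apply]

theorem ZT.scalar_mul {M : Mat r ℂ} (hM : ZT M) (c : ℂˣ) : ZT ((c : ℂ) • M) := by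
  intro f hf
  have h1 : VanT (lsub ((c : ℂ) • (1 : Mat r ℂ)) f) := by
    intro c' X
    have := eval_lsub ((c : ℂ) • (1 : Mat r ℂ))
      (Matrix.of fun i j => (c' : ℂ) * ((X.1 i j : ℤ) : ℂ)) f
    simp only [Matrix.of_apply] at this
    rw [this]
    have h2 := hf (c * c') X
    rw [← h2]
    congr 2
    ext p
    simp [mul_assoc]
  have h2 := hM _ h1
  rw [eval_lsub] at h2
  rw [← h2]
  congr 2
  simp

theorem ZT.transvection_int {M : Mat r ℂ} (hM : ZT M) {i j : Fin r} (hij : i ≠ j) (m : ℤ) :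
    ZT (transvection i j (m : ℂ) * M) := by
  intro f hf
  have h1 : VanT (lsub (transvection i j (m : ℂ)) f) := by
    intro c' X
    have := eval_lsub (transvection i j (m : ℂ))
      (Matrix.of fun i j => (c' : ℂ) * ((X.1 i j : ℤ) : ℂ)) f
    simp only [Matrix.of_apply] at this
    rw [this]
    have h2 := hf c' (SpecialLinearGroup.transvection hij m * X)
    rw [← h2]
    congr 2
    ext p
    have h3 : (SpecialLinearGroup.transvection hij m * X).1 =
      transvection i j m * X.1 := rfl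
    rw [h3]
    by_cases hp : p.1 = i
    · rw [hp, transvection_mul_apply_same, transvection_mul_apply_same]
      simp only [Matrix.of_apply]
      push_cast
      ring
    · rw [transvection_mul_apply_of_ne _ _ _ _ hp, transvection_mul_apply_of_ne _ _ _ _ hp]
      simp only [Matrix.of_apply]
  have h2 := hM _ h1
  rw [eval_lsub] at h2
  exact h2

/-- A polynomial along a transvection. -/
noncomputable def linePoly (M : Mat r ℂ) (i j : Fin r) (f : MvPolynomial (Fin r × Fin r) ℂ) :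
    Polynomial ℂ :=
  MvPolynomial.aeval (fun p => Polynomial.C (M p.1 p.2) +
    if p.1 = i then Polynomial.X * Polynomial.C (M j p.2) else 0) f

theorem eval_linePoly (M : Mat r ℂ) (i j : Fin r)
    (f : MvPolynomial (Fin r × Fin r) ℂ) (t : ℂ) :
    (linePoly M i j f).eval t =
      MvPolynomial.eval (fun p => (transvection i j t * M) p.1 p.2) f := by
  induction f using MvPolynomial.induction_on with
  | C a => simp [linePoly]
  | add f g hf hg =>
    rw [map_add, ← hf, ← hg]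
    simp [linePoly]
  | mul_X f p hf =>
    rw [map_mul, ← hf]
    have : linePoly M i j (f * MvPolynomial.X p) = linePoly M i j f *
        (Polynomial.C (M p.1 p.2) +
          if p.1 = i then Polynomial.X * Polynomial.C (M j p.2) else 0) := by
      simp [linePoly]
    rw [this, Polynomial.eval_mul]
    congr 1
    rw [MvPolynomial.eval_X]
    by_cases hp : p.1 = i
    · rw [if_pos hp, hp, transvection_mul_apply_same]
      simp only [Polynomial.eval_add, Polynomial.eval_mul, Polynomial.eval_C, Polynomial.eval_X]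
    · rw [if_neg hp, transvection_mul_apply_of_ne _ _ _ _ hp]
      simp

theorem ZT.transvection {M : Mat r ℂ} (hM : ZT M) {i j : Fin r} (hij : i ≠ j) (t : ℂ) :
    ZT (Matrix.transvection i j t * M) := by
  intro f hf
  have h0 : linePoly M i j f = 0 := by
    apply Polynomial.eq_zero_of_infinite_isRoot
    apply Set.Infinite.mono (s := Set.range fun m : ℤ => (m : ℂ))
    · rintro _ ⟨m, rfl⟩
      change (linePoly M i j f).eval (m : ℂ) = 0
      rw [eval_linePoly]
      exact hM.transvection_int hij m f hf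
    · exact Set.infinite_range_of_injective Int.cast_injective
  rw [← eval_linePoly, h0, Polynomial.eval_zero]

theorem tmul (i j : Fin r) (s : ℂ) (M : Mat r ℂ) (a b : Fin r) :
    (Matrix.transvection i j s * M) a b = M a b + if a = i then s * M j b else 0 := by
  by_cases ha : a = i
  · rw [if_pos ha, ha, transvection_mul_apply_same]
  · rw [if_neg ha, transvection_mul_apply_of_ne _ _ _ _ ha, add_zero]

/-- Whitehead's identity. -/
theorem whitehead {i j : Fin r} (hij : i ≠ j) (s : ℂ) (hs : s ≠ 0) (M : Mat r ℂ) :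
    diagonal (fun k => if k = i then s else if k = j then s⁻¹ else 1) * M =
      Matrix.transvection i j (s - 1) * (Matrix.transvection j i 1 *
        (Matrix.transvection i j (s⁻¹ - 1) * (Matrix.transvection j i (-s) * M))) := by
  have hji : j ≠ i := hij.symm
  ext a b
  rw [diagonal_mul]
  simp only [tmul]
  by_cases ha : a = i
  · subst ha
    simp only [if_true, if_neg hij, if_neg hji]
    field_simp
    ring
  · by_cases ha' : a = j
    · subst ha'
      simp only [if_true, if_neg hij, if_neg hji]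
      field_simp
      ring
    · simp only [if_neg ha, if_neg ha', one_mul, add_zero]

/-- Left multiplication by `A` preserves the closure. -/
def QT (A : Mat r ℂ) : Prop := ∀ M, ZT M → ZT (A * M)

theorem QT.mul {A B : Mat r ℂ} (hA : QT A) (hB : QT B) : QT (A * B) := by
  intro M hM
  rw [Matrix.mul_assoc]
  exact hA _ (hB _ hM)

theorem QT.transvection {i j : Fin r} (hij : i ≠ j) (t : ℂ) : QT (Matrix.transvection i j t) :=
  fun _ hM => hM.transvection hij t

theorem QT.scalar (c : ℂˣ) : QT ((c : ℂ) • (1 : Mat r ℂ)) := by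
  intro M hM
  rw [Matrix.smul_mul, Matrix.one_mul]
  exact hM.scalar_mul c

theorem QT.one : QT (1 : Mat r ℂ) := by
  intro M hM
  rwa [Matrix.one_mul]

theorem QT.white {i j : Fin r} (hij : i ≠ j) (s : ℂ) (hs : s ≠ 0) :
    QT (diagonal (fun k => if k = i then s else if k = j then s⁻¹ else 1)) := by
  intro M hM
  rw [whitehead hij s hs]
  exact (((hM.transvection hij.symm _).transvection hij _).transvection hij.symm _).transvection
    hij _

theorem QT.diag_aux (i₀ : Fin r) (s : Fin r → ℂ) (hs : ∀ i, s i ≠ 0) (t : Finset (Fin r))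
    (ht : i₀ ∉ t) :
    QT (diagonal (fun k => if k = i₀ then (∏ i ∈ t, s i)⁻¹ else if k ∈ t then s k else 1)) := by
  induction t using Finset.induction_on with
  | empty =>
    have : (diagonal (fun k => if k = i₀ then (∏ i ∈ (∅ : Finset (Fin r)), s i)⁻¹ else
        if k ∈ (∅ : Finset (Fin r)) then s k else 1)) = (1 : Mat r ℂ) := by
      rw [← diagonal_one]
      congr 1
      ext k
      simp
    rw [this]
    exact QT.one
  | insert a t ha ih =>
    have h1 : a ≠ i₀ := fun h => ht (h ▸ Finset.mem_insert_self a t)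
    have h2 : i₀ ∉ t := fun h => ht (Finset.mem_insert_of_mem h)
    have h3 := (QT.white h1 (s a) (hs a)).mul (ih h2)
    rw [diagonal_mul_diagonal] at h3
    refine (congrArg (fun d : Fin r → ℂ => QT (diagonal d)) (funext fun k => ?_)).mpr h3
    by_cases hk : k = i₀
    · subst hk
      rw [if_pos rfl, if_neg (Ne.symm h1), if_pos rfl, if_pos rfl, Finset.prod_insert ha, mul_inv]
    · rw [if_neg hk, if_neg hk, if_neg hk]
      by_cases hka : k = a
      · subst hka
        rw [if_pos (Finset.mem_insert_self k t), if_pos rfl, if_neg ha, mul_one]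
      · rw [if_neg hka, one_mul]
        congr 1
        simp [hka]

theorem QT.diag (hr : 0 < r) (s : Fin r → ℂ) (hs : ∀ i, s i ≠ 0) (hp : ∏ i, s i = 1) :
    QT (diagonal s) := by
  have h := QT.diag_aux ⟨0, hr⟩ s hs (Finset.univ.erase ⟨0, hr⟩) (Finset.notMem_erase _ _)
  refine (congrArg (fun d : Fin r → ℂ => QT (diagonal d)) (funext fun k => ?_)).mpr h
  by_cases hk : k = ⟨0, hr⟩
  · subst hk
    rw [if_pos rfl]
    rw [← Finset.mul_prod_erase Finset.univ s (Finset.mem_univ ⟨0, hr⟩)] at hp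
    exact eq_inv_of_mul_eq_one_left hp
  · rw [if_neg hk, if_pos (Finset.mem_erase.mpr ⟨hk, Finset.mem_univ k⟩)]

theorem QT.of_det_ne_zero (hr : 0 < r) (M : Mat r ℂ) (hM : M.det ≠ 0) : QT M := by
  refine diagonal_transvection_induction QT M ?_ ?_ ?_
  · intro D hD
    obtain ⟨c, hc⟩ := IsAlgClosed.exists_pow_nat_eq M.det hr
    have hc0 : c ≠ 0 := by
      rintro rfl
      rw [zero_pow hr.ne'] at hc
      exact hM hc.symm
    have hD' : ∏ i, D i = c ^ r := by
      rw [hc, ← hD, det_diagonal]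
    have hDi : ∀ i, D i ≠ 0 := by
      intro i hi
      apply pow_ne_zero r hc0
      rw [← hD']
      exact Finset.prod_eq_zero (Finset.mem_univ i) hi
    have h1 : (diagonal D : Mat r ℂ) =
        ((Units.mk0 c hc0 : ℂˣ) : ℂ) • (1 : Mat r ℂ) * diagonal (fun i => c⁻¹ * D i) := by
      rw [Matrix.smul_mul, Matrix.one_mul, ← diagonal_smul]
      congr 1
      ext i
      simp [hc0]
    rw [h1]
    refine (QT.scalar _).mul (QT.diag hr _ (fun i => mul_ne_zero (inv_ne_zero hc0) (hDi i)) ?_)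
    rw [Finset.prod_mul_distrib, hD', Finset.prod_const, Finset.card_univ, Fintype.card_fin,
      ← mul_pow, inv_mul_cancel₀ hc0, one_pow]
  · intro t
    exact QT.transvection t.hij t.c
  · intro A B hA hB
    exact hA.mul hB

theorem ZT.one : ZT (1 : Mat r ℂ) := by
  intro f hf
  have := hf 1 1
  rw [← this]
  congr 2
  ext p
  have h : (1 : SpecialLinearGroup (Fin r) ℤ).1 = 1 := rfl
  rw [h, Matrix.one_apply, Matrix.one_apply]
  split <;> simp

theorem ZT.of_det_ne_zero (M : Mat r ℂ) (hM : M.det ≠ 0) : ZT M := by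
  rcases Nat.eq_zero_or_pos r with hr | hr
  · subst hr
    have : M = 1 := Subsingleton.elim _ _
    rw [this]
    exact ZT.one
  · have h := QT.of_det_ne_zero hr M hM 1 ZT.one
    rwa [Matrix.mul_one] at h

theorem scaledSL_dense (f : MvPolynomial (Fin r × Fin r) ℂ)
    (hf : ∀ (c : ℂˣ) (X : SpecialLinearGroup (Fin r) ℤ),
      MvPolynomial.eval (fun p => (c : ℂ) * ((X.1 p.1 p.2 : ℤ) : ℂ)) f = 0) : f = 0 := by
  have h1 : f * (mvPolynomialX (Fin r) (Fin r) ℂ).det = 0 := by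
    apply MvPolynomial.funext
    intro x
    rw [map_mul, map_zero]
    have h2 : MvPolynomial.eval x (mvPolynomialX (Fin r) (Fin r) ℂ).det =
        (Matrix.of fun i j => x (i, j)).det := by
      rw [RingHom.map_det]
      congr 1
      ext i j
      simp [mvPolynomialX]
    by_cases h3 : (Matrix.of fun i j => x (i, j)).det = 0
    · rw [h2, h3, mul_zero]
    · have h4 := ZT.of_det_ne_zero _ h3 f hf
      simp only [Matrix.of_apply] at h4
      have h5 : (fun p : Fin r × Fin r => x (p.1, p.2)) = x := rfl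
      rw [h5] at h4
      rw [h4, zero_mul]
  rcases mul_eq_zero.mp h1 with h | h
  · exact h
  · exact absurd h (det_mvPolynomialX_ne_zero (Fin r) ℂ)

variable {g : ℕ}

/-- The version for several matrices. -/
theorem multi_dense (P : MvPolynomial (Fin g × Fin r × Fin r) ℂ)
    (hP : ∀ (c : Fin g → ℂˣ) (X : Fin g → SpecialLinearGroup (Fin r) ℤ),
      MvPolynomial.eval (fun p => (c p.1 : ℂ) * (((X p.1).1 p.2.1 p.2.2 : ℤ) : ℂ)) P = 0) :
    P = 0 := by
  have key : ∀ (t : Finset (Fin g)) (M : Fin g → Mat r ℂ),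
      (∀ i, i ∉ t → ∃ (c : ℂˣ) (X : SpecialLinearGroup (Fin r) ℤ), ∀ a b,
        M i a b = (c : ℂ) * ((X.1 a b : ℤ) : ℂ)) →
      MvPolynomial.eval (fun p => M p.1 p.2.1 p.2.2) P = 0 := by
    intro t
    induction t using Finset.induction_on with
    | empty =>
      intro M hM
      choose c X h using fun i => hM i (Finset.notMem_empty i)
      rw [← hP c X]
      congr 2
      ext p
      exact h p.1 p.2.1 p.2.2
    | insert a t ha ih =>
      intro M hM
      obtain ⟨Pa, hPa⟩ : ∃ Pa : MvPolynomial (Fin r × Fin r) ℂ, Pa =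
        MvPolynomial.aeval (fun p : Fin g × Fin r × Fin r =>
          if p.1 = a then MvPolynomial.X p.2 else MvPolynomial.C (M p.1 p.2.1 p.2.2)) P :=
        ⟨_, rfl⟩
      have h1 : ∀ N : Mat r ℂ, MvPolynomial.eval (fun p => N p.1 p.2) Pa =
          MvPolynomial.eval (fun p => (Function.update M a N) p.1 p.2.1 p.2.2) P := by
        intro N
        rw [hPa]
        clear hP ih hM hPa
        induction P using MvPolynomial.induction_on with
        | C x => simp
        | add f g hf hg => simp only [map_add, hf, hg]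
        | mul_X f p hf =>
          rw [map_mul, map_mul, map_mul, hf]
          congr 1
          rw [MvPolynomial.aeval_X, MvPolynomial.eval_X]
          by_cases hp : p.1 = a
          · rw [if_pos hp, MvPolynomial.eval_X, hp, Function.update_self]
          · rw [if_neg hp, MvPolynomial.eval_C, Function.update_of_ne hp]
      have h2 : Pa = 0 := by
        refine scaledSL_dense Pa fun c X => ?_
        have h3 := h1 (Matrix.of fun i j => (c : ℂ) * ((X.1 i j : ℤ) : ℂ))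
        simp only [Matrix.of_apply] at h3
        rw [h3]
        apply ih
        intro i hi
        by_cases hia : i = a
        · subst hia
          refine ⟨c, X, fun x y => ?_⟩
          rw [Function.update_self]
          rfl
        · rw [Function.update_of_ne hia]
          apply hM
          rw [Finset.mem_insert]
          push Not
          exact ⟨hia, hi⟩
      have h3 := h1 (M a)
      rw [Function.update_eq_self] at h3
      rw [← h3, h2, map_zero]
  apply MvPolynomial.funext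
  intro x
  rw [map_zero]
  exact key Finset.univ (fun i => Matrix.of fun a b => x (i, a, b))
    (fun i hi => absurd (Finset.mem_univ i) hi)

theorem single_mem_adjoin (d : Fin r → ℂ) (hd : Function.Injective d) (i : Fin r) :
    Matrix.single i i (1 : ℂ) ∈ Algebra.adjoin ℂ {(diagonal d : Mat r ℂ)} := by
  have h1 : (Pi.single i 1 : Fin r → ℂ) ∈ Algebra.adjoin ℂ {d} := by
    have h2 : (∏ k ∈ Finset.univ.erase i, (d i - d k)) ≠ 0 := by
      rw [Finset.prod_ne_zero_iff]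
      intro k hk
      rw [sub_ne_zero]
      exact fun h => (Finset.ne_of_mem_erase hk) (hd h).symm
    have h3 : (Pi.single i 1 : Fin r → ℂ) = (∏ k ∈ Finset.univ.erase i, (d i - d k))⁻¹ •
        ∏ k ∈ Finset.univ.erase i, (d - algebraMap ℂ (Fin r → ℂ) (d k)) := by
      ext j
      rw [Pi.smul_apply, Finset.prod_apply]
      by_cases hj : j = i
      · subst hj
        rw [Pi.single_eq_same]
        simp only [Pi.sub_apply, Pi.algebraMap_apply, Algebra.algebraMap_self, RingHom.id_apply,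
          smul_eq_mul]
        rw [inv_mul_cancel₀ h2]
      · rw [Pi.single_eq_of_ne hj]
        have h4 : ∏ c ∈ Finset.univ.erase i, (d - (algebraMap ℂ (Fin r → ℂ)) (d c)) j = 0 := by
          refine Finset.prod_eq_zero (Finset.mem_erase.mpr ⟨hj, Finset.mem_univ j⟩) ?_
          simp
        rw [h4, smul_zero]
    rw [h3]
    apply Subalgebra.smul_mem
    apply Subalgebra.prod_mem
    intro k _
    apply Subalgebra.sub_mem
    · exact Algebra.subset_adjoin rfl
    · exact Subalgebra.algebraMap_mem _ _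
  have h2 : (diagonalAlgHom ℂ : (Fin r → ℂ) →ₐ[ℂ] Mat r ℂ) (Pi.single i 1) ∈
      (Algebra.adjoin ℂ {d}).map (diagonalAlgHom ℂ) := Subalgebra.mem_map.mpr ⟨_, h1, rfl⟩
  rw [AlgHom.map_adjoin, Set.image_singleton] at h2
  have h3 : (diagonalAlgHom ℂ : (Fin r → ℂ) →ₐ[ℂ] Mat r ℂ) (Pi.single i 1) =
      Matrix.single i i (1 : ℂ) := by
    rw [diagonalAlgHom_apply, diagonal_single]
  rw [h3] at h2
  exact h2

theorem adjoin_pair (A : Fin g → Mat r ℂ) (i₀ i₁ : Fin g)
    (h0 : A i₀ = diagonal fun k : Fin r => ((k : ℕ) : ℂ)) (h1 : A i₁ = Matrix.of fun _ _ => 1) :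
    Algebra.adjoin ℂ (Set.range A) = ⊤ := by
  have hd : Function.Injective fun k : Fin r => ((k : ℕ) : ℂ) := by
    intro a b hab
    exact Fin.ext (Nat.cast_injective hab)
  have hs : ∀ i, Matrix.single i i (1 : ℂ) ∈ Algebra.adjoin ℂ (Set.range A) := by
    intro i
    refine Algebra.adjoin_mono ?_ (single_mem_adjoin _ hd i)
    rintro _ rfl
    exact ⟨i₀, h0⟩
  have hJ : (Matrix.of fun _ _ => 1 : Mat r ℂ) ∈ Algebra.adjoin ℂ (Set.range A) :=
    Algebra.subset_adjoin ⟨i₁, h1⟩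
  have hij : ∀ i j, Matrix.single i j (1 : ℂ) ∈ Algebra.adjoin ℂ (Set.range A) := by
    intro i j
    have : Matrix.single i j (1 : ℂ) =
        Matrix.single i i (1 : ℂ) * (Matrix.of fun _ _ => 1 : Mat r ℂ) * Matrix.single j j 1 := by
      rw [Matrix.single_mul_mul_single]
      simp
    rw [this]
    exact Subalgebra.mul_mem _ (Subalgebra.mul_mem _ (hs i) hJ) (hs j)
  rw [eq_top_iff]
  intro M _
  rw [matrix_eq_sum_single M]
  refine Subalgebra.sum_mem _ fun i _ => Subalgebra.sum_mem _ fun j _ => ?_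
  have : Matrix.single i j (M i j) = M i j • Matrix.single i j (1 : ℂ) := by
    rw [Matrix.smul_single, smul_eq_mul, mul_one]
  rw [this]
  exact Subalgebra.smul_mem _ (hij i j) _

/-- A polynomial condition that implies generation of the full matrix algebra. -/
theorem exists_generating_poly (hg : 2 ≤ g) :
    ∃ h : MvPolynomial (Fin g × Fin r × Fin r) ℂ, h ≠ 0 ∧ ∀ A : Fin g → Mat r ℂ,
      MvPolynomial.eval (fun p => A p.1 p.2.1 p.2.2) h ≠ 0 →
        Algebra.adjoin ℂ (Set.range A) = ⊤ := by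
  obtain ⟨B, hB⟩ : ∃ B : Fin g → Mat r ℂ, Algebra.adjoin ℂ (Set.range B) = ⊤ := by
    refine ⟨fun i => if (i : ℕ) = 0 then diagonal fun k : Fin r => ((k : ℕ) : ℂ) else
      Matrix.of fun _ _ => 1, ?_⟩
    refine adjoin_pair _ ⟨0, by omega⟩ ⟨1, by omega⟩ ?_ ?_
    · simp
    · simp
  have hspan : Submodule.span ℂ (Set.range (FreeMonoid.lift B)) = ⊤ := by
    have h1 : Submodule.span ℂ (Submonoid.closure (Set.range B) : Set (Mat r ℂ)) = ⊤ := by
      rw [← Algebra.adjoin_eq_span, hB, Algebra.top_toSubmodule]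
    rw [← h1]
    congr 1
    rw [← FreeMonoid.mrange_lift]
    rfl
  obtain ⟨κ, a, _, hsp, hli⟩ := exists_linearIndependent' ℂ (FreeMonoid.lift B)
  rw [hspan] at hsp
  let b : Module.Basis κ ℂ (Mat r ℂ) := Module.Basis.mk hli hsp.ge
  let e : κ ≃ Fin r × Fin r := b.indexEquiv (Matrix.stdBasis ℂ (Fin r) (Fin r))
  let w : Fin r × Fin r → FreeMonoid (Fin g) := a ∘ e.symm
  have hw : LinearIndependent ℂ (fun k => FreeMonoid.lift B (w k)) :=
    hli.comp e.symm e.symm.injective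
  let G : Fin g → Matrix (Fin r) (Fin r) (MvPolynomial (Fin g × Fin r × Fin r) ℂ) :=
    fun i => Matrix.of fun a b => MvPolynomial.X (i, a, b)
  let Mk : Matrix (Fin r × Fin r) (Fin r × Fin r) (MvPolynomial (Fin g × Fin r × Fin r) ℂ) :=
    Matrix.of fun k p => (FreeMonoid.lift G (w k)) p.1 p.2
  have hev : ∀ A : Fin g → Mat r ℂ,
      MvPolynomial.eval (fun p => A p.1 p.2.1 p.2.2) Mk.det =
        (Matrix.of fun k p : Fin r × Fin r => (FreeMonoid.lift A (w k)) p.1 p.2).det := by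
    intro A
    rw [RingHom.map_det]
    congr 1
    ext k p
    have h1 : ∀ u : FreeMonoid (Fin g),
        (MvPolynomial.eval (fun p : Fin g × Fin r × Fin r => A p.1 p.2.1 p.2.2)).mapMatrix
          (FreeMonoid.lift G u) = FreeMonoid.lift A u := by
      intro u
      induction u using FreeMonoid.inductionOn' with
      | one => simp
      | of_mul x xs ih =>
        rw [map_mul, map_mul, map_mul, ih]
        congr 1
        rw [FreeMonoid.lift_eval_of, FreeMonoid.lift_eval_of]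
        ext i j
        simp [G]
    have h2 := congrFun (congrFun (h1 (w k)) p.1) p.2
    exact h2
  refine ⟨Mk.det, ?_, ?_⟩
  · intro h0
    have h1 := hev B
    rw [h0, map_zero] at h1
    obtain ⟨v, hv, hv'⟩ := Matrix.exists_vecMul_eq_zero_iff.mpr h1.symm
    apply hv
    have h2 : ∑ k, v k • FreeMonoid.lift B (w k) = 0 := by
      ext i j
      have h3 := congrFun hv' (i, j)
      rw [Matrix.sum_apply]
      simpa [Matrix.vecMul, dotProduct] using h3
    have h3 := (Fintype.linearIndependent_iff.mp hw) v h2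
    ext k
    exact h3 k
  · intro A hA
    rw [hev A] at hA
    have hli' : LinearIndependent ℂ (fun k => FreeMonoid.lift A (w k)) := by
      rw [Fintype.linearIndependent_iff]
      intro v hv k
      by_contra hk
      apply hA
      apply Matrix.exists_vecMul_eq_zero_iff.mp
      refine ⟨v, fun h => hk (congrFun h k), ?_⟩
      ext p
      have h3 := congrFun (congrFun hv p.1) p.2
      rw [Matrix.sum_apply] at h3
      simpa [Matrix.vecMul, dotProduct] using h3
    have hsp' : Submodule.span ℂ (Set.range fun k => FreeMonoid.lift A (w k)) = ⊤ := by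
      apply hli'.span_eq_top_of_card_eq_finrank'
      rw [Module.finrank_matrix]
      simp
    have h4 : Submodule.span ℂ (Set.range fun k => FreeMonoid.lift A (w k)) ≤
        Subalgebra.toSubmodule (Algebra.adjoin ℂ (Set.range A)) := by
      rw [Submodule.span_le]
      rintro _ ⟨k, rfl⟩
      have h5 : FreeMonoid.lift A (w k) ∈ Submonoid.closure (Set.range A) := by
        rw [← FreeMonoid.mrange_lift]
        exact ⟨w k, rfl⟩
      change FreeMonoid.lift A (w k) ∈ Algebra.adjoin ℂ (Set.range A)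
      exact (Submonoid.closure_le (S := (Algebra.adjoin ℂ (Set.range A)).toSubsemiring.toSubmonoid)).mpr
        Algebra.subset_adjoin h5
    rw [hsp'] at h4
    rw [eq_top_iff]
    intro M _
    exact h4 (Submodule.mem_top (x := M))

end Vale.Agent.P002
end

section

/-! TASK L: reducible representations. -/

namespace Vale.Agent.P002

open Matrix

section SemiSimple

variable {G : Type*} [Group G] {r r₁ r₂ : ℕ}

/-- invariant subspaces -/
def InvS (x : G →* (Mat r ℂ)ˣ) (W : Submodule ℂ (Fin r → ℂ)) : Prop :=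
  ∀ w, ∀ v ∈ W, (x w : Mat r ℂ) *ᵥ v ∈ W

/-- relative semisimplicity of an invariant subspace -/
def RelSS (x : G →* (Mat r ℂ)ˣ) (E : Submodule ℂ (Fin r → ℂ)) : Prop :=
  ∀ W ≤ E, InvS x W → ∃ W' ≤ E, InvS x W' ∧ W ⊓ W' = ⊥ ∧ W ⊔ W' = E

theorem InvS.inf {x : G →* (Mat r ℂ)ˣ} {W W' : Submodule ℂ (Fin r → ℂ)} (h : InvS x W)
    (h' : InvS x W') : InvS x (W ⊓ W') := fun w v hv => ⟨h w v hv.1, h' w v hv.2⟩

theorem InvS.sup {x : G →* (Mat r ℂ)ˣ} {W W' : Submodule ℂ (Fin r → ℂ)} (h : InvS x W)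
    (h' : InvS x W') : InvS x (W ⊔ W') := by
  intro w v hv
  obtain ⟨a, ha, b, hb, rfl⟩ := Submodule.mem_sup.mp hv
  rw [mulVec_add]
  exact Submodule.mem_sup.mpr ⟨_, h w a ha, _, h' w b hb, rfl⟩

theorem ss_iff_relSS_top (x : G →* (Mat r ℂ)ˣ) : SS x ↔ RelSS x ⊤ := by
  constructor
  · intro h W _ hW
    obtain ⟨W', h1, h2⟩ := h W hW
    exact ⟨W', le_top, h1, h2.inf_eq_bot, h2.sup_eq_top⟩
  · intro h W hW
    obtain ⟨W', _, h1, h2, h3⟩ := h W le_top hW
    exact ⟨W', h1, isCompl_iff.mpr ⟨disjoint_iff.mpr h2, codisjoint_iff.mpr h3⟩⟩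

theorem RelSS.of_top {x : G →* (Mat r ℂ)ˣ} (h : RelSS x ⊤) {E : Submodule ℂ (Fin r → ℂ)}
    (hE : InvS x E) : RelSS x E := by
  intro W hW hinv
  obtain ⟨W', _, h1, h2, h3⟩ := h W le_top hinv
  refine ⟨W' ⊓ E, inf_le_right, h1.inf hE, ?_, ?_⟩
  · rw [← inf_assoc, h2, bot_inf_eq]
  · rw [← sup_inf_assoc_of_le W' hW, h3, top_inf_eq]

theorem RelSS.of_compl {x : G →* (Mat r ℂ)ˣ} {E₁ E₂ : Submodule ℂ (Fin r → ℂ)}
    (hc : IsCompl E₁ E₂) (h1 : InvS x E₁) (h2 : InvS x E₂) (s1 : RelSS x E₁) (s2 : RelSS x E₂) :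
    RelSS x ⊤ := by
  intro W _ hW
  obtain ⟨C₁, hC₁, i1, d1, c1⟩ := s1 (W ⊓ E₁) inf_le_right (hW.inf h1)
  obtain ⟨C₂, hC₂, i2, d2, c2⟩ := s2 ((W ⊔ E₁) ⊓ E₂) inf_le_right ((hW.sup h1).inf h2)
  refine ⟨C₁ ⊔ C₂, le_top, i1.sup i2, ?_, ?_⟩
  · rw [eq_bot_iff]
    rintro v ⟨hv, hvC⟩
    obtain ⟨a, ha, b, hb, rfl⟩ := Submodule.mem_sup.mp hvC
    have hbW : b ∈ (W ⊔ E₁) ⊓ E₂ := by
      refine ⟨?_, hC₂ hb⟩
      refine Submodule.mem_sup.mpr ⟨a + b, hv, -a, E₁.neg_mem (hC₁ ha), by abel⟩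
    have hb0 : b ∈ ((W ⊔ E₁) ⊓ E₂) ⊓ C₂ := ⟨hbW, hb⟩
    rw [d2, Submodule.mem_bot] at hb0
    subst hb0
    rw [add_zero] at hv ⊢
    have ha0 : a ∈ (W ⊓ E₁) ⊓ C₁ := ⟨⟨hv, hC₁ ha⟩, ha⟩
    rw [d1] at ha0
    exact ha0
  · rw [eq_top_iff, ← hc.sup_eq_top]
    have hE1 : E₁ ≤ W ⊔ (C₁ ⊔ C₂) := by
      rw [← c1]
      exact sup_le (inf_le_left.trans le_sup_left) (le_sup_left.trans le_sup_right)
    refine sup_le hE1 ?_
    conv_lhs => rw [← c2]
    refine sup_le (inf_le_left.trans (sup_le le_sup_left hE1)) (le_sup_right.trans le_sup_right)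

/-- transport along an injective intertwining map -/
theorem SS.relSS_range {x : G →* (Mat r ℂ)ˣ} {y : G →* (Mat r₁ ℂ)ˣ}
    (ι : (Fin r₁ → ℂ) →ₗ[ℂ] (Fin r → ℂ)) (hι : Function.Injective ι)
    (c : G → ℂ) (hc : ∀ w, c w ≠ 0)
    (hxy : ∀ w v, (x w : Mat r ℂ) *ᵥ ι v = c w • ι ((y w : Mat r₁ ℂ) *ᵥ v)) (h : SS y) :
    RelSS x (LinearMap.range ι) := by
  intro W hW hinv
  have hinv0 : InvS y (W.comap ι) := by
    intro w v hv
    rw [Submodule.mem_comap] at hv ⊢
    have h1 := hinv w _ hv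
    rw [hxy] at h1
    have h2 := W.smul_mem (c w)⁻¹ h1
    rwa [smul_smul, inv_mul_cancel₀ (hc w), one_smul] at h2
  obtain ⟨W', h1, h2⟩ := h _ hinv0
  have hWm : (W.comap ι).map ι = W := by
    rw [Submodule.map_comap_eq, inf_eq_right.mpr hW]
  refine ⟨W'.map ι, ?_, ?_, ?_, ?_⟩
  · exact LinearMap.map_le_range
  · intro w v hv
    obtain ⟨v', hv', rfl⟩ := Submodule.mem_map.mp hv
    rw [hxy]
    exact Submodule.smul_mem _ _ (Submodule.mem_map_of_mem (h1 w v' hv'))
  · conv_lhs => rw [← hWm]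
    rw [← Submodule.map_inf ι hι, h2.inf_eq_bot, Submodule.map_bot]
  · conv_lhs => rw [← hWm]
    rw [← Submodule.map_sup, h2.sup_eq_top, Submodule.map_top]

theorem RelSS.ss_of_range {x : G →* (Mat r ℂ)ˣ} {y : G →* (Mat r₁ ℂ)ˣ}
    (ι : (Fin r₁ → ℂ) →ₗ[ℂ] (Fin r → ℂ)) (hι : Function.Injective ι)
    (hxy : ∀ w v, (x w : Mat r ℂ) *ᵥ ι v = ι ((y w : Mat r₁ ℂ) *ᵥ v))
    (h : RelSS x (LinearMap.range ι)) : SS y := by
  intro W hinv
  have hinv1 : InvS x (W.map ι) := by
    intro w v hv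
    obtain ⟨v', hv', rfl⟩ := Submodule.mem_map.mp hv
    rw [hxy]
    exact Submodule.mem_map_of_mem (hinv w v' hv')
  obtain ⟨W', hle, h1, h2, h3⟩ := h (W.map ι) LinearMap.map_le_range hinv1
  refine ⟨W'.comap ι, ?_, ?_⟩
  · intro w v hv
    rw [Submodule.mem_comap] at hv ⊢
    rw [← hxy]
    exact h1 w _ hv
  · refine isCompl_iff.mpr ⟨disjoint_iff.mpr ?_, codisjoint_iff.mpr ?_⟩
    · rw [eq_bot_iff]
      rintro v ⟨hv, hv'⟩
      have : ι v ∈ W.map ι ⊓ W' := ⟨Submodule.mem_map_of_mem hv, hv'⟩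
      rw [h2, Submodule.mem_bot] at this
      rw [Submodule.mem_bot]
      exact hι (by rw [this, map_zero])
    · rw [eq_top_iff]
      intro v _
      have hv : ι v ∈ W.map ι ⊔ W' := by rw [h3]; exact LinearMap.mem_range_self ι v
      obtain ⟨a, ha, b, hb, hab⟩ := Submodule.mem_sup.mp hv
      obtain ⟨a', ha', rfl⟩ := Submodule.mem_map.mp ha
      obtain ⟨b', rfl⟩ := hle hb
      rw [← map_add] at hab
      rw [← hι hab]
      exact Submodule.add_mem _ (Submodule.mem_sup_left ha')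
        (Submodule.mem_sup_right (by simpa [Submodule.mem_comap] using hb))

end SemiSimple

section Eval

variable {g r : ℕ} {S T : Type*} [CommRing S] [CommRing T] [Algebra ℂ S] [Algebra ℂ T]

end Eval

section Dec

/-- a decomposition of `ℂ^r` in two pieces, by matrices -/
structure Dec (r r₁ r₂ : ℕ) where
  P₁ : Matrix (Fin r) (Fin r₁) ℂ
  P₂ : Matrix (Fin r) (Fin r₂) ℂ
  Q₁ : Matrix (Fin r₁) (Fin r) ℂ
  Q₂ : Matrix (Fin r₂) (Fin r) ℂ
  h11 : Q₁ * P₁ = 1
  h12 : Q₁ * P₂ = 0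
  h21 : Q₂ * P₁ = 0
  h22 : Q₂ * P₂ = 1
  hs : P₁ * Q₁ + P₂ * Q₂ = 1

variable {r r₁ r₂ : ℕ} {S T : Type*} [CommRing S] [CommRing T] [Algebra ℂ S] [Algebra ℂ T]

/-- block matrices over an algebra -/
def Dec.blk (D : Dec r r₁ r₂) (A : Mat r₁ S) (B : Mat r₂ S) : Mat r S :=
  D.P₁.map (algebraMap ℂ S) * A * D.Q₁.map (algebraMap ℂ S) +
    D.P₂.map (algebraMap ℂ S) * B * D.Q₂.map (algebraMap ℂ S)

theorem Dec.blk_map (D : Dec r r₁ r₂) (θ : S →ₐ[ℂ] T) (A : Mat r₁ S) (B : Mat r₂ S) :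
    (D.blk A B).map θ = D.blk (A.map θ) (B.map θ) := by
  have h : ∀ {m n : ℕ} (M : Matrix (Fin m) (Fin n) ℂ),
      (M.map (algebraMap ℂ S)).map θ = M.map (algebraMap ℂ T) := by
    intro m n M
    ext i j
    simp
  unfold Dec.blk
  rw [Matrix.map_add _ (map_add θ), Matrix.map_mul, Matrix.map_mul, Matrix.map_mul,
    Matrix.map_mul, h, h, h, h]

theorem Dec.blk_complex (D : Dec r r₁ r₂) (A : Mat r₁ ℂ) (B : Mat r₂ ℂ) :
    D.blk A B = D.P₁ * A * D.Q₁ + D.P₂ * B * D.Q₂ := by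
  have h : ∀ {m n : ℕ} (M : Matrix (Fin m) (Fin n) ℂ), M.map (algebraMap ℂ ℂ) = M := by
    intro m n M
    ext i j
    simp
  unfold Dec.blk
  rw [h, h, h, h]

theorem Dec.blk_mul (D : Dec r r₁ r₂) (A A' : Mat r₁ ℂ) (B B' : Mat r₂ ℂ) :
    D.blk A B * D.blk A' B' = D.blk (A * A') (B * B') := by
  simp only [Dec.blk_complex]
  have e1 : D.P₁ * A * D.Q₁ * (D.P₁ * A' * D.Q₁) = D.P₁ * (A * A') * D.Q₁ := by
    calc D.P₁ * A * D.Q₁ * (D.P₁ * A' * D.Q₁) = D.P₁ * A * (D.Q₁ * D.P₁) * A' * D.Q₁ := by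
          simp only [Matrix.mul_assoc]
      _ = _ := by rw [D.h11]; simp only [Matrix.mul_assoc, Matrix.one_mul]
  have e2 : D.P₁ * A * D.Q₁ * (D.P₂ * B' * D.Q₂) = 0 := by
    calc D.P₁ * A * D.Q₁ * (D.P₂ * B' * D.Q₂) = D.P₁ * A * (D.Q₁ * D.P₂) * B' * D.Q₂ := by
          simp only [Matrix.mul_assoc]
      _ = _ := by rw [D.h12]; simp
  have e3 : D.P₂ * B * D.Q₂ * (D.P₁ * A' * D.Q₁) = 0 := by
    calc D.P₂ * B * D.Q₂ * (D.P₁ * A' * D.Q₁) = D.P₂ * B * (D.Q₂ * D.P₁) * A' * D.Q₁ := by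
          simp only [Matrix.mul_assoc]
      _ = _ := by rw [D.h21]; simp
  have e4 : D.P₂ * B * D.Q₂ * (D.P₂ * B' * D.Q₂) = D.P₂ * (B * B') * D.Q₂ := by
    calc D.P₂ * B * D.Q₂ * (D.P₂ * B' * D.Q₂) = D.P₂ * B * (D.Q₂ * D.P₂) * B' * D.Q₂ := by
          simp only [Matrix.mul_assoc]
      _ = _ := by rw [D.h22]; simp only [Matrix.mul_assoc, Matrix.one_mul]
  rw [Matrix.add_mul, Matrix.mul_add, Matrix.mul_add, e1, e2, e3, e4]
  simp

theorem Dec.blk_one (D : Dec r r₁ r₂) : D.blk (1 : Mat r₁ ℂ) (1 : Mat r₂ ℂ) = 1 := by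
  rw [Dec.blk_complex, Matrix.mul_one, Matrix.mul_one, D.hs]

theorem Dec.blk_mulVec₁ (D : Dec r r₁ r₂) (A : Mat r₁ ℂ) (B : Mat r₂ ℂ) (v : Fin r₁ → ℂ) :
    D.blk A B *ᵥ (D.P₁ *ᵥ v) = D.P₁ *ᵥ (A *ᵥ v) := by
  rw [Dec.blk_complex, add_mulVec, mulVec_mulVec, mulVec_mulVec, mulVec_mulVec,
    Matrix.mul_assoc (D.P₁ * A), D.h11, Matrix.mul_assoc (D.P₂ * B), D.h21]
  simp

theorem Dec.blk_mulVec₂ (D : Dec r r₁ r₂) (A : Mat r₁ ℂ) (B : Mat r₂ ℂ) (v : Fin r₂ → ℂ) :
    D.blk A B *ᵥ (D.P₂ *ᵥ v) = D.P₂ *ᵥ (B *ᵥ v) := by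
  rw [Dec.blk_complex, add_mulVec, mulVec_mulVec, mulVec_mulVec, mulVec_mulVec,
    Matrix.mul_assoc (D.P₁ * A), D.h12, Matrix.mul_assoc (D.P₂ * B), D.h22]
  simp

theorem Dec.inj₁ (D : Dec r r₁ r₂) : Function.Injective (Matrix.mulVecLin D.P₁) := by
  intro v v' h
  have h' := congrArg (fun z => D.Q₁ *ᵥ z) h
  simpa [mulVec_mulVec, D.h11] using h'

theorem Dec.inj₂ (D : Dec r r₁ r₂) : Function.Injective (Matrix.mulVecLin D.P₂) := by
  intro v v' h
  have h' := congrArg (fun z => D.Q₂ *ᵥ z) h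
  simpa [mulVec_mulVec, D.h22] using h'

theorem Dec.compl (D : Dec r r₁ r₂) :
    IsCompl (LinearMap.range (Matrix.mulVecLin D.P₁)) (LinearMap.range (Matrix.mulVecLin D.P₂)) := by
  refine isCompl_iff.mpr ⟨disjoint_iff.mpr ?_, codisjoint_iff.mpr ?_⟩
  · rw [eq_bot_iff]
    rintro v ⟨⟨a, rfl⟩, ⟨b, hb⟩⟩
    have h1 : a = 0 := by
      have h' := congrArg (fun z => D.Q₁ *ᵥ z) hb
      simpa [mulVec_mulVec, D.h11, D.h12] using h'.symm
    rw [h1]; simp
  · rw [eq_top_iff]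
    intro v _
    have : v = D.P₁ *ᵥ (D.Q₁ *ᵥ v) + D.P₂ *ᵥ (D.Q₂ *ᵥ v) := by
      rw [mulVec_mulVec, mulVec_mulVec, ← add_mulVec, D.hs, one_mulVec]
    rw [this]
    exact Submodule.add_mem _
      (Submodule.mem_sup_left (LinearMap.mem_range.mpr ⟨D.Q₁ *ᵥ v, by simp⟩))
      (Submodule.mem_sup_right (LinearMap.mem_range.mpr ⟨D.Q₂ *ᵥ v, by simp⟩))

/-- a twisted block sum of semisimple representations is semisimple -/
theorem Dec.ss {G : Type*} [Group G] (D : Dec r r₁ r₂) (x : G →* (Mat r ℂ)ˣ)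
    (x₁ : G →* (Mat r₁ ℂ)ˣ) (x₂ : G →* (Mat r₂ ℂ)ˣ) (c₁ c₂ : G → ℂ) (h₁ : ∀ w, c₁ w ≠ 0)
    (h₂ : ∀ w, c₂ w ≠ 0)
    (hx : ∀ w, (x w : Mat r ℂ) = D.blk (c₁ w • (x₁ w : Mat r₁ ℂ)) (c₂ w • (x₂ w : Mat r₂ ℂ)))
    (s₁ : SS x₁) (s₂ : SS x₂) : SS x := by
  rw [ss_iff_relSS_top]
  have e1 : ∀ w v, (x w : Mat r ℂ) *ᵥ (Matrix.mulVecLin D.P₁ v)
      = c₁ w • Matrix.mulVecLin D.P₁ ((x₁ w : Mat r₁ ℂ) *ᵥ v) := by
    intro w v
    rw [hx, Matrix.mulVecLin_apply, Dec.blk_mulVec₁, smul_mulVec, mulVec_smul]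
    simp
  have e2 : ∀ w v, (x w : Mat r ℂ) *ᵥ (Matrix.mulVecLin D.P₂ v)
      = c₂ w • Matrix.mulVecLin D.P₂ ((x₂ w : Mat r₂ ℂ) *ᵥ v) := by
    intro w v
    rw [hx, Matrix.mulVecLin_apply, Dec.blk_mulVec₂, smul_mulVec, mulVec_smul]
    simp
  refine RelSS.of_compl D.compl ?_ ?_
    (SS.relSS_range (Matrix.mulVecLin D.P₁) D.inj₁ c₁ h₁ e1 s₁)
    (SS.relSS_range (Matrix.mulVecLin D.P₂) D.inj₂ c₂ h₂ e2 s₂)
  · rintro w v ⟨a, rfl⟩
    rw [e1]
    exact Submodule.smul_mem _ _ (LinearMap.mem_range_self _ _)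
  · rintro w v ⟨a, rfl⟩
    rw [e2]
    exact Submodule.smul_mem _ _ (LinearMap.mem_range_self _ _)

theorem SS.conj {G : Type*} [Group G] {r : ℕ} {x y : G →* (Mat r ℂ)ˣ} (X : (Mat r ℂ)ˣ)
    (h : ∀ w, x w = X * y w * X⁻¹) (hy : SS y) : SS x := by
  rw [ss_iff_relSS_top]
  have hinj : Function.Injective (Matrix.mulVecLin (X : Mat r ℂ)) := by
    intro v v' h
    have h' := congrArg (fun z => ((X⁻¹ : (Mat r ℂ)ˣ) : Mat r ℂ) *ᵥ z) h
    simpa [mulVec_mulVec] using h'
  have hsurj : LinearMap.range (Matrix.mulVecLin (X : Mat r ℂ)) = ⊤ := by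
    rw [LinearMap.range_eq_top]
    intro v
    refine ⟨((X⁻¹ : (Mat r ℂ)ˣ) : Mat r ℂ) *ᵥ v, ?_⟩
    simp [mulVec_mulVec]
  rw [← hsurj]
  refine SS.relSS_range (y := y) (Matrix.mulVecLin (X : Mat r ℂ)) hinj (fun _ => 1)
    (fun _ => one_ne_zero) ?_ hy
  intro w v
  rw [h]
  simp [mulVec_mulVec, Matrix.mul_assoc]

end Dec

section Homog

theorem exists_homog {σ : Type*} (f : MvPolynomial σ ℂ) :
    ∃ (N : ℕ) (H : MvPolynomial (Option σ) ℂ), ∀ (t : ℂ), t ≠ 0 → ∀ v : σ → ℂ,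
      MvPolynomial.eval (fun o => o.elim t v) H =
        t ^ N * MvPolynomial.eval (fun i => t⁻¹ * v i) f := by
  induction f using MvPolynomial.induction_on with
  | C a => exact ⟨0, MvPolynomial.C a, by intro t ht v; simp⟩
  | add p q hp hq =>
    obtain ⟨N, H, h⟩ := hp
    obtain ⟨M, K, k⟩ := hq
    refine ⟨N + M, MvPolynomial.X none ^ M * H + MvPolynomial.X none ^ N * K, ?_⟩
    intro t ht v
    simp only [map_add, map_mul, map_pow, MvPolynomial.eval_X, Option.elim_none, h t ht v,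
      k t ht v]
    ring
  | mul_X p i hp =>
    obtain ⟨N, H, h⟩ := hp
    refine ⟨N + 1, H * MvPolynomial.X (some i), ?_⟩
    intro t ht v
    simp only [map_mul, MvPolynomial.eval_X, Option.elim_some, h t ht v]
    field_simp
    ring

end Homog

section Conj

variable {g r : ℕ}

end Conj


section Std

variable {r r₁ r₂ : ℕ}

/-- the standard decomposition attached to a bijection -/
noncomputable def stdDec (e : Fin r₁ ⊕ Fin r₂ ≃ Fin r) : Dec r r₁ r₂ where
  P₁ := Matrix.of fun i j => if e (Sum.inl j) = i then 1 else 0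
  P₂ := Matrix.of fun i j => if e (Sum.inr j) = i then 1 else 0
  Q₁ := Matrix.of fun j i => if e (Sum.inl j) = i then 1 else 0
  Q₂ := Matrix.of fun j i => if e (Sum.inr j) = i then 1 else 0
  h11 := by
    ext i j
    simp [Matrix.mul_apply, Matrix.one_apply, eq_comm]
  h12 := by
    ext i j
    simp [Matrix.mul_apply]
  h21 := by
    ext i j
    simp [Matrix.mul_apply]
  h22 := by
    ext i j
    simp [Matrix.mul_apply, Matrix.one_apply, eq_comm]
  hs := by
    ext i j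
    obtain ⟨i, rfl⟩ := e.surjective i
    obtain ⟨j, rfl⟩ := e.surjective j
    rcases i with i | i <;> rcases j with j | j <;>
      simp [Matrix.mul_apply, Matrix.one_apply, eq_comm]

theorem stdDec_blk (e : Fin r₁ ⊕ Fin r₂ ≃ Fin r) (A : Mat r₁ ℂ) (B : Mat r₂ ℂ) :
    (stdDec e).blk A B = Matrix.reindex e e (fromBlocks A 0 0 B) := by
  rw [Dec.blk_complex]
  ext i j
  obtain ⟨i, rfl⟩ := e.surjective i
  obtain ⟨j, rfl⟩ := e.surjective j
  rcases i with i | i <;> rcases j with j | j <;>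
    simp [Matrix.mul_apply, stdDec]

/-- change of decomposition -/
noncomputable def Dec.change (D D' : Dec r r₁ r₂) : (Mat r ℂ)ˣ where
  val := D.P₁ * D'.Q₁ + D.P₂ * D'.Q₂
  inv := D'.P₁ * D.Q₁ + D'.P₂ * D.Q₂
  val_inv := by
    have e1 : D.P₁ * D'.Q₁ * (D'.P₁ * D.Q₁) = D.P₁ * D.Q₁ := by
      rw [Matrix.mul_assoc, ← Matrix.mul_assoc D'.Q₁, D'.h11, Matrix.one_mul]
    have e2 : D.P₁ * D'.Q₁ * (D'.P₂ * D.Q₂) = 0 := by
      rw [Matrix.mul_assoc, ← Matrix.mul_assoc D'.Q₁, D'.h12, Matrix.zero_mul, Matrix.mul_zero]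
    have e3 : D.P₂ * D'.Q₂ * (D'.P₁ * D.Q₁) = 0 := by
      rw [Matrix.mul_assoc, ← Matrix.mul_assoc D'.Q₂, D'.h21, Matrix.zero_mul, Matrix.mul_zero]
    have e4 : D.P₂ * D'.Q₂ * (D'.P₂ * D.Q₂) = D.P₂ * D.Q₂ := by
      rw [Matrix.mul_assoc, ← Matrix.mul_assoc D'.Q₂, D'.h22, Matrix.one_mul]
    rw [Matrix.add_mul, Matrix.mul_add, Matrix.mul_add, e1, e2, e3, e4, add_zero, zero_add, D.hs]
  inv_val := by
    have e1 : D'.P₁ * D.Q₁ * (D.P₁ * D'.Q₁) = D'.P₁ * D'.Q₁ := by
      rw [Matrix.mul_assoc, ← Matrix.mul_assoc D.Q₁, D.h11, Matrix.one_mul]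
    have e2 : D'.P₁ * D.Q₁ * (D.P₂ * D'.Q₂) = 0 := by
      rw [Matrix.mul_assoc, ← Matrix.mul_assoc D.Q₁, D.h12, Matrix.zero_mul, Matrix.mul_zero]
    have e3 : D'.P₂ * D.Q₂ * (D.P₁ * D'.Q₁) = 0 := by
      rw [Matrix.mul_assoc, ← Matrix.mul_assoc D.Q₂, D.h21, Matrix.zero_mul, Matrix.mul_zero]
    have e4 : D'.P₂ * D.Q₂ * (D.P₂ * D'.Q₂) = D'.P₂ * D'.Q₂ := by
      rw [Matrix.mul_assoc, ← Matrix.mul_assoc D.Q₂, D.h22, Matrix.one_mul]
    rw [Matrix.add_mul, Matrix.mul_add, Matrix.mul_add, e1, e2, e3, e4, add_zero, zero_add, D'.hs]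

theorem Dec.change_conj (D D' : Dec r r₁ r₂) (A : Mat r₁ ℂ) (B : Mat r₂ ℂ) :
    (D.change D' : Mat r ℂ) * D'.blk A B * (((D.change D')⁻¹ : (Mat r ℂ)ˣ) : Mat r ℂ) =
      D.blk A B := by
  change (D.P₁ * D'.Q₁ + D.P₂ * D'.Q₂) * D'.blk A B * (D'.P₁ * D.Q₁ + D'.P₂ * D.Q₂) = _
  simp only [Dec.blk_complex]
  have e1 : (D.P₁ * D'.Q₁ + D.P₂ * D'.Q₂) * (D'.P₁ * A * D'.Q₁ + D'.P₂ * B * D'.Q₂) =
      D.P₁ * A * D'.Q₁ + D.P₂ * B * D'.Q₂ := by
    have a1 : D.P₁ * D'.Q₁ * (D'.P₁ * A * D'.Q₁) = D.P₁ * (D'.Q₁ * D'.P₁) * A * D'.Q₁ := by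
      simp only [Matrix.mul_assoc]
    have a2 : D.P₁ * D'.Q₁ * (D'.P₂ * B * D'.Q₂) = D.P₁ * (D'.Q₁ * D'.P₂) * B * D'.Q₂ := by
      simp only [Matrix.mul_assoc]
    have a3 : D.P₂ * D'.Q₂ * (D'.P₁ * A * D'.Q₁) = D.P₂ * (D'.Q₂ * D'.P₁) * A * D'.Q₁ := by
      simp only [Matrix.mul_assoc]
    have a4 : D.P₂ * D'.Q₂ * (D'.P₂ * B * D'.Q₂) = D.P₂ * (D'.Q₂ * D'.P₂) * B * D'.Q₂ := by
      simp only [Matrix.mul_assoc]
    rw [Matrix.add_mul, Matrix.mul_add, Matrix.mul_add, a1, a2, a3, a4, D'.h11, D'.h12, D'.h21,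
      D'.h22]
    simp
  rw [e1]
  have b1 : D.P₁ * A * D'.Q₁ * (D'.P₁ * D.Q₁) = D.P₁ * A * (D'.Q₁ * D'.P₁) * D.Q₁ := by
    simp only [Matrix.mul_assoc]
  have b2 : D.P₁ * A * D'.Q₁ * (D'.P₂ * D.Q₂) = D.P₁ * A * (D'.Q₁ * D'.P₂) * D.Q₂ := by
    simp only [Matrix.mul_assoc]
  have b3 : D.P₂ * B * D'.Q₂ * (D'.P₁ * D.Q₁) = D.P₂ * B * (D'.Q₂ * D'.P₁) * D.Q₁ := by
    simp only [Matrix.mul_assoc]
  have b4 : D.P₂ * B * D'.Q₂ * (D'.P₂ * D.Q₂) = D.P₂ * B * (D'.Q₂ * D'.P₂) * D.Q₂ := by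
    simp only [Matrix.mul_assoc]
  rw [Matrix.add_mul, Matrix.mul_add, Matrix.mul_add, b1, b2, b3, b4, D'.h11, D'.h12, D'.h21,
      D'.h22]
  simp

end Std

section SLBlock

variable {r r₁ r₂ : ℕ} {R : Type*} [CommRing R]

/-- the block diagonal matrix `(u^(n r₂) A, u^(-n r₁) B)` in `SL_r(R)` -/
noncomputable def slBlk (e : Fin r₁ ⊕ Fin r₂ ≃ Fin r) (u : Rˣ) (n : Multiplicative ℤ)
    (A : SpecialLinearGroup (Fin r₁) R) (B : SpecialLinearGroup (Fin r₂) R) :
    SpecialLinearGroup (Fin r) R :=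
  ⟨Matrix.reindex e e (fromBlocks (((u ^ (n.toAdd * r₂) : Rˣ) : R) • (A : Mat r₁ R)) 0 0
      (((u ^ (-(n.toAdd * r₁)) : Rˣ) : R) • (B : Mat r₂ R))), by
    rw [Matrix.det_reindex_self, Matrix.det_fromBlocks_zero₂₁, Matrix.det_smul, Matrix.det_smul,
      A.det_coe, B.det_coe, mul_one, mul_one, Fintype.card_fin, Fintype.card_fin, ← Units.val_pow_eq_pow_val,
      ← Units.val_pow_eq_pow_val, ← Units.val_mul, ← zpow_natCast, ← zpow_natCast,
      ← _root_.zpow_mul, ← _root_.zpow_mul, ← _root_.zpow_add]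
    have : n.toAdd * (r₂ : ℤ) * (r₁ : ℤ) + -(n.toAdd * (r₁ : ℤ)) * (r₂ : ℤ) = 0 := by ring
    rw [this, zpow_zero, Units.val_one]⟩

theorem slBlk_coe (e : Fin r₁ ⊕ Fin r₂ ≃ Fin r) (u : Rˣ) (n : Multiplicative ℤ)
    (A : SpecialLinearGroup (Fin r₁) R) (B : SpecialLinearGroup (Fin r₂) R) :
    (slBlk e u n A B : Mat r R) = Matrix.reindex e e (fromBlocks
      (((u ^ (n.toAdd * r₂) : Rˣ) : R) • (A : Mat r₁ R)) 0 0
      (((u ^ (-(n.toAdd * r₁)) : Rˣ) : R) • (B : Mat r₂ R))) := rfl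

end SLBlock

section TwoBlock

variable {g r r₁ r₂ : ℕ} {R : Type*} [CommRing R]

theorem slU_coe (φ : R →+* ℂ) (A : SpecialLinearGroup (Fin r) R) :
    (slU φ A : Mat r ℂ) = (A : Mat r R).map φ := by
  ext i j
  simp [slU]

theorem slU_slBlk (φ : R →+* ℂ) (e : Fin r₁ ⊕ Fin r₂ ≃ Fin r) (u : Rˣ) (n : Multiplicative ℤ)
    (A : SpecialLinearGroup (Fin r₁) R) (B : SpecialLinearGroup (Fin r₂) R) :
    (slU φ (slBlk e u n A B) : Mat r ℂ) = (stdDec e).blk
      (φ (u ^ (n.toAdd * (r₂ : ℤ)) : Rˣ) • (slU φ A : Mat r₁ ℂ))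
      (φ (u ^ (-(n.toAdd * (r₁ : ℤ))) : Rˣ) • (slU φ B : Mat r₂ ℂ)) := by
  rw [stdDec_blk, slU_coe, slU_coe, slU_coe, slBlk_coe]
  ext i j
  obtain ⟨i, rfl⟩ := e.surjective i
  obtain ⟨j, rfl⟩ := e.surjective j
  rcases i with i | i <;> rcases j with j | j <;> simp

end TwoBlock

section Main

variable {g : ℕ}

/-- a decomposition adapted to two complementary subspaces -/
theorem exists_dec {r : ℕ} (E₁ E₂ : Submodule ℂ (Fin r → ℂ)) (h : IsCompl E₁ E₂) :
    ∃ D : Dec r (Module.finrank ℂ E₁) (Module.finrank ℂ E₂),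
      LinearMap.range (Matrix.mulVecLin D.P₁) = E₁ ∧
        LinearMap.range (Matrix.mulVecLin D.P₂) = E₂ := by
  let b₁ := Module.finBasis ℂ E₁
  let b₂ := Module.finBasis ℂ E₂
  let b := Pi.basisFun ℂ (Fin r)
  let P₁ := LinearMap.toMatrix b₁ b E₁.subtype
  let P₂ := LinearMap.toMatrix b₂ b E₂.subtype
  let Q₁ := LinearMap.toMatrix b b₁ (E₁.projectionOnto E₂ h)
  let Q₂ := LinearMap.toMatrix b b₂ (E₂.projectionOnto E₁ h.symm)
  have hr1 : LinearMap.range (Matrix.mulVecLin P₁) = E₁ := by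
    have : Matrix.mulVecLin P₁ = E₁.subtype ∘ₗ (b₁.equivFun.symm : _ →ₗ[ℂ] E₁) := by
      ext i j
      simp [P₁, LinearMap.toMatrix_apply, b]
    rw [this, LinearMap.range_comp, LinearEquiv.range, Submodule.map_top, Submodule.range_subtype]
  have hr2 : LinearMap.range (Matrix.mulVecLin P₂) = E₂ := by
    have : Matrix.mulVecLin P₂ = E₂.subtype ∘ₗ (b₂.equivFun.symm : _ →ₗ[ℂ] E₂) := by
      ext i j
      simp [P₂, LinearMap.toMatrix_apply, b]
    rw [this, LinearMap.range_comp, LinearEquiv.range, Submodule.map_top, Submodule.range_subtype]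
  refine ⟨⟨P₁, P₂, Q₁, Q₂, ?_, ?_, ?_, ?_, ?_⟩, hr1, hr2⟩
  · rw [← LinearMap.toMatrix_comp, Submodule.projectionOnto_comp_subtype, LinearMap.toMatrix_id]
  · rw [← LinearMap.toMatrix_comp]
    have : (E₁.projectionOnto E₂ h) ∘ₗ E₂.subtype = 0 := by
      ext v
      simp
    rw [this, map_zero]
  · rw [← LinearMap.toMatrix_comp]
    have : (E₂.projectionOnto E₁ h.symm) ∘ₗ E₁.subtype = 0 := by
      ext v
      simp
    rw [this, map_zero]
  · rw [← LinearMap.toMatrix_comp, Submodule.projectionOnto_comp_subtype, LinearMap.toMatrix_id]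
  · rw [← LinearMap.toMatrix_comp, ← LinearMap.toMatrix_comp, ← map_add]
    have : E₁.subtype ∘ₗ (E₁.projectionOnto E₂ h) + E₂.subtype ∘ₗ (E₂.projectionOnto E₁ h.symm)
        = LinearMap.id := Submodule.projection_add_projection_eq_id h
    rw [this, LinearMap.toMatrix_id]

theorem Dec.mul_P₁ {r r₁ r₂ : ℕ} (D : Dec r r₁ r₂) (M : Mat r ℂ)
    (h : ∀ v ∈ LinearMap.range (Matrix.mulVecLin D.P₁),
      M *ᵥ v ∈ LinearMap.range (Matrix.mulVecLin D.P₁)) :
    M * D.P₁ = D.P₁ * (D.Q₁ * M * D.P₁) := by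
  have : ∀ v : Fin r₁ → ℂ, (M * D.P₁) *ᵥ v = (D.P₁ * (D.Q₁ * M * D.P₁)) *ᵥ v := by
    intro v
    obtain ⟨a, ha⟩ := h (D.P₁ *ᵥ v) ⟨v, rfl⟩
    rw [Matrix.mulVecLin_apply] at ha
    have e1 : (M * D.P₁) *ᵥ v = D.P₁ *ᵥ a := by rw [ha, mulVec_mulVec]
    have e2 : (D.Q₁ * M * D.P₁) *ᵥ v = a := by
      rw [Matrix.mul_assoc, ← mulVec_mulVec, e1, mulVec_mulVec, D.h11, one_mulVec]
    rw [e1, ← mulVec_mulVec, e2]
  ext i j
  have := congrFun (this (Pi.single j 1)) i
  simpa using this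

theorem Dec.mul_P₂ {r r₁ r₂ : ℕ} (D : Dec r r₁ r₂) (M : Mat r ℂ)
    (h : ∀ v ∈ LinearMap.range (Matrix.mulVecLin D.P₂),
      M *ᵥ v ∈ LinearMap.range (Matrix.mulVecLin D.P₂)) :
    M * D.P₂ = D.P₂ * (D.Q₂ * M * D.P₂) := by
  have : ∀ v : Fin r₂ → ℂ, (M * D.P₂) *ᵥ v = (D.P₂ * (D.Q₂ * M * D.P₂)) *ᵥ v := by
    intro v
    obtain ⟨a, ha⟩ := h (D.P₂ *ᵥ v) ⟨v, rfl⟩
    rw [Matrix.mulVecLin_apply] at ha
    have e1 : (M * D.P₂) *ᵥ v = D.P₂ *ᵥ a := by rw [ha, mulVec_mulVec]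
    have e2 : (D.Q₂ * M * D.P₂) *ᵥ v = a := by
      rw [Matrix.mul_assoc, ← mulVec_mulVec, e1, mulVec_mulVec, D.h22, one_mulVec]
    rw [e1, ← mulVec_mulVec, e2]
  ext i j
  have := congrFun (this (Pi.single j 1)) i
  simpa using this

/-- compression of a representation to an invariant piece -/
noncomputable def compr {G : Type*} [Group G] {r r₁ : ℕ} (x : G →* (Mat r ℂ)ˣ)
    (P : Matrix (Fin r) (Fin r₁) ℂ) (Q : Matrix (Fin r₁) (Fin r) ℂ) (h1 : Q * P = 1)
    (h : ∀ w, (x w : Mat r ℂ) * P = P * (Q * (x w : Mat r ℂ) * P)) : G →* (Mat r₁ ℂ)ˣ :=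
  MonoidHom.toHomUnits
    { toFun := fun w => Q * (x w : Mat r ℂ) * P
      map_one' := by simp [h1]
      map_mul' := by
        intro a b
        rw [map_mul, Units.val_mul]
        calc Q * ((x a : Mat r ℂ) * (x b : Mat r ℂ)) * P
            = Q * (x a : Mat r ℂ) * ((x b : Mat r ℂ) * P) := by simp only [Matrix.mul_assoc]
          _ = Q * (x a : Mat r ℂ) * (P * (Q * (x b : Mat r ℂ) * P)) := by rw [h b]
          _ = _ := by simp only [Matrix.mul_assoc] }

theorem compr_apply {G : Type*} [Group G] {r r₁ : ℕ} (x : G →* (Mat r ℂ)ˣ)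
    (P : Matrix (Fin r) (Fin r₁) ℂ) (Q : Matrix (Fin r₁) (Fin r) ℂ) (h1 : Q * P = 1)
    (h : ∀ w, (x w : Mat r ℂ) * P = P * (Q * (x w : Mat r ℂ) * P)) (w : G) :
    (compr x P Q h1 h w : Mat r₁ ℂ) = Q * (x w : Mat r ℂ) * P := by
  simp [compr]

theorem compr_ss {G : Type*} [Group G] {r r₁ : ℕ} (x : G →* (Mat r ℂ)ˣ) (hx : SS x)
    (P : Matrix (Fin r) (Fin r₁) ℂ) (Q : Matrix (Fin r₁) (Fin r) ℂ) (h1 : Q * P = 1)
    (h : ∀ w, (x w : Mat r ℂ) * P = P * (Q * (x w : Mat r ℂ) * P)) :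
    SS (compr x P Q h1 h) := by
  have hι : Function.Injective (Matrix.mulVecLin P) := by
    intro v v' hv
    have h' := congrArg (fun z => Q *ᵥ z) hv
    simpa [mulVec_mulVec, h1] using h'
  have hxy : ∀ w v, (x w : Mat r ℂ) *ᵥ (Matrix.mulVecLin P v) =
      Matrix.mulVecLin P ((compr x P Q h1 h w : Mat r₁ ℂ) *ᵥ v) := by
    intro w v
    rw [compr_apply, Matrix.mulVecLin_apply, Matrix.mulVecLin_apply, mulVec_mulVec,
      mulVec_mulVec, ← h]
  refine RelSS.ss_of_range (Matrix.mulVecLin P) hι hxy ?_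
  refine RelSS.of_top ((ss_iff_relSS_top x).mp hx) ?_
  rintro w v ⟨a, rfl⟩
  rw [hxy]
  exact LinearMap.mem_range_self _ _

end Main

end Vale.Agent.P002
end

section

/-!
# P002 TASK I: products of commutators are open maps to `SL_r` at tuples with scalar centralizer
-/

namespace Vale.Agent.P002

open Matrix

variable {g r : ℕ}

section normed

open scoped Matrix.Norms.Operator

/-- A linear functional on matrices is `M ↦ trace (N * M)`. -/
theorem exists_trace_repr (φ : Mat r ℂ →ₗ[ℂ] ℂ) : ∃ N : Mat r ℂ, ∀ M, φ M = trace (N * M) := by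
  refine ⟨Matrix.of fun i j => φ (Matrix.single j i 1), fun M => ?_⟩
  conv_lhs => rw [Matrix.matrix_eq_sum_single M]
  rw [map_sum]
  simp only [map_sum]
  rw [Matrix.trace]
  simp only [Matrix.diag_apply, Matrix.mul_apply, Matrix.of_apply]
  rw [Finset.sum_comm]
  refine Finset.sum_congr rfl fun i _ => Finset.sum_congr rfl fun j _ => ?_
  have : Matrix.single j i (M j i) = M j i • Matrix.single j i (1 : ℂ) := by
    rw [Matrix.smul_single, smul_eq_mul, mul_one]
  rw [this, map_smul, smul_eq_mul, mul_comm]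

theorem eq_of_trace_eq {N N' : Mat r ℂ} (h : ∀ H : Mat r ℂ, trace (N * H) = trace (N' * H)) :
    N = N' := by
  ext i j
  have := h (Matrix.single j i 1)
  simpa [Matrix.trace_mul_single] using this

/-- Strict derivative of the inverse. -/
theorem hasStrictFDerivAt_inv' {A : Mat r ℂ} (hA : IsUnit A) :
    HasStrictFDerivAt (fun X : Mat r ℂ => X⁻¹)
      (-(ContinuousLinearMap.mulLeftRight ℂ (Mat r ℂ) A⁻¹) A⁻¹) A := by
  obtain ⟨u, rfl⟩ := hA
  have h := hasStrictFDerivAt_ringInverse (𝕜 := ℂ) u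
  have h1 : ((u⁻¹ : (Mat r ℂ)ˣ) : Mat r ℂ) = (u : Mat r ℂ)⁻¹ := Matrix.coe_units_inv u
  rw [h1] at h
  have h2 : (fun X : Mat r ℂ => X⁻¹) = Ring.inverse := by
    funext X; exact Matrix.nonsing_inv_eq_ringInverse X
  rw [h2]
  exact h

/-- The commutator. -/
noncomputable def cm (A B : Mat r ℂ) : Mat r ℂ := A * B * A⁻¹ * B⁻¹

section derivs
variable {E : Type*} [NormedAddCommGroup E] [NormedSpace ℂ E]

theorem exists_deriv_mul {f h : E → Mat r ℂ} {f' h' : E →L[ℂ] Mat r ℂ} {x : E}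
    (hf : HasStrictFDerivAt f f' x) (hh : HasStrictFDerivAt h h' x) :
    ∃ D : E →L[ℂ] Mat r ℂ, HasStrictFDerivAt (fun y => f y * h y) D x ∧
      ∀ H, D H = f' H * h x + f x * h' H := by
  refine ⟨_, hf.mul' hh, fun H => ?_⟩
  rw [add_comm]
  rfl

theorem exists_deriv_inv {f : E → Mat r ℂ} {f' : E →L[ℂ] Mat r ℂ} {x : E}
    (hf : HasStrictFDerivAt f f' x) (hu : IsUnit (f x)) :
    ∃ D : E →L[ℂ] Mat r ℂ, HasStrictFDerivAt (fun y => (f y)⁻¹) D x ∧
      ∀ H, D H = -((f x)⁻¹ * f' H * (f x)⁻¹) :=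
  ⟨_, (hasStrictFDerivAt_inv' hu).comp x hf, fun _ => rfl⟩

theorem exists_deriv_cm {f h : E → Mat r ℂ} {f' h' : E →L[ℂ] Mat r ℂ} {x : E}
    (hf : HasStrictFDerivAt f f' x) (hh : HasStrictFDerivAt h h' x)
    (hfu : IsUnit (f x)) (hhu : IsUnit (h x)) :
    ∃ D : E →L[ℂ] Mat r ℂ, HasStrictFDerivAt (fun y => cm (f y) (h y)) D x ∧
      ∀ H, D H = f' H * h x * (f x)⁻¹ * (h x)⁻¹ + f x * h' H * (f x)⁻¹ * (h x)⁻¹ -
        f x * h x * (f x)⁻¹ * f' H * (f x)⁻¹ * (h x)⁻¹ -
        f x * h x * (f x)⁻¹ * (h x)⁻¹ * h' H * (h x)⁻¹ := by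
  obtain ⟨D1, h1, e1⟩ := exists_deriv_inv hf hfu
  obtain ⟨D2, h2, e2⟩ := exists_deriv_inv hh hhu
  obtain ⟨D3, h3, e3⟩ := exists_deriv_mul hf hh
  obtain ⟨D4, h4, e4⟩ := exists_deriv_mul h3 h1
  obtain ⟨D5, h5, e5⟩ := exists_deriv_mul h4 h2
  refine ⟨D5, h5, fun H => ?_⟩
  rw [e5, e4, e3, e1, e2]
  noncomm_ring

end derivs

/-- The algebra of one commutator. -/
theorem commute_of_trace {A B S : Mat r ℂ} (hA : IsUnit A) (hB : IsUnit B)
    (h : ∀ H K : Mat r ℂ, trace (S * (H * B * A⁻¹ * B⁻¹ + A * K * A⁻¹ * B⁻¹ -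
        A * B * A⁻¹ * H * A⁻¹ * B⁻¹ - A * B * A⁻¹ * B⁻¹ * K * B⁻¹)) = 0) :
    Commute (S * cm A B) A ∧ Commute (S * cm A B) B := by
  have hAd : IsUnit A.det := (Matrix.isUnit_iff_isUnit_det A).1 hA
  have hBd : IsUnit B.det := (Matrix.isUnit_iff_isUnit_det B).1 hB
  have a1 : A * A⁻¹ = 1 := Matrix.mul_nonsing_inv A hAd
  have a2 : A⁻¹ * A = 1 := Matrix.nonsing_inv_mul A hAd
  have b1 : B * B⁻¹ = 1 := Matrix.mul_nonsing_inv B hBd
  have b2 : B⁻¹ * B = 1 := Matrix.nonsing_inv_mul B hBd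
  -- first variation
  have hH : B * A⁻¹ * B⁻¹ * S = A⁻¹ * B⁻¹ * S * A * B * A⁻¹ := by
    refine eq_of_trace_eq fun H => ?_
    have h0 := h H 0
    have e : S * (H * B * A⁻¹ * B⁻¹ + A * 0 * A⁻¹ * B⁻¹ -
        A * B * A⁻¹ * H * A⁻¹ * B⁻¹ - A * B * A⁻¹ * B⁻¹ * 0 * B⁻¹) =
        (S * H) * (B * A⁻¹ * B⁻¹) - (S * A * B * A⁻¹ * H) * (A⁻¹ * B⁻¹) := by
      noncomm_ring
    rw [e, trace_sub, Matrix.trace_mul_comm (S * H), Matrix.trace_mul_comm (S * A * B * A⁻¹ * H),
      sub_eq_zero] at h0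
    simpa only [Matrix.mul_assoc] using h0
  have hK : A⁻¹ * B⁻¹ * S * A = B⁻¹ * S * A * B * A⁻¹ * B⁻¹ := by
    refine eq_of_trace_eq fun K => ?_
    have h0 := h 0 K
    have e : S * (0 * B * A⁻¹ * B⁻¹ + A * K * A⁻¹ * B⁻¹ -
        A * B * A⁻¹ * 0 * A⁻¹ * B⁻¹ - A * B * A⁻¹ * B⁻¹ * K * B⁻¹) =
        (S * A * K) * (A⁻¹ * B⁻¹) - (S * A * B * A⁻¹ * B⁻¹ * K) * B⁻¹ := by
      noncomm_ring
    rw [e, trace_sub, Matrix.trace_mul_comm (S * A * K),
      Matrix.trace_mul_comm (S * A * B * A⁻¹ * B⁻¹ * K), sub_eq_zero] at h0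
    simpa only [Matrix.mul_assoc] using h0
  obtain ⟨T, hT⟩ : ∃ T, T = B⁻¹ * S * A * B * A⁻¹ := ⟨_, rfl⟩
  have i1 : A⁻¹ * B⁻¹ * S * A = T * B⁻¹ := by rw [hK, hT]
  have i2 : A⁻¹ * B⁻¹ * S * A * B = T := by rw [i1, Matrix.mul_assoc, b2, Matrix.mul_one]
  have i3 : B⁻¹ * S * A * B = T * A := by rw [hT, Matrix.mul_assoc _ A⁻¹ A, a2, Matrix.mul_one]
  have i4 : S * A * B * A⁻¹ = B * T := by
    rw [hT]
    simp only [← Matrix.mul_assoc]
    rw [b1, Matrix.one_mul]
  have cA : Commute T A := by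
    have e1 : A * T = B⁻¹ * S * A * B := by
      rw [← i2]
      simp only [← Matrix.mul_assoc]
      rw [a1, Matrix.one_mul]
    show T * A = A * T
    rw [e1, i3]
  have cB : Commute T B := by
    have e1 : B * A⁻¹ * B⁻¹ * S * A = T := by
      rw [hH, i2, Matrix.mul_assoc, a2, Matrix.mul_one]
    have e2 : B * (A⁻¹ * B⁻¹ * S * A) = T := by
      rw [← e1]; simp only [Matrix.mul_assoc]
    rw [i1, ← Matrix.mul_assoc] at e2
    show T * B = B * T
    calc T * B = B * T * B⁻¹ * B := by rw [e2]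
      _ = B * T := by rw [Matrix.mul_assoc, b2, Matrix.mul_one]
  have hS : S * cm A B = T := by
    unfold cm
    have : S * (A * B * A⁻¹ * B⁻¹) = S * A * B * A⁻¹ * B⁻¹ := by simp only [Matrix.mul_assoc]
    rw [this, i4, ← cB.eq, Matrix.mul_assoc, b1, Matrix.mul_one]
  rw [hS]
  exact ⟨cA, cB⟩

theorem relT_succ (X : Fin (g + 1) × Bool → Mat r ℂ) :
    relT X = cm (X (0, false)) (X (0, true)) * relT fun k : Fin g × Bool => X (k.1.succ, k.2) := by
  unfold relT cm
  rw [List.ofFn_succ, List.prod_cons]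

theorem isUnit_cm {A B : Mat r ℂ} (hA : IsUnit A) (hB : IsUnit B) : IsUnit (cm A B) := by
  have hAd : IsUnit A.det := (Matrix.isUnit_iff_isUnit_det A).1 hA
  have hBd : IsUnit B.det := (Matrix.isUnit_iff_isUnit_det B).1 hB
  unfold cm
  exact ((hA.mul hB).mul (Matrix.isUnit_nonsing_inv_iff.2 hA)).mul
    (Matrix.isUnit_nonsing_inv_iff.2 hB)

theorem det_cm {A B : Mat r ℂ} (hA : IsUnit A) (hB : IsUnit B) : (cm A B).det = 1 := by
  have hAd : IsUnit A.det := (Matrix.isUnit_iff_isUnit_det A).1 hA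
  have hBd : IsUnit B.det := (Matrix.isUnit_iff_isUnit_det B).1 hB
  unfold cm
  rw [det_mul, det_mul, det_mul, det_nonsing_inv, det_nonsing_inv]
  have h1 := Ring.mul_inverse_cancel _ hAd
  have h2 := Ring.mul_inverse_cancel _ hBd
  calc A.det * B.det * Ring.inverse A.det * Ring.inverse B.det
      = (A.det * Ring.inverse A.det) * (B.det * Ring.inverse B.det) := by ring
    _ = 1 := by rw [h1, h2, one_mul]

theorem isUnit_relT : ∀ {g : ℕ} {X : Fin g × Bool → Mat r ℂ}, (∀ k, IsUnit (X k)) →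
    IsUnit (relT X)
  | 0, X, _ => by simp [relT]
  | g + 1, X, h => by
    rw [relT_succ]
    exact (isUnit_cm (h _) (h _)).mul (isUnit_relT fun k => h _)

theorem det_relT : ∀ {g : ℕ} {X : Fin g × Bool → Mat r ℂ}, (∀ k, IsUnit (X k)) →
    (relT X).det = 1
  | 0, X, _ => by simp [relT]
  | g + 1, X, h => by
    rw [relT_succ, det_mul, det_cm (h _) (h _), det_relT fun k => h _, one_mul]

theorem commute_inv {T A : Mat r ℂ} (hA : IsUnit A) (h : Commute T A) : Commute T A⁻¹ := by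
  have hAd : IsUnit A.det := (Matrix.isUnit_iff_isUnit_det A).1 hA
  have a1 : A * A⁻¹ = 1 := Matrix.mul_nonsing_inv A hAd
  have a2 : A⁻¹ * A = 1 := Matrix.nonsing_inv_mul A hAd
  show T * A⁻¹ = A⁻¹ * T
  calc T * A⁻¹ = A⁻¹ * A * T * A⁻¹ := by rw [a2, Matrix.one_mul]
    _ = A⁻¹ * (A * T) * A⁻¹ := by simp only [Matrix.mul_assoc]
    _ = A⁻¹ * (T * A) * A⁻¹ := by rw [h.eq]
    _ = A⁻¹ * T * (A * A⁻¹) := by simp only [Matrix.mul_assoc]
    _ = A⁻¹ * T := by rw [a1, Matrix.mul_one]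

theorem commute_cm {T A B : Mat r ℂ} (hA : IsUnit A) (hB : IsUnit B) (h1 : Commute T A)
    (h2 : Commute T B) : Commute T (cm A B) := by
  unfold cm
  exact ((h1.mul_right h2).mul_right (commute_inv hA h1)).mul_right (commute_inv hB h2)

theorem commute_relT {T : Mat r ℂ} : ∀ {g : ℕ} {X : Fin g × Bool → Mat r ℂ}, (∀ k, IsUnit (X k)) →
    (∀ k, Commute T (X k)) → Commute T (relT X)
  | 0, X, _, _ => by simp [relT]
  | g + 1, X, h, h' => by
    rw [relT_succ]
    exact (commute_cm (h _) (h _) (h' _) (h' _)).mul_right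
      (commute_relT (fun k => h _) fun k => h' _)

/-- Strict differentiability of the product of commutators, and the dual description of the image
of the derivative. -/
theorem exists_deriv_relT : ∀ (g : ℕ) (X : Fin g × Bool → Mat r ℂ), (∀ k, IsUnit (X k)) →
    ∃ W' : (Fin g × Bool → Mat r ℂ) →L[ℂ] Mat r ℂ, HasStrictFDerivAt relT W' X ∧
      ∀ N : Mat r ℂ, (∀ H, trace (N * W' H) = 0) → ∀ k, Commute (N * relT X) (X k)
  | 0, X, _ => by
    refine ⟨0, ?_, fun N _ k => k.1.elim0⟩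
    have : (relT : (Fin 0 × Bool → Mat r ℂ) → Mat r ℂ) = fun _ => 1 := by
      funext X; simp [relT]
    rw [this]
    exact hasStrictFDerivAt_const _ _
  | g + 1, X, h => by
    obtain ⟨W, hW, hWN⟩ := exists_deriv_relT g (fun k => X (k.1.succ, k.2)) (fun k => h _)
    have hp : ∀ k : Fin (g + 1) × Bool,
        HasStrictFDerivAt (fun Y : Fin (g + 1) × Bool → Mat r ℂ => Y k)
          (ContinuousLinearMap.proj k : (Fin (g + 1) × Bool → Mat r ℂ) →L[ℂ] Mat r ℂ) X :=
      fun k => (ContinuousLinearMap.proj k :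
        (Fin (g + 1) × Bool → Mat r ℂ) →L[ℂ] Mat r ℂ).hasStrictFDerivAt
    obtain ⟨D1, h1, e1⟩ := exists_deriv_cm (hp (0, false)) (hp (0, true)) (h _) (h _)
    obtain ⟨L, hLdef⟩ : ∃ L : (Fin (g + 1) × Bool → Mat r ℂ) →L[ℂ] (Fin g × Bool → Mat r ℂ),
        ∀ Y k, L Y k = Y (k.1.succ, k.2) :=
      ⟨ContinuousLinearMap.pi fun k => ContinuousLinearMap.proj (k.1.succ, k.2),
        fun _ _ => rfl⟩
    have hLX : L X = fun k => X (k.1.succ, k.2) := funext fun k => hLdef X k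
    have hL : HasStrictFDerivAt (fun Y => relT (L Y)) (W.comp L) X := by
      rw [← hLX] at hW
      exact hW.comp X L.hasStrictFDerivAt
    obtain ⟨D2, h2, e2⟩ := exists_deriv_mul h1 hL
    refine ⟨D2, ?_, ?_⟩
    · have : relT = fun Y : Fin (g + 1) × Bool → Mat r ℂ =>
          cm (Y (0, false)) (Y (0, true)) * relT (L Y) := by
        funext Y
        rw [relT_succ]
        congr 2
        exact (funext fun k => hLdef Y k).symm
      rw [this]
      exact h2
    · intro N hN0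
      have hN : ∀ H : Fin (g + 1) × Bool → Mat r ℂ, trace (N *
          ((H (0, false) * X (0, true) * (X (0, false))⁻¹ * (X (0, true))⁻¹ +
            X (0, false) * H (0, true) * (X (0, false))⁻¹ * (X (0, true))⁻¹ -
            X (0, false) * X (0, true) * (X (0, false))⁻¹ * H (0, false) * (X (0, false))⁻¹ *
              (X (0, true))⁻¹ -
            X (0, false) * X (0, true) * (X (0, false))⁻¹ * (X (0, true))⁻¹ * H (0, true) *
              (X (0, true))⁻¹) * relT (L X) +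
            cm (X (0, false)) (X (0, true)) * W (L H))) = 0 := fun H =>
        ((congrArg (fun M => trace (N * (M * relT (L X) + cm (X (0, false)) (X (0, true)) *
          W (L H)))) (e1 H)).symm.trans
          (congrArg (fun M => trace (N * M)) (e2 H)).symm).trans (hN0 H)
      have hR : relT (L X) = relT fun k : Fin g × Bool => X (k.1.succ, k.2) := by rw [hLX]
      -- variations supported on the last handles
      have c1 : ∀ k : Fin g × Bool,
          Commute (N * cm (X (0, false)) (X (0, true)) *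
            relT fun k : Fin g × Bool => X (k.1.succ, k.2)) (X (k.1.succ, k.2)) := by
        refine hWN _ fun K => ?_
        obtain ⟨H, hH⟩ : ∃ H : Fin (g + 1) × Bool → Mat r ℂ,
            H = fun k => Fin.cases (0 : Mat r ℂ) (fun i => K (i, k.2)) k.1 := ⟨_, rfl⟩
        have hH0 : ∀ b, H (0, b) = 0 := fun b => by rw [hH]; rfl
        have hH1 : L H = K := by
          funext k; rw [hLdef, hH]; rfl
        have := hN H
        simp only [hH0, hH1] at this
        simpa [Matrix.mul_assoc] using this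
      have c2 : Commute ((relT fun k : Fin g × Bool => X (k.1.succ, k.2)) * N *
            cm (X (0, false)) (X (0, true))) (X (0, false)) ∧
          Commute ((relT fun k : Fin g × Bool => X (k.1.succ, k.2)) * N *
            cm (X (0, false)) (X (0, true))) (X (0, true)) := by
        refine commute_of_trace (h _) (h _) fun H0 K0 => ?_
        obtain ⟨H, hH⟩ : ∃ H : Fin (g + 1) × Bool → Mat r ℂ,
            H = fun k => Fin.cases (if k.2 then K0 else H0) (fun _ => 0) k.1 := ⟨_, rfl⟩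
        have hH0 : H (0, false) = H0 := by rw [hH]; rfl
        have hH0' : H (0, true) = K0 := by rw [hH]; rfl
        have hH1 : L H = 0 := by
          funext k; rw [hLdef, hH]; rfl
        have := hN H
        rw [hH0, hH0', hH1, map_zero, Matrix.mul_zero, add_zero, hR,
          ← Matrix.mul_assoc, Matrix.trace_mul_comm] at this
        rw [Matrix.mul_assoc]
        exact this
      have hU : ∀ k : Fin g × Bool, IsUnit (X (k.1.succ, k.2)) := fun k => h _
      have hRU := isUnit_relT hU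
      have c3 := commute_relT hU c1
      rw [relT_succ]
      obtain ⟨R, hRdef⟩ : ∃ R, R = relT fun k : Fin g × Bool => X (k.1.succ, k.2) := ⟨_, rfl⟩
      obtain ⟨C, hCdef⟩ : ∃ C, C = cm (X (0, false)) (X (0, true)) := ⟨_, rfl⟩
      rw [← hRdef, ← hCdef] at c3 c2
      rw [← hRdef] at hRU
      rw [← hRdef, ← hCdef]
      simp only [← hRdef, ← hCdef] at c1
      have key : R * N * C = N * C * R := by
        have hRd : IsUnit R.det := (Matrix.isUnit_iff_isUnit_det R).1 hRU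
        have r1 : R * R⁻¹ = 1 := Matrix.mul_nonsing_inv R hRd
        have : R * (N * C * R) * R⁻¹ = N * C * R * R * R⁻¹ := by rw [c3.eq]
        calc R * N * C = R * (N * C * R) * R⁻¹ := by
              simp only [Matrix.mul_assoc]; rw [r1, Matrix.mul_one]
          _ = N * C * R * R * R⁻¹ := this
          _ = N * C * R := by rw [Matrix.mul_assoc _ R R⁻¹, r1, Matrix.mul_one]
      rw [key] at c2
      rw [← Matrix.mul_assoc]
      rintro ⟨k, b⟩
      refine Fin.cases ?_ (fun i => ?_) k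
      · cases b
        · exact c2.1
        · exact c2.2
      · exact c1 (i, b)

/-- Products of commutators are open maps to `SL_r` (topology of the operator norm). -/
theorem open_relT_norm (X : Fin g × Bool → Mat r ℂ) (hX : ∀ k, IsUnit (X k))
    (hc : ∀ N : Mat r ℂ, (∀ k, Commute N (X k)) → ∃ c : ℂ, N = c • (1 : Mat r ℂ))
    (U : Set (Fin g × Bool → Mat r ℂ)) (hU : U ∈ nhds X) :
    ∃ V ∈ nhds (relT X), ∀ M ∈ V, M.det = 1 → ∃ X' ∈ U, relT X' = M := by
  rcases Nat.eq_zero_or_pos r with hr | hr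
  · subst hr
    exact ⟨Set.univ, Filter.univ_mem, fun M _ _ => ⟨X, mem_of_mem_nhds hU,
      Subsingleton.elim _ _⟩⟩
  obtain ⟨W, hW, hN⟩ := exists_deriv_relT g X hX
  have hfst : HasStrictFDerivAt (fun p : (Fin g × Bool → Mat r ℂ) × ℂ => relT p.1)
      (W.comp (ContinuousLinearMap.fst ℂ (Fin g × Bool → Mat r ℂ) ℂ)) (X, (1 : ℂ)) :=
    HasStrictFDerivAt.comp (X, (1 : ℂ)) hW
      (ContinuousLinearMap.fst ℂ (Fin g × Bool → Mat r ℂ) ℂ).hasStrictFDerivAt
  have hsnd : HasStrictFDerivAt (fun p : (Fin g × Bool → Mat r ℂ) × ℂ => p.2)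
      (ContinuousLinearMap.snd ℂ (Fin g × Bool → Mat r ℂ) ℂ) (X, (1 : ℂ)) :=
    (ContinuousLinearMap.snd ℂ (Fin g × Bool → Mat r ℂ) ℂ).hasStrictFDerivAt
  obtain ⟨D, hD, hDe⟩ : ∃ D : ((Fin g × Bool → Mat r ℂ) × ℂ) →L[ℂ] Mat r ℂ,
      HasStrictFDerivAt (fun p : (Fin g × Bool → Mat r ℂ) × ℂ => p.2 • relT p.1) D (X, (1 : ℂ)) ∧
        ∀ H γ, D (H, γ) = W H + γ • relT X :=
    ⟨_, hsnd.smul hfst, fun H γ => by
      show (1 : ℂ) • W H + γ • relT X = _
      rw [one_smul]⟩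
  have hsurj : D.range = ⊤ := by
    by_contra hne
    obtain ⟨φ, hφ, hle⟩ := Submodule.exists_le_ker_of_lt_top _ (lt_top_iff_ne_top.2 hne)
    obtain ⟨N, hNφ⟩ := exists_trace_repr φ
    have h0 : ∀ p, trace (N * D p) = 0 := fun p => by
      have := hle (LinearMap.mem_range_self D.toLinearMap p)
      rw [LinearMap.mem_ker, hNφ] at this
      exact this
    have h1 : ∀ H, trace (N * W H) = 0 := fun H => by
      have := h0 (H, 0)
      rw [hDe, zero_smul, add_zero] at this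
      exact this
    obtain ⟨c, hcN⟩ := hc _ (hN N h1)
    have h2 : trace (N * relT X) = 0 := by
      have := h0 (0, 1)
      rw [hDe, map_zero, one_smul, zero_add] at this
      exact this
    rw [hcN, trace_smul, trace_one, smul_eq_mul, Fintype.card_fin] at h2
    have hc0 : c = 0 := by
      rcases mul_eq_zero.1 h2 with h | h
      · exact h
      · exact absurd (Nat.cast_eq_zero.1 h) hr.ne'
    rw [hc0, zero_smul] at hcN
    have hRU := isUnit_relT hX
    have hN0 : N = 0 := (hRU.mul_left_eq_zero).1 hcN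
    apply hφ
    ext1 M
    rw [hNφ, hN0, Matrix.zero_mul, trace_zero, LinearMap.zero_apply]
  have hmap := hD.map_nhds_eq_of_surj hsurj
  -- the neighbourhood
  have hUn : {Y : Fin g × Bool → Mat r ℂ | ∀ k, IsUnit (Y k)} ∈ nhds X := by
    have : {Y : Fin g × Bool → Mat r ℂ | ∀ k, IsUnit (Y k)} =
        ⋂ k, {Y : Fin g × Bool → Mat r ℂ | (Y k).det ≠ 0} := by
      ext Y
      simp only [Set.mem_ofPred_eq, Set.mem_iInter]
      exact forall_congr' fun k => by rw [Matrix.isUnit_iff_isUnit_det, isUnit_iff_ne_zero]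
    rw [this]
    refine (isOpen_iInter_of_finite fun k => ?_).mem_nhds ?_
    · exact isOpen_ne.preimage (Continuous.matrix_det (continuous_apply k))
    · simp only [Set.mem_iInter, Set.mem_ofPred_eq]
      intro k
      rw [← isUnit_iff_ne_zero, ← Matrix.isUnit_iff_isUnit_det]
      exact hX k
  have hCn : {c : ℂ | c ^ r = 1 → c = 1} ∈ nhds (1 : ℂ) := by
    have hfin : ({c : ℂ | c ^ r = 1 ∧ c ≠ 1}).Finite := by
      refine (Multiset.finite_toSet (Polynomial.nthRoots r (1 : ℂ))).subset ?_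
      rintro c ⟨h1, -⟩
      exact (Polynomial.mem_nthRoots hr).2 h1
    have h1 : {c : ℂ | c ^ r = 1 → c = 1} = {c : ℂ | c ^ r = 1 ∧ c ≠ 1}ᶜ := by
      ext c
      simp only [Set.mem_ofPred_eq, Set.mem_compl_iff, not_and, not_not]
    rw [h1]
    refine hfin.isClosed.isOpen_compl.mem_nhds ?_
    simp
  have hprod : (U ∩ {Y : Fin g × Bool → Mat r ℂ | ∀ k, IsUnit (Y k)}) ×ˢ
      {c : ℂ | c ^ r = 1 → c = 1} ∈ nhds (X, (1 : ℂ)) :=
    prod_mem_nhds (Filter.inter_mem hU hUn) hCn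
  refine ⟨(fun p : (Fin g × Bool → Mat r ℂ) × ℂ => p.2 • relT p.1) ''
    ((U ∩ {Y : Fin g × Bool → Mat r ℂ | ∀ k, IsUnit (Y k)}) ×ˢ
      {c : ℂ | c ^ r = 1 → c = 1}), ?_, ?_⟩
  · have h1 := Filter.image_mem_map (m := fun p : (Fin g × Bool → Mat r ℂ) × ℂ =>
      p.2 • relT p.1) hprod
    have h2 := hmap.ge h1
    have h3 : (X, (1 : ℂ)).2 • relT (X, (1 : ℂ)).1 = relT X := one_smul _ _
    rw [h3] at h2
    exact h2
  · rintro M ⟨⟨Y, c⟩, ⟨⟨hYU, hYn⟩, hcC⟩, rfl⟩ hdet
    have hdet' : c ^ r = 1 := by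
      have := hdet
      simp only [det_smul, Fintype.card_fin, det_relT hYn, mul_one] at this
      exact this
    have hc1 : c = 1 := hcC hdet'
    refine ⟨Y, hYU, ?_⟩
    simp only [hc1, one_smul]

end normed

/-- Products of commutators are open maps to `SL_r` at tuples with scalar centralizer. -/
theorem open_relT (X : Fin g × Bool → Mat r ℂ) (hX : ∀ k, IsUnit (X k))
    (hc : ∀ N : Mat r ℂ, (∀ k, Commute N (X k)) → ∃ c : ℂ, N = c • (1 : Mat r ℂ))
    (U : Set (Fin g × Bool → Mat r ℂ)) (hU : U ∈ nhds X) :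
    ∃ V ∈ nhds (relT X), ∀ M ∈ V, M.det = 1 → ∃ X' ∈ U, relT X' = M :=
  open_relT_norm X hX hc U hU

end Vale.Agent.P002
end

section

namespace Vale.Agent.P002

open Matrix

variable {r : ℕ} {R : Type*} [CommRing R]

/-- Krylov matrix with columns `A ^ j v`. -/
def kry (A : Mat r R) (v : Fin r → R) : Mat r R :=
  Matrix.of fun i j => ((A ^ (j : ℕ)) *ᵥ v) i

theorem kry_mulVec_single (A : Mat r R) (v : Fin r → R) (j : Fin r) :
    kry A v *ᵥ Pi.single j 1 = (A ^ (j : ℕ)) *ᵥ v := by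
  ext i
  simp [kry]

theorem mul_kry (M A : Mat r R) (v : Fin r → R) (A' : Mat r R) (h : M * A = A' * M) :
    M * kry A v = kry A' (M *ᵥ v) := by
  ext i j
  have h2 : ∀ n : ℕ, M * A ^ n = A' ^ n * M := by
    intro n
    induction n with
    | zero => simp
    | succ n ih => rw [pow_succ, ← mul_assoc, ih, mul_assoc, h, ← mul_assoc, ← pow_succ]
  have h1 : (M * kry A v) i j = (M *ᵥ ((A ^ (j : ℕ)) *ᵥ v)) i := by
    simp [Matrix.mul_apply, mulVec, dotProduct, kry]
  rw [h1, mulVec_mulVec, h2, ← mulVec_mulVec]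
  rfl

/-- Two Krylov matrices with the same characteristic polynomial. -/
theorem krylov_comm (A A' : Mat r R) (v w : Fin r → R) (hc : A.charpoly = A'.charpoly)
    (B : Mat r R) (hB : B * kry A v = kry A' w) (hu : IsUnit (kry A v)) :
    B * A = A' * B := by
  nontriviality R
  -- `B p(A) v = p(A') w` for all polynomials `p`
  have key1 : ∀ p : Polynomial R, p.degree < (r : WithBot ℕ) →
      B *ᵥ (Polynomial.aeval A p *ᵥ v) = Polynomial.aeval A' p *ᵥ w := by
    intro p hp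
    have hd : p.natDegree < r ∨ p = 0 := by
      by_cases h0 : p = 0
      · exact Or.inr h0
      · left
        rwa [← Polynomial.natDegree_lt_iff_degree_lt h0] at hp
    rcases hd with hd | rfl
    swap
    · simp
    rw [Polynomial.aeval_eq_sum_range' hd, Polynomial.aeval_eq_sum_range' hd]
    rw [Matrix.sum_mulVec, Matrix.sum_mulVec, Matrix.mulVec_sum]
    apply Finset.sum_congr rfl
    intro n hn
    rw [Finset.mem_range] at hn
    rw [smul_mulVec, smul_mulVec, mulVec_smul]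
    congr 1
    have h1 := kry_mulVec_single A v ⟨n, hn⟩
    have h2 := kry_mulVec_single A' w ⟨n, hn⟩
    simp only at h1 h2
    rw [← h1, ← h2, mulVec_mulVec, hB]
  have key2 : ∀ p : Polynomial R,
      B *ᵥ (Polynomial.aeval A p *ᵥ v) = Polynomial.aeval A' p *ᵥ w := by
    intro p
    have hm := Matrix.charpoly_monic A
    have hm' := Matrix.charpoly_monic A'
    have e1 := Polynomial.modByMonic_add_div p A.charpoly
    have hdeg : (p %ₘ A.charpoly).degree < (r : WithBot ℕ) := by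
      have := Polynomial.degree_modByMonic_lt p hm
      rwa [Matrix.charpoly_degree_eq_dim, Fintype.card_fin] at this
    have e2 : Polynomial.aeval A p = Polynomial.aeval A (p %ₘ A.charpoly) := by
      conv_lhs => rw [← e1]
      rw [map_add, map_mul, Matrix.aeval_self_charpoly, zero_mul, add_zero]
    have e3 : Polynomial.aeval A' p = Polynomial.aeval A' (p %ₘ A.charpoly) := by
      conv_lhs => rw [← e1]
      rw [map_add, map_mul, hc, Matrix.aeval_self_charpoly, zero_mul, add_zero]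
    rw [e2, e3]
    exact key1 _ hdeg
  have hcancel : (B * A) * kry A v = (A' * B) * kry A v := by
    have h : ∀ j : Fin r, ((B * A) * kry A v) *ᵥ Pi.single j 1 =
        ((A' * B) * kry A v) *ᵥ Pi.single j 1 := by
      intro j
      rw [← mulVec_mulVec, ← mulVec_mulVec, ← mulVec_mulVec, ← mulVec_mulVec, kry_mulVec_single,
        mulVec_mulVec v A (A ^ (j : ℕ))]
      have k1 := key2 (Polynomial.X ^ (j : ℕ))
      have k2 := key2 (Polynomial.X ^ ((j : ℕ) + 1))
      simp only [map_pow, Polynomial.aeval_X] at k1 k2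
      rw [k1, ← pow_succ', k2, pow_succ', mulVec_mulVec]
    ext i j
    have := congrFun (h j) i
    simpa using this
  exact hu.mul_right_cancel hcancel

end Vale.Agent.P002
end

section

namespace Vale.Agent.P002

open Matrix

/-- Polynomials not vanishing at `0` and `1`. -/
def Sub01 : Submonoid (Polynomial ℂ) where
  carrier := {p | p.eval 0 ≠ 0 ∧ p.eval 1 ≠ 0}
  mul_mem' := by
    intro a b ha hb
    simp only [Set.mem_ofPred_eq, Polynomial.eval_mul] at *
    exact ⟨mul_ne_zero ha.1 hb.1, mul_ne_zero ha.2 hb.2⟩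
  one_mem' := by simp

theorem mem_Sub01 (p : Polynomial ℂ) : p ∈ Sub01 ↔ p.eval 0 ≠ 0 ∧ p.eval 1 ≠ 0 := Iff.rfl

/-- Rational functions regular at `0` and `1`. -/
abbrev T01 := Localization Sub01

theorem Sub01_le : Sub01 ≤ nonZeroDivisors (Polynomial ℂ) := by
  intro p hp
  rw [mem_nonZeroDivisors_iff_ne_zero]
  rintro rfl
  simp [mem_Sub01] at hp

instance : IsDomain T01 := IsLocalization.isDomain_localization Sub01_le

/-- Evaluation at `0`. -/
noncomputable def ev0 : T01 →+* ℂ :=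
  IsLocalization.lift (M := Sub01) (g := Polynomial.evalRingHom (0 : ℂ)) (fun y =>
    isUnit_iff_ne_zero.2 (by simpa using y.2.1))

/-- Evaluation at `1`. -/
noncomputable def ev1 : T01 →+* ℂ :=
  IsLocalization.lift (M := Sub01) (g := Polynomial.evalRingHom (1 : ℂ)) (fun y =>
    isUnit_iff_ne_zero.2 (by simpa using y.2.2))

@[simp] theorem ev0_algebraMap (p : Polynomial ℂ) : ev0 (algebraMap _ T01 p) = p.eval 0 := by
  unfold ev0
  rw [IsLocalization.lift_eq]
  rfl

@[simp] theorem ev1_algebraMap (p : Polynomial ℂ) : ev1 (algebraMap _ T01 p) = p.eval 1 := by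
  unfold ev1
  rw [IsLocalization.lift_eq]
  rfl

theorem isUnit_T01 (x : T01) (h0 : ev0 x ≠ 0) (h1 : ev1 x ≠ 0) : IsUnit x := by
  obtain ⟨⟨p, s⟩, hx⟩ := IsLocalization.surj (M := Sub01) x
  simp only at hx
  have e0 := congrArg ev0 hx
  have e1 := congrArg ev1 hx
  rw [map_mul, ev0_algebraMap, ev0_algebraMap] at e0
  rw [map_mul, ev1_algebraMap, ev1_algebraMap] at e1
  have hp : p ∈ Sub01 := by
    rw [mem_Sub01, ← e0, ← e1]
    exact ⟨mul_ne_zero h0 s.2.1, mul_ne_zero h1 s.2.2⟩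
  have hu : IsUnit (algebraMap _ T01 p) := IsLocalization.map_units (M := Sub01) T01 ⟨p, hp⟩
  rw [← hx] at hu
  exact isUnit_of_mul_isUnit_left hu

/-- The algebra structure over the complex numbers. -/
noncomputable instance : Algebra ℂ T01 := inferInstance

theorem algebraMap_T01 (c : ℂ) : algebraMap ℂ T01 c = algebraMap _ T01 (Polynomial.C c) := by
  rw [IsScalarTower.algebraMap_apply ℂ (Polynomial ℂ) T01]
  rfl

@[simp] theorem ev0_C (c : ℂ) : ev0 (algebraMap ℂ T01 c) = c := by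
  rw [algebraMap_T01]; simp

@[simp] theorem ev1_C (c : ℂ) : ev1 (algebraMap ℂ T01 c) = c := by
  rw [algebraMap_T01]; simp

/-- Linear interpolation. -/
noncomputable def lin (a b : ℂ) : T01 :=
  algebraMap _ T01 (Polynomial.C a + Polynomial.X * Polynomial.C (b - a))

@[simp] theorem ev0_lin (a b : ℂ) : ev0 (lin a b) = a := by simp [lin]

@[simp] theorem ev1_lin (a b : ℂ) : ev1 (lin a b) = b := by simp [lin]

theorem isUnit_mat {r : ℕ} (M : Mat r T01) (h0 : IsUnit (M.map ev0)) (h1 : IsUnit (M.map ev1)) :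
    IsUnit M := by
  rw [Matrix.isUnit_iff_isUnit_det]
  rw [Matrix.isUnit_iff_isUnit_det, isUnit_iff_ne_zero] at h0 h1
  apply isUnit_T01
  · rw [RingHom.map_det]; exact h0
  · rw [RingHom.map_det]; exact h1

end Vale.Agent.P002
end

section

/-!
# Units of the ring of integers modulo a nonzero element
-/

namespace Vale.Agent.P002R

open NumberField

/-- Powers of a unit are congruent to one modulo any nonzero element. -/
theorem exists_dvd_pow_sub_one (L : Type) [Field L] [NumberField L] (u : (𝓞 L)ˣ) (D : 𝓞 L)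
    (hD : D ≠ 0) : ∃ M : ℕ, 0 < M ∧ D ∣ (u : 𝓞 L) ^ M - 1 := by
  have hI : (Ideal.span {D} : Ideal (𝓞 L)) ≠ ⊥ := by
    rwa [Ne, Ideal.span_singleton_eq_bot]
  have : Finite (𝓞 L ⧸ (Ideal.span {D} : Ideal (𝓞 L))) := Ideal.finiteQuotientOfFreeOfNeBot _ hI
  obtain ⟨v, hv⟩ : ∃ v : (𝓞 L ⧸ (Ideal.span {D} : Ideal (𝓞 L)))ˣ,
      v = Units.map (Ideal.Quotient.mk (Ideal.span {D})).toMonoidHom u := ⟨_, rfl⟩
  refine ⟨orderOf v, orderOf_pos v, ?_⟩
  rw [← Ideal.mem_span_singleton, ← Ideal.Quotient.eq_zero_iff_mem, map_sub, map_one, map_pow,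
    sub_eq_zero]
  have h1 := congrArg Units.val (pow_orderOf_eq_one v)
  rw [Units.val_pow_eq_pow_val, Units.val_one] at h1
  have h2 : (v : 𝓞 L ⧸ (Ideal.span {D} : Ideal (𝓞 L))) = Ideal.Quotient.mk _ (u : 𝓞 L) := by
    rw [hv]
    rfl
  rw [← h2]
  exact h1

end Vale.Agent.P002R
end

section

/-!
# Bordered matrices and their characteristic polynomials
-/

namespace Vale.Agent.P002G

open Matrix Polynomial

variable {n : ℕ} {S : Type*} [CommRing S]

end Vale.Agent.P002G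
end

section

/-!
# Cyclic vectors and bordering
-/

namespace Vale.Agent.P002G

open Matrix Polynomial
open Vale.Agent.P002 (kry mul_kry kry_mulVec_single)

variable {n : ℕ} {S T : Type*} [CommRing S] [CommRing T]

/-- `v` is a cyclic vector of `Z` (over the ring `S`). -/
def Cyc (Z : Matrix (Fin n) (Fin n) S) (v : Fin n → S) : Prop :=
  ∀ M : Submodule S (Fin n → S), v ∈ M → (∀ y ∈ M, Z *ᵥ y ∈ M) → M = ⊤

theorem pow_mem_of_stable {Z : Matrix (Fin n) (Fin n) S} {M : Submodule S (Fin n → S)}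
    (hZ : ∀ y ∈ M, Z *ᵥ y ∈ M) {v : Fin n → S} (hv : v ∈ M) (j : ℕ) : (Z ^ j) *ᵥ v ∈ M := by
  induction j with
  | zero => simpa using hv
  | succ j ih => rw [pow_succ', ← mulVec_mulVec]; exact hZ _ ih

theorem kry_mulVec (Z : Matrix (Fin n) (Fin n) S) (v y : Fin n → S) :
    kry Z v *ᵥ y = ∑ j, y j • ((Z ^ (j : ℕ)) *ᵥ v) := by
  ext i
  simp [kry, mulVec, dotProduct, mul_comm]

theorem cyc_iff (Z : Matrix (Fin n) (Fin n) S) (v : Fin n → S) :
    Cyc Z v ↔ IsUnit (kry Z v) := by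
  rw [← Matrix.mulVec_surjective_iff_isUnit]
  constructor
  · intro h x
    rcases n with _ | n
    · exact ⟨0, Subsingleton.elim _ _⟩
    obtain ⟨M, hM⟩ : ∃ M, M = LinearMap.range (kry Z v).mulVecLin := ⟨_, rfl⟩
    have hpow : ∀ j : ℕ, j < n + 1 → (Z ^ j) *ᵥ v ∈ M := by
      intro j hj
      rw [hM]
      exact ⟨Pi.single ⟨j, hj⟩ 1, kry_mulVec_single Z v ⟨j, hj⟩⟩
    have htop : (Z ^ (n + 1)) *ᵥ v ∈ M := by
      nontriviality S
      have h1 := Matrix.aeval_self_charpoly Z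
      have h2 : Z.charpoly.natDegree = n + 1 := by
        rw [Matrix.charpoly_natDegree_eq_dim, Fintype.card_fin]
      rw [Polynomial.aeval_eq_sum_range, h2, Finset.sum_range_succ] at h1
      have h3 : Z.charpoly.coeff (n + 1) = 1 := by
        have := Z.charpoly_monic
        rwa [Polynomial.Monic, Polynomial.leadingCoeff, h2] at this
      rw [h3, one_smul] at h1
      have h4 : Z ^ (n + 1) = -∑ i ∈ Finset.range (n + 1), Z.charpoly.coeff i • Z ^ i :=
        eq_neg_of_add_eq_zero_right h1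
      rw [h4, Matrix.neg_mulVec, Matrix.sum_mulVec]
      apply M.neg_mem
      apply M.sum_mem
      intro i hi
      rw [smul_mulVec]
      exact M.smul_mem _ (hpow i (Finset.mem_range.1 hi))
    have hall : M = ⊤ := by
      apply h M
      · simpa using hpow 0 (Nat.succ_pos n)
      · intro y hy
        rw [hM] at hy
        obtain ⟨z, rfl⟩ := hy
        rw [Matrix.mulVecLin_apply, kry_mulVec, Matrix.mulVec_sum]
        apply M.sum_mem
        intro j _
        rw [mulVec_smul, mulVec_mulVec, ← pow_succ']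
        apply M.smul_mem
        rcases Nat.lt_or_ge ((j : ℕ) + 1) (n + 1) with h1 | h1
        · exact hpow _ h1
        · have h2 : (j : ℕ) + 1 = n + 1 := by
            have := j.2
            omega
          rw [h2]
          exact htop
    have hx : x ∈ M := by rw [hall]; trivial
    rw [hM] at hx
    obtain ⟨y, hy⟩ := hx
    exact ⟨y, hy⟩
  · intro h M hv hZ
    rw [eq_top_iff]
    intro x _
    obtain ⟨y, rfl⟩ := h x
    rw [kry_mulVec]
    exact M.sum_mem fun j _ => M.smul_mem _ (pow_mem_of_stable hZ hv j)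

theorem cyc_conj {Z : Matrix (Fin n) (Fin n) S} {v : Fin n → S} (P : (Matrix (Fin n) (Fin n) S)ˣ)
    (h : Cyc Z v) : Cyc ((P : Matrix (Fin n) (Fin n) S) * Z * ((P⁻¹ : (Matrix (Fin n) (Fin n) S)ˣ) :
      Matrix (Fin n) (Fin n) S)) ((P : Matrix (Fin n) (Fin n) S) *ᵥ v) := by
  rw [cyc_iff] at h ⊢
  rw [← mul_kry (P : Matrix (Fin n) (Fin n) S) Z v _ (by
    rw [mul_assoc _ ((P⁻¹ : (Matrix (Fin n) (Fin n) S)ˣ) : Matrix (Fin n) (Fin n) S), Units.inv_mul,
      mul_one])]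
  exact P.isUnit.mul h

/-- The first basis vector. -/
def e0 (n : ℕ) (S : Type*) [CommRing S] : Fin (n + 1) → S := Fin.cons 1 0

/-! ### The linear system for the first row -/

end Vale.Agent.P002G
end

section

/-!
# Coordinates of the cells `U L` and the first row of a bordered matrix
-/

namespace Vale.Agent.P002G

open Matrix Polynomial
open Vale.Agent.P002 (kry mul_kry kry_mulVec_single)

variable {n : ℕ} {S T : Type*} [CommRing S] [CommRing T]

/-- The upper unitriangular matrix with the strict upper entries of `X`. -/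
def uU (X : Matrix (Fin n) (Fin n) S) : Matrix (Fin n) (Fin n) S :=
  Matrix.of fun i j => if i = j then 1 else if i < j then X i j else 0

/-- The lower triangular part of `X`, with the diagonal. -/
def lL (X : Matrix (Fin n) (Fin n) S) : Matrix (Fin n) (Fin n) S :=
  Matrix.of fun i j => if j ≤ i then X i j else 0

/-- The element of the cell with the coordinates `X`. -/
def zZ (X : Matrix (Fin n) (Fin n) S) : Matrix (Fin n) (Fin n) S := uU X * lL X

theorem uU_map (φ : S →+* T) (X : Matrix (Fin n) (Fin n) S) : (uU X).map φ = uU (X.map φ) := by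
  ext i j
  simp only [uU, Matrix.map_apply, Matrix.of_apply]
  split_ifs
  · exact map_one φ
  · rfl
  · exact map_zero φ

theorem lL_map (φ : S →+* T) (X : Matrix (Fin n) (Fin n) S) : (lL X).map φ = lL (X.map φ) := by
  ext i j
  simp only [lL, Matrix.map_apply, Matrix.of_apply]
  split_ifs
  · rfl
  · exact map_zero φ

theorem zZ_map (φ : S →+* T) (X : Matrix (Fin n) (Fin n) S) : (zZ X).map φ = zZ (X.map φ) := by
  rw [zZ, Matrix.map_mul, uU_map, lL_map, zZ]

end Vale.Agent.P002G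
end
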