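import Mathlib

set_option linter.all false

@[reducible] def Vale.Agent.P002Fast.coeU3 {M : Type*} [Monoid M] (u : Mˣ) : CoeT Mˣ u M := ⟨Units.val u⟩
attribute [local instance] Vale.Agent.P002Fast.coeU3

section

/-!
# Statement of the density theorem: definitions
-/

namespace Vale.Agent.P002R.Statement

open Matrix NumberField

variable {g n r : ℕ}

/-- Generators of the fundamental group of a surface of genus `g` with `n` punctures:
`inl (i, false) = a_i`, `inl (i, true) = b_i` for `i < g`, and `inr j = c_j`, the boundary loop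
around the `j`-th puncture. -/
abbrev Gens (g n : ℕ) := (Fin g × Bool) ⊕ Fin n

/-- `Rep_r(X)(A)`: tuples `(A_i, B_i, C_j)` in `SL_r(A)` with `∏ [A_i, B_i] * ∏ C_j = 1`, that is,
representations of the fundamental group `⟨a_i, b_i, c_j | ∏ [a_i, b_i] * ∏ c_j⟩`. -/
def IsRep {A : Type*} [CommRing A] (X : Gens g n → SpecialLinearGroup (Fin r) A) : Prop :=
  (List.ofFn fun i : Fin g => X (Sum.inl (i, false)) * X (Sum.inl (i, true)) *
    (X (Sum.inl (i, false)))⁻¹ * (X (Sum.inl (i, true)))⁻¹).prod *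
  (List.ofFn fun j : Fin n => X (Sum.inr j)).prod = 1

end Vale.Agent.P002R.Statement
end

section

/-!
# Statement of the density theorem without boundary conditions: definition
-/

namespace Vale.Agent.P002R.Statement

open Matrix

end Vale.Agent.P002R.Statement
end

section

/-! Infinitesimal principal minor lemma. -/

namespace Vale.Agent.P002

open Matrix

variable {ι : Type*} [Fintype ι] [DecidableEq ι]

end Vale.Agent.P002
end

section

namespace Vale.Agent.P002R

open Matrix

variable {r : ℕ}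

/-- Puncture algebra. -/
theorem puncture_alg (K Ki d c ci η sd : Matrix (Fin r) (Fin r) ℂ)
    (hK1 : K * Ki = 1)
    (h : ∀ ε : Matrix (Fin r) (Fin r) ℂ, trace (sd * -(K * ε * Ki * d)) =
      trace ((η - (Ki * c * K) * η * (Ki * ci * K)) * ε)) (z : Matrix (Fin r) (Fin r) ℂ) :
    trace (sd * (z * d)) = trace (η * (Ki * (ci * z * c - z) * K)) := by
  have hK1' : ∀ X : Matrix (Fin r) (Fin r) ℂ, K * (Ki * X) = X := fun X => by
    rw [← mul_assoc, hK1, one_mul]
  have h1 := h (-(Ki * z * K))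
  have e1 : sd * -(K * -(Ki * z * K) * Ki * d) = sd * (z * d) := by
    simp only [mul_neg, neg_mul, neg_neg, mul_assoc, hK1']
  have e2 : (η - (Ki * c * K) * η * (Ki * ci * K)) * -(Ki * z * K) =
      (Ki * c * K) * (η * (Ki * (ci * (z * K)))) - η * (Ki * (z * K)) := by
    simp only [mul_neg, sub_mul, mul_assoc, hK1']
    abel
  rw [e1, e2, trace_sub, Matrix.trace_mul_comm (Ki * c * K)] at h1
  rw [h1, ← trace_sub]
  congr 1
  simp only [mul_sub, sub_mul, mul_assoc, hK1']

/-- Handle algebra. -/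
theorem handle_alg (K Ki a ai b bi η sa sb : Matrix (Fin r) (Fin r) ℂ)
    (hK1 : K * Ki = 1) (ha1 : a * ai = 1) (hb2 : bi * b = 1) (hb1 : b * bi = 1)
    (h1 : ∀ ε : Matrix (Fin r) (Fin r) ℂ, trace (sb * -(K * ε * Ki * b)) =
      trace ((η - (Ki * (b * ai * bi) * K) * η * (Ki * (b * a * bi) * K)) * ε))
    (h2 : ∀ ε : Matrix (Fin r) (Fin r) ℂ, trace (sa * (a * (K * ε * Ki))) +
      trace (sb * (b * (K * ε * Ki) - (K * ε * Ki) * b)) =
      trace ((η - (Ki * bi * K) * η * (Ki * b * K)) * ε))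
    (Ea Eb : Matrix (Fin r) (Fin r) ℂ) :
    trace (sa * Ea) + trace (sb * Eb) = trace (η * (Ki * (b * a * bi * (ai * Ea) * b * ai * bi +
      b * a * bi * Eb * ai * bi - b * Ea * ai * bi - Eb * bi) * K)) := by
  have hK1' : ∀ X : Matrix (Fin r) (Fin r) ℂ, K * (Ki * X) = X := fun X => by
    rw [← mul_assoc, hK1, one_mul]
  have ha1' : ∀ X : Matrix (Fin r) (Fin r) ℂ, a * (ai * X) = X := fun X => by
    rw [← mul_assoc, ha1, one_mul]
  have hb2' : ∀ X : Matrix (Fin r) (Fin r) ℂ, bi * (b * X) = X := fun X => by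
    rw [← mul_assoc, hb2, one_mul]
  have hb1' : ∀ X : Matrix (Fin r) (Fin r) ℂ, b * (bi * X) = X := fun X => by
    rw [← mul_assoc, hb1, one_mul]
  have key : ∀ Eb : Matrix (Fin r) (Fin r) ℂ, trace (sb * Eb) =
      trace (η * (Ki * (b * a * bi * Eb * ai * bi - Eb * bi) * K)) := by
    intro Eb
    have h3 := h1 (-(Ki * (Eb * bi) * K))
    have e1 : sb * -(K * -(Ki * (Eb * bi) * K) * Ki * b) = sb * Eb := by
      simp only [mul_neg, neg_mul, neg_neg, mul_assoc, hK1', hb2, mul_one]
    have e2 : (η - (Ki * (b * ai * bi) * K) * η * (Ki * (b * a * bi) * K)) *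
        -(Ki * (Eb * bi) * K) =
        (Ki * (b * ai * bi) * K) * (η * (Ki * (b * (a * (bi * (Eb * (bi * K))))))) -
          η * (Ki * (Eb * (bi * K))) := by
      simp only [mul_neg, sub_mul, mul_assoc, hK1']
      abel
    rw [e1, e2, trace_sub, Matrix.trace_mul_comm (Ki * (b * ai * bi) * K)] at h3
    rw [h3, ← trace_sub]
    congr 1
    simp only [mul_sub, sub_mul, mul_assoc, hK1', hb2']
  have h3 := h2 (Ki * (ai * Ea) * K)
  have e0 : K * (Ki * (ai * Ea) * K) * Ki = ai * Ea := by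
    simp only [mul_assoc, hK1', hK1, mul_one]
  rw [e0, ha1', key] at h3
  have e2 : (η - (Ki * bi * K) * η * (Ki * b * K)) * (Ki * (ai * Ea) * K) =
      η * (Ki * (ai * (Ea * K))) - (Ki * bi * K) * (η * (Ki * (b * (ai * (Ea * K))))) := by
    simp only [sub_mul, mul_assoc, hK1']
  rw [e2, trace_sub, Matrix.trace_mul_comm (Ki * bi * K)] at h3
  rw [key Eb]
  simp only [mul_sub, sub_mul, mul_add, add_mul, mul_assoc, hK1', ha1', hb1', hb2', trace_sub,
    trace_add] at h3 ⊢
  linear_combination h3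

end Vale.Agent.P002R
end

section

/-!
# P002 PART III': derivations of `ℂ` with prescribed values; dense algebraically independent tuples
-/

namespace Vale.Agent.P002

/-- Lifting along square-zero surjections for algebraic extensions of fraction fields in
characteristic zero. -/
theorem exists_ringHom_lift {P K B : Type} [CommRing P] [IsDomain P] [Field K] [CharZero K]
    [CommRing B] [Algebra P K] [FaithfulSMul P K] [Algebra.IsAlgebraic P K] (g : B →+* K)
    (hg : Function.Surjective g) (hker : RingHom.ker g ^ 2 = ⊥) (h : P →+* B)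
    (hgh : g.comp h = algebraMap P K) :
    ∃ ψ : K →+* B, g.comp ψ = RingHom.id K ∧ ψ.comp (algebraMap P K) = h := by
  let _ : Algebra (FractionRing P) K := FractionRing.liftAlgebra P K
  have : IsScalarTower P (FractionRing P) K := FractionRing.isScalarTower_liftAlgebra P K
  have : Algebra.IsAlgebraic (FractionRing P) K :=
    (IsFractionRing.comap_isAlgebraic_iff (A := P) (K := FractionRing P) (C := K)).1 inferInstance
  have : CharZero (FractionRing P) := (algebraMap (FractionRing P) K).charZero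
  have : Algebra.FormallyEtale (FractionRing P) K := Algebra.FormallyEtale.of_isSeparable _ _
  have : Algebra.FormallyEtale P (FractionRing P) :=
    Algebra.FormallyEtale.of_isLocalization (nonZeroDivisors P)
  have : Algebra.FormallyEtale P K := Algebra.FormallyEtale.comp P (FractionRing P) K
  let _ : Algebra P B := h.toAlgebra
  obtain ⟨g', hg'⟩ : ∃ g' : B →ₐ[P] K, ∀ b, g' b = g b :=
    ⟨{ g with commutes' := fun p => RingHom.congr_fun hgh p }, fun b => rfl⟩
  have hsurj : Function.Surjective g' := fun k => by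
    obtain ⟨b, hb⟩ := hg k
    exact ⟨b, (hg' b).trans hb⟩
  have hnil : IsNilpotent (RingHom.ker (g' : B →+* K)) := by
    refine ⟨2, ?_⟩
    have : RingHom.ker (g' : B →+* K) = RingHom.ker g := by
      ext b
      rw [RingHom.mem_ker, RingHom.mem_ker]
      show g' b = 0 ↔ g b = 0
      rw [hg']
    rw [this, hker]
    rfl
  refine ⟨(Algebra.FormallySmooth.liftOfSurjective (AlgHom.id P K) g' hsurj hnil :
    K →ₐ[P] B), ?_, ?_⟩
  · ext k
    have := Algebra.FormallySmooth.liftOfSurjective_apply (AlgHom.id P K) g' hsurj hnil k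
    rw [hg'] at this
    exact this
  · ext p
    exact (Algebra.FormallySmooth.liftOfSurjective (AlgHom.id P K) g' hsurj hnil).commutes p

/-- A ring homomorphism to the dual numbers over `ℂ` with prescribed values on a transcendence
basis. -/
theorem exists_dual_hom (K₀ : Subfield ℂ) {t : Type} (x : t → ℂ) (ht : IsTranscendenceBasis K₀ x)
    (w : t → ℂ) :
    ∃ ψ : ℂ →+* TrivSqZeroExt ℂ ℂ, (∀ z, (ψ z).fst = z) ∧ (∀ i, (ψ (x i)).snd = w i) ∧
      ∀ c ∈ K₀, (ψ c).snd = 0 := by
  have halg : Algebra.IsAlgebraic (Algebra.adjoin K₀ (Set.range x)) ℂ := ht.isAlgebraic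
  obtain ⟨e, he, hes⟩ : ∃ e : MvPolynomial t K₀ →ₐ[K₀] Algebra.adjoin K₀ (Set.range x),
      (∀ q, algebraMap (Algebra.adjoin K₀ (Set.range x)) ℂ (e q) = MvPolynomial.aeval x q) ∧
        Function.Surjective e :=
    ⟨(ht.1.aevalEquiv : MvPolynomial t K₀ →ₐ[K₀] _), fun q =>
      AlgebraicIndependent.algebraMap_aevalEquiv ht.1 q, ht.1.aevalEquiv.surjective⟩
  obtain ⟨e', he'⟩ : ∃ e' : Algebra.adjoin K₀ (Set.range x) →ₐ[K₀] MvPolynomial t K₀,
      ∀ q, e' (e q) = q := by
    have hinj : Function.Injective e := fun p q hpq => ht.1 (by rw [← he, ← he, hpq])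
    exact ⟨(AlgEquiv.ofBijective e ⟨hinj, hes⟩).symm, fun q =>
      (AlgEquiv.ofBijective e ⟨hinj, hes⟩).symm_apply_apply q⟩
  obtain ⟨j, hj⟩ : ∃ j : K₀ →+* TrivSqZeroExt ℂ ℂ, ∀ c : K₀, j c = TrivSqZeroExt.inl (c : ℂ) :=
    ⟨(TrivSqZeroExt.inlHom ℂ ℂ).comp (algebraMap K₀ ℂ), fun c => rfl⟩
  obtain ⟨h, hh⟩ : ∃ h : Algebra.adjoin K₀ (Set.range x) →+* TrivSqZeroExt ℂ ℂ,
      ∀ q, h (e q) = MvPolynomial.eval₂ j
        (fun i : t => (TrivSqZeroExt.inl (x i) + TrivSqZeroExt.inr (w i) : TrivSqZeroExt ℂ ℂ))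
          q := by
    refine ⟨(MvPolynomial.eval₂Hom j (fun i : t => (TrivSqZeroExt.inl (x i) +
      TrivSqZeroExt.inr (w i) : TrivSqZeroExt ℂ ℂ))).comp e'.toRingHom, fun q => ?_⟩
    rw [RingHom.comp_apply]
    have : e'.toRingHom (e q) = q := he' q
    rw [this]
    rfl
  obtain ⟨g, hg⟩ : ∃ g : TrivSqZeroExt ℂ ℂ →+* ℂ, ∀ x, g x = x.fst :=
    ⟨{ toFun := fun x => x.fst
       map_one' := TrivSqZeroExt.fst_one
       map_mul' := fun x y => TrivSqZeroExt.fst_mul x y
       map_zero' := TrivSqZeroExt.fst_zero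
       map_add' := fun x y => TrivSqZeroExt.fst_add x y }, fun x => rfl⟩
  have hsurj : Function.Surjective g := fun x => ⟨TrivSqZeroExt.inl x, by
    rw [hg, TrivSqZeroExt.fst_inl]⟩
  have hker : RingHom.ker g ^ 2 = ⊥ := by
    rw [sq, eq_bot_iff, Ideal.mul_le]
    intro x hx y hy
    rw [RingHom.mem_ker, hg] at hx hy
    rw [Ideal.mem_bot]
    ext
    · rw [TrivSqZeroExt.fst_mul, hx, zero_mul, TrivSqZeroExt.fst_zero]
    · rw [TrivSqZeroExt.snd_mul, hx, hy]
      simp
  have hgh : g.comp h = algebraMap (Algebra.adjoin K₀ (Set.range x)) ℂ := by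
    ext p
    obtain ⟨q, rfl⟩ := hes p
    rw [RingHom.comp_apply, hh, hg, he]
    have h1 : g.comp (MvPolynomial.eval₂Hom j
        (fun i : t => (TrivSqZeroExt.inl (x i) + TrivSqZeroExt.inr (w i) :
          TrivSqZeroExt ℂ ℂ))) =
        (MvPolynomial.aeval x : MvPolynomial t K₀ →ₐ[K₀] ℂ).toRingHom := by
      refine MvPolynomial.ringHom_ext (fun n => ?_) fun i => ?_
      · rw [RingHom.comp_apply, hg, MvPolynomial.coe_eval₂Hom, MvPolynomial.eval₂_C, hj,
          TrivSqZeroExt.fst_inl]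
        simp
        rfl
      · rw [RingHom.comp_apply, hg]
        simp
    have h2 := RingHom.congr_fun h1 q
    rw [RingHom.comp_apply, hg] at h2
    exact h2
  obtain ⟨ψ, hψ1, hψ2⟩ := exists_ringHom_lift g hsurj hker h hgh
  refine ⟨ψ, fun x => ?_, fun i => ?_, fun c hc => ?_⟩
  · rw [← hg]; exact RingHom.congr_fun hψ1 x
  · have h0 := he (MvPolynomial.X i)
    rw [MvPolynomial.aeval_X] at h0
    have h1 := RingHom.congr_fun hψ2 (e (MvPolynomial.X i))
    rw [RingHom.comp_apply, h0] at h1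
    rw [h1, hh, MvPolynomial.eval₂_X, TrivSqZeroExt.snd_add,
      TrivSqZeroExt.snd_inl, TrivSqZeroExt.snd_inr, zero_add]
  · have h0 := he (MvPolynomial.C ⟨c, hc⟩)
    have h1 := RingHom.congr_fun hψ2 (e (MvPolynomial.C ⟨c, hc⟩))
    rw [MvPolynomial.aeval_C] at h0
    have h2 : algebraMap K₀ ℂ ⟨c, hc⟩ = c := rfl
    rw [RingHom.comp_apply, h0, h2] at h1
    rw [h1, hh, MvPolynomial.eval₂_C, hj, TrivSqZeroExt.snd_inl]

/-- The derivation attached to a section of the dual numbers. -/
theorem derivation_of_hom (ψ : ℂ →+* TrivSqZeroExt ℂ ℂ) (hψ : ∀ z, (ψ z).fst = z) :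
    ∃ δ : Derivation ℤ ℂ ℂ, ∀ x, δ x = (ψ x).snd := by
  refine ⟨Derivation.mk' (AddMonoidHom.toIntLinearMap
    { toFun := fun x => (ψ x).snd
      map_zero' := by rw [map_zero, TrivSqZeroExt.snd_zero]
      map_add' := fun x y => by rw [map_add, TrivSqZeroExt.snd_add] }) fun x y => ?_,
    fun x => rfl⟩
  show (ψ (x * y)).snd = x • (ψ y).snd + y • (ψ x).snd
  rw [map_mul, TrivSqZeroExt.snd_mul, hψ, hψ]
  congr 1
  show (ψ x).snd * y = y * (ψ x).snd
  rw [mul_comm]

/-- Derivations of `ℂ` over a subfield can be prescribed on algebraically independent numbers. -/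
theorem exists_derivation (K₀ : Subfield ℂ) {ι : Type} (a : ι → ℂ)
    (ha : AlgebraicIndependent K₀ a) (v : ι → ℂ) :
    ∃ δ : Derivation ℤ ℂ ℂ, (∀ c ∈ K₀, δ c = 0) ∧ ∀ i, δ (a i) = v i := by
  classical
  obtain ⟨t, hst, ht⟩ := exists_isTranscendenceBasis_superset (R := K₀) (s := Set.range a)
    ha.coe_range
  obtain ⟨w, hw⟩ : ∃ w : t → ℂ, ∀ i, w ⟨a i, hst ⟨i, rfl⟩⟩ = v i := by
    refine ⟨fun x => if h : ∃ i, a i = x then v h.choose else 0, fun i => ?_⟩
    have h : ∃ j, a j = a i := ⟨i, rfl⟩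
    simp only
    rw [dif_pos h]
    congr 1
    exact ha.injective h.choose_spec
  obtain ⟨ψ, h1, h2, h3⟩ := exists_dual_hom K₀ _ ht w
  obtain ⟨δ, hδ⟩ := derivation_of_hom ψ h1
  refine ⟨δ, fun c hc => by rw [hδ]; exact h3 c hc, fun i => ?_⟩
  rw [hδ, ← hw]
  exact h2 ⟨a i, hst ⟨i, rfl⟩⟩

/-- Algebraically independent tuples are dense. -/
theorem exists_dense_algIndep (K₀ : Subfield ℂ) (hK₀ : Countable K₀) {ι : Type} [Finite ι]
    (V : ι → Set ℂ) (hV : ∀ i, IsOpen (V i)) (hne : ∀ i, (V i).Nonempty) :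
    ∃ t : ι → ℂ, (∀ i, t i ∈ V i) ∧ AlgebraicIndependent K₀ t := by
  induction ι using Finite.induction_empty_option with
  | of_equiv e ih =>
    obtain ⟨t, h1, h2⟩ := ih (V ∘ e) (fun i => hV _) (fun i => hne _)
    refine ⟨t ∘ e.symm, fun i => ?_, h2.comp _ e.symm.injective⟩
    have := h1 (e.symm i)
    simpa using this
  | h_empty => exact ⟨fun i => i.elim, fun i => i.elim, algebraicIndependent_empty_type_iff.2
      (FaithfulSMul.algebraMap_injective K₀ ℂ)⟩
  | @h_option α _ ih =>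
    obtain ⟨t, h1, h2⟩ := ih (fun i => V (some i)) (fun i => hV _) (fun i => hne _)
    -- the algebraic closure is countable
    have hcM : ∀ α : Type, Finite α → Countable (MvPolynomial α K₀) := by
      intro α hα
      rw [← Cardinal.mk_le_aleph0_iff]
      refine MvPolynomial.cardinalMk_le_max.trans ?_
      simp only [max_le_iff, le_refl, and_true]
      exact ⟨Cardinal.mk_le_aleph0, Cardinal.mk_le_aleph0⟩
    have hc0 : Countable (Algebra.adjoin K₀ (Set.range t)) := by
      have := hcM α inferInstance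
      have h3 : ((Algebra.adjoin K₀ (Set.range t) : Subalgebra K₀ ℂ) : Set ℂ).Countable := by
        rw [Algebra.adjoin_range_eq_range_aeval]
        exact Set.countable_range _
      exact h3.to_subtype
    have hcount : {x : ℂ | IsAlgebraic (Algebra.adjoin K₀ (Set.range t)) x}.Countable :=
      Algebraic.countable _ _
    obtain ⟨x, hx, hxV⟩ := (hcount.dense_compl ℂ).inter_open_nonempty (V none) (hV none)
      (hne none)
    refine ⟨fun o => o.elim x t, fun i => ?_, (h2.option_iff_transcendental x).2 hxV⟩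
    cases i with
    | none => exact hx
    | some i => exact h1 i

/-- Countable sets lie in countable subfields. -/
theorem exists_countable_subfield' (s : Set ℂ) (hs : s.Countable) :
    ∃ K₀ : Subfield ℂ, Countable K₀ ∧ s ⊆ (K₀ : Set ℂ) := by
  refine ⟨Subfield.closure s, ?_, Subfield.subset_closure⟩
  have := hs.to_subtype
  rw [← Cardinal.mk_le_aleph0_iff]
  refine (Subfield.cardinalMk_closure_le_max s).trans ?_
  simp only [max_le_iff, le_refl, and_true]
  exact Cardinal.mk_le_aleph0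

end Vale.Agent.P002
end

section

/-! Determinant lemma for rank one updates over any commutative ring. -/

namespace Vale.Agent.P002

open Matrix

variable {ι : Type*} [Fintype ι] [DecidableEq ι]

theorem det_add_vecMulVec_field {K : Type*} [Field K] (N : Matrix ι ι K) (u v : ι → K)
    (hN : det N ≠ 0) :
    det (N + vecMulVec u v) = det N + v ⬝ᵥ (adjugate N *ᵥ u) := by
  have hu : IsUnit N.det := isUnit_iff_ne_zero.2 hN
  have h1 : vecMulVec u v = replicateCol Unit u * replicateRow Unit v := by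
    ext i j; simp [vecMulVec_apply, mul_apply]
  rw [h1, det_add_replicateCol_mul_replicateRow hu]
  have h2 : (1 + replicateRow Unit v * N⁻¹ * replicateCol Unit u).det
      = 1 + v ⬝ᵥ (N⁻¹ *ᵥ u) := by
    rw [det_unique]
    simp [mul_apply, dotProduct, mulVec, Finset.sum_mul, Finset.mul_sum]
    rw [Finset.sum_comm]
    simp [mul_assoc]
  rw [h2, inv_def, Ring.inverse_eq_inv']
  simp only [smul_mulVec, dotProduct_smul, smul_eq_mul]
  field_simp

/-- The rank one update formula is natural under ring homomorphisms. -/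
theorem rank_one_map {R S : Type*} [CommRing R] [CommRing S] (φ : R →+* S) (M : Matrix ι ι R)
    (u v : ι → R) :
    φ (det (M + vecMulVec u v) - (det M + v ⬝ᵥ (adjugate M *ᵥ u))) =
      det (M.map φ + vecMulVec (fun i => φ (u i)) fun i => φ (v i)) -
        (det (M.map φ) + (fun i => φ (v i)) ⬝ᵥ (adjugate (M.map φ) *ᵥ fun i => φ (u i))) := by
  have hadj : adjugate (M.map φ) = (adjugate M).map φ := by
    have := RingHom.map_adjugate φ M
    exact this.symm
  rw [map_sub, map_add, RingHom.map_det, RingHom.map_det, hadj]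
  congr 1
  · congr 1
    ext i j
    simp [vecMulVec_apply]
  · congr 1
    simp [dotProduct, mulVec, map_sum]

theorem det_add_vecMulVec' {R : Type*} [CommRing R] (M : Matrix ι ι R) (u v : ι → R) :
    det (M + vecMulVec u v) = det M + v ⬝ᵥ (adjugate M *ᵥ u) := by
  let P := MvPolynomial ((ι × ι) ⊕ (ι ⊕ ι)) ℤ
  let K := FractionRing P
  let M0 : Matrix ι ι P := Matrix.of fun i j => MvPolynomial.X (Sum.inl (i, j))
  let u0 : ι → P := fun i => MvPolynomial.X (Sum.inr (Sum.inl i))
  let v0 : ι → P := fun i => MvPolynomial.X (Sum.inr (Sum.inr i))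
  have hM0 : M0.det ≠ 0 := by
    let ρ : MvPolynomial (ι × ι) ℤ →ₐ[ℤ] P := MvPolynomial.rename Sum.inl
    have h1 : M0 = (mvPolynomialX ι ι ℤ).map ρ := by
      ext1 i j
      exact (MvPolynomial.rename_X _ _).symm
    have h2 : M0.det = ρ (mvPolynomialX ι ι ℤ).det := by
      rw [h1]
      exact (RingHom.map_det ρ.toRingHom _).symm
    rw [h2]
    intro h3
    have hinj : Function.Injective ρ := MvPolynomial.rename_injective _ Sum.inl_injective
    exact det_mvPolynomialX_ne_zero ι ℤ (hinj (h3.trans (map_zero ρ).symm))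
  have hzero : det (M0 + vecMulVec u0 v0) - (det M0 + v0 ⬝ᵥ (adjugate M0 *ᵥ u0)) = 0 := by
    apply FaithfulSMul.algebraMap_injective P K
    rw [rank_one_map (algebraMap P K), map_zero, sub_eq_zero]
    apply det_add_vecMulVec_field
    have : det (M0.map (algebraMap P K)) = algebraMap P K M0.det :=
      (RingHom.map_det (algebraMap P K) M0).symm
    rw [this]
    intro h
    exact hM0 (FaithfulSMul.algebraMap_injective P K (h.trans (map_zero _).symm))
  let e : P →+* R := MvPolynomial.eval₂Hom (Int.castRingHom R)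
    (Sum.elim (fun p => M p.1 p.2) (Sum.elim u v))
  have h := congrArg e hzero
  rw [rank_one_map e, map_zero, sub_eq_zero] at h
  have h1 : M0.map e = M := by
    ext1 i j
    exact MvPolynomial.eval₂Hom_X' _ _ _
  have h2 : (fun i => e (u0 i)) = u := by
    funext i
    exact MvPolynomial.eval₂Hom_X' _ _ _
  have h3 : (fun i => e (v0 i)) = v := by
    funext i
    exact MvPolynomial.eval₂Hom_X' _ _ _
  rw [h1, h2, h3] at h
  exact h

end Vale.Agent.P002
end

section

/-! Combinatorics of the base point: splitting a tuple with product one into minimal parts. -/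

namespace Vale.Agent.P002R

section cycles

variable {r : ℕ}

theorem sameCycle_mul_swap (π : Equiv.Perm (Fin r)) (a b : Fin r) (hab : π.SameCycle a b)
    (x z : Fin r) (h : (π * Equiv.swap a b).SameCycle x z) : π.SameCycle x z := by
  obtain ⟨i, -, rfl⟩ := h.exists_pow_eq'
  clear h
  induction i with
  | zero => exact Equiv.Perm.SameCycle.refl _ _
  | succ i ih =>
    refine ih.trans ?_
    rw [pow_succ', Equiv.Perm.mul_apply]
    obtain ⟨w, hw⟩ : ∃ w, w = ((π * Equiv.swap a b) ^ i) x := ⟨_, rfl⟩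
    rw [← hw, Equiv.Perm.mul_apply]
    by_cases h1 : w = a
    · rw [h1, Equiv.swap_apply_left]
      exact hab.trans (Equiv.Perm.sameCycle_apply_right.2 (Equiv.Perm.SameCycle.refl _ _))
    · by_cases h2 : w = b
      · rw [h2, Equiv.swap_apply_right]
        exact hab.symm.trans (Equiv.Perm.sameCycle_apply_right.2 (Equiv.Perm.SameCycle.refl _ _))
      · rw [Equiv.swap_apply_of_ne_of_ne h1 h2]
        exact Equiv.Perm.sameCycle_apply_right.2 (Equiv.Perm.SameCycle.refl _ _)

theorem not_sameCycle_mul_swap (π : Equiv.Perm (Fin r)) (a b : Fin r) (hne : a ≠ b)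
    (hab : π.SameCycle a b) : ¬ (π * Equiv.swap a b).SameCycle a b := by
  have hex : ∃ k : ℕ, 0 < k ∧ (π ^ k) b = a := by
    obtain ⟨k, -, hk⟩ := hab.symm.exists_pow_eq'
    refine ⟨k, ?_, hk⟩
    rcases Nat.eq_zero_or_pos k with h | h
    · subst h
      exact absurd hk.symm hne
    · exact h
  obtain ⟨hk0, hk⟩ := Nat.find_spec hex
  have hmin : ∀ l, 0 < l → l < Nat.find hex → (π ^ l) b ≠ a := fun l h1 h2 h3 =>
    Nat.find_min hex h2 ⟨h1, h3⟩
  obtain ⟨k, hkdef⟩ : ∃ k, k = Nat.find hex := ⟨_, rfl⟩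
  rw [← hkdef] at hk0 hk hmin
  have hb : ∀ l, 0 < l → l ≤ k → (π ^ l) b ≠ b := by
    intro l h1 h2 h3
    rcases Nat.lt_or_eq_of_le h2 with h4 | h4
    · apply hmin (k - l) (by omega) (by omega)
      rw [← hk]
      conv_rhs => rw [show k = (k - l) + l by omega, pow_add, Equiv.Perm.mul_apply, h3]
    · rw [h4, hk] at h3
      exact hne h3
  intro h
  obtain ⟨i, -, hi⟩ := h.exists_pow_eq'
  have key : ∀ i : ℕ, ∃ l, 0 < l ∧ l ≤ k ∧ ((π * Equiv.swap a b) ^ i) a = (π ^ l) b := by
    intro i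
    induction i with
    | zero => exact ⟨k, hk0, le_rfl, hk.symm⟩
    | succ i ih =>
      obtain ⟨l, h1, h2, h3⟩ := ih
      rw [pow_succ', Equiv.Perm.mul_apply, h3, Equiv.Perm.mul_apply]
      by_cases h4 : (π ^ l) b = a
      · rw [h4, Equiv.swap_apply_left]
        exact ⟨1, one_pos, hk0, by rw [pow_one]⟩
      · rw [Equiv.swap_apply_of_ne_of_ne h4 (hb l h1 h2)]
        refine ⟨l + 1, by omega, ?_, by rw [pow_succ', Equiv.Perm.mul_apply]⟩
        rcases Nat.lt_or_eq_of_le h2 with h5 | h5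
        · omega
        · rw [h5] at h4
          exact absurd hk h4
  obtain ⟨l, h1, h2, h3⟩ := key i
  rw [hi] at h3
  exact hb l h1 h2 h3.symm

/-- A solution for the full cycle. -/
theorem exists_rot {G : Type*} [CommGroup G] (d : Fin r → G) (hd : ∏ i, d i = 1) :
    ∃ (π : Equiv.Perm (Fin r)) (y : Fin r → G), (∀ a, y a = d (π a) * y (π a)) ∧
      ∀ N : ℕ, (∀ i, d i ^ N = 1) → ∀ i, y i ^ N = 1 := by
  rcases Nat.eq_zero_or_pos r with hr | hr
  · subst hr
    exact ⟨1, fun i => i.elim0, fun i => i.elim0, fun _ _ i => i.elim0⟩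
  obtain ⟨n, rfl⟩ : ∃ n, r = n + 1 := ⟨r - 1, by omega⟩
  let L := List.ofFn d
  have hLlen : L.length = n + 1 := by simp [L]
  let b : Fin (n + 1) → G := fun i => (L.take ((i : ℕ) + 1)).prod
  have hstep : ∀ (k : ℕ) (hk : k < n + 1), (L.take (k + 1)).prod = (L.take k).prod * d ⟨k, hk⟩ := by
    intro k hk
    rw [List.prod_take_succ L k (by omega)]
    simp only [L, List.getElem_ofFn]
  have hfull : (L.take (n + 1)).prod = 1 := by
    rw [List.take_of_length_le (by omega)]
    simp only [L]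
    rw [List.prod_ofFn, hd]
  have hb : ∀ j : Fin (n + 1), b (finRotate (n + 1) j) = d (finRotate (n + 1) j) * b j := by
    intro j
    rcases Nat.lt_or_ge (j : ℕ) n with hj | hj
    · have h1 : finRotate (n + 1) j = ⟨(j : ℕ) + 1, by omega⟩ := by
        apply Fin.ext
        rw [coe_finRotate_of_ne_last]
        intro h
        rw [h] at hj
        simp at hj
      rw [h1]
      simp only [b]
      rw [hstep ((j : ℕ) + 1) (by omega), mul_comm]
    · have h0 : j = Fin.last n := by
        apply Fin.ext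
        simp
        omega
      rw [h0, finRotate_last]
      simp only [b]
      rw [Fin.val_last, hfull, mul_one]
      have := hstep 0 (by omega)
      simpa using this
  refine ⟨finRotate (n + 1), fun i => (b i)⁻¹, fun a => ?_, ?_⟩
  · change (b a)⁻¹ = d (finRotate (n + 1) a) * (b (finRotate (n + 1) a))⁻¹
    rw [hb a, mul_inv, mul_inv_cancel_left]
  · intro N hN i
    have h1 : b i ∈ (powMonoidHom N : G →* G).ker := by
      apply Subgroup.list_prod_mem
      intro x hx
      have hx' := List.mem_of_mem_take hx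
      simp only [L, List.mem_ofFn] at hx'
      obtain ⟨l, rfl⟩ := hx'
      rw [MonoidHom.mem_ker, powMonoidHom_apply]
      exact hN l
    rw [MonoidHom.mem_ker, powMonoidHom_apply] at h1
    rw [inv_pow, h1, inv_one]

/-- A solution with cycles as short as possible. -/
theorem exists_cycles {G : Type*} [CommGroup G] (d : Fin r → G) (hd : ∏ i, d i = 1) :
    ∃ (π : Equiv.Perm (Fin r)) (y : Fin r → G), (∀ a, y a = d (π a) * y (π a)) ∧
      (∀ a b, π.SameCycle a b → y a = y b → a = b) ∧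
      ∀ N : ℕ, (∀ i, d i ^ N = 1) → ∀ i, y i ^ N = 1 := by
  classical
  obtain ⟨π₀, y, hπ₀, hy⟩ := exists_rot d hd
  let S : Set (Equiv.Perm (Fin r)) := {π | ∀ a, y a = d (π a) * y (π a)}
  obtain ⟨π, hπ, hmin⟩ := Set.exists_min_image S
    (fun π => (Finset.univ.filter fun p : Fin r × Fin r => π.SameCycle p.1 p.2).card)
    (Set.toFinite S) ⟨π₀, hπ₀⟩
  refine ⟨π, y, hπ, fun a b hab hyab => ?_, hy⟩
  by_contra hne
  have hmem : π * Equiv.swap a b ∈ S := by
    intro x
    rw [Equiv.Perm.mul_apply]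
    by_cases h1 : x = a
    · rw [h1, Equiv.swap_apply_left, hyab]
      exact hπ b
    · by_cases h2 : x = b
      · rw [h2, Equiv.swap_apply_right, ← hyab]
        exact hπ a
      · rw [Equiv.swap_apply_of_ne_of_ne h1 h2]
        exact hπ x
  have h1 := hmin _ hmem
  have h2 : (Finset.univ.filter fun p : Fin r × Fin r =>
      (π * Equiv.swap a b).SameCycle p.1 p.2).card <
      (Finset.univ.filter fun p : Fin r × Fin r => π.SameCycle p.1 p.2).card := by
    apply Finset.card_lt_card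
    rw [Finset.ssubset_iff_of_subset]
    · refine ⟨(a, b), ?_, ?_⟩
      · simp [hab]
      · simp [not_sameCycle_mul_swap π a b hne hab]
    · intro p hp
      rw [Finset.mem_filter] at hp ⊢
      exact ⟨Finset.mem_univ _, sameCycle_mul_swap π a b hab _ _ hp.2⟩
  omega

/-- The combinatorial data of the base point. -/
theorem exists_order {G : Type*} [CommGroup G] (d : Fin r → G) (hd : ∏ i, d i = 1) :
    ∃ (σ π : Equiv.Perm (Fin r)) (y : Fin r → G) (c : Fin r → Fin r),
      (∀ a, y a = d (σ (π a)) * y (π a)) ∧ Monotone c ∧ (∀ a, c (π a) = c a) ∧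
      (∀ a b, c a = c b → ∃ k : ℕ, (π ^ k) a = b) ∧
      (∀ a b, c a = c b → y a = y b → a = b) ∧
      ∀ N : ℕ, (∀ i, d i ^ N = 1) → ∀ i, y i ^ N = 1 := by
  classical
  obtain ⟨π, y, h1, h2, h3⟩ := exists_cycles d hd
  obtain ⟨c, hc⟩ : ∃ c : Fin r → Fin r, ∀ a b, c a = c b ↔ π.SameCycle a b := by
    refine ⟨fun a => (Quotient.mk (Equiv.Perm.SameCycle.setoid π) a).out, fun a b => ?_⟩
    constructor
    · intro h
      have := congrArg (Quotient.mk (Equiv.Perm.SameCycle.setoid π)) h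
      rw [Quotient.out_eq, Quotient.out_eq] at this
      exact Quotient.exact this
    · intro h
      have : Quotient.mk (Equiv.Perm.SameCycle.setoid π) a =
          Quotient.mk (Equiv.Perm.SameCycle.setoid π) b := Quotient.sound h
      simp only [this]
  obtain ⟨σ, hσ⟩ : ∃ σ : Equiv.Perm (Fin r), Monotone (c ∘ σ) :=
    ⟨Tuple.sort c, Tuple.monotone_sort c⟩
  obtain ⟨π', hπ'⟩ : ∃ π' : Equiv.Perm (Fin r), π' = σ⁻¹ * π * σ := ⟨_, rfl⟩
  have hσπ : ∀ a, σ (π' a) = π (σ a) := by
    intro a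
    rw [hπ', ← Equiv.Perm.mul_apply, ← mul_assoc, ← mul_assoc, mul_inv_cancel, one_mul,
      Equiv.Perm.mul_apply]
  have hpow : ∀ (k : ℕ) (a : Fin r), σ ((π' ^ k) a) = (π ^ k) (σ a) := by
    intro k
    induction k with
    | zero => intro a; rfl
    | succ k ih =>
      intro a
      rw [pow_succ', Equiv.Perm.mul_apply, hσπ, ih, pow_succ', Equiv.Perm.mul_apply]
  refine ⟨σ, π', y ∘ σ, c ∘ σ, fun a => ?_, hσ, fun a => ?_, fun a b hab => ?_,
    fun a b hab hy => ?_, fun N hN i => h3 N hN _⟩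
  · simp only [Function.comp, hσπ]
    exact h1 _
  · simp only [Function.comp, hσπ]
    rw [hc]
    exact (Equiv.Perm.sameCycle_apply_right.2 (Equiv.Perm.SameCycle.refl _ _)).symm
  · obtain ⟨k, -, hk⟩ := ((hc _ _).1 hab).exists_pow_eq'
    refine ⟨k, σ.injective ?_⟩
    rw [hpow, hk]
  · exact σ.injective (h2 _ _ ((hc _ _).1 hab) hy)

end cycles

end Vale.Agent.P002R
end

section

/-!
# P002, genus 0: rational functions which are regular at a point
-/

namespace Vale.Agent.P002R

open MvPolynomial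

variable {σ : Type*}

/-- Functions on `σ → ℂ` which are rational and regular at `x₀`, as functions on the complement of
the zero set of some polynomial `d` with `d x₀ ≠ 0`. -/
def ratAt (x₀ : σ → ℂ) : Subalgebra ℂ ((σ → ℂ) → ℂ) where
  carrier := {g | ∃ d P : MvPolynomial σ ℂ, eval x₀ d ≠ 0 ∧
    ∀ x, eval x d ≠ 0 → g x * eval x d = eval x P}
  mul_mem' := by
    rintro g g' ⟨d, P, h1, h2⟩ ⟨d', P', h1', h2'⟩
    refine ⟨d * d', P * P', by rw [map_mul]; exact mul_ne_zero h1 h1', fun x hx => ?_⟩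
    rw [map_mul] at hx ⊢
    have h3 := h2 x (left_ne_zero_of_mul hx)
    have h4 := h2' x (right_ne_zero_of_mul hx)
    rw [map_mul, ← h3, ← h4, Pi.mul_apply]
    ring
  add_mem' := by
    rintro g g' ⟨d, P, h1, h2⟩ ⟨d', P', h1', h2'⟩
    refine ⟨d * d', P * d' + P' * d, by rw [map_mul]; exact mul_ne_zero h1 h1', fun x hx => ?_⟩
    rw [map_mul] at hx ⊢
    have h3 := h2 x (left_ne_zero_of_mul hx)
    have h4 := h2' x (right_ne_zero_of_mul hx)
    rw [map_add, map_mul, map_mul, ← h3, ← h4, Pi.add_apply]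
    ring
  algebraMap_mem' := fun c => ⟨1, C c, by simp, fun x _ => by simp⟩

/-- Evaluation. -/
def rev (x₀ x : σ → ℂ) : ratAt x₀ →ₐ[ℂ] ℂ := (Pi.evalAlgHom ℂ (fun _ : σ → ℂ => ℂ) x).comp
  (ratAt x₀).val

theorem rev_apply (x₀ x : σ → ℂ) (g : ratAt x₀) : rev x₀ x g = g.1 x := rfl

/-- The coordinate functions. -/
def rX (x₀ : σ → ℂ) (i : σ) : ratAt x₀ :=
  ⟨fun x => x i, 1, X i, by simp, fun x _ => by simp⟩

theorem rev_rX (x₀ x : σ → ℂ) (i : σ) : rev x₀ x (rX x₀ i) = x i := rfl

theorem ratAt_ne {x₀ : σ → ℂ} (g : ratAt x₀) (hg : rev x₀ x₀ g ≠ 0) :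
    ∃ d : MvPolynomial σ ℂ, eval x₀ d ≠ 0 ∧ ∀ x, eval x d ≠ 0 → rev x₀ x g ≠ 0 := by
  obtain ⟨g, d, P, h1, h2⟩ := g
  rw [rev_apply] at hg
  simp only at hg
  refine ⟨P * d, ?_, fun x hx => ?_⟩
  · rw [map_mul, ← h2 x₀ h1]
    exact mul_ne_zero (mul_ne_zero hg h1) h1
  · rw [map_mul] at hx
    have h3 := left_ne_zero_of_mul hx
    rw [← h2 x (right_ne_zero_of_mul hx)] at h3
    exact left_ne_zero_of_mul h3

/-- Pointwise inverse. -/
theorem exists_rinv {x₀ : σ → ℂ} (g : ratAt x₀) (hg : rev x₀ x₀ g ≠ 0) :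
    ∃ h : ratAt x₀, ∀ x, rev x₀ x h = (rev x₀ x g)⁻¹ := by
  obtain ⟨g, d, P, h1, h2⟩ := g
  rw [rev_apply] at hg
  simp only at hg
  refine ⟨⟨fun x => (g x)⁻¹, P * d, d * d, ?_, fun x hx => ?_⟩, fun x => rfl⟩
  · rw [map_mul, ← h2 x₀ h1]
    exact mul_ne_zero (mul_ne_zero hg h1) h1
  · rw [map_mul] at hx
    have h3 := left_ne_zero_of_mul hx
    have h4 := h2 x (right_ne_zero_of_mul hx)
    rw [← h4] at h3
    rw [map_mul, map_mul, ← h4]
    have h5 := left_ne_zero_of_mul h3
    field_simp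

/-- Vanishing on a product of sets. -/
theorem dense_pi {m : ℕ} {τ : Type*} (S T : Fin m → Set (τ → ℂ))
    (h : ∀ k (f : MvPolynomial τ ℂ), (∀ x ∈ S k, eval x f = 0) → ∀ x ∈ T k, eval x f = 0)
    (F : MvPolynomial (Fin m × τ) ℂ)
    (hF : ∀ x : Fin m → τ → ℂ, (∀ k, x k ∈ S k) → eval (fun p => x p.1 p.2) F = 0)
    (x : Fin m → τ → ℂ) (hx : ∀ k, x k ∈ T k) : eval (fun p => x p.1 p.2) F = 0 := by
  classical
  have key : ∀ s : Finset (Fin m), ∀ x : Fin m → τ → ℂ, (∀ k ∈ s, x k ∈ T k) →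
      (∀ k, k ∉ s → x k ∈ S k) → eval (fun p => x p.1 p.2) F = 0 := by
    intro s
    induction s using Finset.induction_on with
    | empty => exact fun x _ h2 => hF x fun k => h2 k (Finset.notMem_empty k)
    | insert a s ha ih =>
      intro x h1 h2
      obtain ⟨f, hf⟩ : ∃ f : MvPolynomial τ ℂ, ∀ v : τ → ℂ, eval v f =
          eval (fun p : Fin m × τ => (Function.update x a v) p.1 p.2) F := by
        refine ⟨MvPolynomial.aeval (fun p : Fin m × τ => if p.1 = a then
          (MvPolynomial.X p.2 : MvPolynomial τ ℂ) else MvPolynomial.C (x p.1 p.2)) F, fun v => ?_⟩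
        have e1 : ∀ G : MvPolynomial (Fin m × τ) ℂ, eval v (MvPolynomial.aeval
            (fun p : Fin m × τ => if p.1 = a then (MvPolynomial.X p.2 : MvPolynomial τ ℂ)
              else MvPolynomial.C (x p.1 p.2)) G) =
            eval (fun p : Fin m × τ => (Function.update x a v) p.1 p.2) G := by
          intro G
          induction G using MvPolynomial.induction_on with
          | C c => simp
          | add p q hp hq => rw [map_add, map_add, map_add, hp, hq]
          | mul_X p i hp =>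
            rw [map_mul, map_mul, map_mul, hp]
            congr 1
            rw [MvPolynomial.aeval_X, MvPolynomial.eval_X]
            by_cases hi : i.1 = a
            · rw [if_pos hi, MvPolynomial.eval_X, ← hi, Function.update_self]
            · rw [if_neg hi, MvPolynomial.eval_C, Function.update_of_ne hi]
        exact e1 F
      have h3 := h a f (fun v hv => by
        rw [hf]
        refine ih _ (fun k hk => ?_) (fun k hk => ?_)
        · have hka : k ≠ a := by
            rintro rfl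
            exact ha hk
          rw [Function.update_of_ne hka]
          exact h1 k (Finset.mem_insert_of_mem hk)
        · by_cases hka : k = a
          · rw [hka, Function.update_self]; exact hv
          · rw [Function.update_of_ne hka]
            refine h2 k fun h => ?_
            rcases Finset.mem_insert.1 h with h | h
            · exact hka h
            · exact hk h) (x a) (h1 a (Finset.mem_insert_self a s))
      rw [hf, Function.update_eq_self] at h3
      exact h3
  exact key Finset.univ x (fun k _ => hx k) fun k hk => absurd (Finset.mem_univ k) hk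

end Vale.Agent.P002R
end

section

/-!
# Roots of unity whose differences are units
-/

namespace Vale.Agent.P002R

open Polynomial

/-- For a primitive root of unity `μ` whose order is a product of two different primes, `1 - μ` is
a unit. -/
theorem isIntegral_inv_one_sub {P Q : ℕ} (hP : P.Prime) (hQ : Q.Prime) (hPQ : P ≠ Q) (μ : ℂ)
    (hμ : IsPrimitiveRoot μ (P * Q)) : IsIntegral ℤ (1 - μ)⁻¹ := by
  have h0 : 0 < P * Q := Nat.mul_pos hP.pos hQ.pos
  have h1 : eval 1 (cyclotomic (P * Q) ℂ) = 1 := by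
    refine eval_one_cyclotomic_not_prime_pow fun {p} hp k hk => ?_
    have h2 : P ∣ p ^ k := hk ▸ Dvd.intro _ rfl
    have h3 : Q ∣ p ^ k := hk ▸ Dvd.intro_left _ rfl
    have h4 := (Nat.prime_dvd_prime_iff_eq hP hp).1 (hP.dvd_of_dvd_pow h2)
    have h5 := (Nat.prime_dvd_prime_iff_eq hQ hp).1 (hQ.dvd_of_dvd_pow h3)
    exact hPQ (h4.trans h5.symm)
  rw [cyclotomic_eq_prod_X_sub_primitiveRoots hμ, eval_prod] at h1
  have hmem : μ ∈ primitiveRoots (P * Q) ℂ := (mem_primitiveRoots h0).2 hμ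
  rw [← Finset.mul_prod_erase _ _ hmem, eval_sub, eval_X, eval_C] at h1
  rw [inv_eq_of_mul_eq_one_right h1]
  refine IsIntegral.prod _ fun ν hν => ?_
  rw [eval_sub, eval_X, eval_C]
  refine isIntegral_one.sub ?_
  exact ((mem_primitiveRoots h0).1 (Finset.mem_of_mem_erase hν)).isIntegral h0

theorem degree_le_of_mem {n : ℕ} (hn : 0 < n) (K : IntermediateField ℚ ℂ) [FiniteDimensional ℚ K]
    (μ : ℂ) (hμ : IsPrimitiveRoot μ n) (h : μ ∈ K) : n.totient ≤ Module.finrank ℚ K := by
  have h1 := minpoly.natDegree_le (A := ℚ) (⟨μ, h⟩ : K)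
  have h2 : minpoly ℚ (⟨μ, h⟩ : K) = minpoly ℚ μ := by
    rw [← minpoly.algebraMap_eq (algebraMap K ℂ).injective]
    rfl
  rwa [h2, ← cyclotomic_eq_minpoly_rat hμ hn, natDegree_cyclotomic] at h1

theorem sum_two_pow_lt {r : ℕ} (I : Finset (Fin r)) : ∑ i ∈ I, 2 ^ (i : ℕ) < 2 ^ r := by
  have h := Nat.geomSum_lt (m := 2) le_rfl (s := I.map Fin.valEmbedding) (n := r) (by
    intro k hk
    rw [Finset.mem_map] at hk
    obtain ⟨i, _, rfl⟩ := hk
    exact i.2)
  rwa [Finset.sum_map] at h

theorem sum_two_pow_inj {r : ℕ} (I J : Finset (Fin r))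
    (h : ∑ i ∈ I, 2 ^ (i : ℕ) = ∑ i ∈ J, 2 ^ (i : ℕ)) : I = J := by
  apply Finset.map_injective Fin.valEmbedding
  apply Finset.geomSum_injective (n := 2) le_rfl
  change ∑ i ∈ I.map Fin.valEmbedding, 2 ^ i = ∑ i ∈ J.map Fin.valEmbedding, 2 ^ i
  rw [Finset.sum_map, Finset.sum_map]
  exact h

/-- Exceptional units without multiplicative relations over a number field. -/
theorem exists_omega (r : ℕ) (K : IntermediateField ℚ ℂ) [FiniteDimensional ℚ K] :
    ∃ ω : Fin r → ℂˣ, (∀ i, IsIntegral ℤ (ω i : ℂ) ∧ IsIntegral ℤ (ω i : ℂ)⁻¹) ∧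
      (∀ i j, i ≠ j → (ω i : ℂ) ≠ ω j ∧ IsIntegral ℤ ((ω i : ℂ) - ω j)⁻¹) ∧
      ∀ (I J : Finset (Fin r)) (ε : ℂ), ε ∈ K → ∏ i ∈ I, (ω i : ℂ) = ε * ∏ j ∈ J, (ω j : ℂ) →
        I = J := by
  obtain ⟨N, hN⟩ : ∃ N, N = max (2 ^ r) (Module.finrank ℚ K + 2) := ⟨_, rfl⟩
  have hN1 : 2 ^ r ≤ N := hN ▸ le_max_left _ _
  have hN2 : Module.finrank ℚ K + 2 ≤ N := hN ▸ le_max_right _ _
  obtain ⟨P, hP1, hP⟩ := Nat.exists_infinite_primes (N + 1)
  obtain ⟨Q, hQ1, hQ⟩ := Nat.exists_infinite_primes (P + 1)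
  have hPQ : P ≠ Q := by omega
  have h0 : 0 < P * Q := Nat.mul_pos hP.pos hQ.pos
  obtain ⟨ζ, hζ⟩ : ∃ ζ : ℂ, IsPrimitiveRoot ζ (P * Q) := ⟨_, Complex.isPrimitiveRoot_exp _ h0.ne'⟩
  have hζ0 : ζ ≠ 0 := hζ.ne_zero h0.ne'
  -- small powers are primitive
  have hprim : ∀ d : ℕ, 0 < d → d < 2 ^ r → IsPrimitiveRoot (ζ ^ d) (P * Q) := by
    intro d hd hd'
    refine hζ.pow_of_coprime d ?_
    refine Nat.Coprime.mul_right ?_ ?_
    · exact Nat.Coprime.symm ((Nat.Prime.coprime_iff_not_dvd hP).2 fun h =>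
        absurd (Nat.le_of_dvd hd h) (by omega))
    · exact Nat.Coprime.symm ((Nat.Prime.coprime_iff_not_dvd hQ).2 fun h =>
        absurd (Nat.le_of_dvd hd h) (by omega))
  have hnotmem : ∀ d : ℕ, 0 < d → d < 2 ^ r → ζ ^ d ∉ K := by
    intro d hd hd' hmem
    have h1 := degree_le_of_mem h0 K _ (hprim d hd hd') hmem
    rw [Nat.totient_mul ((Nat.coprime_primes hP hQ).2 hPQ), Nat.totient_prime hP,
      Nat.totient_prime hQ] at h1
    have h2 : P - 1 ≤ (P - 1) * (Q - 1) := Nat.le_mul_of_pos_right _ (by omega)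
    omega
  refine ⟨fun i => Units.mk0 (ζ ^ 2 ^ (i : ℕ)) (pow_ne_zero _ hζ0), fun i => ?_, fun i j hij => ?_,
    fun I J ε hε h => ?_⟩
  · have h1 : IsIntegral ℤ ζ := hζ.isIntegral h0
    have h2 : IsIntegral ℤ ζ⁻¹ := hζ.inv.isIntegral h0
    rw [Units.val_mk0, ← inv_pow]
    exact ⟨h1.pow _, h2.pow _⟩
  · rw [Units.val_mk0, Units.val_mk0]
    have key : ∀ a b : ℕ, a < b → b < 2 ^ r → ζ ^ a ≠ ζ ^ b ∧ IsIntegral ℤ (ζ ^ a - ζ ^ b)⁻¹ := by
      intro a b hab hb
      have h1 : IsPrimitiveRoot (ζ ^ (b - a)) (P * Q) := hprim _ (by omega) (by omega)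
      have h2 : ζ ^ a - ζ ^ b = ζ ^ a * (1 - ζ ^ (b - a)) := by
        rw [mul_sub, mul_one, ← pow_add, Nat.add_sub_cancel' hab.le]
      have h3 : (1 : ℂ) - ζ ^ (b - a) ≠ 0 := by
        rw [sub_ne_zero]
        exact (h1.ne_one (by
          have := hP.two_le
          have := hQ.two_le
          nlinarith)).symm
      refine ⟨fun h => ?_, ?_⟩
      · rw [← sub_eq_zero, h2] at h
        exact (mul_ne_zero (pow_ne_zero _ hζ0) h3) h
      · rw [h2, mul_inv, ← inv_pow]
        exact ((hζ.inv.isIntegral h0).pow _).mul (isIntegral_inv_one_sub hP hQ hPQ _ h1)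
    have hlt : ∀ i : Fin r, 2 ^ (i : ℕ) < 2 ^ r := fun i => Nat.pow_lt_pow_right (by norm_num) i.2
    rcases lt_or_gt_of_ne hij with h | h
    · exact key _ _ (Nat.pow_lt_pow_right (by norm_num) h) (hlt j)
    · obtain ⟨h1, h2⟩ := key _ _ (Nat.pow_lt_pow_right (a := 2) (by norm_num) h) (hlt i)
      refine ⟨h1.symm, ?_⟩
      rw [← neg_sub, inv_neg]
      exact h2.neg
  · simp only [Units.val_mk0, Finset.prod_pow_eq_pow_sum] at h
    apply sum_two_pow_inj
    have hI := sum_two_pow_lt I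
    have hJ := sum_two_pow_lt J
    by_contra hne
    have hε0 : ε ≠ 0 := by
      rintro rfl
      rw [zero_mul] at h
      exact pow_ne_zero _ hζ0 h
    rcases lt_or_gt_of_ne hne with h1 | h1
    · refine hnotmem (∑ i ∈ J, 2 ^ (i : ℕ) - ∑ i ∈ I, 2 ^ (i : ℕ)) (by omega) (by omega) ?_
      have h2 : ζ ^ (∑ i ∈ J, 2 ^ (i : ℕ) - ∑ i ∈ I, 2 ^ (i : ℕ)) = ε⁻¹ := by
        apply eq_inv_of_mul_eq_one_left
        apply mul_left_cancel₀ (pow_ne_zero (∑ i ∈ I, 2 ^ (i : ℕ)) hζ0)
        rw [← mul_assoc, ← pow_add, Nat.add_sub_cancel' h1.le, mul_one, h]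
        ring
      rw [h2]
      exact K.inv_mem hε
    · refine hnotmem (∑ i ∈ I, 2 ^ (i : ℕ) - ∑ i ∈ J, 2 ^ (i : ℕ)) (by omega) (by omega) ?_
      have h2 : ζ ^ (∑ i ∈ I, 2 ^ (i : ℕ) - ∑ i ∈ J, 2 ^ (i : ℕ)) = ε := by
        apply mul_left_cancel₀ (pow_ne_zero (∑ i ∈ J, 2 ^ (i : ℕ)) hζ0)
        rw [← pow_add, Nat.add_sub_cancel' h1.le, h]
        ring
      rw [h2]
      exact hε

end Vale.Agent.P002R
end

section

/-!
# P002B, T12, part (i): the rank of the gradients of a minimal prime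
-/

namespace Vale.Agent.P002B.GR

open MvPolynomial IsLocalRing

section grad

variable {K₀ : Type} [Field K₀] [Algebra K₀ ℂ] {σ : Type}

/-- The gradient of a polynomial at a point. -/
noncomputable def grad (Y : σ → ℂ) (G : MvPolynomial σ K₀) : σ → ℂ := fun i => aeval Y (pderiv i G)

theorem grad_add (Y : σ → ℂ) (G G' : MvPolynomial σ K₀) : grad Y (G + G') = grad Y G + grad Y G' := by
  funext i
  simp [grad]

theorem grad_mul (Y : σ → ℂ) (G G' : MvPolynomial σ K₀) :
    grad Y (G * G') = aeval Y G • grad Y G' + aeval Y G' • grad Y G := by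
  funext i
  simp [grad, Derivation.leibniz]

theorem grad_zero (Y : σ → ℂ) : grad Y (0 : MvPolynomial σ K₀) = 0 := by
  funext i
  simp [grad]

theorem grad_span {Y : σ → ℂ} {s : Set (MvPolynomial σ K₀)} (hs : ∀ G ∈ s, aeval Y G = 0)
    {x : MvPolynomial σ K₀} (hx : x ∈ Ideal.span s) :
    aeval Y x = 0 ∧ grad Y x ∈ Submodule.span ℂ (grad Y '' s) := by
  refine Submodule.span_induction (p := fun x _ => aeval Y x = 0 ∧
    grad Y x ∈ Submodule.span ℂ (grad Y '' s)) ?_ ?_ ?_ ?_ hx
  · intro G hG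
    exact ⟨hs G hG, Submodule.subset_span ⟨G, hG, rfl⟩⟩
  · refine ⟨map_zero _, ?_⟩
    rw [grad_zero]
    exact Submodule.zero_mem _
  · intro G G' _ _ h h'
    refine ⟨by rw [map_add, h.1, h'.1, add_zero], ?_⟩
    rw [grad_add]
    exact Submodule.add_mem _ h.2 h'.2
  · intro a G _ h
    refine ⟨by rw [smul_eq_mul, map_mul, h.1, mul_zero], ?_⟩
    rw [smul_eq_mul, grad_mul, h.1, zero_smul, add_zero]
    exact Submodule.smul_mem _ _ h.2

end grad

/-- **T12 (i)** -/
theorem gen_rank (K₀ : Type) [Field K₀] [CharZero K₀] [Algebra K₀ ℂ] {σ ι : Type} [Fintype σ]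
    [Fintype ι] (F : ι → MvPolynomial σ K₀) (P : Ideal (MvPolynomial σ K₀))
    (hP : P ∈ (Ideal.span (Set.range F)).minimalPrimes) (Y : σ → ℂ)
    (hY : ∀ G, aeval Y G = 0 ↔ G ∈ P) (T : Submodule ℂ (σ → ℂ))
    (hT : ∀ H, H ∈ T ↔ ∀ G ∈ P, ∑ i, aeval Y (pderiv i G) * H i = 0) :
    Fintype.card σ ≤ Module.finrank ℂ T + Fintype.card ι := by
  classical
  have hPp : P.IsPrime := hP.1.1
  have hreg : IsRegularLocalRing (Localization.AtPrime P) :=
    IsRegularRing.isRegularLocalRing_localization P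
  have h1 : ((maximalIdeal (Localization.AtPrime P)).spanFinrank : WithBot ℕ∞) =
      ringKrullDim (Localization.AtPrime P) := IsRegularLocalRing.spanFinrank_maximalIdeal
  have h2 : ringKrullDim (Localization.AtPrime P) = P.height :=
    IsLocalization.AtPrime.ringKrullDim_eq_height P (Localization.AtPrime P)
  have h3 : P.height ≤ Fintype.card ι := by
    have h4 : P.height ≤ (Finset.univ.image F).card := by
      refine Ideal.height_le_card_of_mem_minimalPrimes_span_finset ?_
      rwa [Finset.coe_image, Finset.coe_univ, Set.image_univ]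
    refine h4.trans ?_
    exact_mod_cast Finset.card_image_le
  have h4 : (maximalIdeal (Localization.AtPrime P)).spanFinrank ≤ Fintype.card ι := by
    rw [h2] at h1
    have h5 : (((maximalIdeal (Localization.AtPrime P)).spanFinrank : ℕ∞) : WithBot ℕ∞) =
        ((P.height : ℕ∞) : WithBot ℕ∞) := h1
    have h6 := WithBot.coe_injective h5
    rw [← h6] at h3
    exact_mod_cast h3
  -- generators
  have hfg : (maximalIdeal (Localization.AtPrime P)).FG := IsNoetherian.noetherian _
  obtain ⟨gs, hgs1, hgs2, hgs3⟩ : ∃ gs : Set (Localization.AtPrime P), gs.Finite ∧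
      gs.ncard = (maximalIdeal (Localization.AtPrime P)).spanFinrank ∧
      Ideal.span gs = maximalIdeal (Localization.AtPrime P) :=
    ⟨_, Submodule.FG.finite_generators hfg, Submodule.FG.generators_ncard hfg,
      Submodule.span_generators _⟩
  have hnum : ∀ t : Localization.AtPrime P, ∃ (g : MvPolynomial σ K₀) (s : P.primeCompl),
      t * algebraMap _ _ (s : MvPolynomial σ K₀) = algebraMap _ _ g := by
    intro t
    obtain ⟨⟨g, s⟩, h⟩ := IsLocalization.surj P.primeCompl t
    exact ⟨g, s, h⟩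
  choose num den hnd using hnum
  have hmap : Ideal.map (algebraMap (MvPolynomial σ K₀) (Localization.AtPrime P))
      (Ideal.span (num '' gs)) = maximalIdeal (Localization.AtPrime P) := by
    rw [← hgs3, Ideal.map_span]
    apply le_antisymm
    · rw [Ideal.span_le]
      rintro _ ⟨_, ⟨t, ht, rfl⟩, rfl⟩
      rw [← hnd t]
      exact Ideal.mul_mem_right _ _ (Ideal.subset_span ht)
    · rw [Ideal.span_le]
      intro t ht
      have hu : IsUnit (algebraMap (MvPolynomial σ K₀) (Localization.AtPrime P) (den t)) :=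
        IsLocalization.map_units _ (den t)
      obtain ⟨v, hv⟩ := hu
      have h5 : t = algebraMap _ _ (num t) * ((v⁻¹ : (Localization.AtPrime P)ˣ) :
          Localization.AtPrime P) := by
        rw [← hnd t, ← hv, mul_assoc, Units.mul_inv, mul_one]
      rw [h5]
      exact Ideal.mul_mem_right _ _ (Ideal.subset_span ⟨_, ⟨t, ht, rfl⟩, rfl⟩)
  -- the generators lie in `P`
  have hnumP : ∀ G ∈ num '' gs, aeval Y G = 0 := by
    rintro _ ⟨t, ht, rfl⟩
    rw [hY]
    have h5 : algebraMap _ _ (num t) ∈ maximalIdeal (Localization.AtPrime P) := by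
      rw [← hnd t]
      refine Ideal.mul_mem_right _ _ ?_
      rw [← hgs3]
      exact Ideal.subset_span ht
    exact (IsLocalization.AtPrime.to_map_mem_maximal_iff (Localization.AtPrime P) P (num t)).1 h5
  -- gradients of the elements of `P`
  have hgrad : ∀ G ∈ P, grad Y G ∈ Submodule.span ℂ (grad Y '' (num '' gs)) := by
    intro G hG
    have h5 : algebraMap _ _ G ∈ Ideal.map (algebraMap (MvPolynomial σ K₀)
        (Localization.AtPrime P)) (Ideal.span (num '' gs)) := by
      rw [hmap]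
      exact (IsLocalization.AtPrime.to_map_mem_maximal_iff (Localization.AtPrime P) P G).2 hG
    rw [IsLocalization.algebraMap_mem_map_algebraMap_iff P.primeCompl] at h5
    obtain ⟨s, hs, hsG⟩ := h5
    have h6 := (grad_span hnumP hsG).2
    have h7 : aeval Y G = 0 := (hY G).2 hG
    have h8 : aeval Y s ≠ 0 := fun h0 => hs ((hY s).1 h0)
    rw [grad_mul, h7, zero_smul, add_zero] at h6
    have h9 := Submodule.smul_mem _ (aeval Y s)⁻¹ h6
    rwa [smul_smul, inv_mul_cancel₀ h8, one_smul] at h9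
  -- the linear map
  let L : (σ → ℂ) →ₗ[ℂ] (hgs1.toFinset → ℂ) :=
    { toFun := fun H t => ∑ i, grad Y (num t.1) i * H i
      map_add' := fun H H' => by
        funext t
        simp [mul_add, Finset.sum_add_distrib]
      map_smul' := fun a H => by
        funext t
        simp only [Pi.smul_apply, smul_eq_mul, RingHom.id_apply, Finset.mul_sum]
        exact Finset.sum_congr rfl fun i _ => by ring }
  have hker : LinearMap.ker L ≤ T := by
    intro H hH
    rw [hT]
    intro G hG
    have h5 : ∀ w ∈ Submodule.span ℂ (grad Y '' (num '' gs)), ∑ i, w i * H i = 0 := by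
      intro w hw
      refine Submodule.span_induction (p := fun w _ => ∑ i, w i * H i = 0) ?_ ?_ ?_ ?_ hw
      · rintro _ ⟨_, ⟨t, ht, rfl⟩, rfl⟩
        exact congrFun (show L H = 0 from hH) ⟨t, hgs1.mem_toFinset.2 ht⟩
      · simp
      · intro x y _ _ hx hy
        simp only [Pi.add_apply, add_mul, Finset.sum_add_distrib, hx, hy, add_zero]
      · intro a x _ hx
        simp only [Pi.smul_apply, smul_eq_mul, mul_assoc, ← Finset.mul_sum, hx, mul_zero]
    exact h5 _ (hgrad G hG)
  have h5 := LinearMap.finrank_range_add_finrank_ker L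
  have h6 : Module.finrank ℂ (LinearMap.range L) ≤ gs.ncard := by
    refine (Submodule.finrank_le _).trans ?_
    rw [Module.finrank_fintype_fun_eq_card, Fintype.card_coe, Set.ncard_eq_toFinset_card gs hgs1]
  have h7 := Submodule.finrank_mono hker
  rw [Module.finrank_fintype_fun_eq_card] at h5
  omega

end Vale.Agent.P002B.GR
end
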