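import Mathlib
import Vale.Agent.P002.Bd3.B1
import Vale.Agent.P002.Bd3.B2
import Vale.Agent.P002.Bd3.B3

set_option linter.all false

@[reducible] def Vale.Agent.P002Fast.coeU4 {M : Type*} [Monoid M] (u : Mˣ) : CoeT Mˣ u M := ⟨Units.val u⟩
attribute [local instance] Vale.Agent.P002Fast.coeU4

section

/-! TASK P: existence of base points. -/

namespace Vale.Agent.P002R

open Matrix

section Prelim

variable {R : Type*} [CommRing R] {r : ℕ}

/-- matrices over `R`, as complex matrices -/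
def PhiU (φ : R →+* ℂ) : (Mat r R)ˣ →* (Mat r ℂ)ˣ :=
  Units.map (RingHom.mapMatrix φ).toMonoidHom

theorem PhiU_coe (φ : R →+* ℂ) (Y : (Mat r R)ˣ) : (PhiU φ Y : Mat r ℂ) = (Y : Mat r R).map φ := rfl

theorem slU_coe (φ : R →+* ℂ) (A : SpecialLinearGroup (Fin r) R) :
    (slU φ A : Mat r ℂ) = (A : Mat r R).map φ := by
  ext i j
  simp [slU]

theorem scalarU_mul_coe (c : ℂˣ) (U : (Mat r ℂ)ˣ) :
    ((scalarU c * U : (Mat r ℂ)ˣ) : Mat r ℂ) = (c : ℂ) • (U : Mat r ℂ) := by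
  simp only [Units.val_mul, scalarU, Units.coe_map, RingHom.toMonoidHom_eq_coe,
    MonoidHom.coe_coe]
  rw [← Algebra.smul_def]

/-- a complex matrix with entries in `R` whose determinant is an `r`-th power of a unit -/
theorem mem_GR_of (φ : R →+* ℂ) (X : (Mat r ℂ)ˣ) (Y : Mat r R) (hXY : (X : Mat r ℂ) = Y.map φ)
    (c : Rˣ) (hc : Y.det = (c : R) ^ r) : X ∈ GR r φ := by
  have hdet : (((c⁻¹ : Rˣ) : R) • Y).det = 1 := by
    rw [Matrix.det_smul, Fintype.card_fin, hc, ← mul_pow, ← Units.val_mul, inv_mul_cancel,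
      Units.val_one, one_pow]
  obtain ⟨y, hy⟩ : ∃ y : SpecialLinearGroup (Fin r) R, (y : Mat r R) = ((c⁻¹ : Rˣ) : R) • Y :=
    ⟨⟨((c⁻¹ : Rˣ) : R) • Y, hdet⟩, rfl⟩
  refine ⟨Units.map (φ : R →* ℂ) c, y, ?_⟩
  apply Units.ext
  rw [scalarU_mul_coe, slU_coe, hy, hXY]
  ext i j
  simp only [Matrix.map_apply, Matrix.smul_apply, smul_eq_mul, map_mul, Units.coe_map,
    MonoidHom.coe_coe]
  rw [← mul_assoc, ← map_mul, ← Units.val_mul, mul_inv_cancel, Units.val_one, map_one, one_mul]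

theorem PhiU_mem_GR (φ : R →+* ℂ) (Y : (Mat r R)ˣ) (c : Rˣ) (hc : (Y : Mat r R).det = (c : R) ^ r) :
    PhiU φ Y ∈ GR r φ :=
  mem_GR_of φ _ (Y : Mat r R) (PhiU_coe φ Y) c hc

/-- strictly upper triangular matrices -/
def SUp (E : Mat r R) : Prop := ∀ i j, ¬ i < j → E i j = 0

theorem SUp.mul {E F : Mat r R} (hE : SUp E) (hF : SUp F) : SUp (E * F) := by
  intro i j hij
  rw [Matrix.mul_apply]
  apply Finset.sum_eq_zero
  intro k _
  by_cases h : i < k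
  · rw [hF k j (fun h' => hij (h.trans h')), mul_zero]
  · rw [hE i k h, zero_mul]

theorem SUp.add {E F : Mat r R} (hE : SUp E) (hF : SUp F) : SUp (E + F) := by
  intro i j hij
  rw [Matrix.add_apply, hE i j hij, hF i j hij, add_zero]

theorem SUp.smul {E : Mat r R} (c : R) (hE : SUp E) : SUp (c • E) := by
  intro i j hij
  rw [Matrix.smul_apply, hE i j hij, smul_zero]

theorem SUp.mul_diag {E : Mat r R} (d : Fin r → R) (hE : SUp E) : SUp (E * diagonal d) := by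
  intro i j hij
  rw [Matrix.mul_diagonal, hE i j hij, zero_mul]

theorem SUp.diag_mul {E : Mat r R} (d : Fin r → R) (hE : SUp E) : SUp (diagonal d * E) := by
  intro i j hij
  rw [Matrix.diagonal_mul, hE i j hij, mul_zero]

theorem fixed_point (E w : Mat r R) (hE : SUp E) :
    ∃ v : Mat r R, ∀ i j, v i j = (1 : Mat r R) i j + (if i < j then w i j * (E * v) i j else 0) := by
  let L : Module.End R (Mat r R) :=
    { toFun := fun v => Matrix.of fun i j => if i < j then w i j * (E * v) i j else 0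
      map_add' := by
        intro a b
        ext i j
        simp only [Matrix.of_apply, Matrix.add_apply, Matrix.mul_add]
        split_ifs <;> ring
      map_smul' := by
        intro c a
        ext i j
        simp only [Matrix.of_apply, Matrix.smul_apply, Matrix.mul_smul, RingHom.id_apply,
          smul_eq_mul]
        split_ifs <;> ring }
  have hL : ∀ v i j, L v i j = if i < j then w i j * (E * v) i j else 0 := fun v i j => rfl
  have hnil : ∀ s : ℕ, ∀ v : Mat r R, ∀ i j : Fin r, r ≤ (i : ℕ) + s → (L ^ s) v i j = 0 := by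
    intro s
    induction s with
    | zero => intro v i j h; exact absurd i.2 (by omega)
    | succ s ih =>
      intro v i j h
      rw [pow_succ', Module.End.mul_apply, hL]
      split_ifs
      · rw [Matrix.mul_apply, Finset.sum_eq_zero, mul_zero]
        intro k _
        by_cases hik : i < k
        · rw [ih v k j (by
            have : (i : ℕ) < (k : ℕ) := hik
            omega), mul_zero]
        · rw [hE i k hik, zero_mul]
      · rfl
  have hLnil : IsNilpotent L := by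
    refine ⟨r, ?_⟩
    ext1 v
    ext i j
    rw [hnil r v i j (by omega)]
    rfl
  have hunit : IsUnit (1 - L) := hLnil.isUnit_one_sub
  obtain ⟨K, hK⟩ := hunit
  refine ⟨(K⁻¹ : (Module.End R (Mat r R))ˣ).val 1, ?_⟩
  intro i j
  set v := (K⁻¹ : (Module.End R (Mat r R))ˣ).val 1 with hv
  have h1 : (1 - L) v = 1 := by
    rw [← hK, hv, ← Module.End.mul_apply, ← Units.val_mul, mul_inv_cancel, Units.val_one,
      Module.End.one_apply]
  have h2 : v = 1 + L v := by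
    rw [LinearMap.sub_apply, Module.End.one_apply] at h1
    rw [← h1, sub_add_cancel]
  have h3 := congrFun (congrFun h2 i) j
  rw [Matrix.add_apply, hL] at h3
  exact h3

end Prelim

section Tor

variable {R : Type*} [CommRing R] {r : ℕ}

theorem phi_pow_inj (φ : R →+* ℂ) (u : Rˣ) (hu : ∀ k : ℕ, 0 < k → φ (u : R) ^ k ≠ 1) :
    Function.Injective fun k : ℕ => φ (u : R) ^ k := by
  have hφu : φ (u : R) ≠ 0 := (u.isUnit.map φ).ne_zero
  have aux : ∀ a b : ℕ, a < b → φ (u : R) ^ a ≠ φ (u : R) ^ b := by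
    intro a b hab h
    obtain ⟨d, hd, rfl⟩ : ∃ d, 0 < d ∧ b = a + d := ⟨b - a, by omega, by omega⟩
    rw [pow_add] at h
    have h0 : φ (u : R) ^ a ≠ 0 := pow_ne_zero _ hφu
    exact hu d hd (mul_left_cancel₀ h0 (by rw [mul_one]; exact h.symm))
  intro a b h
  by_contra hab
  rcases lt_or_gt_of_ne hab with h' | h'
  · exact aux a b h' h
  · exact aux b a h' h.symm

end Tor

section Data

variable {R : Type*} [CommRing R] {r n : ℕ}

/-- matrices of the form `diagonal p + Δ • E` -/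
def IsJ (Δ : R) (p : Fin r → R) (X : Mat r R) : Prop := ∃ E, SUp E ∧ X = diagonal p + Δ • E

theorem IsJ.mul {Δ : R} {p q : Fin r → R} {X Y : Mat r R} (hX : IsJ Δ p X) (hY : IsJ Δ q Y) :
    IsJ Δ (p * q) (X * Y) := by
  obtain ⟨E, hE, rfl⟩ := hX
  obtain ⟨F, hF, rfl⟩ := hY
  refine ⟨diagonal p * F + E * diagonal q + Δ • (E * F),
    ((hF.diag_mul p).add (hE.mul_diag q)).add ((hE.mul hF).smul Δ), ?_⟩
  rw [Matrix.add_mul, Matrix.mul_add, Matrix.mul_add, Matrix.diagonal_mul_diagonal]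
  simp only [Matrix.mul_smul, Matrix.smul_mul, smul_add, smul_smul]
  have : (diagonal fun i => p i * q i) = diagonal (p * q) := rfl
  rw [this]
  abel

theorem IsJ.one {Δ : R} : IsJ Δ (1 : Fin r → R) (1 : Mat r R) :=
  ⟨0, fun _ _ _ => rfl, by simp⟩

theorem IsJ.det {Δ : R} {p : Fin r → R} {X : Mat r R} (hX : IsJ Δ p X) : X.det = ∏ i, p i := by
  obtain ⟨E, hE, rfl⟩ := hX
  rw [Matrix.det_of_isUpperTriangular]
  · refine Finset.prod_congr rfl fun i _ => ?_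
    rw [Matrix.add_apply, Matrix.diagonal_apply_eq, Matrix.smul_apply, hE i i (lt_irrefl i)]
    simp
  · intro i j hij
    have hji : j < i := hij
    have h1 : (diagonal p + Δ • E) i j = 0 := by
      rw [Matrix.add_apply, Matrix.diagonal_apply_ne _ hji.ne', Matrix.smul_apply,
        hE i j (not_lt.mpr hji.le)]
      simp
    exact h1

theorem IsJ.list {ι : Type*} {Δ : R} (p : ι → Fin r → R) (X : ι → Mat r R)
    (h : ∀ j, IsJ Δ (p j) (X j)) (l : List ι) : IsJ Δ (l.map p).prod (l.map X).prod := by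
  induction l with
  | nil => exact IsJ.one
  | cons a l ih =>
    rw [List.map_cons, List.map_cons, List.prod_cons, List.prod_cons]
    exact (h a).mul ih

theorem exists_unit_of_det {Y : Mat r R} (h : IsUnit Y.det) : ∃ X : (Mat r R)ˣ, (X : Mat r R) = Y := by
  have : IsUnit Y := (Matrix.isUnit_iff_isUnit_det Y).mpr h
  exact this

end Data

end Vale.Agent.P002R
end

section

/-! TASK L: relative reducible case. -/

namespace Vale.Agent.P002R

open Matrix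

section Eval

variable {κ : Type*} {r : ℕ} {S T : Type*} [CommRing S] [CommRing T] [Algebra ℂ S] [Algebra ℂ T]

/-- evaluation of a polynomial at a tuple of matrices over an algebra -/
noncomputable def evK (X : κ → Mat r S) : MvPolynomial (κ × Fin r × Fin r) ℂ →ₐ[ℂ] S :=
  MvPolynomial.aeval fun p => X p.1 p.2.1 p.2.2

theorem evK_map (θ : S →ₐ[ℂ] T) (X : κ → Mat r S) (f : MvPolynomial (κ × Fin r × Fin r) ℂ) :
    θ (evK X f) = evK (fun k => (X k).map θ) f := by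
  unfold evK
  rw [← AlgHom.comp_apply, MvPolynomial.comp_aeval]
  rfl

theorem evalG_eq_evK (x : FreeGroup κ →* (Mat r ℂ)ˣ) (f : MvPolynomial (κ × Fin r × Fin r) ℂ) :
    evalG x f = evK (fun k => (x (FreeGroup.of k) : Mat r ℂ)) f := rfl

end Eval

section Conj

variable {κ : Type*} {g n r : ℕ}

/-- conjugate of a representation -/
noncomputable def conjH (U : (Mat r ℂ)ˣ) (y : FreeGroup κ →* (Mat r ℂ)ˣ) :
    FreeGroup κ →* (Mat r ℂ)ˣ :=
  (MulAut.conj U).toMonoidHom.comp y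

theorem conjH_apply (U : (Mat r ℂ)ˣ) (y : FreeGroup κ →* (Mat r ℂ)ˣ) (w : FreeGroup κ) :
    conjH U y w = U * y w * U⁻¹ := by
  simp [conjH, MulAut.conj_apply]

theorem slU_int_mem_GR {R : Type*} [CommRing R] (φ : R →+* ℂ) (X : SpecialLinearGroup (Fin r) ℤ) :
    slU (Int.castRingHom ℂ) X ∈ GR r φ := by
  refine ⟨1, SpecialLinearGroup.map (Int.castRingHom R) X, ?_⟩
  rw [map_one, one_mul]
  apply Units.ext
  ext i j
  simp [slU]

end Conj

section Blocks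

variable {r r₁ r₂ : ℕ} {G : Type*} [Group G]

/-- block sum of units -/
noncomputable def blkU (D : P002.Dec r r₁ r₂) : (Mat r₁ ℂ)ˣ × (Mat r₂ ℂ)ˣ →* (Mat r ℂ)ˣ where
  toFun p :=
    { val := D.blk (p.1 : Mat r₁ ℂ) (p.2 : Mat r₂ ℂ)
      inv := D.blk ((p.1⁻¹ : (Mat r₁ ℂ)ˣ) : Mat r₁ ℂ) ((p.2⁻¹ : (Mat r₂ ℂ)ˣ) : Mat r₂ ℂ)
      val_inv := by
        rw [D.blk_mul, ← Units.val_mul, ← Units.val_mul, mul_inv_cancel, mul_inv_cancel,
          Units.val_one, Units.val_one, D.blk_one]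
      inv_val := by
        rw [D.blk_mul, ← Units.val_mul, ← Units.val_mul, inv_mul_cancel, inv_mul_cancel,
          Units.val_one, Units.val_one, D.blk_one] }
  map_one' := by
    apply Units.ext
    exact D.blk_one
  map_mul' p q := by
    apply Units.ext
    exact (D.blk_mul _ _ _ _).symm

theorem blkU_coe (D : P002.Dec r r₁ r₂) (A : (Mat r₁ ℂ)ˣ) (B : (Mat r₂ ℂ)ˣ) :
    (blkU D (A, B) : Mat r ℂ) = D.blk (A : Mat r₁ ℂ) (B : Mat r₂ ℂ) := rfl

theorem blkU_conj (D D' : P002.Dec r r₁ r₂) {A A' : (Mat r₁ ℂ)ˣ} {B B' : (Mat r₂ ℂ)ˣ}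
    (hA : IsConj A A') (hB : IsConj B B') : IsConj (blkU D (A, B)) (blkU D' (A', B')) := by
  have h1 : IsConj (blkU D (A, B)) (blkU D' (A, B)) := by
    rw [isConj_iff]
    refine ⟨D'.change D, ?_⟩
    apply Units.ext
    rw [Units.val_mul, Units.val_mul, blkU_coe, blkU_coe]
    exact P002.Dec.change_conj D' D _ _
  refine h1.trans ?_
  obtain ⟨X, rfl⟩ := isConj_iff.mp hA
  obtain ⟨Y, rfl⟩ := isConj_iff.mp hB
  rw [isConj_iff]
  refine ⟨blkU D' (X, Y), ?_⟩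
  rw [← map_inv, ← map_mul, ← map_mul]
  rfl

/-- twist of a representation by a character -/
noncomputable def tw (χ : G →* ℂˣ) (y : G →* (Mat r ℂ)ˣ) : G →* (Mat r ℂ)ˣ where
  toFun w := scalarU (χ w) * y w
  map_one' := by simp
  map_mul' a b := by
    rw [map_mul, map_mul, map_mul, mul_assoc, mul_assoc, ← mul_assoc (y a), ← scalarU_comm,
      mul_assoc]

theorem tw_apply (χ : G →* ℂˣ) (y : G →* (Mat r ℂ)ˣ) (w : G) :
    tw χ y w = scalarU (χ w) * y w := rfl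

/-- block sum of representations -/
noncomputable def bs (D : P002.Dec r r₁ r₂) (y₁ : G →* (Mat r₁ ℂ)ˣ) (y₂ : G →* (Mat r₂ ℂ)ˣ) :
    G →* (Mat r ℂ)ˣ :=
  (blkU D).comp (y₁.prod y₂)

theorem bs_apply (D : P002.Dec r r₁ r₂) (y₁ : G →* (Mat r₁ ℂ)ˣ) (y₂ : G →* (Mat r₂ ℂ)ˣ) (w : G) :
    bs D y₁ y₂ w = blkU D (y₁ w, y₂ w) := rfl

theorem bs_ss (D : P002.Dec r r₁ r₂) (y₁ : G →* (Mat r₁ ℂ)ˣ) (y₂ : G →* (Mat r₂ ℂ)ˣ)
    (χ₁ χ₂ : G →* ℂˣ) (h₁ : SS y₁) (h₂ : SS y₂) : SS (bs D (tw χ₁ y₁) (tw χ₂ y₂)) := by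
  refine P002.Dec.ss D _ y₁ y₂ (fun w => (χ₁ w : ℂ)) (fun w => (χ₂ w : ℂ)) (fun w => (χ₁ w).ne_zero)
    (fun w => (χ₂ w).ne_zero) ?_ h₁ h₂
  intro w
  rw [bs_apply, blkU_coe, tw_apply, tw_apply, scalarU_mul_coe, scalarU_mul_coe]

end Blocks

section TwoBlock

variable {g n r r₁ r₂ : ℕ} {R : Type*} [CommRing R]

theorem slU_slBlk (φ : R →+* ℂ) (e : Fin r₁ ⊕ Fin r₂ ≃ Fin r) (u : Rˣ) (m : Multiplicative ℤ)
    (A : SpecialLinearGroup (Fin r₁) R) (B : SpecialLinearGroup (Fin r₂) R) :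
    (slU φ (P002.slBlk e u m A B) : Mat r ℂ) = (P002.stdDec e).blk
      (φ (u ^ (m.toAdd * (r₂ : ℤ)) : Rˣ) • (slU φ A : Mat r₁ ℂ))
      (φ (u ^ (-(m.toAdd * (r₁ : ℤ))) : Rˣ) • (slU φ B : Mat r₂ ℂ)) :=
  P002.slU_slBlk φ e u m A B

/-- the polynomial in the first block -/
theorem exists_poly₁ {κ : Type*} (D : P002.Dec r r₁ r₂) (f : MvPolynomial (κ × Fin r × Fin r) ℂ)
    (Y₂ : κ → Mat r₂ ℂ) :
    ∃ f₁ : MvPolynomial (κ × Fin r₁ × Fin r₁) ℂ, ∀ y₁ : FreeGroup κ →* (Mat r₁ ℂ)ˣ,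
      evalG y₁ f₁ = evK (fun k => D.blk (y₁ (FreeGroup.of k) : Mat r₁ ℂ) (Y₂ k)) f := by
  let L := MvPolynomial (κ × Fin r₁ × Fin r₁) ℂ
  refine ⟨evK (fun k => D.blk (Matrix.of fun i j => (MvPolynomial.X (k, i, j) : L))
    ((Y₂ k).map MvPolynomial.C)) f, ?_⟩
  intro y₁
  unfold evalG
  rw [evK_map]
  refine congrArg (fun X => evK X f) (funext fun k => ?_)
  rw [P002.Dec.blk_map]
  congr 1
  · ext i j
    simp
  · ext i j
    simp

theorem exists_poly₂ {κ : Type*} (D : P002.Dec r r₁ r₂) (f : MvPolynomial (κ × Fin r × Fin r) ℂ)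
    (Y₁ : κ → Mat r₁ ℂ) :
    ∃ f₂ : MvPolynomial (κ × Fin r₂ × Fin r₂) ℂ, ∀ y₂ : FreeGroup κ →* (Mat r₂ ℂ)ˣ,
      evalG y₂ f₂ = evK (fun k => D.blk (Y₁ k) (y₂ (FreeGroup.of k) : Mat r₂ ℂ)) f := by
  let L := MvPolynomial (κ × Fin r₂ × Fin r₂) ℂ
  refine ⟨evK (fun k => D.blk ((Y₁ k).map MvPolynomial.C)
    (Matrix.of fun i j => (MvPolynomial.X (k, i, j) : L))) f, ?_⟩
  intro y₂
  unfold evalG
  rw [evK_map]
  refine congrArg (fun X => evK X f) (funext fun k => ?_)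
  rw [P002.Dec.blk_map]
  congr 1
  · ext i j
    simp
  · ext i j
    simp

end TwoBlock

section Main

variable {g n : ℕ} {R : Type*} [CommRing R]

end Main

end Vale.Agent.P002R
end

section

/-! TASK G1: reducible case, general groups and coefficients. -/

namespace Vale.Agent.P002R

open Matrix

section ConjG

variable {r : ℕ}

theorem conj_vanish_gen {K : Type} (D : Set (FreeGroup K →* (Mat r ℂ)ˣ))
    (hD : ∀ y ∈ D, ∀ X : SpecialLinearGroup (Fin r) ℤ,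
      conjH (slU (Int.castRingHom ℂ) X) y ∈ D)
    (f : MvPolynomial (K × Fin r × Fin r) ℂ) (hf : ∀ y ∈ D, evalG y f = 0)
    (y : FreeGroup K →* (Mat r ℂ)ˣ) (hy : y ∈ D) (U : (Mat r ℂ)ˣ) :
    evalG (conjH U y) f = 0 := by
  classical
  obtain ⟨N, H, hH⟩ := P002.exists_homog f
  let XX : Mat r (MvPolynomial (Fin r × Fin r) ℂ) := Matrix.of fun i j => MvPolynomial.X (i, j)
  let Y : K → Mat r ℂ := fun k => (y (FreeGroup.of k) : Mat r ℂ)
  let Z : K → Mat r (MvPolynomial (Fin r × Fin r) ℂ) := fun k =>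
    XX * (Y k).map MvPolynomial.C * XX.adjugate
  let G : MvPolynomial (Fin r × Fin r) ℂ :=
    MvPolynomial.aeval (fun o : Option (K × Fin r × Fin r) =>
      o.elim XX.det fun p => Z p.1 p.2.1 p.2.2) H
  have key : ∀ U : (Mat r ℂ)ˣ, MvPolynomial.eval (fun p => (U : Mat r ℂ) p.1 p.2) G =
      (U : Mat r ℂ).det ^ N * evalG (conjH U y) f := by
    intro U
    let ev : MvPolynomial (Fin r × Fin r) ℂ →ₐ[ℂ] ℂ :=
      MvPolynomial.aeval fun p => (U : Mat r ℂ) p.1 p.2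
    have hev : ∀ q, MvPolynomial.eval (fun p => (U : Mat r ℂ) p.1 p.2) q = ev q := by
      intro q
      rw [← MvPolynomial.coe_aeval_eq_eval]
      rfl
    have h1 : XX.map ev = (U : Mat r ℂ) := by
      ext i j
      simp [XX, ev]
    have hdet : ev XX.det = (U : Mat r ℂ).det := by
      rw [← h1]
      exact AlgHom.map_det ev XX
    have hadj : XX.adjugate.map ev = (U : Mat r ℂ).adjugate := by
      rw [← h1]
      exact AlgHom.map_adjugate ev XX
    have hY : ∀ k, ((Y k).map MvPolynomial.C).map ev = Y k := by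
      intro k
      ext i j
      simp [ev]
    have hd0 : (U : Mat r ℂ).det ≠ 0 := by
      have := (Matrix.isUnit_iff_isUnit_det _).mp U.isUnit
      exact this.ne_zero
    rw [hev]
    simp only [G]
    rw [← AlgHom.comp_apply, MvPolynomial.comp_aeval]
    have h2 : (fun o : Option (K × Fin r × Fin r) =>
        ev (o.elim XX.det fun p => Z p.1 p.2.1 p.2.2)) =
        fun o => o.elim (U : Mat r ℂ).det
          fun p => ((U : Mat r ℂ) * Y p.1 * (U : Mat r ℂ).adjugate) p.2.1 p.2.2 := by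
      funext o
      cases o with
      | none => simpa using hdet
      | some p =>
        simp only [Option.elim_some]
        have h3 : (Z p.1).map ev =
            (U : Mat r ℂ) * Y p.1 * (U : Mat r ℂ).adjugate := by
          simp only [Z]
          rw [Matrix.map_mul, Matrix.map_mul, h1, hY, hadj]
        rw [← h3]
        rfl
    have h4 := hH (U : Mat r ℂ).det hd0
      (fun p => ((U : Mat r ℂ) * Y p.1 * (U : Mat r ℂ).adjugate) p.2.1 p.2.2)
    rw [← MvPolynomial.coe_aeval_eq_eval] at h4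
    rw [h2]
    refine h4.trans ?_
    congr 1
    rw [evalG_eqn, ← MvPolynomial.coe_aeval_eq_eval]
    have h5 : (fun p : K × Fin r × Fin r => (U : Mat r ℂ).det⁻¹ *
        ((U : Mat r ℂ) * Y p.1 * (U : Mat r ℂ).adjugate) p.2.1 p.2.2) =
        fun p => ((conjH U y (FreeGroup.of p.1) : (Mat r ℂ)ˣ) : Mat r ℂ) p.2.1 p.2.2 := by
      funext p
      have h6 : ((U⁻¹ : (Mat r ℂ)ˣ) : Mat r ℂ) =
          (U : Mat r ℂ).det⁻¹ • (U : Mat r ℂ).adjugate := by
        rw [Matrix.coe_units_inv, Matrix.inv_def, Ring.inverse_eq_inv']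
      rw [conjH_apply, Units.val_mul, Units.val_mul, h6, Matrix.mul_smul, Matrix.smul_apply,
        smul_eq_mul]
    rw [h5]
    rfl
  have hG : G = 0 := by
    apply P002.scaledSL_dense
    intro c X
    let U : (Mat r ℂ)ˣ := scalarU c * slU (Int.castRingHom ℂ) X
    have hU : (fun p : Fin r × Fin r => (c : ℂ) * ((X.1 p.1 p.2 : ℤ) : ℂ)) =
        fun p => (U : Mat r ℂ) p.1 p.2 := by
      funext p
      simp only [U]
      rw [scalarU_mul_coe, Matrix.smul_apply, smul_eq_mul, slU_coe]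
      simp
    rw [hU, key]
    have hc : conjH U y = conjH (slU (Int.castRingHom ℂ) X) y := by
      ext1 w
      rw [conjH_apply, conjH_apply]
      have : U * y (FreeGroup.of w) * U⁻¹ = scalarU c * (slU (Int.castRingHom ℂ) X *
          y (FreeGroup.of w) * (slU (Int.castRingHom ℂ) X)⁻¹) * (scalarU c)⁻¹ := by
        simp only [U]
        group
      rw [this, scalarU_comm]
      group
    rw [hc, hf _ (hD y hy X), mul_zero]
  have h := key U
  rw [hG, map_zero] at h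
  have hd0 : (U : Mat r ℂ).det ≠ 0 := by
    have := (Matrix.isUnit_iff_isUnit_det _).mp U.isUnit
    exact this.ne_zero
  rcases mul_eq_zero.mp h.symm with h | h
  · exact absurd h (pow_ne_zero _ hd0)
  · exact h

variable {κ ι : Type} {Rel : Set (FreeGroup (κ ⊕ ι))}

theorem conjH_mem_YG {C : ι → (Mat r ℂ)ˣ} {y : FreeGroup (κ ⊕ ι) →* (Mat r ℂ)ˣ}
    (hy : y ∈ YG Rel C) (U : (Mat r ℂ)ˣ) : conjH U y ∈ YG Rel C := by
  obtain ⟨h1, h2, h3⟩ := hy
  refine ⟨?_, ?_, ?_⟩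
  · intro w hw
    rw [conjH_apply, h1 w hw, mul_one, mul_inv_cancel]
  · intro j
    refine (h2 j).trans ?_
    rw [isConj_iff]
    exact ⟨U, (conjH_apply _ _ _).symm⟩
  · exact P002.SS.conj U (fun w => conjH_apply _ _ w) h3

theorem conjH_mem_DG {R : Type*} [CommRing R] (φ : R →+* ℂ) {C : ι → (Mat r ℂ)ˣ}
    {y : FreeGroup (κ ⊕ ι) →* (Mat r ℂ)ˣ} (hy : y ∈ DG Rel φ C)
    (X : SpecialLinearGroup (Fin r) ℤ) :
    conjH (slU (Int.castRingHom ℂ) X) y ∈ DG Rel φ C := by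
  refine ⟨conjH_mem_YG hy.1 _, fun k => ?_⟩
  rw [conjH_apply]
  exact (GR r φ).mul_mem ((GR r φ).mul_mem (slU_int_mem_GR φ X) (hy.2 k))
    ((GR r φ).inv_mem (slU_int_mem_GR φ X))

end ConjG

section EigE

variable {r r₁ r₂ : ℕ} {E : Subgroup ℂˣ}

/-- Conditions on the coefficient ring, without `-1 ∈ E`. -/
structure CoefOK' {R : Type*} [CommRing R] (φ : R →+* ℂ) (E : Subgroup ℂˣ) (r : ℕ) : Prop where
  inj : Function.Injective φ
  root : ∀ k : ℕ, 0 < k → k ≤ r → ∀ z : ℂˣ, z ^ k ∈ E → (z : ℂ) ∈ Set.range φ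
  unit : ∃ u : Rˣ, ∀ k : ℕ, 0 < k → Units.map (φ : R →* ℂ) u ^ k ∉ E

theorem CoefOK.weak {R : Type*} [CommRing R] {φ : R →+* ℂ} (hc : CoefOK φ E r) :
    CoefOK' φ E r where
  inj := hc.inj
  root := hc.root
  unit := hc.unit

theorem CoefOK'.mono {R : Type*} [CommRing R] {φ : R →+* ℂ} {r' : ℕ} (hc : CoefOK' φ E r)
    (h : r' ≤ r) : CoefOK' φ E r' where
  inj := hc.inj
  root := fun k hk hk' z hz => hc.root k hk (hk'.trans h) z hz
  unit := hc.unit

theorem EigIn.det {M : Mat r ℂ} (h : EigIn E M) : ∃ e ∈ E, (e : ℂ) = M.det := by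
  rw [Matrix.det_eq_prod_roots_charpoly]
  have key : ∀ s : Multiset ℂ, (∀ z ∈ s, ∃ e ∈ E, (e : ℂ) = z) → ∃ e ∈ E, (e : ℂ) = s.prod := by
    intro s
    induction s using Multiset.induction_on with
    | empty => exact fun _ => ⟨1, E.one_mem, by simp⟩
    | cons a s ih =>
      intro hs
      obtain ⟨e, he, he'⟩ := hs a (Multiset.mem_cons_self a s)
      obtain ⟨e₁, he₁, he₁'⟩ := ih fun z hz => hs z (Multiset.mem_cons_of_mem hz)
      exact ⟨e * e₁, E.mul_mem he he₁, by rw [Units.val_mul, he', he₁', Multiset.prod_cons]⟩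
  apply key
  intro z hz
  exact h z (Polynomial.isRoot_of_mem_roots hz)

theorem EigIn.conj {X Y : (Mat r ℂ)ˣ} (h : IsConj X Y) (hX : EigIn E (X : Mat r ℂ)) :
    EigIn E (Y : Mat r ℂ) := by
  obtain ⟨U, rfl⟩ := isConj_iff.mp h
  intro z hz
  apply hX z
  rwa [Units.val_mul, Units.val_mul, Matrix.coe_units_inv, Matrix.charpoly_units_conj] at hz

theorem isRoot_charpoly_of_mulVec {M : Mat r ℂ} {z : ℂ} {v : Fin r → ℂ} (hv : v ≠ 0)
    (h : M *ᵥ v = z • v) : M.charpoly.IsRoot z := by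
  rw [Polynomial.IsRoot.def, Matrix.eval_charpoly, ← Matrix.exists_mulVec_eq_zero_iff]
  refine ⟨v, hv, ?_⟩
  rw [Matrix.sub_mulVec, h, Matrix.scalar_apply, Matrix.diagonal_const_mulVec]
  simp

theorem exists_mulVec_of_isRoot {M : Mat r ℂ} {z : ℂ} (h : M.charpoly.IsRoot z) :
    ∃ v : Fin r → ℂ, v ≠ 0 ∧ M *ᵥ v = z • v := by
  rw [Polynomial.IsRoot.def, Matrix.eval_charpoly, ← Matrix.exists_mulVec_eq_zero_iff] at h
  obtain ⟨v, hv, hv'⟩ := h
  refine ⟨v, hv, ?_⟩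
  rw [Matrix.sub_mulVec, Matrix.scalar_apply, Matrix.diagonal_const_mulVec, sub_eq_zero] at hv'
  exact hv'.symm

theorem EigIn.blk {D : P002.Dec r r₁ r₂} {A : (Mat r₁ ℂ)ˣ} {B : (Mat r₂ ℂ)ˣ}
    (h : EigIn E (blkU D (A, B) : Mat r ℂ)) :
    EigIn E (A : Mat r₁ ℂ) ∧ EigIn E (B : Mat r₂ ℂ) := by
  rw [blkU_coe] at h
  constructor
  · intro z hz
    obtain ⟨v, hv, hv'⟩ := exists_mulVec_of_isRoot hz
    refine h z (isRoot_charpoly_of_mulVec (v := D.P₁ *ᵥ v) ?_ ?_)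
    · intro h0
      apply hv
      apply D.inj₁
      rw [Matrix.mulVecLin_apply, h0, map_zero]
    · rw [P002.Dec.blk_mulVec₁, hv', Matrix.mulVec_smul]
  · intro z hz
    obtain ⟨v, hv, hv'⟩ := exists_mulVec_of_isRoot hz
    refine h z (isRoot_charpoly_of_mulVec (v := D.P₂ *ᵥ v) ?_ ?_)
    · intro h0
      apply hv
      apply D.inj₂
      rw [Matrix.mulVecLin_apply, h0, map_zero]
    · rw [P002.Dec.blk_mulVec₂, hv', Matrix.mulVec_smul]

variable {R : Type*} [CommRing R]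

/-- Elements of the ring which lie in `E` have `r`-th roots which are units. -/
theorem exists_rootE (φ : R →+* ℂ) (hc : CoefOK' φ E r) (hr : 0 < r) (z : R)
    (hz : ∃ ε ∈ E, (ε : ℂ) = φ z) : ∃ c : Rˣ, z = (c : R) ^ r := by
  obtain ⟨ε, hε, hε'⟩ := hz
  obtain ⟨w, hw⟩ := IsAlgClosed.exists_pow_nat_eq (φ z) hr
  have hw0 : w ≠ 0 := by
    rintro rfl
    rw [zero_pow hr.ne', ← hε'] at hw
    exact ε.ne_zero hw.symm
  have h1 : (Units.mk0 w hw0) ^ r = ε := by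
    apply Units.ext
    rw [Units.val_pow_eq_pow_val, Units.val_mk0, hw, hε']
  obtain ⟨γ, hγ⟩ := hc.root r hr le_rfl (Units.mk0 w hw0) (by rw [h1]; exact hε)
  obtain ⟨γ', hγ'⟩ := hc.root r hr le_rfl (Units.mk0 w hw0)⁻¹
    (by rw [inv_pow, h1]; exact E.inv_mem hε)
  have h2 : γ * γ' = 1 := by
    apply hc.inj
    rw [map_mul, hγ, hγ', map_one, ← Units.val_mul, mul_inv_cancel, Units.val_one]
  refine ⟨⟨γ, γ', h2, by rw [mul_comm]; exact h2⟩, ?_⟩
  apply hc.inj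
  rw [map_pow]
  change φ z = φ γ ^ r
  rw [hγ, Units.val_mk0, hw]

/-- A matrix of `GR` with eigenvalues in `E` has entries in the ring. -/
theorem exists_liftE (φ : R →+* ℂ) (hc : CoefOK' φ E r) {k : ℕ} (hk : 0 < k) (hkr : k ≤ r)
    (A : (Mat k ℂ)ˣ) (hA : A ∈ GR k φ) (nA : EigIn E (A : Mat k ℂ)) :
    ∃ Y : Mat k R, (A : Mat k ℂ) = Y.map φ ∧ ∃ ε ∈ E, (ε : ℂ) = φ Y.det := by
  obtain ⟨c, z, rfl⟩ := hA
  obtain ⟨ε, hε, hε'⟩ := nA.det
  have hz : (slU φ z : Mat k ℂ).det = 1 := by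
    rw [slU_coe, ← RingHom.mapMatrix_apply, ← RingHom.map_det, z.det_coe, map_one]
  rw [scalarU_mul_coe, Matrix.det_smul, Fintype.card_fin, hz, mul_one] at hε'
  have hck : c ^ k = ε := by
    apply Units.ext
    rw [Units.val_pow_eq_pow_val, hε']
  obtain ⟨γ, hγ⟩ := hc.root k hk hkr c (by rw [hck]; exact hε)
  refine ⟨γ • (z : Mat k R), ?_, ε, hε, ?_⟩
  · rw [scalarU_mul_coe, slU_coe]
    ext i j
    simp [hγ]
  · rw [Matrix.det_smul, Fintype.card_fin, z.det_coe, mul_one, map_pow, hγ, hε']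

/-- the block sum of the boundary matrices of two integral representations is integral -/
theorem blk_mem_GR_E (φ : R →+* ℂ) (hc : CoefOK' φ E r)
    (hr1 : 0 < r₁) (hr2 : 0 < r₂) (hr : r₁ + r₂ = r)
    (e : Fin r₁ ⊕ Fin r₂ ≃ Fin r) {A : (Mat r₁ ℂ)ˣ} {B : (Mat r₂ ℂ)ˣ}
    (hA : A ∈ GR r₁ φ) (hB : B ∈ GR r₂ φ) (nA : EigIn E (A : Mat r₁ ℂ))
    (nB : EigIn E (B : Mat r₂ ℂ)) : blkU (P002.stdDec e) (A, B) ∈ GR r φ := by
  obtain ⟨Y, hY, ε₁, hε₁, hYd⟩ := exists_liftE φ hc hr1 (by omega) A hA nA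
  obtain ⟨Z, hZ, ε₂, hε₂, hZd⟩ := exists_liftE φ hc hr2 (by omega) B hB nB
  obtain ⟨c, hc⟩ := exists_rootE φ hc (by omega) (Y.det * Z.det)
    ⟨ε₁ * ε₂, E.mul_mem hε₁ hε₂, by rw [map_mul, ← hYd, ← hZd, Units.val_mul]⟩
  refine mem_GR_of φ _ (Matrix.reindex e e (fromBlocks Y 0 0 Z)) ?_ c ?_
  · rw [blkU_coe, P002.stdDec_blk, hY, hZ]
    ext i j
    obtain ⟨i, rfl⟩ := e.surjective i
    obtain ⟨j, rfl⟩ := e.surjective j
    rcases i with i | i <;> rcases j with j | j <;> simp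
  · rw [Matrix.det_reindex_self, Matrix.det_fromBlocks_zero₂₁, hc]

end EigE

section TwoBlockG

variable {κ ι : Type} {r r₁ r₂ : ℕ} {R : Type*} [CommRing R] {Rel : Set (FreeGroup (κ ⊕ ι))}
  {E : Subgroup ℂˣ}

/-- a twisted block sum of points is a point -/
theorem bs_mem_YG (hchar : CharOK Rel) {C : ι → (Mat r ℂ)ˣ} {C₁ : ι → (Mat r₁ ℂ)ˣ}
    {C₂ : ι → (Mat r₂ ℂ)ˣ}
    (D₀ : P002.Dec r r₁ r₂) (hC : ∀ j, IsConj (C j) (blkU D₀ (C₁ j, C₂ j)))
    {y₁ : FreeGroup (κ ⊕ ι) →* (Mat r₁ ℂ)ˣ} {y₂ : FreeGroup (κ ⊕ ι) →* (Mat r₂ ℂ)ˣ}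
    (h₁ : y₁ ∈ YG Rel C₁) (h₂ : y₂ ∈ YG Rel C₂) (χ₁ χ₂ : FreeGroup (κ ⊕ ι) →* ℂˣ)
    (hχ₁ : ∀ j, χ₁ (FreeGroup.of (Sum.inr j)) = 1)
    (hχ₂ : ∀ j, χ₂ (FreeGroup.of (Sum.inr j)) = 1) (D : P002.Dec r r₁ r₂) :
    bs D (tw χ₁ y₁) (tw χ₂ y₂) ∈ YG Rel C := by
  refine ⟨?_, ?_, ?_⟩
  · intro w hw
    rw [bs_apply, tw_apply, tw_apply, h₁.1 w hw, h₂.1 w hw, hchar w hw ℂˣ χ₁ hχ₁,
      hchar w hw ℂˣ χ₂ hχ₂, map_one, map_one, one_mul, one_mul]
    exact map_one (blkU D)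
  · intro j
    refine (hC j).trans ?_
    rw [bs_apply, tw_apply, tw_apply, hχ₁, hχ₂, map_one, map_one, one_mul, one_mul]
    exact blkU_conj D₀ D (h₁.2.1 j) (h₂.2.1 j)
  · exact bs_ss D y₁ y₂ χ₁ χ₂ h₁.2.2 h₂.2.2

/-- the tuple of block matrices with parameters -/
noncomputable def tupG {S : Type*} [CommRing S] [Algebra ℂ S] (D : P002.Dec r r₁ r₂)
    (Z₁ : κ → Mat r₁ ℂ) (Z₂ : κ → Mat r₂ ℂ) (W₁ : ι → Mat r₁ ℂ)
    (W₂ : ι → Mat r₂ ℂ) (s t : κ → S) : κ ⊕ ι → Mat r S :=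
  Sum.elim (fun k => D.blk (s k • (Z₁ k).map (algebraMap ℂ S)) (t k • (Z₂ k).map (algebraMap ℂ S)))
    fun j => D.blk ((W₁ j).map (algebraMap ℂ S)) ((W₂ j).map (algebraMap ℂ S))

theorem tupG_map {S T : Type*} [CommRing S] [Algebra ℂ S] [CommRing T] [Algebra ℂ T]
    (θ : S →ₐ[ℂ] T) (D : P002.Dec r r₁ r₂)
    (Z₁ : κ → Mat r₁ ℂ) (Z₂ : κ → Mat r₂ ℂ) (W₁ : ι → Mat r₁ ℂ)
    (W₂ : ι → Mat r₂ ℂ) (s t : κ → S) (k : κ ⊕ ι) :
    (tupG D Z₁ Z₂ W₁ W₂ s t k).map θ =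
      tupG D Z₁ Z₂ W₁ W₂ (fun k => θ (s k)) (fun k => θ (t k)) k := by
  rcases k with k | j
  · simp only [tupG, Sum.elim_inl]
    rw [P002.Dec.blk_map]
    congr 1
    · ext i j
      simp
    · ext i j
      simp
  · simp only [tupG, Sum.elim_inr]
    rw [P002.Dec.blk_map]
    congr 1
    · ext i j
      simp
    · ext i j
      simp

theorem tupG_complex (D : P002.Dec r r₁ r₂)
    (Z₁ : κ → Mat r₁ ℂ) (Z₂ : κ → Mat r₂ ℂ) (W₁ : ι → Mat r₁ ℂ)
    (W₂ : ι → Mat r₂ ℂ) (s t : κ → ℂ) : tupG D Z₁ Z₂ W₁ W₂ s t =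
      Sum.elim (fun k => D.blk (s k • Z₁ k) (t k • Z₂ k)) (fun j => D.blk (W₁ j) (W₂ j)) := by
  have h : ∀ {a b : ℕ} (M : Matrix (Fin a) (Fin b) ℂ), M.map (algebraMap ℂ ℂ) = M := by
    intro a b M
    ext i j
    simp
  unfold tupG
  simp only [h]

/-- data of two integral pieces -/
structure TwoDataG (φ : R →+* ℂ) (E : Subgroup ℂˣ) (Rel : Set (FreeGroup (κ ⊕ ι)))
    (r r₁ r₂ : ℕ) (C : ι → (Mat r ℂ)ˣ) where
  hc : CoefOK' φ E r
  hchar : CharOK Rel
  hr1 : 0 < r₁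
  hr2 : 0 < r₂
  hr : r₁ + r₂ = r
  C₁ : ι → (Mat r₁ ℂ)ˣ
  C₂ : ι → (Mat r₂ ℂ)ˣ
  D₀ : P002.Dec r r₁ r₂
  hC : ∀ j, IsConj (C j) (blkU D₀ (C₁ j, C₂ j))
  nC₁ : ∀ j, EigIn E (C₁ j : Mat r₁ ℂ)
  nC₂ : ∀ j, EigIn E (C₂ j : Mat r₂ ℂ)
  y₁ : FreeGroup (κ ⊕ ι) →* (Mat r₁ ℂ)ˣ
  y₂ : FreeGroup (κ ⊕ ι) →* (Mat r₂ ℂ)ˣ
  h₁ : y₁ ∈ DG Rel φ C₁
  h₂ : y₂ ∈ DG Rel φ C₂

theorem two_block_specialG (φ : R →+* ℂ) (u : Rˣ)
    {C : ι → (Mat r ℂ)ˣ} (d : TwoDataG φ E Rel r r₁ r₂ C) (D : P002.Dec r r₁ r₂)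
    (f : MvPolynomial ((κ ⊕ ι) × Fin r × Fin r) ℂ)
    (hf : ∀ y ∈ DG Rel φ C, evalG y f = 0)
    (c₁ c₂ : κ → ℂˣ) (z₁ : κ → SpecialLinearGroup (Fin r₁) R)
    (z₂ : κ → SpecialLinearGroup (Fin r₂) R)
    (hz₁ : ∀ k, d.y₁ (FreeGroup.of (Sum.inl k)) = scalarU (c₁ k) * slU φ (z₁ k))
    (hz₂ : ∀ k, d.y₂ (FreeGroup.of (Sum.inl k)) = scalarU (c₂ k) * slU φ (z₂ k))
    (m : κ → ℤ) (c : κ → ℂˣ) :
    evK (tupG D (fun k => (slU φ (z₁ k) : Mat r₁ ℂ)) (fun k => (slU φ (z₂ k) : Mat r₂ ℂ))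
      (fun j => (d.y₁ (FreeGroup.of (Sum.inr j)) : Mat r₁ ℂ))
      (fun j => (d.y₂ (FreeGroup.of (Sum.inr j)) : Mat r₂ ℂ))
      (fun k => (c k : ℂ) * φ (u ^ (m k * (r₂ : ℤ)) : Rˣ))
      (fun k => (c k : ℂ) * φ (u ^ (-(m k * (r₁ : ℤ))) : Rˣ))) f = 0 := by
  let e : Fin r₁ ⊕ Fin r₂ ≃ Fin r := finSumFinEquiv.trans (finCongr d.hr)
  let v : ℂˣ := Units.map (φ : R →* ℂ) u
  have hv : ∀ a : ℤ, ((v ^ a : ℂˣ) : ℂ) = φ ((u ^ a : Rˣ) : R) := by
    intro a
    simp only [v]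
    rw [← map_zpow]
    rfl
  let χ₁ : FreeGroup (κ ⊕ ι) →* ℂˣ := FreeGroup.lift
    (Sum.elim (fun k => c k * v ^ (m k * (r₂ : ℤ)) * (c₁ k)⁻¹) fun _ => 1)
  let χ₂ : FreeGroup (κ ⊕ ι) →* ℂˣ := FreeGroup.lift
    (Sum.elim (fun k => c k * v ^ (-(m k * (r₁ : ℤ))) * (c₂ k)⁻¹) fun _ => 1)
  have hχ₁ : ∀ j, χ₁ (FreeGroup.of (Sum.inr j)) = 1 := fun j => by simp [χ₁]
  have hχ₂ : ∀ j, χ₂ (FreeGroup.of (Sum.inr j)) = 1 := fun j => by simp [χ₂]
  have hχ₁' : ∀ k, χ₁ (FreeGroup.of (Sum.inl k)) = c k * v ^ (m k * (r₂ : ℤ)) * (c₁ k)⁻¹ :=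
    fun k => by simp [χ₁]
  have hχ₂' : ∀ k, χ₂ (FreeGroup.of (Sum.inl k)) = c k * v ^ (-(m k * (r₁ : ℤ))) * (c₂ k)⁻¹ :=
    fun k => by simp [χ₂]
  set y : FreeGroup (κ ⊕ ι) →* (Mat r ℂ)ˣ :=
    bs (P002.stdDec e) (tw χ₁ d.y₁) (tw χ₂ d.y₂) with hy
  have hyl : ∀ k, (y (FreeGroup.of (Sum.inl k)) : Mat r ℂ) = (P002.stdDec e).blk
      (((c k : ℂ) * φ (u ^ (m k * (r₂ : ℤ)) : Rˣ)) • (slU φ (z₁ k) : Mat r₁ ℂ))
      (((c k : ℂ) * φ (u ^ (-(m k * (r₁ : ℤ))) : Rˣ)) • (slU φ (z₂ k) : Mat r₂ ℂ)) := by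
    intro k
    rw [hy, bs_apply, blkU_coe, tw_apply, tw_apply, hz₁, hz₂, ← mul_assoc, ← mul_assoc,
      ← map_mul, ← map_mul, hχ₁', hχ₂', inv_mul_cancel_right, inv_mul_cancel_right,
      scalarU_mul_coe, scalarU_mul_coe, Units.val_mul, Units.val_mul, hv, hv]
  have hyr : ∀ j, y (FreeGroup.of (Sum.inr j)) = blkU (P002.stdDec e)
      (d.y₁ (FreeGroup.of (Sum.inr j)), d.y₂ (FreeGroup.of (Sum.inr j))) := by
    intro j
    rw [hy, bs_apply, tw_apply, tw_apply, hχ₁, hχ₂, map_one, map_one, one_mul, one_mul]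
  have hyD : y ∈ DG Rel φ C := by
    refine ⟨bs_mem_YG d.hchar d.D₀ d.hC d.h₁.1 d.h₂.1 χ₁ χ₂ hχ₁ hχ₂ _, ?_⟩
    rintro (k | j)
    · refine ⟨c k, P002.slBlk e u (Multiplicative.ofAdd (m k)) (z₁ k) (z₂ k), ?_⟩
      apply Units.ext
      rw [hyl, scalarU_mul_coe, slU_slBlk, P002.Dec.blk_complex, P002.Dec.blk_complex, smul_add]
      simp only [Matrix.mul_smul, Matrix.smul_mul, smul_smul, toAdd_ofAdd]
    · rw [hyr]
      exact blk_mem_GR_E φ d.hc d.hr1 d.hr2 d.hr e (d.h₁.2 _) (d.h₂.2 _)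
        ((d.nC₁ j).conj (d.h₁.1.2.1 j)) ((d.nC₂ j).conj (d.h₂.1.2.1 j))
  have h := conj_vanish_gen (DG Rel φ C) (fun y hy X => conjH_mem_DG φ hy X) f hf y hyD
    (D.change (P002.stdDec e))
  rw [evalG_eq_evK] at h
  refine Eq.trans (congrArg (fun X => evK X f) (funext fun k => ?_)) h
  rw [tupG_complex, conjH_apply, Units.val_mul, Units.val_mul]
  rcases k with k | j
  · rw [hyl, P002.Dec.change_conj]
    rfl
  · rw [hyr, blkU_coe, P002.Dec.change_conj]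
    rfl

theorem two_block_allG [Finite κ] (φ : R →+* ℂ) (u : Rˣ)
    (hu : ∀ k : ℕ, 0 < k → φ (u : R) ^ k ≠ 1)
    {C : ι → (Mat r ℂ)ˣ} (d : TwoDataG φ E Rel r r₁ r₂ C) (D : P002.Dec r r₁ r₂)
    (f : MvPolynomial ((κ ⊕ ι) × Fin r × Fin r) ℂ)
    (hf : ∀ y ∈ DG Rel φ C, evalG y f = 0)
    (c₁ c₂ : κ → ℂˣ) (z₁ : κ → SpecialLinearGroup (Fin r₁) R)
    (z₂ : κ → SpecialLinearGroup (Fin r₂) R)
    (hz₁ : ∀ k, d.y₁ (FreeGroup.of (Sum.inl k)) = scalarU (c₁ k) * slU φ (z₁ k))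
    (hz₂ : ∀ k, d.y₂ (FreeGroup.of (Sum.inl k)) = scalarU (c₂ k) * slU φ (z₂ k))
    (s t : κ → ℂˣ) :
    evK (tupG D (fun k => (slU φ (z₁ k) : Mat r₁ ℂ)) (fun k => (slU φ (z₂ k) : Mat r₂ ℂ))
      (fun j => (d.y₁ (FreeGroup.of (Sum.inr j)) : Mat r₁ ℂ))
      (fun j => (d.y₂ (FreeGroup.of (Sum.inr j)) : Mat r₂ ℂ))
      (fun k => (s k : ℂ)) (fun k => (t k : ℂ))) f = 0 := by
  have hr0 : 0 < r := by have := d.hr1; have := d.hr; omega
  have hr := d.hr
  let L := MvPolynomial κ ℂ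
  let G : L := evK (tupG D (fun k => (slU φ (z₁ k) : Mat r₁ ℂ)) (fun k => (slU φ (z₂ k) : Mat r₂ ℂ))
      (fun j => (d.y₁ (FreeGroup.of (Sum.inr j)) : Mat r₁ ℂ))
      (fun j => (d.y₂ (FreeGroup.of (Sum.inr j)) : Mat r₂ ℂ))
      (fun k => (MvPolynomial.X k * MvPolynomial.C (t k : ℂ) : L))
      (fun k => (MvPolynomial.C (t k : ℂ) : L))) f
  have hG : ∀ ρ : κ → ℂ, MvPolynomial.eval ρ G =
      evK (tupG D (fun k => (slU φ (z₁ k) : Mat r₁ ℂ)) (fun k => (slU φ (z₂ k) : Mat r₂ ℂ))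
      (fun j => (d.y₁ (FreeGroup.of (Sum.inr j)) : Mat r₁ ℂ))
      (fun j => (d.y₂ (FreeGroup.of (Sum.inr j)) : Mat r₂ ℂ))
      (fun k => ρ k * (t k : ℂ)) (fun k => (t k : ℂ))) f := by
    intro ρ
    have h0 : MvPolynomial.eval ρ G = (MvPolynomial.aeval ρ : L →ₐ[ℂ] ℂ) G := by
      rw [← MvPolynomial.coe_aeval_eq_eval]
      rfl
    rw [h0]
    simp only [G]
    rw [evK_map]
    refine congrArg (fun X => evK X f) (funext fun k => ?_)
    rw [tupG_map]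
    congr 1
    · funext k
      simp
    · funext k
      simp
  have hφu : φ (u : R) ≠ 0 := (u.isUnit.map φ).ne_zero
  let Λ : Set ℂ := Set.range fun m : ℕ => φ (u : R) ^ (r * m)
  have hΛ : Λ.Infinite := by
    apply Set.infinite_range_of_injective
    intro a b h
    have := phi_pow_inj φ u hu h
    exact Nat.eq_of_mul_eq_mul_left hr0 this
  have hG0 : G = 0 := by
    refine MvPolynomial.funext_set (fun _ => Λ) (fun _ => hΛ) ?_
    intro ρ hρ
    rw [map_zero, hG]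
    choose m hm using fun k => hρ k (Set.mem_univ k)
    let c : κ → ℂˣ := fun k =>
      t k * (Units.map (φ : R →* ℂ) u) ^ ((m k : ℤ) * (r₁ : ℤ))
    have h := two_block_specialG φ u d D f hf c₁ c₂ z₁ z₂ hz₁ hz₂ (fun k => (m k : ℤ)) c
    have hpow : ∀ a : ℤ, φ ((u ^ a : Rˣ) : R) = (((Units.map (φ : R →* ℂ) u) ^ a : ℂˣ) : ℂ) := by
      intro a
      rw [← map_zpow]
      rfl
    have e1 : (fun k => ρ k * (t k : ℂ)) =
        fun k => (c k : ℂ) * φ ((u ^ ((m k : ℤ) * (r₂ : ℤ)) : Rˣ) : R) := by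
      funext k
      rw [hpow]
      simp only [c]
      rw [← Units.val_mul, mul_assoc, ← _root_.zpow_add]
      have : (m k : ℤ) * (r₁ : ℤ) + (m k : ℤ) * (r₂ : ℤ) = ((r * m k : ℕ) : ℤ) := by
        push_cast [← hr]
        ring
      have hmk : ρ k = φ (u : R) ^ (r * m k) := (hm k).symm
      rw [this, zpow_natCast, hmk, Units.val_mul, Units.val_pow_eq_pow_val, mul_comm]
      rfl
    have e2 : (fun k => (t k : ℂ)) =
        fun k => (c k : ℂ) * φ ((u ^ (-((m k : ℤ) * (r₁ : ℤ))) : Rˣ) : R) := by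
      funext k
      rw [hpow]
      simp only [c]
      rw [← Units.val_mul, mul_assoc, ← _root_.zpow_add, add_neg_cancel, zpow_zero, mul_one]
    rw [e1, e2]
    exact h
  have h := hG fun k => (s k : ℂ) * ((t k)⁻¹ : ℂˣ)
  rw [hG0, map_zero] at h
  have e3 : (fun k => (s k : ℂ) * (((t k)⁻¹ : ℂˣ) : ℂ) * (t k : ℂ)) = fun k => (s k : ℂ) := by
    funext k
    rw [mul_assoc, ← Units.val_mul, inv_mul_cancel, Units.val_one, mul_one]
  rw [e3] at h
  exact h.symm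

theorem two_block_DG [Finite κ] (φ : R →+* ℂ) (u : Rˣ)
    (hu : ∀ k : ℕ, 0 < k → φ (u : R) ^ k ≠ 1)
    {C : ι → (Mat r ℂ)ˣ} (d : TwoDataG φ E Rel r r₁ r₂ C) (D : P002.Dec r r₁ r₂)
    (f : MvPolynomial ((κ ⊕ ι) × Fin r × Fin r) ℂ)
    (hf : ∀ y ∈ DG Rel φ C, evalG y f = 0) :
    evK (fun k => D.blk (d.y₁ (FreeGroup.of k) : Mat r₁ ℂ) (d.y₂ (FreeGroup.of k) : Mat r₂ ℂ)) f
      = 0 := by
  choose c₁ z₁ hz₁ using fun k : κ => d.h₁.2 (Sum.inl k)
  choose c₂ z₂ hz₂ using fun k : κ => d.h₂.2 (Sum.inl k)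
  have h := two_block_allG φ u hu d D f hf c₁ c₂ z₁ z₂ hz₁ hz₂ c₁ c₂
  refine Eq.trans (congrArg (fun X => evK X f) (funext fun k => ?_)) h
  rw [tupG_complex]
  rcases k with k | j
  · rw [Sum.elim_inl, hz₁, hz₂, scalarU_mul_coe, scalarU_mul_coe]
  · rfl

end TwoBlockG

section MainG

variable {κ ι : Type} {r : ℕ}

/-- Reducible representations, without `-1 ∈ E`. -/
theorem partIVG' [Finite κ] [Finite ι] {R : Type*} [CommRing R] (φ : R →+* ℂ) (E : Subgroup ℂˣ)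
    (hc : CoefOK' φ E r) (Rel : Set (FreeGroup (κ ⊕ ι))) (hchar : CharOK Rel)
    (hirr : ∀ r' ≤ r, 0 < r' → IrrDense Rel φ E r')
    (C : ι → (Mat r ℂ)ˣ) (hC : ∀ j, EigIn E (C j : Mat r ℂ))
    (x : FreeGroup (κ ⊕ ι) →* (Mat r ℂ)ˣ) (hx : x ∈ YG Rel C)
    (f : MvPolynomial ((κ ⊕ ι) × Fin r × Fin r) ℂ)
    (hf : ∀ y ∈ DG Rel φ C, evalG y f = 0) : evalG x f = 0 := by
  induction r using Nat.strong_induction_on with
  | _ r ih =>
  rcases Nat.eq_zero_or_pos r with rfl | hr0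
  · refine hf x ⟨hx, fun k => ?_⟩
    have h1 : x (FreeGroup.of k) = 1 := by
      apply Units.ext
      exact Subsingleton.elim _ _
    rw [h1]
    exact (GR 0 φ).one_mem
  by_cases hcen : ∀ M : Mat r ℂ, (∀ w, Commute M (x w : Mat r ℂ)) →
      ∃ c : ℂ, M = c • (1 : Mat r ℂ)
  · exact hirr r le_rfl hr0 C hC x hx hcen f fun y hy => hf y hy.1
  push Not at hcen
  obtain ⟨M, hM, hMs⟩ := hcen
  obtain ⟨hrel, hconj, hss⟩ := hx
  obtain ⟨u, hu⟩ := hc.unit
  have hu' : ∀ k : ℕ, 0 < k → φ (u : R) ^ k ≠ 1 := by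
    intro k hk h1
    apply hu k hk
    have h2 : Units.map (φ : R →* ℂ) u ^ k = 1 := by
      apply Units.ext
      rw [Units.val_pow_eq_pow_val, Units.val_one]
      exact h1
    rw [h2]
    exact E.one_mem
  have : Nonempty (Fin r) := ⟨⟨0, hr0⟩⟩
  obtain ⟨μ, hμM⟩ := Module.End.exists_eigenvalue (Matrix.mulVecLin M)
  let E₁ : Submodule ℂ (Fin r → ℂ) := Module.End.eigenspace (Matrix.mulVecLin M) μ
  have hE1 : E₁ ≠ ⊥ := hμM
  have hE1' : E₁ ≠ ⊤ := by
    intro htop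
    apply hMs μ
    ext i j
    have hm : (Pi.single j 1 : Fin r → ℂ) ∈ E₁ := by rw [htop]; trivial
    rw [Module.End.mem_eigenspace_iff, Matrix.mulVecLin_apply] at hm
    have := congrFun hm i
    simpa [Matrix.one_apply, Pi.single_apply, eq_comm] using this
  have hinv1 : P002.InvS x E₁ := by
    intro w v hv
    rw [Module.End.mem_eigenspace_iff, Matrix.mulVecLin_apply] at hv ⊢
    rw [mulVec_mulVec, (hM w).eq, ← mulVec_mulVec, hv, mulVec_smul]
  obtain ⟨E₂, hinv2, hcompl⟩ := hss E₁ hinv1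
  obtain ⟨D, hD1, hD2⟩ := P002.exists_dec E₁ E₂ hcompl
  have hsum : Module.finrank ℂ E₁ + Module.finrank ℂ E₂ = r := by
    rw [Submodule.finrank_add_eq_of_isCompl hcompl]
    simp
  have hlt1 : Module.finrank ℂ E₁ < r := by
    have := Submodule.finrank_lt hE1'
    simpa using this
  have hpos1 : 0 < Module.finrank ℂ E₁ := by
    rw [Module.finrank_pos_iff]
    exact Submodule.nontrivial_iff_ne_bot.mpr hE1
  have hlt2 : Module.finrank ℂ E₂ < r := by omega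
  have hpos2 : 0 < Module.finrank ℂ E₂ := by omega
  have hm1 : ∀ w, (x w : Mat r ℂ) * D.P₁ = D.P₁ * (D.Q₁ * (x w : Mat r ℂ) * D.P₁) := by
    intro w
    apply D.mul_P₁
    rw [hD1]
    exact hinv1 w
  have hm2 : ∀ w, (x w : Mat r ℂ) * D.P₂ = D.P₂ * (D.Q₂ * (x w : Mat r ℂ) * D.P₂) := by
    intro w
    apply D.mul_P₂
    rw [hD2]
    exact hinv2 w
  set x₁ := P002.compr x D.P₁ D.Q₁ D.h11 hm1 with hx1
  set x₂ := P002.compr x D.P₂ D.Q₂ D.h22 hm2 with hx2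
  have hs1 : SS x₁ := P002.compr_ss x hss _ _ _ _
  have hs2 : SS x₂ := P002.compr_ss x hss _ _ _ _
  have hrel1 : ∀ w ∈ Rel, x₁ w = 1 := by
    intro w hw
    apply Units.ext
    rw [hx1, P002.compr_apply, hrel w hw]
    simp [D.h11]
  have hrel2 : ∀ w ∈ Rel, x₂ w = 1 := by
    intro w hw
    apply Units.ext
    rw [hx2, P002.compr_apply, hrel w hw]
    simp [D.h22]
  have hblk : ∀ w, (x w : Mat r ℂ) = D.blk (x₁ w : Mat _ ℂ) (x₂ w : Mat _ ℂ) := by
    intro w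
    rw [P002.Dec.blk_complex, hx1, hx2, P002.compr_apply, P002.compr_apply, ← hm1, ← hm2,
      Matrix.mul_assoc, Matrix.mul_assoc, ← Matrix.mul_add, D.hs, Matrix.mul_one]
  -- the boundary classes of the pieces
  let C₁ : ι → (Mat (Module.finrank ℂ E₁) ℂ)ˣ := fun j => x₁ (FreeGroup.of (Sum.inr j))
  let C₂ : ι → (Mat (Module.finrank ℂ E₂) ℂ)ˣ := fun j => x₂ (FreeGroup.of (Sum.inr j))
  have hCblk : ∀ j, IsConj (C j) (blkU D (C₁ j, C₂ j)) := by
    intro j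
    have : blkU D (C₁ j, C₂ j) = x (FreeGroup.of (Sum.inr j)) := by
      apply Units.ext
      rw [blkU_coe, hblk]
    rw [this]
    exact hconj j
  have heig : ∀ j, EigIn E (C₁ j : Mat (Module.finrank ℂ E₁) ℂ) ∧
      EigIn E (C₂ j : Mat (Module.finrank ℂ E₂) ℂ) := fun j =>
    ((hC j).conj (hCblk j)).blk
  have hY1 : x₁ ∈ YG Rel C₁ := ⟨hrel1, fun j => IsConj.refl _, hs1⟩
  have hY2 : x₂ ∈ YG Rel C₂ := ⟨hrel2, fun j => IsConj.refl _, hs2⟩
  have step1 : ∀ y₂ ∈ DG Rel φ C₂,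
      evK (fun k => D.blk (x₁ (FreeGroup.of k) : Mat _ ℂ) (y₂ (FreeGroup.of k) : Mat _ ℂ)) f
        = 0 := by
    intro y₂ hy₂
    obtain ⟨f₁, hf₁⟩ := exists_poly₁ D f (fun k => (y₂ (FreeGroup.of k) : Mat _ ℂ))
    rw [← hf₁]
    refine ih _ hlt1 (hc.mono hlt1.le)
      (fun r' hr' => hirr r' (hr'.trans hlt1.le)) C₁ (fun j => (heig j).1) x₁ hY1 f₁ ?_
    intro y₁ hy₁
    rw [hf₁]
    exact two_block_DG φ u hu'
      { hc := hc, hchar := hchar, hr1 := hpos1, hr2 := hpos2, hr := hsum, C₁ := C₁, C₂ := C₂,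
        D₀ := D, hC := hCblk, nC₁ := fun j => (heig j).1, nC₂ := fun j => (heig j).2, y₁ := y₁,
        y₂ := y₂, h₁ := hy₁, h₂ := hy₂ } D f hf
  have step2 : evK (fun k => D.blk (x₁ (FreeGroup.of k) : Mat _ ℂ)
      (x₂ (FreeGroup.of k) : Mat _ ℂ)) f = 0 := by
    obtain ⟨f₂, hf₂⟩ := exists_poly₂ D f (fun k => (x₁ (FreeGroup.of k) : Mat _ ℂ))
    rw [← hf₂]
    refine ih _ hlt2 (hc.mono hlt2.le)
      (fun r' hr' => hirr r' (hr'.trans hlt2.le)) C₂ (fun j => (heig j).2) x₂ hY2 f₂ ?_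
    intro y₂ hy₂
    rw [hf₂]
    exact step1 y₂ hy₂
  rw [evalG_eq_evK]
  refine Eq.trans (congrArg (fun X => evK X f) (funext fun k => ?_)) step2
  exact hblk _

/-- TASK G1 -/
theorem partIVG [Finite κ] [Finite ι] {R : Type*} [CommRing R] (φ : R →+* ℂ) (E : Subgroup ℂˣ)
    (hc : CoefOK φ E r) (Rel : Set (FreeGroup (κ ⊕ ι))) (hchar : CharOK Rel)
    (hirr : ∀ r' ≤ r, 0 < r' → IrrDense Rel φ E r')
    (C : ι → (Mat r ℂ)ˣ) (hC : ∀ j, EigIn E (C j : Mat r ℂ))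
    (x : FreeGroup (κ ⊕ ι) →* (Mat r ℂ)ˣ) (hx : x ∈ YG Rel C)
    (f : MvPolynomial ((κ ⊕ ι) × Fin r × Fin r) ℂ)
    (hf : ∀ y ∈ DG Rel φ C, evalG y f = 0) : evalG x f = 0 :=
  partIVG' φ E hc.weak Rel hchar hirr C hC x hx f hf

end MainG

end Vale.Agent.P002R
end

section

/-!
# P002, genus 0: tuples with product one from elements of the cell
-/

namespace Vale.Agent.P002R

open Matrix

variable {r : ℕ} {S T : Type*} [CommRing S] [CommRing T]

/-- Products of the upper unitriangular factors. -/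
def Uc (Y : ℕ → Mat r S) : ℕ → Mat r S
  | 0 => 1
  | k + 1 => Uc Y k * uU (Y k)

/-- Products of the lower triangular factors. -/
def Lc (Y : ℕ → Mat r S) : ℕ → Mat r S
  | 0 => 1
  | k + 1 => lL (Y k) * Lc Y k

theorem Uc_zero (Y : ℕ → Mat r S) : Uc Y 0 = 1 := rfl

theorem Uc_succ (Y : ℕ → Mat r S) (k : ℕ) : Uc Y (k + 1) = Uc Y k * uU (Y k) := rfl

theorem Lc_zero (Y : ℕ → Mat r S) : Lc Y 0 = 1 := rfl

theorem Lc_succ (Y : ℕ → Mat r S) (k : ℕ) : Lc Y (k + 1) = lL (Y k) * Lc Y k := rfl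

/-- The tuple `c_0, ..., c_{m+1}` attached to elements `Y 0, ..., Y (m-1)` of the cell; `κ k` is the
inverse of `det (Lc Y k)` and `t'` is the inverse of `t`. -/
def ctup (m : ℕ) (t t' : Fin r → S) (κ : ℕ → S) (Y : ℕ → Mat r S) (j : ℕ) : Mat r S :=
  if j = 0 then diagonal t' * (Uc Y m).adjugate
  else if j ≤ m then κ (j - 1) • ((Lc Y (j - 1)).adjugate * zZ (Y (j - 1)) * Lc Y (j - 1))
  else κ m • ((Lc Y m).adjugate * diagonal t)

theorem ctup_zero (m : ℕ) (t t' : Fin r → S) (κ : ℕ → S) (Y : ℕ → Mat r S) :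
    ctup m t t' κ Y 0 = diagonal t' * (Uc Y m).adjugate := by
  rw [ctup, if_pos rfl]

theorem ctup_mid (m : ℕ) (t t' : Fin r → S) (κ : ℕ → S) (Y : ℕ → Mat r S) (k : ℕ) (hk : k < m) :
    ctup m t t' κ Y (k + 1) = κ k • ((Lc Y k).adjugate * zZ (Y k) * Lc Y k) := by
  rw [ctup, if_neg (Nat.succ_ne_zero k), if_pos (show k + 1 ≤ m from hk), Nat.add_sub_cancel]

theorem ctup_last (m : ℕ) (t t' : Fin r → S) (κ : ℕ → S) (Y : ℕ → Mat r S) :
    ctup m t t' κ Y (m + 1) = κ m • ((Lc Y m).adjugate * diagonal t) := by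
  rw [ctup, if_neg (Nat.succ_ne_zero m), if_neg (by omega)]

theorem upT_Uc (Y : ℕ → Mat r S) (k : ℕ) : UpT (Uc Y k) := by
  induction k with
  | zero => exact upT_one
  | succ k ih => rw [Uc_succ]; exact ih.mul (upT_uU _)

theorem loT_Lc (Y : ℕ → Mat r S) (k : ℕ) : LoT (Lc Y k) := by
  induction k with
  | zero => exact loT_one
  | succ k ih => rw [Lc_succ]; exact (loT_lL _).mul ih

theorem Uc_diag (Y : ℕ → Mat r S) (k : ℕ) (i : Fin r) : Uc Y k i i = 1 := by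
  induction k with
  | zero => exact Matrix.one_apply_eq i
  | succ k ih => rw [Uc_succ, (upT_Uc Y k).mul_diag (upT_uU _), ih, uU_diag, one_mul]

theorem Lc_diag (Y : ℕ → Mat r S) (k : ℕ) (i : Fin r) :
    Lc Y k i i = ∏ l ∈ Finset.range k, Y l i i := by
  induction k with
  | zero => rw [Finset.range_zero, Finset.prod_empty]; exact Matrix.one_apply_eq i
  | succ k ih =>
    rw [Lc_succ, (loT_lL _).mul_diag (loT_Lc Y k), ih, lL_diag, Finset.prod_range_succ, mul_comm]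

theorem det_Uc (Y : ℕ → Mat r S) (k : ℕ) : (Uc Y k).det = 1 := by
  rw [(upT_Uc Y k).det]
  exact Finset.prod_eq_one fun i _ => Uc_diag Y k i

theorem det_Lc (Y : ℕ → Mat r S) (k : ℕ) :
    (Lc Y k).det = ∏ i, ∏ l ∈ Finset.range k, Y l i i := by
  rw [(loT_Lc Y k).det]
  exact Finset.prod_congr rfl fun i _ => Lc_diag Y k i

theorem Uc_map (φ : S →+* T) (Y : ℕ → Mat r S) (k : ℕ) :
    (Uc Y k).map φ = Uc (fun l => (Y l).map φ) k := by
  induction k with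
  | zero => exact Matrix.map_one φ (map_zero φ) (map_one φ)
  | succ k ih => rw [Uc_succ, Uc_succ, Matrix.map_mul, ih, uU_map]

theorem Lc_map (φ : S →+* T) (Y : ℕ → Mat r S) (k : ℕ) :
    (Lc Y k).map φ = Lc (fun l => (Y l).map φ) k := by
  induction k with
  | zero => exact Matrix.map_one φ (map_zero φ) (map_one φ)
  | succ k ih => rw [Lc_succ, Lc_succ, Matrix.map_mul, ih, lL_map]

theorem adjugate_map (φ : S →+* T) (A : Mat r S) : A.adjugate.map φ = (A.map φ).adjugate :=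
  RingHom.map_adjugate φ A

theorem smul_map (φ : S →+* T) (a : S) (A : Mat r S) : (a • A).map φ = φ a • A.map φ := by
  ext i j
  simp [Matrix.map_apply, Matrix.smul_apply]

theorem ctup_map (φ : S →+* T) (m : ℕ) (t t' : Fin r → S) (κ : ℕ → S) (Y : ℕ → Mat r S) (j : ℕ) :
    (ctup m t t' κ Y j).map φ =
      ctup m (fun i => φ (t i)) (fun i => φ (t' i)) (fun k => φ (κ k)) (fun l => (Y l).map φ) j := by
  unfold ctup
  split_ifs
  · rw [Matrix.map_mul, adjugate_map, Uc_map, Matrix.diagonal_map (map_zero φ)]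
  · rw [smul_map, Matrix.map_mul, Matrix.map_mul, adjugate_map, Lc_map, zZ_map]
  · rw [smul_map, Matrix.map_mul, adjugate_map, Lc_map, Matrix.diagonal_map (map_zero φ)]

/-- The tuple depends only on the first `m` elements. -/
theorem Uc_congr {Y Y' : ℕ → Mat r S} {k : ℕ} (h : ∀ l < k, Y l = Y' l) : Uc Y k = Uc Y' k := by
  induction k with
  | zero => rfl
  | succ k ih =>
    rw [Uc_succ, Uc_succ, ih fun l hl => h l (hl.trans (Nat.lt_succ_self k)),
      h k (Nat.lt_succ_self k)]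

theorem Lc_congr {Y Y' : ℕ → Mat r S} {k : ℕ} (h : ∀ l < k, Y l = Y' l) : Lc Y k = Lc Y' k := by
  induction k with
  | zero => rfl
  | succ k ih =>
    rw [Lc_succ, Lc_succ, ih fun l hl => h l (hl.trans (Nat.lt_succ_self k)),
      h k (Nat.lt_succ_self k)]

theorem ctup_congr {m : ℕ} {t t' : Fin r → S} {κ κ' : ℕ → S} {Y Y' : ℕ → Mat r S}
    (h : ∀ l < m, Y l = Y' l) (hκ : ∀ l ≤ m, κ l = κ' l) (j : ℕ) :
    ctup m t t' κ Y j = ctup m t t' κ' Y' j := by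
  unfold ctup
  split_ifs with h1 h2
  · rw [Uc_congr h]
  · rw [Lc_congr fun l (hl : l < j - 1) => h l (by omega), h (j - 1) (by omega),
      hκ (j - 1) (by omega)]
  · rw [Lc_congr h, hκ m le_rfl]

/-- Partial products. -/
theorem ctup_partial (m : ℕ) (t t' : Fin r → S) (κ : ℕ → S) (Y : ℕ → Mat r S)
    (hκ : ∀ k ≤ m, κ k * (Lc Y k).det = 1) (k : ℕ) (hk : k ≤ m) :
    (List.ofFn fun j : Fin k => ctup m t t' κ Y ((j : ℕ) + 1)).prod = Uc Y k * Lc Y k := by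
  induction k with
  | zero => simp [Uc_zero, Lc_zero]
  | succ k ih =>
    rw [List.ofFn_succ', List.concat_eq_append, List.prod_append, List.prod_singleton]
    have h1 : (List.ofFn fun i : Fin k => ctup m t t' κ Y (((Fin.castSucc i : Fin (k + 1)) : ℕ) + 1)).prod =
        Uc Y k * Lc Y k := ih (by omega)
    rw [h1, Fin.val_last, ctup_mid m t t' κ Y k hk]
    have h2 : Lc Y k * (κ k • ((Lc Y k).adjugate * zZ (Y k) * Lc Y k)) = zZ (Y k) * Lc Y k := by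
      rw [mul_smul_comm, ← mul_assoc, ← mul_assoc, Matrix.mul_adjugate, smul_mul_assoc,
        smul_mul_assoc, smul_smul, hκ k (by omega), one_smul, one_mul]
    rw [mul_assoc, h2, Uc_succ, Lc_succ, zZ]
    simp only [mul_assoc]

/-- The product of the tuple is one. -/
theorem ctup_prod (m : ℕ) (t t' : Fin r → S) (κ : ℕ → S) (Y : ℕ → Mat r S)
    (hκ : ∀ k ≤ m, κ k * (Lc Y k).det = 1) (ht : ∀ i, t' i * t i = 1) :
    (List.ofFn fun j : Fin (m + 2) => ctup m t t' κ Y j).prod = 1 := by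
  rw [List.ofFn_succ, List.prod_cons, List.ofFn_succ', List.concat_eq_append, List.prod_append,
    List.prod_singleton]
  have h1 : (List.ofFn fun i : Fin m =>
      ctup m t t' κ Y (((Fin.castSucc i).succ : Fin (m + 2)) : ℕ)).prod = Uc Y m * Lc Y m :=
    ctup_partial m t t' κ Y hκ m le_rfl
  rw [h1]
  have h2 : (((Fin.last m).succ : Fin (m + 2)) : ℕ) = m + 1 := by simp
  rw [h2, ctup_last, Fin.val_zero, ctup_zero]
  have h3 : Lc Y m * (κ m • ((Lc Y m).adjugate * diagonal t)) = diagonal t := by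
    rw [mul_smul_comm, ← mul_assoc, Matrix.mul_adjugate, smul_mul_assoc, smul_smul,
      hκ m le_rfl, one_smul, one_mul]
  rw [mul_assoc (Uc Y m), h3]
  calc diagonal t' * (Uc Y m).adjugate * (Uc Y m * diagonal t)
      = diagonal t' * ((Uc Y m).adjugate * Uc Y m) * diagonal t := by simp only [mul_assoc]
    _ = 1 := by
        rw [Matrix.adjugate_mul, det_Uc, one_smul, mul_one, Matrix.diagonal_mul_diagonal]
        rw [← Matrix.diagonal_one]
        congr 1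
        funext i
        exact ht i

section field

variable {F : Type*} [Field F]

/-- Every tuple in general position is of the form `ctup`. -/
theorem exists_ctup (m : ℕ) (c : ℕ → Mat r F) (X : ℕ → Mat r F)
    (hX : ∀ k ≤ m, (List.ofFn fun j : Fin k => c ((j : ℕ) + 1)).prod = zZ (X k))
    (hX0 : ∀ k ≤ m, ∀ i, X k i i ≠ 0)
    (hc0 : UpT (c 0)) (hcl : LoT (c (m + 1)))
    (hprod : (List.ofFn fun j : Fin (m + 2) => c j).prod = 1) :
    ∃ (Y : ℕ → Mat r F) (κ : ℕ → F) (t : Fin r → F), (∀ k ≤ m, κ k * (Lc Y k).det = 1) ∧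
      (∀ i, c 0 i i * t i = 1) ∧ (∀ j ≤ m + 1, c j = ctup m t (fun i => c 0 i i) κ Y j) ∧
      (∀ k ≤ m, Lc Y k = lL (X k)) ∧ (∀ k < m, ∀ i, Y k i i ≠ 0) := by
  have hdL : ∀ k ≤ m, IsUnit (lL (X k)).det := by
    intro k hk
    rw [det_lL, isUnit_iff_ne_zero, Finset.prod_ne_zero_iff]
    exact fun i _ => hX0 k hk i
  have hdU : ∀ k, IsUnit (uU (X k)).det := fun k => by rw [det_uU]; exact isUnit_one
  have hUinv : ∀ k, UpT (uU (X k))⁻¹ := fun k =>
    (upT_uU (X k)).inv fun i => by rw [uU_diag]; exact one_ne_zero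
  have hLinv : ∀ k ≤ m, LoT (lL (X k))⁻¹ := fun k hk =>
    (loT_lL (X k)).inv fun i => by rw [lL_diag]; exact hX0 k hk i
  -- the elements of the cell
  have hYex : ∀ k, ∃ Y : Mat r F, k < m → uU Y = (uU (X k))⁻¹ * uU (X (k + 1)) ∧
      lL Y = lL (X (k + 1)) * (lL (X k))⁻¹ ∧ ∀ i, Y i i ≠ 0 := by
    intro k
    by_cases hk : k < m
    · obtain ⟨Y, h1, h2, h3⟩ := exists_coord ((uU (X k))⁻¹ * uU (X (k + 1)))
        (lL (X (k + 1)) * (lL (X k))⁻¹) ((hUinv k).mul (upT_uU _))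
        (fun i => by
          rw [(hUinv k).mul_diag (upT_uU _), uU_diag, mul_one,
            inv_diag (upT_uU (X k)) (fun i => by rw [uU_diag]; exact one_ne_zero), uU_diag, inv_one])
        ((loT_lL _).mul (hLinv k hk.le))
      refine ⟨Y, fun _ => ⟨h1, h2, fun i => ?_⟩⟩
      rw [h3, (loT_lL _).mul_diag (hLinv k hk.le), lL_diag,
        (loT_lL (X k)).inv_diag (fun i => by rw [lL_diag]; exact hX0 k hk.le i), lL_diag]
      exact mul_ne_zero (hX0 (k + 1) hk i) (inv_ne_zero (hX0 k hk.le i))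
    · exact ⟨0, fun h => absurd h hk⟩
  choose Y hY using hYex
  -- the first elements are trivial
  have h0 : zZ (X 0) = 1 := by
    rw [← hX 0 (Nat.zero_le m)]
    simp
  have hUL0 : uU (X 0) = 1 ∧ lL (X 0) = 1 := by
    have h1 : lL (X 0) = (uU (X 0))⁻¹ := by
      rw [zZ] at h0
      exact (Matrix.inv_eq_right_inv h0).symm
    have h2 : lL (X 0) = 1 := by
      ext i j
      rcases lt_trichotomy i j with h | h | h
      · rw [loT_lL (X 0) i j h, Matrix.one_apply_ne h.ne]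
      · subst h
        rw [h1, inv_diag (upT_uU (X 0)) (fun i => by rw [uU_diag]; exact one_ne_zero), uU_diag,
          inv_one, Matrix.one_apply_eq]
      · rw [h1, hUinv 0 i j h, Matrix.one_apply_ne h.ne']
    refine ⟨?_, h2⟩
    rw [zZ, h2, mul_one] at h0
    exact h0
  have hUc : ∀ k ≤ m, Uc Y k = uU (X k) := by
    intro k
    induction k with
    | zero => exact fun _ => hUL0.1.symm
    | succ k ih =>
      intro hk
      rw [Uc_succ, ih (by omega), (hY k hk).1, ← mul_assoc, Matrix.mul_nonsing_inv _ (hdU k),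
        one_mul]
  have hLc : ∀ k ≤ m, Lc Y k = lL (X k) := by
    intro k
    induction k with
    | zero => exact fun _ => hUL0.2.symm
    | succ k ih =>
      intro hk
      rw [Lc_succ, ih (by omega), (hY k hk).2.1, mul_assoc,
        Matrix.nonsing_inv_mul _ (hdL k (by omega)), mul_one]
  obtain ⟨κ, hκdef⟩ : ∃ κ : ℕ → F, ∀ k, κ k = ((Lc Y k).det)⁻¹ := ⟨_, fun _ => rfl⟩
  have hκ : ∀ k ≤ m, κ k * (Lc Y k).det = 1 := by
    intro k hk
    rw [hκdef, inv_mul_cancel₀]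
    rw [hLc k hk]
    exact (hdL k hk).ne_zero
  have hadj : ∀ k ≤ m, κ k • (Lc Y k).adjugate = (lL (X k))⁻¹ := by
    intro k hk
    rw [hκdef, hLc k hk, Matrix.inv_def, Ring.inverse_eq_inv']
  -- the diagonal matrix
  have hmid : ∀ k < m, c (k + 1) = (lL (X k))⁻¹ * zZ (Y k) * lL (X k) := by
    intro k hk
    have h1 := hX (k + 1) hk
    rw [List.ofFn_succ', List.concat_eq_append, List.prod_append, List.prod_singleton] at h1
    have h2 : (List.ofFn fun i : Fin k => c (((Fin.castSucc i : Fin (k + 1)) : ℕ) + 1)).prod =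
        zZ (X k) := hX k hk.le
    rw [h2, Fin.val_last] at h1
    have h3 : (lL (X k))⁻¹ * (uU (X k))⁻¹ * (uU (X k) * lL (X k)) = 1 := by
      calc (lL (X k))⁻¹ * (uU (X k))⁻¹ * (uU (X k) * lL (X k))
          = (lL (X k))⁻¹ * ((uU (X k))⁻¹ * uU (X k)) * lL (X k) := by simp only [mul_assoc]
        _ = 1 := by
          rw [Matrix.nonsing_inv_mul _ (hdU k), mul_one, Matrix.nonsing_inv_mul _ (hdL k hk.le)]
    calc c (k + 1) = ((lL (X k))⁻¹ * (uU (X k))⁻¹ * (uU (X k) * lL (X k))) * c (k + 1) := by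
          rw [h3, one_mul]
      _ = (lL (X k))⁻¹ * (uU (X k))⁻¹ * (zZ (X k) * c (k + 1)) := by
          rw [zZ]; simp only [mul_assoc]
      _ = (lL (X k))⁻¹ * (uU (X k))⁻¹ * (uU (X (k + 1)) * lL (X (k + 1))) := by rw [h1, zZ]
      _ = (lL (X k))⁻¹ * ((uU (X k))⁻¹ * uU (X (k + 1)) * (lL (X (k + 1)) * ((lL (X k))⁻¹ *
            lL (X k)))) := by
          rw [Matrix.nonsing_inv_mul _ (hdL k hk.le), mul_one]; simp only [mul_assoc]
      _ = _ := by
          rw [zZ, (hY k hk).1, (hY k hk).2.1]; simp only [mul_assoc]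
  have hpr : c 0 * (zZ (X m) * c (m + 1)) = 1 := by
    rw [List.ofFn_succ, List.prod_cons, List.ofFn_succ', List.concat_eq_append, List.prod_append,
      List.prod_singleton] at hprod
    have h1 : (List.ofFn fun i : Fin m =>
        c (((Fin.castSucc i).succ : Fin (m + 2)) : ℕ)).prod = zZ (X m) := hX m le_rfl
    have h2 : (((Fin.last m).succ : Fin (m + 2)) : ℕ) = m + 1 := by simp
    rw [h1, h2] at hprod
    exact hprod
  have hD1 : (c 0 * uU (X m)) * (lL (X m) * c (m + 1)) = 1 := by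
    rw [zZ] at hpr
    rw [← hpr]; simp only [mul_assoc]
  have hDl : c 0 * uU (X m) = (lL (X m) * c (m + 1))⁻¹ := (Matrix.inv_eq_left_inv hD1).symm
  have hDu : LoT (lL (X m) * c (m + 1)) := (loT_lL _).mul hcl
  have hDd : ∀ i, (lL (X m) * c (m + 1)) i i ≠ 0 := by
    have h1 : (lL (X m) * c (m + 1)).det ≠ 0 := by
      have := congrArg Matrix.det hD1
      rw [det_mul, det_one] at this
      exact right_ne_zero_of_mul (by rw [this]; exact one_ne_zero)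
    rw [hDu.det, Finset.prod_ne_zero_iff] at h1
    exact fun i => h1 i (Finset.mem_univ i)
  have hDup : UpT (c 0 * uU (X m)) := hc0.mul (upT_uU _)
  have hDii : ∀ i, (c 0 * uU (X m)) i i = c 0 i i := fun i => by
    rw [hc0.mul_diag (upT_uU _), uU_diag, mul_one]
  have hD : c 0 * uU (X m) = diagonal fun i => c 0 i i := by
    ext i j
    rcases lt_trichotomy i j with h | h | h
    · rw [hDl, hDu.inv hDd i j h, Matrix.diagonal_apply_ne _ h.ne]
    · subst h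
      rw [hDii, Matrix.diagonal_apply_eq]
    · rw [hDup i j h, Matrix.diagonal_apply_ne _ h.ne']
  have hξ0 : ∀ i, c 0 i i ≠ 0 := by
    intro i
    rw [← hDii i, hDl, hDu.inv_diag hDd]
    exact inv_ne_zero (hDd i)
  refine ⟨Y, κ, fun i => (c 0 i i)⁻¹, hκ, fun i => mul_inv_cancel₀ (hξ0 i), ?_, hLc,
    fun k hk => (hY k hk).2.2⟩
  intro j hj
  rcases Nat.eq_zero_or_pos j with rfl | hj0
  · rw [ctup_zero, hUc m le_rfl, ← hD, mul_assoc, Matrix.mul_adjugate, det_uU, one_smul, mul_one]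
  · obtain ⟨k, rfl⟩ : ∃ k, j = k + 1 := ⟨j - 1, by omega⟩
    rcases lt_or_eq_of_le (show k ≤ m by omega) with hk | rfl
    · rw [ctup_mid _ _ _ _ _ k hk, ← smul_mul_assoc, ← smul_mul_assoc, hadj k hk.le, hLc k hk.le,
        hmid k hk]
    · rw [ctup_last, ← smul_mul_assoc, hadj k le_rfl]
      have h1 : (diagonal fun i => (c 0 i i)⁻¹) = lL (X k) * c (k + 1) := by
        have h2 : (diagonal fun i => (c 0 i i)⁻¹) * (c 0 * uU (X k)) = 1 := by
          rw [hD, Matrix.diagonal_mul_diagonal, ← Matrix.diagonal_one]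
          congr 1
          funext i
          exact inv_mul_cancel₀ (hξ0 i)
        calc (diagonal fun i => (c 0 i i)⁻¹)
            = (diagonal fun i => (c 0 i i)⁻¹) * ((c 0 * uU (X k)) * (lL (X k) * c (k + 1))) := by
              rw [hD1, mul_one]
          _ = _ := by rw [← mul_assoc, h2, one_mul]
      rw [h1, ← mul_assoc, Matrix.nonsing_inv_mul _ (hdL k le_rfl), one_mul]

end field

end Vale.Agent.P002R
end

section

/-!
# P002, genus 0: regular classes, integrality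
-/

namespace Vale.Agent.P002R

open Matrix

variable {r : ℕ}

/-- Invertible matrices with cyclic vectors and the same characteristic polynomial are conjugate. -/
theorem isConj_of_cyc (A B : (Mat r ℂ)ˣ) (hc : (A : Mat r ℂ).charpoly = (B : Mat r ℂ).charpoly)
    {v w : Fin r → ℂ} (hv : P002G.Cyc (A : Mat r ℂ) v) (hw : P002G.Cyc (B : Mat r ℂ) w) :
    IsConj A B := by
  rw [P002G.cyc_iff] at hv hw
  obtain ⟨kA, hkA⟩ := hv
  obtain ⟨kB, hkB⟩ := hw
  have h1 : ((kB * kA⁻¹ : (Mat r ℂ)ˣ) : Mat r ℂ) * P002.kry (A : Mat r ℂ) v =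
      P002.kry (B : Mat r ℂ) w := by
    rw [← hkA, ← hkB, ← Units.val_mul, mul_assoc, inv_mul_cancel, mul_one]
  have h2 := P002.krylov_comm (A : Mat r ℂ) (B : Mat r ℂ) v w hc _ h1 (by rw [← hkA]; exact kA.isUnit)
  rw [isConj_iff]
  refine ⟨kB * kA⁻¹, ?_⟩
  rw [mul_inv_eq_iff_eq_mul]
  apply Units.ext
  rw [Units.val_mul, Units.val_mul]
  exact h2

/-- Cyclic vectors under conjugation. -/
theorem cyc_of_isConj {A B : (Mat r ℂ)ˣ} (h : IsConj A B) {v : Fin r → ℂ}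
    (hv : P002G.Cyc (A : Mat r ℂ) v) : ∃ w, P002G.Cyc (B : Mat r ℂ) w := by
  obtain ⟨P, rfl⟩ := isConj_iff.1 h
  refine ⟨(P : Mat r ℂ) *ᵥ v, ?_⟩
  rw [Units.val_mul, Units.val_mul]
  exact P002G.cyc_conj P hv

theorem charpoly_of_isConj {A B : (Mat r ℂ)ˣ} (h : IsConj A B) :
    (B : Mat r ℂ).charpoly = (A : Mat r ℂ).charpoly := by
  obtain ⟨P, rfl⟩ := isConj_iff.1 h
  rw [Units.val_mul, Units.val_mul, Matrix.coe_units_inv, Matrix.charpoly_units_conj]

section ring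

variable {R : Type*} [CommRing R] {E : Subgroup ℂˣ}

end ring

end Vale.Agent.P002R
end

section

/-!
# P002, genus 0: integral points of the chart
-/

namespace Vale.Agent.P002R

open Matrix

/-- Two matrices are conjugate by an invertible matrix. -/
def CjM {r : ℕ} (J Z : Mat r ℂ) : Prop :=
  ∃ g : (Mat r ℂ)ˣ, Z = (g : Mat r ℂ) * J * ((g⁻¹ : (Mat r ℂ)ˣ) : Mat r ℂ)

theorem CjM.trans {r : ℕ} {A B C : Mat r ℂ} (h : CjM A B) (h' : CjM B C) : CjM A C := by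
  obtain ⟨g, rfl⟩ := h
  obtain ⟨g', rfl⟩ := h'
  refine ⟨g' * g, ?_⟩
  rw [_root_.mul_inv_rev, Units.val_mul, Units.val_mul]
  simp only [mul_assoc]

theorem CjM.symm {r : ℕ} {A B : Mat r ℂ} (h : CjM A B) : CjM B A := by
  obtain ⟨g, rfl⟩ := h
  refine ⟨g⁻¹, ?_⟩
  rw [inv_inv, mul_assoc, mul_assoc, mul_assoc, Units.inv_mul, mul_one, ← mul_assoc,
    Units.inv_mul, one_mul]

theorem CjM.det {r : ℕ} {A B : Mat r ℂ} (h : CjM A B) : B.det = A.det := by
  obtain ⟨g, rfl⟩ := h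
  rw [Matrix.det_units_conj]

theorem CjM.charpoly {r : ℕ} {A B : Mat r ℂ} (h : CjM A B) : B.charpoly = A.charpoly := by
  obtain ⟨g, rfl⟩ := h
  rw [Matrix.coe_units_inv, Matrix.charpoly_units_conj]

theorem CjM.cyc {r : ℕ} {A B : Mat r ℂ} (h : CjM A B) (hA : ∃ v, P002G.Cyc A v) :
    ∃ v, P002G.Cyc B v := by
  obtain ⟨g, rfl⟩ := h
  obtain ⟨v, hv⟩ := hA
  exact ⟨_, P002G.cyc_conj g hv⟩

theorem cjM_of_isConj {r : ℕ} {A B : (Mat r ℂ)ˣ} (h : IsConj A B) :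
    CjM (A : Mat r ℂ) (B : Mat r ℂ) := by
  obtain ⟨g, rfl⟩ := isConj_iff.1 h
  exact ⟨g, by rw [Units.val_mul, Units.val_mul]⟩

theorem isConj_of_cjM {r : ℕ} {A B : (Mat r ℂ)ˣ} (h : CjM (A : Mat r ℂ) (B : Mat r ℂ)) :
    IsConj A B := by
  obtain ⟨g, hg⟩ := h
  rw [isConj_iff]
  refine ⟨g, ?_⟩
  apply Units.ext
  rw [hg, Units.val_mul, Units.val_mul]

/-! ### The members of the tuple over a field -/

section field

variable {r : ℕ}

theorem adj_Uc (Y : ℕ → Mat r ℂ) (k : ℕ) : (Uc Y k).adjugate = (Uc Y k)⁻¹ := by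
  rw [Matrix.inv_def, det_Uc, Ring.inverse_one, one_smul]

theorem adj_Lc (Y : ℕ → Mat r ℂ) (k : ℕ) (κ : ℂ) (hκ : κ * (Lc Y k).det = 1) :
    κ • (Lc Y k).adjugate = (Lc Y k)⁻¹ := by
  rw [Matrix.inv_def, Ring.inverse_eq_inv', eq_inv_of_mul_eq_one_left hκ]

theorem Lc_diag_ne (Y : ℕ → Mat r ℂ) (k : ℕ) (κ : ℂ) (hκ : κ * (Lc Y k).det = 1) (i : Fin r) :
    Lc Y k i i ≠ 0 := by
  have h1 : (Lc Y k).det ≠ 0 := right_ne_zero_of_mul (by rw [hκ]; exact one_ne_zero)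
  rw [(loT_Lc Y k).det, Finset.prod_ne_zero_iff] at h1
  exact h1 i (Finset.mem_univ i)

theorem ctup_zero_upT (m : ℕ) (t t' : Fin r → ℂ) (κ : ℕ → ℂ) (Y : ℕ → Mat r ℂ) :
    UpT (ctup m t t' κ Y 0) ∧ ∀ i, ctup m t t' κ Y 0 i i = t' i := by
  have h1 : ∀ i, Uc Y m i i ≠ 0 := fun i => by rw [Uc_diag]; exact one_ne_zero
  have h2 : UpT (Uc Y m)⁻¹ := (upT_Uc Y m).inv h1
  rw [ctup_zero, adj_Uc]
  refine ⟨(upT_diagonal t').mul h2, fun i => ?_⟩
  rw [(upT_diagonal t').mul_diag h2, Matrix.diagonal_apply_eq, inv_diag (upT_Uc Y m) h1, Uc_diag,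
    inv_one, mul_one]

theorem ctup_last_loT (m : ℕ) (t t' : Fin r → ℂ) (κ : ℕ → ℂ) (Y : ℕ → Mat r ℂ)
    (hκ : κ m * (Lc Y m).det = 1) :
    LoT (ctup m t t' κ Y (m + 1)) ∧ ∀ i, ctup m t t' κ Y (m + 1) i i * Lc Y m i i = t i := by
  have h1 : ∀ i, Lc Y m i i ≠ 0 := Lc_diag_ne Y m _ hκ
  have h2 : LoT (Lc Y m)⁻¹ := (loT_Lc Y m).inv h1
  rw [ctup_last, ← smul_mul_assoc, adj_Lc Y m _ hκ]
  refine ⟨h2.mul (loT_diagonal t), fun i => ?_⟩
  rw [h2.mul_diag (loT_diagonal t), Matrix.diagonal_apply_eq, (loT_Lc Y m).inv_diag h1,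
    mul_assoc, mul_comm (t i), ← mul_assoc, inv_mul_cancel₀ (h1 i), one_mul]

theorem ctup_mid_cjM (m : ℕ) (t t' : Fin r → ℂ) (κ : ℕ → ℂ) (Y : ℕ → Mat r ℂ) (k : ℕ) (hk : k < m)
    (hκ : κ k * (Lc Y k).det = 1) : ∃ L : (Mat r ℂ)ˣ, (L : Mat r ℂ) = Lc Y k ∧
      zZ (Y k) = (L : Mat r ℂ) * ctup m t t' κ Y (k + 1) * ((L⁻¹ : (Mat r ℂ)ˣ) : Mat r ℂ) := by
  have hd : IsUnit (Lc Y k).det :=
    isUnit_iff_ne_zero.2 (right_ne_zero_of_mul (by rw [hκ]; exact one_ne_zero))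
  obtain ⟨L, hL⟩ := (Matrix.isUnit_iff_isUnit_det _).2 hd
  refine ⟨L, hL, ?_⟩
  rw [ctup_mid m t t' κ Y k hk, ← smul_mul_assoc, ← smul_mul_assoc, adj_Lc Y k _ hκ, ← hL,
    Matrix.coe_units_inv]
  have hd' : IsUnit (L : Mat r ℂ).det := by rw [hL]; exact hd
  rw [← mul_assoc, ← mul_assoc, Matrix.mul_nonsing_inv _ hd', one_mul, mul_assoc,
    Matrix.mul_nonsing_inv _ hd', mul_one]

theorem charpoly_upT {A : Mat r ℂ} (hA : UpT A) :
    A.charpoly = ∏ i, (Polynomial.X - Polynomial.C (A i i)) :=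
  Matrix.charpoly_of_isUpperTriangular A fun i j h => hA i j h

theorem charpoly_loT {A : Mat r ℂ} (hA : LoT A) :
    A.charpoly = ∏ i, (Polynomial.X - Polynomial.C (A i i)) := by
  rw [← Matrix.charpoly_transpose, charpoly_upT hA.transpose]
  rfl

theorem isUnit_of_prod (N : ℕ) (c : Fin N → Mat r ℂ) (h : (List.ofFn c).prod = 1) (j : Fin N) :
    IsUnit (c j) := by
  rw [Matrix.isUnit_iff_isUnit_det]
  have h1 : ((List.ofFn c).map Matrix.det).prod = 1 := by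
    have := congrArg Matrix.det h
    rwa [Matrix.det_one, ← Matrix.coe_detMonoidHom, map_list_prod] at this
  apply isUnit_of_dvd_one
  rw [← h1]
  apply List.dvd_prod
  rw [List.mem_map]
  exact ⟨c j, List.mem_ofFn.2 ⟨j, rfl⟩, rfl⟩

theorem exists_hom (N : ℕ) (c : Fin N → Mat r ℂ) (h : (List.ofFn c).prod = 1) :
    ∃ y : FU 0 N →* (Mat r ℂ)ˣ, y (relatorU 0 N) = 1 ∧
      ∀ j, (y (FreeGroup.of (Sum.inr j)) : Mat r ℂ) = c j := by
  have hu : ∀ j, ∃ u : (Mat r ℂ)ˣ, (u : Mat r ℂ) = c j := fun j => isUnit_of_prod N c h j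
  choose u hu using hu
  refine ⟨FreeGroup.lift (Sum.elim (fun _ => 1) u), ?_, fun j => ?_⟩
  · rw [relatorU_eqn]
    simp only [List.ofFn_zero, List.prod_nil, mul_one]
    apply Units.ext
    rw [map_list_prod, List.map_ofFn, Units.val_one, ← h]
    have h2 : ((List.ofFn u).prod : (Mat r ℂ)ˣ) =
        (List.ofFn ((FreeGroup.lift (Sum.elim (fun _ => 1) u)) ∘ fun j : Fin N =>
          (FreeGroup.of (Sum.inr j) : FU 0 N))).prod := by
      congr 2
      funext j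
      simp
    rw [← h2, ← Units.coeHom_apply, map_list_prod, List.map_ofFn]
    congr 2
    funext j
    exact hu j
  · rw [FreeGroup.lift_apply_of]
    exact hu j

end field

/-! ### Integral points -/

section integral

variable {R : Type*} [CommRing R] {E : Subgroup ℂˣ} {r m : ℕ}

/-- The inverse of the determinant of `Lc Y k`. -/
def kap' (δ : ℕ → Rˣ) (k : ℕ) : R := ((∏ l ∈ Finset.range k, δ l)⁻¹ : Rˣ)

theorem kap'_mul (δ : ℕ → Rˣ) (φ : R →+* ℂ) (Y : ℕ → Mat r ℂ) (k : ℕ)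
    (h : ∀ l < k, (zZ (Y l)).det = φ (δ l)) : φ (kap' δ k) * (Lc Y k).det = 1 := by
  have h1 : (Lc Y k).det = φ ((∏ l ∈ Finset.range k, δ l : Rˣ) : R) := by
    rw [det_Lc, Finset.prod_comm, Units.coe_prod, map_prod]
    refine Finset.prod_congr rfl fun l hl => ?_
    rw [← h l (Finset.mem_range.1 hl), det_zZ]
  rw [h1, kap', ← map_mul, Units.inv_mul, map_one]

end integral

end Vale.Agent.P002R
end

section

/-!
# P002, genus 0: density of the integral points in the space of parameters of the chart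
-/

namespace Vale.Agent.P002R

open Matrix

/-- Density for rational functions, with respect to a general dense set. -/
theorem ratAt_dense' {σ : Type*} {x₀ : σ → ℂ} (A : Set (σ → ℂ))
    (hA : ∀ P : MvPolynomial σ ℂ, (∀ x ∈ A, MvPolynomial.eval x P = 0) →
      MvPolynomial.eval x₀ P = 0) (g κ : ratAt x₀) (hκ : rev x₀ x₀ κ ≠ 0)
    (h : ∀ x ∈ A, rev x₀ x κ ≠ 0 → rev x₀ x g = 0) : rev x₀ x₀ g = 0 := by
  obtain ⟨d₀, hd₀, hd₀'⟩ := ratAt_ne κ hκ
  obtain ⟨g, d, P, h1, h2⟩ := g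
  have h3 : MvPolynomial.eval x₀ (P * d * d₀) = 0 := by
    refine hA _ fun x hx => ?_
    rw [map_mul, map_mul]
    by_cases h4 : MvPolynomial.eval x d₀ = 0
    · rw [h4, mul_zero]
    by_cases h5 : MvPolynomial.eval x d = 0
    · rw [h5, mul_zero, zero_mul]
    have h6 := h x hx (hd₀' x h4)
    rw [rev_apply] at h6
    simp only at h6
    rw [← h2 x h5, h6]
    ring
  rw [map_mul, map_mul] at h3
  have h4 : MvPolynomial.eval x₀ P = 0 := by
    rcases mul_eq_zero.1 h3 with h | h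
    · exact (mul_eq_zero.1 h).resolve_right h1
    · exact absurd h hd₀
  have h5 := h2 x₀ h1
  rw [h4] at h5
  rw [rev_apply]
  exact (mul_eq_zero.1 h5).resolve_right h1

/-- Total density of the integral points of the cell in the conjugacy class of `J`. -/
def TotD {r : ℕ} {R : Type*} [CommRing R] (φ : R →+* ℂ) (J : Mat r ℂ) : Prop :=
  ∀ F : MvPolynomial (Fin r × Fin r) ℂ,
    (∀ X : Mat r R, (∀ i, IsUnit (X i i)) → CjM J (zZ (X.map φ)) →
      MvPolynomial.eval (fun p => φ (X p.1 p.2)) F = 0) →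
    ∀ X : Mat r ℂ, (∀ i, X i i ≠ 0) → CjM J (zZ X) → MvPolynomial.eval (fun p => X p.1 p.2) F = 0

end Vale.Agent.P002R
end

section

/-!
# P002, genus 0: the chart
-/

namespace Vale.Agent.P002R

open Matrix

/-- The matrices of the boundary generators (and `1` beyond the last one). -/
noncomputable def cseq {r N : ℕ} (x : FU 0 N →* (Mat r ℂ)ˣ) (j : ℕ) : Mat r ℂ :=
  if h : j < N then (x (FreeGroup.of (Sum.inr ⟨j, h⟩)) : Mat r ℂ) else 1

theorem cseq_of {r N : ℕ} (x : FU 0 N →* (Mat r ℂ)ˣ) (j : Fin N) :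
    cseq x j = (x (FreeGroup.of (Sum.inr j)) : Mat r ℂ) := by
  rw [cseq, dif_pos j.2]

theorem cseq_prod {r N : ℕ} (x : FU 0 N →* (Mat r ℂ)ˣ) (hx : x (relatorU 0 N) = 1) :
    (List.ofFn fun j : Fin N => cseq x j).prod = 1 := by
  have h1 : ((x (relatorU 0 N) : (Mat r ℂ)ˣ) : Mat r ℂ) = 1 := by rw [hx, Units.val_one]
  rw [relatorU_eqn] at h1
  simp only [List.ofFn_zero, List.prod_nil, mul_one] at h1
  rw [map_list_prod, List.map_ofFn, ← Units.coeHom_apply, map_list_prod, List.map_ofFn] at h1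
  rw [← h1]
  congr 2
  funext j
  exact cseq_of x j

/-- Extension of a finite sequence. -/
def extY {r M : ℕ} {S : Type*} [CommRing S] (Y : Fin M → Mat r S) (k : ℕ) : Mat r S :=
  if h : k < M then Y ⟨k, h⟩ else 0

theorem extY_of {r M : ℕ} {S : Type*} [CommRing S] (Y : Fin M → Mat r S) (k : ℕ) (h : k < M) :
    extY Y k = Y ⟨k, h⟩ := by
  rw [extY, dif_pos h]

theorem extY_map {r M : ℕ} {S T : Type*} [CommRing S] [CommRing T] (φ : S →+* T)
    (Y : Fin M → Mat r S) : (fun k => (extY Y k).map φ) = extY fun k => (Y k).map φ := by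
  funext k
  by_cases h : k < M
  · rw [extY_of _ k h, extY_of _ k h]
  · rw [extY, extY, dif_neg h, dif_neg h]
    ext i j
    exact map_zero φ

/-- Evaluation of a polynomial at a sequence. -/
noncomputable def evalT {r N : ℕ} {S : Type*} [CommRing S] [Algebra ℂ S] (c : ℕ → Mat r S)
    (f : MvPolynomial (GenU 0 N × Fin r × Fin r) ℂ) : S :=
  MvPolynomial.aeval (fun p : GenU 0 N × Fin r × Fin r =>
    (Sum.elim (fun _ => (0 : Mat r S)) (fun j : Fin N => c j) p.1 : Mat r S) p.2.1 p.2.2) f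

theorem evalG_eq_evalT {r N : ℕ} (y : FU 0 N →* (Mat r ℂ)ˣ) (c : ℕ → Mat r ℂ)
    (h : ∀ j : Fin N, (y (FreeGroup.of (Sum.inr j)) : Mat r ℂ) = c j)
    (f : MvPolynomial (GenU 0 N × Fin r × Fin r) ℂ) : evalG y f = evalT c f := by
  rw [evalG_eqn, evalT]
  congr 2
  funext p
  obtain ⟨k | k, i, j⟩ := p
  · exact k.1.elim0
  · rw [h]
    rfl

theorem evalT_map {r N : ℕ} {S T : Type*} [CommRing S] [Algebra ℂ S] [CommRing T] [Algebra ℂ T]
    (ψ : S →ₐ[ℂ] T) (c : ℕ → Mat r S) (f : MvPolynomial (GenU 0 N × Fin r × Fin r) ℂ) :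
    ψ (evalT c f) = evalT (fun j => (c j).map ψ) f := by
  rw [evalT, evalT, ← AlgHom.comp_apply, MvPolynomial.comp_aeval]
  congr 2
  funext p
  obtain ⟨k | k, i, j⟩ := p
  · exact k.1.elim0
  · rfl

theorem kry_map' {r : ℕ} {S T : Type*} [CommRing S] [CommRing T] (φ : S →+* T) (A : Mat r S)
    (v : Fin r → S) : φ (P002.kry A v).det = (P002.kry (A.map φ) fun i => φ (v i)).det := by
  rw [RingHom.map_det]
  congr 1
  ext i j
  simp only [P002.kry, Matrix.of_apply, RingHom.mapMatrix_apply, Matrix.map_apply]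
  have h2 : (A.map φ) ^ (j : ℕ) = (A ^ (j : ℕ)).map φ := by
    have := map_pow φ.mapMatrix A (j : ℕ)
    exact this.symm
  rw [h2, RingHom.map_mulVec]
  rfl

/-- The polynomial of the chart. -/
theorem exists_chart_poly {r m : ℕ} (t t' : Fin r → ℂ) (κ : ℕ → ℂ) (v v' : Fin r → ℂ)
    (f : MvPolynomial (GenU 0 (m + 3) × Fin r × Fin r) ℂ) :
    ∃ F : MvPolynomial (Fin (m + 1) × Fin r × Fin r) ℂ, ∀ Y : Fin (m + 1) → Mat r ℂ,
      MvPolynomial.aeval (fun p => Y p.1 p.2.1 p.2.2) F =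
        evalT (ctup (m + 1) t t' κ (extY Y)) f *
        (P002.kry (ctup (m + 1) t t' κ (extY Y) 0) v).det *
        (P002.kry (ctup (m + 1) t t' κ (extY Y) (m + 2)) v').det := by
  obtain ⟨Yg, hYg⟩ : ∃ Yg : Fin (m + 1) → Mat r (MvPolynomial (Fin (m + 1) × Fin r × Fin r) ℂ),
    Yg = fun k => Matrix.of fun i j => MvPolynomial.X (k, (i, j)) := ⟨_, rfl⟩
  obtain ⟨cg, hcg⟩ : ∃ cg : ℕ → Mat r (MvPolynomial (Fin (m + 1) × Fin r × Fin r) ℂ),
    cg = ctup (m + 1) (fun i => MvPolynomial.C (t i)) (fun i => MvPolynomial.C (t' i))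
      (fun k => MvPolynomial.C (κ k)) (extY Yg) := ⟨_, rfl⟩
  refine ⟨evalT cg f * (P002.kry (cg 0) fun i => MvPolynomial.C (v i)).det *
    (P002.kry (cg (m + 2)) fun i => MvPolynomial.C (v' i)).det, fun Y => ?_⟩
  obtain ⟨ev, hev⟩ : ∃ ev : MvPolynomial (Fin (m + 1) × Fin r × Fin r) ℂ →ₐ[ℂ] ℂ,
    ev = MvPolynomial.aeval (fun p => Y p.1 p.2.1 p.2.2) := ⟨_, rfl⟩
  rw [← hev]
  have h1 : ∀ j, (cg j).map ev = ctup (m + 1) t t' κ (extY Y) j := by
    intro j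
    have h2 := ctup_map (ev : MvPolynomial (Fin (m + 1) × Fin r × Fin r) ℂ →+* ℂ) (m + 1)
      (fun i => MvPolynomial.C (t i)) (fun i => MvPolynomial.C (t' i))
      (fun k => MvPolynomial.C (κ k)) (extY Yg) j
    have h3 : ∀ z : ℂ, (ev : MvPolynomial (Fin (m + 1) × Fin r × Fin r) ℂ →+* ℂ)
        (MvPolynomial.C z) = z := fun z => ev.commutes z
    simp only [h3] at h2
    rw [extY_map] at h2
    have h4 : (fun k => (Yg k).map (ev : MvPolynomial (Fin (m + 1) × Fin r × Fin r) ℂ →+* ℂ)) =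
        Y := by
      funext k
      ext i j
      rw [hYg, Matrix.map_apply]
      change ev (MvPolynomial.X (k, (i, j))) = _
      rw [hev, MvPolynomial.aeval_X]
    rw [h4] at h2
    rw [← h2, hcg]
    rfl
  have h5 : ∀ (A : Mat r (MvPolynomial (Fin (m + 1) × Fin r × Fin r) ℂ)) (w : Fin r → ℂ),
      ev (P002.kry A fun i => MvPolynomial.C (w i)).det = (P002.kry (A.map ev) w).det := by
    intro A w
    have h6 := kry_map' (ev : MvPolynomial (Fin (m + 1) × Fin r × Fin r) ℂ →+* ℂ) A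
      fun i => MvPolynomial.C (w i)
    have h3 : ∀ z : ℂ, (ev : MvPolynomial (Fin (m + 1) × Fin r × Fin r) ℂ →+* ℂ)
        (MvPolynomial.C z) = z := fun z => ev.commutes z
    simp only [h3] at h6
    exact h6
  rw [map_mul, map_mul, h5, h5, h1, h1, evalT_map]
  simp only [h1]

end Vale.Agent.P002R
end

section

/-!
# P002: rational charts of a conjugacy class with prescribed diagonal
-/

namespace Vale.Agent.P002R

open Matrix

section comp

variable {σ σ' : Type*} {x₀ : σ → ℂ} {y₀ : σ' → ℂ}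

/-- Composition of functions which are regular at a point. -/
theorem exists_ratComp (s : σ' → ratAt x₀) (hs : ∀ i, rev x₀ x₀ (s i) = y₀ i) (g : ratAt y₀) :
    ∃ h : ratAt x₀, ∀ x, rev x₀ x h = rev y₀ (fun i => rev x₀ x (s i)) g := by
  obtain ⟨g, d, P, h1, h2⟩ := g
  obtain ⟨D, hD⟩ : ∃ D : ratAt x₀, D = MvPolynomial.aeval s d := ⟨_, rfl⟩
  obtain ⟨Q, hQ⟩ : ∃ Q : ratAt x₀, Q = MvPolynomial.aeval s P := ⟨_, rfl⟩
  have hr : ∀ (p : MvPolynomial σ' ℂ) (x : σ → ℂ),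
      rev x₀ x (MvPolynomial.aeval s p) = MvPolynomial.eval (fun i => rev x₀ x (s i)) p := by
    intro p x
    rw [← AlgHom.comp_apply, MvPolynomial.comp_aeval, ← MvPolynomial.coe_aeval_eq_eval]
    rfl
  have hDr : ∀ x, rev x₀ x D = MvPolynomial.eval (fun i => rev x₀ x (s i)) d := fun x => by
    rw [hD, hr]
  have hQr : ∀ x, rev x₀ x Q = MvPolynomial.eval (fun i => rev x₀ x (s i)) P := fun x => by
    rw [hQ, hr]
  have hD0 : rev x₀ x₀ D ≠ 0 := by
    rw [hDr]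
    have h3 : (fun i => rev x₀ x₀ (s i)) = y₀ := funext hs
    rw [h3]
    exact h1
  obtain ⟨Di, hDi⟩ := exists_rinv D hD0
  obtain ⟨dD, hdD, hdD'⟩ := ratAt_ne D hD0
  obtain ⟨h, hh⟩ : ∃ h : ratAt x₀, h = Q * Di := ⟨_, rfl⟩
  have hhr : ∀ x, MvPolynomial.eval x dD ≠ 0 →
      rev x₀ x h = g fun i => rev x₀ x (s i) := by
    intro x hx
    have h4 := hdD' x hx
    rw [hh, map_mul, hDi, hQr]
    rw [hDr] at h4 ⊢
    rw [← h2 _ h4, mul_assoc, mul_inv_cancel₀ h4, mul_one]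
  obtain ⟨h', d', P', h5, h6⟩ := h
  refine ⟨⟨fun x => g fun i => rev x₀ x (s i), d' * dD, P' * dD, ?_, fun x hx => ?_⟩, fun x => rfl⟩
  · rw [map_mul]
    exact mul_ne_zero h5 hdD
  · rw [map_mul] at hx
    have h7 := h6 x (left_ne_zero_of_mul hx)
    have h8 := hhr x (right_ne_zero_of_mul hx)
    rw [rev_apply] at h8
    simp only at h8
    simp only [map_mul]
    rw [← h7, ← h8]
    ring

end comp

/-- Rational charts through `X₀` of the set of the elements of the cell in the conjugacy class of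
`J`: a member of a rational family with prescribed diagonal (the variables in `Fin r`) and
parameters in `τ`, with a dense set of parameters for which the members with unit diagonal are
integral. -/
def DualD {r : ℕ} {R : Type*} [CommRing R] (φ : R →+* ℂ) (J X₀ : Mat r ℂ) : Prop :=
  ∃ (τ : Type) (t₀ : τ → ℂ) (A : Set (τ → ℂ)),
    (∀ P : MvPolynomial τ ℂ, (∀ t ∈ A, MvPolynomial.eval t P = 0) → MvPolynomial.eval t₀ P = 0) ∧
    ∃ (Y : Mat r (ratAt (Sum.elim t₀ fun i : Fin r => X₀ i i)))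
      (κ : ratAt (Sum.elim t₀ fun i : Fin r => X₀ i i)),
      rev _ (Sum.elim t₀ fun i : Fin r => X₀ i i) κ ≠ 0 ∧
      (∀ i j, rev _ (Sum.elim t₀ fun i : Fin r => X₀ i i) (Y i j) = X₀ i j) ∧
      ∀ t ∈ A, ∀ q : Fin r → Rˣ, ∏ i, φ (q i) = J.det →
        rev _ (Sum.elim t fun i : Fin r => φ (q i)) κ ≠ 0 →
        ∃ X : Mat r R, (∀ i, X i i = q i) ∧ CjM J (zZ (X.map φ)) ∧
          ∀ i j, rev _ (Sum.elim t fun i : Fin r => φ (q i)) (Y i j) = φ (X i j)

end Vale.Agent.P002R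
end

section

/-!
# P002, genus 0, two regular classes: integral points of the chart
-/

namespace Vale.Agent.P002R

open Matrix

variable {R : Type*} [CommRing R] {r m : ℕ}

/-- All eigenvalues are units of the ring. -/
def EigU (φ : R →+* ℂ) (M : Mat r ℂ) : Prop :=
  ∀ z : ℂ, M.charpoly.IsRoot z → ∃ e : Rˣ, φ (e : R) = z

theorem EigU.det {φ : R →+* ℂ} {M : Mat r ℂ} (h : EigU φ M) : ∃ e : Rˣ, φ (e : R) = M.det := by
  rw [Matrix.det_eq_prod_roots_charpoly]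
  have key : ∀ s : Multiset ℂ, (∀ z ∈ s, ∃ e : Rˣ, φ (e : R) = z) →
      ∃ e : Rˣ, φ (e : R) = s.prod := by
    intro s
    induction s using Multiset.induction_on with
    | empty => exact fun _ => ⟨1, by simp⟩
    | cons a s ih =>
      intro hs
      obtain ⟨e, he⟩ := hs a (Multiset.mem_cons_self a s)
      obtain ⟨e', he'⟩ := ih fun z hz => hs z (Multiset.mem_cons_of_mem hz)
      exact ⟨e * e', by rw [Units.val_mul, map_mul, he, he', Multiset.prod_cons]⟩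
  refine key _ fun z hz => h z ?_
  exact (Polynomial.mem_roots'.1 hz).2

theorem chart_integral2 (φ : R →+* ℂ) (hinj : Function.Injective φ)
    (C : Fin (m + 3) → (Mat r ℂ)ˣ) (hE : ∀ j, EigU φ (C j : Mat r ℂ))
    (h0 : ∃ v, P002G.Cyc (C 0 : Mat r ℂ) v)
    (hl : ∃ v, P002G.Cyc (C (Fin.last (m + 2)) : Mat r ℂ) v)
    (δ : ℕ → Rˣ) (ξ ξ' : Fin r → Rˣ)
    (hδ : ∀ l (hl : l < m + 1), φ (δ l) = (C ⟨l + 1, by omega⟩ : Mat r ℂ).det)
    (hξ : (C 0 : Mat r ℂ).charpoly = ∏ i, (Polynomial.X - Polynomial.C (φ (ξ i))))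
    (hξ' : (C (Fin.last (m + 2)) : Mat r ℂ).charpoly =
      ∏ i, (Polynomial.X - Polynomial.C (φ (ξ' i))))
    (Y : ℕ → Mat r R)
    (hY : ∀ k (hk : k < m + 1), CjM (C ⟨k + 1, by omega⟩ : Mat r ℂ) (zZ ((Y k).map φ)))
    (hprod : ∀ i, (∏ l ∈ Finset.range (m + 1), φ (Y l i i)) * φ (ξ i) * φ (ξ' i) = 1) :
    (∀ k ≤ m + 1, φ (kap' δ k) * (Lc (fun k => (Y k).map φ) k).det = 1) ∧
    ∃ (y : FU 0 (m + 3) →* (Mat r ℂ)ˣ) (cR : ℕ → Mat r R), y (relatorU 0 (m + 3)) = 1 ∧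
      (∀ j : Fin (m + 3), (y (FreeGroup.of (Sum.inr j)) : Mat r ℂ) =
        ctup (m + 1) (fun i => φ ((ξ i)⁻¹ : Rˣ)) (fun i => φ (ξ i)) (fun k => φ (kap' δ k))
          (fun k => (Y k).map φ) j) ∧
      (∀ j : Fin (m + 3), (y (FreeGroup.of (Sum.inr j)) : Mat r ℂ) = (cR j).map φ) ∧
      UpT (cR 0) ∧ LoT (cR (m + 2)) ∧ (∀ i, cR 0 i i = ξ i) ∧ (∀ i, cR (m + 2) i i = ξ' i) ∧
      ((∃ v, P002G.Cyc (ctup (m + 1) (fun i => φ ((ξ i)⁻¹ : Rˣ)) (fun i => φ (ξ i))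
          (fun k => φ (kap' δ k)) (fun k => (Y k).map φ) 0) v) →
        (∃ v, P002G.Cyc (ctup (m + 1) (fun i => φ ((ξ i)⁻¹ : Rˣ)) (fun i => φ (ξ i))
          (fun k => φ (kap' δ k)) (fun k => (Y k).map φ) (m + 2)) v) →
        (∀ j, IsConj (C j) (y (FreeGroup.of (Sum.inr j)))) ∧
          ∀ j : Fin (m + 3), IsUnit (cR j).det) := by
  obtain ⟨Y', hY'⟩ : ∃ Y' : ℕ → Mat r ℂ, Y' = fun k => (Y k).map φ := ⟨_, rfl⟩
  have hdet : ∀ l < m + 1, (zZ (Y' l)).det = φ (δ l) := by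
    intro l hlm
    rw [hδ l hlm, hY']
    exact (hY l hlm).det
  have hκ : ∀ k ≤ m + 1, φ (kap' δ k) * (Lc Y' k).det = 1 := fun k hk =>
    kap'_mul δ φ Y' k fun l hl => hdet l (lt_of_lt_of_le hl hk)
  rw [← hY']
  refine ⟨hκ, ?_⟩
  obtain ⟨t, ht⟩ : ∃ t : Fin r → ℂ, t = fun i => φ ((ξ i)⁻¹ : Rˣ) := ⟨_, rfl⟩
  obtain ⟨t', ht'⟩ : ∃ t' : Fin r → ℂ, t' = fun i => φ (ξ i) := ⟨_, rfl⟩
  obtain ⟨κ, hκdef⟩ : ∃ κ : ℕ → ℂ, κ = fun k => φ (kap' δ k) := ⟨_, rfl⟩
  have hκ' : ∀ k ≤ m + 1, κ k * (Lc Y' k).det = 1 := by rw [hκdef]; exact hκ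
  obtain ⟨cR, hcR⟩ : ∃ cR : ℕ → Mat r R, cR =
    ctup (m + 1) (fun i => (((ξ i)⁻¹ : Rˣ) : R)) (fun i => (ξ i : R)) (kap' δ) Y := ⟨_, rfl⟩
  have hint : ∀ j, ctup (m + 1) t t' κ Y' j = (cR j).map φ := by
    intro j
    rw [hcR, ctup_map, ht, ht', hκdef, hY']
  rw [← ht, ← ht', ← hκdef]
  have htt : ∀ i, t' i * t i = 1 := by
    intro i
    rw [ht, ht']
    simp only
    rw [← map_mul, Units.mul_inv, map_one]
  obtain ⟨y, hy1, hy2⟩ := exists_hom (m + 3) (fun j => ctup (m + 1) t t' κ Y' j)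
    (ctup_prod (m + 1) t t' κ Y' hκ' htt)
  obtain ⟨hu1, hu2⟩ := ctup_zero_upT (m + 1) t t' κ Y'
  obtain ⟨hl1, hl2⟩ := ctup_last_loT (m + 1) t t' κ Y' (hκ' _ le_rfl)
  have h9 : ∀ i, φ (ξ' i) = ctup (m + 1) t t' κ Y' (m + 1 + 1) i i := by
    intro i
    have h5 := hl2 i
    have h6 := hprod i
    have h7 : Lc Y' (m + 1) i i = ∏ l ∈ Finset.range (m + 1), φ (Y l i i) := by
      rw [Lc_diag, hY']
      rfl
    rw [← h7] at h6
    have h8 := htt i
    have h10 : φ (ξ i) = t' i := by rw [ht']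
    rw [h10] at h6
    calc φ (ξ' i) = φ (ξ' i) * (t' i * t i) := by rw [h8, mul_one]
      _ = φ (ξ' i) * (t' i * (ctup (m + 1) t t' κ Y' (m + 1 + 1) i i * Lc Y' (m + 1) i i)) := by
        rw [h5]
      _ = ctup (m + 1) t t' κ Y' (m + 1 + 1) i i * (Lc Y' (m + 1) i i * t' i * φ (ξ' i)) := by
        ring
      _ = _ := by rw [h6, mul_one]
  refine ⟨y, cR, hy1, hy2, fun j => (hy2 j).trans (hint j), ?_, ?_, ?_, ?_, fun hc0 hcl => ?_⟩
  · intro i j hij
    apply hinj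
    have h1 := hu1 i j hij
    rw [hint, Matrix.map_apply] at h1
    rw [h1, map_zero]
  · intro i j hij
    apply hinj
    have h1 := hl1 i j hij
    rw [hint, Matrix.map_apply] at h1
    rw [h1, map_zero]
  · intro i
    apply hinj
    have h1 := hu2 i
    rw [hint, Matrix.map_apply] at h1
    rw [h1, ht']
  · intro i
    apply hinj
    have h1 := h9 i
    rw [hint, Matrix.map_apply] at h1
    exact h1.symm
  have hconj : ∀ j, IsConj (C j) (y (FreeGroup.of (Sum.inr j))) := by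
    intro j
    rcases Nat.eq_zero_or_pos (j : ℕ) with h | h
    · have hj : j = 0 := Fin.ext h
      subst hj
      obtain ⟨v, hv⟩ := h0
      obtain ⟨w, hw⟩ := hc0
      have h3 : (y (FreeGroup.of (Sum.inr 0)) : Mat r ℂ) = ctup (m + 1) t t' κ Y' 0 := hy2 0
      refine isConj_of_cyc (v := v) (w := w) _ _ ?_ hv (by rw [h3]; exact hw)
      rw [h3, charpoly_upT hu1, hξ]
      refine Finset.prod_congr rfl fun i _ => ?_
      rw [hu2, ht']
    obtain ⟨k, hk⟩ : ∃ k, (j : ℕ) = k + 1 := ⟨(j : ℕ) - 1, by omega⟩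
    have hkN : k + 1 < m + 3 := by have := j.2; omega
    have hj : j = ⟨k + 1, hkN⟩ := Fin.ext hk
    clear hk h
    subst hj
    rcases Nat.lt_or_ge k (m + 1) with hkm | hkm
    · have h3 : (y (FreeGroup.of (Sum.inr ⟨k + 1, by omega⟩)) : Mat r ℂ) =
        ctup (m + 1) t t' κ Y' (k + 1) := hy2 _
      obtain ⟨L, hL, hL'⟩ := ctup_mid_cjM (m + 1) t t' κ Y' k hkm (hκ' k hkm.le)
      have h4 : CjM (y (FreeGroup.of (Sum.inr ⟨k + 1, by omega⟩)) : Mat r ℂ) (zZ (Y' k)) := by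
        rw [h3]
        exact ⟨L, hL'⟩
      apply isConj_of_cjM
      refine CjM.trans ?_ h4.symm
      rw [hY']
      exact hY k hkm
    · have hkm' : k = m + 1 := by omega
      subst hkm'
      obtain ⟨v, hv⟩ := hl
      obtain ⟨w, hw⟩ := hcl
      have h3 : (y (FreeGroup.of (Sum.inr ⟨m + 1 + 1, by omega⟩)) : Mat r ℂ) =
        ctup (m + 1) t t' κ Y' (m + 1 + 1) := hy2 _
      refine isConj_of_cyc (v := v) (w := w) _ _ ?_ hv (by rw [h3]; exact hw)
      rw [h3, charpoly_loT hl1]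
      refine hξ'.trans ?_
      refine Finset.prod_congr rfl fun i _ => ?_
      rw [h9]
  refine ⟨hconj, fun j => ?_⟩
  obtain ⟨e, he⟩ := (hE j).det
  have h1 : φ (cR j).det = φ (e : R) := by
    rw [he, ← (cjM_of_isConj (hconj j)).det, hy2 j, hint, RingHom.map_det]
    rfl
  rw [hinj h1]
  exact e.isUnit

end Vale.Agent.P002R
end

section

/-!
# P002: duality for elements of the cell
-/

namespace Vale.Agent.P002R

open Matrix

variable {r n : ℕ} {S T : Type*} [CommRing S] [CommRing T]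

/-- The strict upper part. -/
def upS (A : Mat r S) : Mat r S := Matrix.of fun i j => if i < j then A i j else 0

theorem upS_apply (A : Mat r S) (i j : Fin r) : upS A i j = if i < j then A i j else 0 := rfl

theorem upS_add_lL (A : Mat r S) : upS A + lL A = A := by
  ext i j
  rw [Matrix.add_apply, upS_apply, lL_apply]
  by_cases h : i < j
  · rw [if_pos h, if_neg (not_le.2 h), add_zero]
  · rw [if_neg h, if_pos (not_lt.1 h), zero_add]

theorem upT_one_sub_upS (A : Mat r S) : UpT (1 - upS A) := by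
  intro i j h
  rw [Matrix.sub_apply, Matrix.one_apply_ne h.ne', upS_apply, if_neg h.not_gt, sub_zero]

theorem one_sub_upS_diag (A : Mat r S) (i : Fin r) : (1 - upS A) i i = 1 := by
  rw [Matrix.sub_apply, Matrix.one_apply_eq, upS_apply, if_neg (lt_irrefl i), sub_zero]

theorem det_one_sub_upS (A : Mat r S) : (1 - upS A).det = 1 := by
  rw [(upT_one_sub_upS A).det]
  exact Finset.prod_eq_one fun i _ => one_sub_upS_diag A i

/-- The inverse of `1 - upS A`. -/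
def dU (A : Mat r S) : Mat r S := (1 - upS A).adjugate

theorem dU_mul (A : Mat r S) : dU A * (1 - upS A) = 1 := by
  rw [dU, Matrix.adjugate_mul, det_one_sub_upS, one_smul]

theorem mul_dU (A : Mat r S) : (1 - upS A) * dU A = 1 := by
  rw [dU, Matrix.mul_adjugate, det_one_sub_upS, one_smul]

theorem inv_upT {A B : Mat r S} (hA : UpT A) (hA1 : ∀ i, A i i = 1) (h : B * A = 1) :
    UpT B ∧ ∀ i, B i i = 1 := by
  have hdet : A.det = 1 := by
    rw [hA.det]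
    exact Finset.prod_eq_one fun i _ => hA1 i
  have hB : B = A⁻¹ := (Matrix.inv_eq_left_inv h).symm
  have hinv : Invertible A := Matrix.invertibleOfIsUnitDet A (by rw [hdet]; exact isUnit_one)
  have h1 : UpT B := by
    rw [hB]
    intro i j hij
    exact Matrix.blockTriangular_inv_of_blockTriangular (M := A) (b := id)
      (fun i j h => hA i j h) hij
  refine ⟨h1, fun i => ?_⟩
  have h2 := h1.mul_diag hA i
  rw [h, Matrix.one_apply_eq, hA1, mul_one] at h2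
  exact h2.symm

theorem upT_dU (A : Mat r S) : UpT (dU A) :=
  (inv_upT (upT_one_sub_upS A) (one_sub_upS_diag A) (dU_mul A)).1

theorem dU_diag (A : Mat r S) (i : Fin r) : dU A i i = 1 :=
  (inv_upT (upT_one_sub_upS A) (one_sub_upS_diag A) (dU_mul A)).2 i

/-- The cell coordinates of `ζ (1 + dU A * A)`. -/
def dX (ζ : S) (A : Mat r S) : Mat r S := Matrix.of fun i j =>
  if i < j then dU A i j else ζ * ((1 : Mat r S) i j + A i j)

theorem dX_apply (ζ : S) (A : Mat r S) (i j : Fin r) :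
    dX ζ A i j = if i < j then dU A i j else ζ * ((1 : Mat r S) i j + A i j) := rfl

theorem dX_diag (ζ : S) (A : Mat r S) (i : Fin r) : dX ζ A i i = ζ * (1 + A i i) := by
  rw [dX_apply, if_neg (lt_irrefl i), Matrix.one_apply_eq]

theorem uU_dX (ζ : S) (A : Mat r S) : uU (dX ζ A) = dU A := by
  ext i j
  rw [uU_apply, dX_apply]
  split_ifs with h1 h2
  · rw [← h1, dU_diag]
  · rfl
  · exact (upT_dU A i j (lt_of_le_of_ne (not_lt.1 h2) (Ne.symm h1))).symm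

theorem lL_dX (ζ : S) (A : Mat r S) : lL (dX ζ A) = ζ • (1 + lL A) := by
  ext i j
  rw [lL_apply, dX_apply, Matrix.smul_apply, Matrix.add_apply, lL_apply, smul_eq_mul]
  by_cases h : i < j
  · rw [if_neg (not_le.2 h), if_neg (not_le.2 h), Matrix.one_apply_ne h.ne, add_zero, mul_zero]
  · rw [if_pos (not_lt.1 h), if_neg h, if_pos (not_lt.1 h)]

theorem zZ_dX (ζ : S) (A : Mat r S) : zZ (dX ζ A) = ζ • (1 + dU A * A) := by
  rw [zZ, uU_dX, lL_dX, Matrix.mul_smul]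
  congr 1
  have h1 : 1 + lL A = (1 - upS A) + A := by
    have h2 := upS_add_lL A
    calc 1 + lL A = (1 - upS A) + (upS A + lL A) := by abel
      _ = _ := by rw [h2]
  rw [h1, Matrix.mul_add, dU_mul]

theorem upS_map (φ : S →+* T) (A : Mat r S) : (upS A).map φ = upS (A.map φ) := by
  ext i j
  rw [Matrix.map_apply, upS_apply, upS_apply, Matrix.map_apply]
  split_ifs
  · rfl
  · exact map_zero φ

theorem one_sub_map (φ : S →+* T) (A : Mat r S) : (1 - A).map φ = 1 - A.map φ := by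
  rw [Matrix.map_sub φ (map_sub φ), Matrix.map_one φ (map_zero φ) (map_one φ)]

theorem dU_map (φ : S →+* T) (A : Mat r S) : (dU A).map φ = dU (A.map φ) := by
  rw [dU, dU, adjugate_map, one_sub_map, upS_map]

theorem dX_map (φ : S →+* T) (ζ : S) (A : Mat r S) : (dX ζ A).map φ = dX (φ ζ) (A.map φ) := by
  ext i j
  rw [Matrix.map_apply, dX_apply, dX_apply, ← dU_map, Matrix.map_apply, Matrix.map_apply]
  split_ifs
  · rfl
  · rw [map_mul, map_add]
    congr 2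
    rw [Matrix.one_apply, Matrix.one_apply]
    split_ifs
    · exact map_one φ
    · exact map_zero φ

/-- Every element of the cell is of this form. -/
theorem eq_dX {ζ ζ' : S} (h : ζ * ζ' = 1) (X V : Mat r S) (hV : V * uU X = 1) :
    X = dX ζ (ζ' • lL X - V) := by
  obtain ⟨hV1, hV2⟩ := inv_upT (upT_uU X) (uU_diag X) hV
  have h1 : upS (ζ' • lL X - V) = 1 - V := by
    ext i j
    rw [upS_apply, Matrix.sub_apply, Matrix.smul_apply, lL_apply, Matrix.sub_apply,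
      Matrix.one_apply]
    by_cases hij : i < j
    · rw [if_pos hij, if_neg (not_le.2 hij), if_neg hij.ne, smul_zero]
    · rw [if_neg hij]
      rcases eq_or_lt_of_le (not_lt.1 hij) with h2 | h2
      · rw [← h2, if_pos rfl, hV2, sub_self]
      · rw [if_neg h2.ne', hV1 i j h2, sub_zero]
  have h2 : dU (ζ' • lL X - V) = uU X := by
    have h3 := mul_dU (ζ' • lL X - V)
    rw [h1, sub_sub_cancel] at h3
    have h4 : uU X * V = 1 := mul_eq_one_comm.1 hV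
    calc dU (ζ' • lL X - V) = (uU X * V) * dU (ζ' • lL X - V) := by rw [h4, one_mul]
      _ = uU X * (V * dU (ζ' • lL X - V)) := by rw [mul_assoc]
      _ = _ := by rw [h3, mul_one]
  ext i j
  rw [dX_apply, h2]
  by_cases hij : i < j
  · rw [if_pos hij, uU_apply, if_neg hij.ne, if_pos hij]
  · rw [if_neg hij, Matrix.sub_apply, Matrix.smul_apply, lL_apply, if_pos (not_lt.1 hij),
      smul_eq_mul, Matrix.one_apply]
    rcases eq_or_lt_of_le (not_lt.1 hij) with h3 | h3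
    · rw [← h3, if_pos rfl, hV2, add_sub_cancel, ← mul_assoc, h, one_mul]
    · rw [if_neg h3.ne', hV1 i j h3, sub_zero, zero_add, ← mul_assoc, h, one_mul]

/-! ### Products of reflections -/

/-- The product of the elements `1 + ξ_i υ_i`. -/
theorem prod_refl_aux : ∀ {r : ℕ} (Ξ : Matrix (Fin n) (Fin r) S) (Υ V : Matrix (Fin r) (Fin n) S),
    V = Υ + upS (Υ * Ξ) * V →
    (List.ofFn fun i => 1 + vecMulVec (fun a => Ξ a i) (Υ i)).prod = 1 + Ξ * V := by
  intro r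
  induction r with
  | zero =>
    intro Ξ Υ V _
    rw [List.ofFn_zero, List.prod_nil]
    have : Ξ * V = 0 := by
      ext i j
      rw [Matrix.mul_apply, Finset.univ_eq_empty, Finset.sum_empty, Matrix.zero_apply]
    rw [this, add_zero]
  | succ r ih =>
    intro Ξ Υ V hV
    obtain ⟨Ξ', hΞ⟩ : ∃ Ξ' : Matrix (Fin n) (Fin r) S, Ξ' = Matrix.of fun a i => Ξ a i.succ :=
      ⟨_, rfl⟩
    obtain ⟨Υ', hΥ⟩ : ∃ Υ' : Matrix (Fin r) (Fin n) S, Υ' = Matrix.of fun i a => Υ i.succ a :=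
      ⟨_, rfl⟩
    obtain ⟨V', hV'⟩ : ∃ V' : Matrix (Fin r) (Fin n) S, V' = Matrix.of fun i a => V i.succ a :=
      ⟨_, rfl⟩
    have hT : ∀ i j : Fin r, (Υ * Ξ) i.succ j.succ = (Υ' * Ξ') i j := by
      intro i j
      rw [Matrix.mul_apply, Matrix.mul_apply]
      exact Finset.sum_congr rfl fun a _ => by rw [hΞ, hΥ]; rfl
    have hV1 : V' = Υ' + upS (Υ' * Ξ') * V' := by
      ext i a
      have h1 := congrFun (congrFun hV i.succ) a
      rw [Matrix.add_apply, Matrix.mul_apply, Fin.sum_univ_succ, upS_apply,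
        if_neg (Fin.succ_pos i).not_gt, zero_mul, zero_add] at h1
      rw [Matrix.add_apply, Matrix.mul_apply]
      have h2 : V' i a = V i.succ a := by rw [hV']; rfl
      have h3 : Υ' i a = Υ i.succ a := by rw [hΥ]; rfl
      rw [h2, h3, h1]
      congr 1
      refine Finset.sum_congr rfl fun j _ => ?_
      rw [upS_apply, upS_apply, hT, hV']
      simp only [Fin.succ_lt_succ_iff]
      rfl
    have hV0 : V 0 = Υ 0 + (Υ 0 ᵥ* Ξ') ᵥ* V' := by
      funext a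
      have h1 := congrFun (congrFun hV 0) a
      rw [Matrix.add_apply, Matrix.mul_apply, Fin.sum_univ_succ, upS_apply,
        if_neg (lt_irrefl _), zero_mul, zero_add] at h1
      rw [h1, Pi.add_apply]
      congr 1
      rw [Matrix.vecMul, dotProduct]
      refine Finset.sum_congr rfl fun j _ => ?_
      rw [upS_apply, if_pos (Fin.succ_pos j), hV', Matrix.mul_apply, Matrix.vecMul, dotProduct]
      congr 1
      exact Finset.sum_congr rfl fun b _ => by rw [hΞ]; rfl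
    rw [List.ofFn_succ, List.prod_cons]
    have h4 : (List.ofFn fun i : Fin r => 1 + vecMulVec (fun a => Ξ a i.succ) (Υ i.succ)) =
        List.ofFn fun i : Fin r => 1 + vecMulVec (fun a => Ξ' a i) (Υ' i) := by
      rw [hΞ, hΥ]
      rfl
    rw [h4, ih Ξ' Υ' V' hV1]
    have h5 : Ξ * V = vecMulVec (fun a => Ξ a 0) (V 0) + Ξ' * V' := by
      ext a b
      rw [Matrix.mul_apply, Fin.sum_univ_succ, Matrix.add_apply, vecMulVec_apply,
        Matrix.mul_apply]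
      congr 1
      exact Finset.sum_congr rfl fun j _ => by rw [hΞ, hV']; rfl
    have h6 : vecMulVec (fun a => Ξ a 0) (V 0) =
        vecMulVec (fun a => Ξ a 0) (Υ 0) * (1 + Ξ' * V') := by
      rw [hV0, Matrix.vecMulVec_mul, Matrix.vecMul_add, Matrix.vecMul_one, Matrix.vecMul_vecMul]
    rw [h5, h6, Matrix.add_mul, Matrix.one_mul]
    abel

theorem prod_refl (Ξ : Matrix (Fin n) (Fin r) S) (Υ : Matrix (Fin r) (Fin n) S) :
    (List.ofFn fun i => 1 + vecMulVec (fun a => Ξ a i) (Υ i)).prod =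
      1 + Ξ * (dU (Υ * Ξ) * Υ) := by
  refine prod_refl_aux Ξ Υ _ ?_
  have h1 := mul_dU (Υ * Ξ)
  have h2 : dU (Υ * Ξ) = 1 + upS (Υ * Ξ) * dU (Υ * Ξ) := by
    rw [Matrix.sub_mul, Matrix.one_mul] at h1
    rw [← h1]
    abel
  calc dU (Υ * Ξ) * Υ = (1 + upS (Υ * Ξ) * dU (Υ * Ξ)) * Υ := by rw [← h2]
    _ = _ := by rw [Matrix.add_mul, Matrix.one_mul, Matrix.mul_assoc]

end Vale.Agent.P002R
end

section

/-!
# P002: duality, irreducibility of the dual tuple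
-/

namespace Vale.Agent.P002R

open Matrix

variable {n r : ℕ}

/-- The reflections of the dual tuple. -/
def dR {S : Type*} [CommRing S] (Ξ : Matrix (Fin n) (Fin r) S) (Υ : Matrix (Fin r) (Fin n) S)
    (i : Fin r) : Mat n S :=
  1 + vecMulVec (fun a => Ξ a i) (Υ i)

theorem dR_mulVec {S : Type*} [CommRing S] (Ξ : Matrix (Fin n) (Fin r) S)
    (Υ : Matrix (Fin r) (Fin n) S) (i : Fin r) (x : Fin n → S) :
    dR Ξ Υ i *ᵥ x = x + (Υ i ⬝ᵥ x) • fun a => Ξ a i := by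
  rw [dR, Matrix.add_mulVec, Matrix.one_mulVec, Matrix.vecMulVec_mulVec]
  congr 1
  funext a
  rw [Pi.smul_apply, MulOpposite.smul_eq_mul_unop, MulOpposite.unop_op, Pi.smul_apply,
    smul_eq_mul, mul_comm]

theorem dV_eq {S : Type*} [CommRing S] (Ξ : Matrix (Fin n) (Fin r) S)
    (Υ : Matrix (Fin r) (Fin n) S) :
    dU (Υ * Ξ) * Υ = Υ + upS (Υ * Ξ) * (dU (Υ * Ξ) * Υ) := by
  have h1 := mul_dU (Υ * Ξ)
  have h2 : dU (Υ * Ξ) = 1 + upS (Υ * Ξ) * dU (Υ * Ξ) := by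
    rw [Matrix.sub_mul, Matrix.one_mul] at h1
    rw [← h1]
    abel
  calc dU (Υ * Ξ) * Υ = (1 + upS (Υ * Ξ) * dU (Υ * Ξ)) * Υ := by rw [← h2]
    _ = _ := by rw [Matrix.add_mul, Matrix.one_mul, Matrix.mul_assoc]

/-- If no coordinate subspace is stable under `zZ (dX ζ (Υ * Ξ))` then the dual tuple is
irreducible. -/
theorem dual_irred (ζ : ℂ) (Ξ : Matrix (Fin n) (Fin r) ℂ) (Υ : Matrix (Fin r) (Fin n) ℂ)
    (hΥ : ∀ v, Υ *ᵥ v = 0 → v = 0) (hΞ : ∀ w, w ᵥ* Ξ = 0 → w = 0)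
    (hI : ∀ I : Finset (Fin r), I.Nonempty → I ≠ Finset.univ →
      ∃ i, i ∉ I ∧ ∃ j ∈ I, zZ (dX ζ (Υ * Ξ)) i j ≠ 0)
    (H : Submodule ℂ (Fin n → ℂ)) (hH : ∀ i, ∀ x ∈ H, dR Ξ Υ i *ᵥ x ∈ H) : H = ⊥ ∨ H = ⊤ := by
  classical
  obtain ⟨V, hV⟩ : ∃ V, V = dU (Υ * Ξ) * Υ := ⟨_, rfl⟩
  have hVe : V = Υ + upS (Υ * Ξ) * V := by rw [hV]; exact dV_eq Ξ Υ
  obtain ⟨y, hy⟩ : ∃ y : (Fin n → ℂ) → ℕ → Fin n → ℂ, y = fun x k => x + ∑ j : Fin r,
    if k ≤ (j : ℕ) then (V j ⬝ᵥ x) • (fun a => Ξ a j) else 0 := ⟨_, rfl⟩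
  have hyr : ∀ x, y x r = x := by
    intro x
    rw [hy]
    simp only
    rw [Finset.sum_eq_zero, add_zero]
    intro j _
    rw [if_neg (by have := j.2; omega)]
  have hys : ∀ x (k : Fin r), y x k = y x (k + 1) + (V k ⬝ᵥ x) • fun a => Ξ a k := by
    intro x k
    rw [hy]
    simp only
    rw [add_assoc]
    congr 1
    rw [← Finset.add_sum_erase _ _ (Finset.mem_univ k), if_pos le_rfl, add_comm]
    congr 1
    rw [← Finset.add_sum_erase _ (fun j : Fin r => if (k : ℕ) + 1 ≤ (j : ℕ) then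
      (V j ⬝ᵥ x) • (fun a => Ξ a j) else 0) (Finset.mem_univ k)]
    rw [if_neg (by omega), zero_add]
    refine Finset.sum_congr rfl fun j hj => ?_
    have h1 : (j : ℕ) ≠ k := fun h => Finset.ne_of_mem_erase hj (Fin.ext h)
    by_cases h2 : (k : ℕ) ≤ j
    · rw [if_pos h2, if_pos (by omega)]
    · rw [if_neg h2, if_neg (by omega)]
  have hVy : ∀ x (k : Fin r), V k ⬝ᵥ x = Υ k ⬝ᵥ y x (k + 1) := by
    intro x k
    have h1 : V k ⬝ᵥ x = Υ k ⬝ᵥ x + ∑ j, upS (Υ * Ξ) k j * (V j ⬝ᵥ x) := by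
      have h2 : V k = Υ k + upS (Υ * Ξ) k ᵥ* V := by
        have := congrFun hVe k
        exact this
      conv_lhs => rw [h2]
      rw [add_dotProduct]
      congr 1
      rw [← Matrix.dotProduct_mulVec]
      rfl
    rw [h1, hy]
    simp only
    rw [dotProduct_add, dotProduct_sum]
    congr 1
    refine Finset.sum_congr rfl fun j _ => ?_
    rw [upS_apply]
    by_cases h2 : k < j
    · rw [if_pos h2, if_pos (by exact h2), dotProduct_smul, smul_eq_mul, mul_comm]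
      rfl
    · rw [if_neg h2, if_neg (by intro h; exact h2 h), zero_mul, dotProduct_zero]
  have hyH : ∀ x ∈ H, ∀ d k : ℕ, k + d = r → y x k ∈ H := by
    intro x hx d
    induction d with
    | zero =>
      intro k hk
      rw [show k = r by omega, hyr]
      exact hx
    | succ d ih =>
      intro k hk
      have h1 := ih (k + 1) (by omega)
      have h2 := hys x ⟨k, by omega⟩
      rw [hVy x ⟨k, by omega⟩, ← dR_mulVec] at h2
      rw [h2]
      exact hH _ _ h1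
  obtain ⟨I, hId⟩ : ∃ I : Finset (Fin r), I = Finset.univ.filter fun i => (fun a => Ξ a i) ∈ H :=
    ⟨_, rfl⟩
  have hImem : ∀ i, i ∈ I ↔ (fun a => Ξ a i) ∈ H := by
    intro i
    rw [hId, Finset.mem_filter]
    exact ⟨fun h => h.2, fun h => ⟨Finset.mem_univ i, h⟩⟩
  have hout : ∀ i, i ∉ I → ∀ x ∈ H, Υ i ⬝ᵥ x = 0 := by
    intro i hi x hx
    by_contra hne
    have h1 := hH i x hx
    rw [dR_mulVec] at h1
    have h2 : (Υ i ⬝ᵥ x) • (fun a => Ξ a i) ∈ H := by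
      have h3 := H.sub_mem h1 hx
      rwa [add_sub_cancel_left] at h3
    exact hi ((hImem i).2 ((H.smul_mem_iff hne).1 h2))
  have hVout : ∀ i, i ∉ I → ∀ x ∈ H, V i ⬝ᵥ x = 0 := by
    intro i hi x hx
    rw [hVy]
    exact hout i hi _ (hyH x hx (r - (i + 1)) (i + 1) (by have := i.2; omega))
  have hZ : ∀ i j, i ≠ j → zZ (dX ζ (Υ * Ξ)) i j = ζ * (V i ⬝ᵥ fun a => Ξ a j) := by
    intro i j hij
    rw [zZ_dX, Matrix.smul_apply, Matrix.add_apply, Matrix.one_apply_ne hij, zero_add,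
      ← Matrix.mul_assoc, ← hV, smul_eq_mul]
    rfl
  by_cases h1 : I.Nonempty
  · by_cases h2 : I = Finset.univ
    · right
      rw [eq_top_iff]
      intro x _
      by_contra hx
      obtain ⟨f, hf1, hf2⟩ := Submodule.exists_le_ker_of_notMem hx
      obtain ⟨w, hw⟩ : ∃ w : Fin n → ℂ, ∀ v, f v = w ⬝ᵥ v := by
        refine ⟨fun a => f (Pi.single a 1), fun v => ?_⟩
        conv_lhs => rw [← Finset.univ_sum_single v]
        rw [map_sum, dotProduct]
        refine Finset.sum_congr rfl fun a _ => ?_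
        have h3 : Pi.single a (v a) = v a • (Pi.single a 1 : Fin n → ℂ) := by
          rw [← Pi.single_smul, smul_eq_mul, mul_one]
        rw [h3, map_smul, smul_eq_mul, mul_comm]
      have h3 : w ᵥ* Ξ = 0 := by
        funext j
        have h4 : (fun a => Ξ a j) ∈ H := (hImem j).1 (by rw [h2]; exact Finset.mem_univ j)
        have h5 := hf2 h4
        rw [LinearMap.mem_ker, hw] at h5
        exact h5
      apply hf1
      rw [hw, hΞ w h3, zero_dotProduct]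
    · exfalso
      obtain ⟨i, hi, j, hj, hne⟩ := hI I h1 h2
      apply hne
      rw [hZ i j (fun h => hi (h ▸ hj)), hVout i hi _ ((hImem j).1 hj), mul_zero]
  · left
    rw [Finset.not_nonempty_iff_eq_empty] at h1
    rw [eq_bot_iff]
    intro x hx
    rw [Submodule.mem_bot]
    apply hΥ
    have h2 : V *ᵥ x = 0 := by
      funext i
      exact hVout i (by rw [h1]; exact Finset.notMem_empty i) x hx
    have h3 : (1 - upS (Υ * Ξ)) *ᵥ (V *ᵥ x) = 0 := by rw [h2, Matrix.mulVec_zero]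
    rw [hV, Matrix.mulVec_mulVec, ← Matrix.mul_assoc, mul_dU, Matrix.one_mul] at h3
    exact h3

theorem dual_ne (ζ : ℂ) (Ξ : Matrix (Fin n) (Fin r) ℂ) (Υ : Matrix (Fin r) (Fin n) ℂ)
    (hr : 2 ≤ r) (hI : ∀ I : Finset (Fin r), I.Nonempty → I ≠ Finset.univ →
      ∃ i, i ∉ I ∧ ∃ j ∈ I, zZ (dX ζ (Υ * Ξ)) i j ≠ 0) (k : Fin r) :
    (fun a => Ξ a k) ≠ 0 ∧ Υ k ≠ 0 := by
  classical
  have hex : ∃ l : Fin r, l ≠ k := by
    by_cases h : k = ⟨0, by omega⟩
    · exact ⟨⟨1, by omega⟩, fun h' => by rw [h] at h'; exact absurd (congrArg Fin.val h') (by simp)⟩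
    · exact ⟨⟨0, by omega⟩, fun h' => h h'.symm⟩
  obtain ⟨l, hl⟩ := hex
  obtain ⟨V, hV⟩ : ∃ V, V = dU (Υ * Ξ) * Υ := ⟨_, rfl⟩
  have hVe : V = Υ + upS (Υ * Ξ) * V := by rw [hV]; exact dV_eq Ξ Υ
  have hZ : ∀ i j, i ≠ j → zZ (dX ζ (Υ * Ξ)) i j = ζ * (V i ⬝ᵥ fun a => Ξ a j) := by
    intro i j hij
    rw [zZ_dX, Matrix.smul_apply, Matrix.add_apply, Matrix.one_apply_ne hij, zero_add,
      ← Matrix.mul_assoc, ← hV, smul_eq_mul]
    rfl
  constructor
  · intro h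
    obtain ⟨i, hi, j, hj, hne⟩ := hI {k} (Finset.singleton_nonempty k) (by
      intro h'
      have : l ∈ ({k} : Finset (Fin r)) := by rw [h']; exact Finset.mem_univ l
      exact hl (Finset.mem_singleton.1 this))
    apply hne
    rw [Finset.mem_singleton] at hi hj
    rw [hZ i j (by rw [hj]; exact hi), hj, h, dotProduct_zero, mul_zero]
  · intro h
    have hVk : V k = 0 := by
      have h2 : V k = Υ k + upS (Υ * Ξ) k ᵥ* V := by
        have := congrFun hVe k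
        exact this
      rw [h2, h, zero_add]
      have h3 : upS (Υ * Ξ) k = 0 := by
        funext j
        rw [upS_apply, Matrix.mul_apply]
        have h4 : ∀ a, Υ k a = 0 := fun a => congrFun h a
        simp only [h4, zero_mul, Finset.sum_const_zero, ite_self]
        rfl
      rw [h3, Matrix.zero_vecMul]
    obtain ⟨i, hi, j, hj, hne⟩ := hI (Finset.univ.erase k) ⟨l, Finset.mem_erase.2
      ⟨hl, Finset.mem_univ l⟩⟩ (fun h' => by
        have : k ∈ Finset.univ.erase k := by rw [h']; exact Finset.mem_univ k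
        exact (Finset.mem_erase.1 this).1 rfl)
    apply hne
    have hik : i = k := by
      by_contra hne'
      exact hi (Finset.mem_erase.2 ⟨hne', Finset.mem_univ i⟩)
    rw [hZ i j (fun h' => (Finset.mem_erase.1 hj).1 (h' ▸ hik)), hik, hVk, zero_dotProduct,
      mul_zero]

end Vale.Agent.P002R
end
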