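import Mathlib
import Vale.Agent.P002.Bd3.B1
import Vale.Agent.P002.Bd3.B3
import Vale.Agent.P002.Bd3.B2

set_option linter.all false

@[reducible] def Vale.Agent.P002Fast.coeU7 {M : Type*} [Monoid M] (u : Mˣ) : CoeT Mˣ u M := ⟨Units.val u⟩
attribute [local instance] Vale.Agent.P002Fast.coeU7

section

namespace Vale.Agent.P002R

open Matrix

variable {r : ℕ}

/-! ### Sequences of powers -/

/-- If all power sums vanish then all sums with weights factoring through the values vanish. -/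
theorem interp_zero {S : Type*} [Fintype S] (v w c : S → ℂ) (h : ∀ s s', v s = v s' → w s = w s')
    (hc : ∀ k : ℕ, ∑ s, c s * v s ^ k = 0) : ∑ s, c s * w s = 0 := by
  classical
  have hpoly : ∀ p : Polynomial ℂ, ∑ s, c s * p.eval (v s) = 0 := by
    intro p
    induction p using Polynomial.induction_on' with
    | add p q hp hq =>
      simp only [Polynomial.eval_add, mul_add, Finset.sum_add_distrib, hp, hq, add_zero]
    | monomial k a =>
      simp only [Polynomial.eval_monomial]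
      have : ∀ s, c s * (a * v s ^ k) = a * (c s * v s ^ k) := fun s => by ring
      simp only [this]
      rw [← Finset.mul_sum, hc, mul_zero]
  -- interpolation
  let T : Finset ℂ := Finset.univ.image v
  let W : ℂ → ℂ := fun x => if hx : ∃ s, v s = x then w hx.choose else 0
  have hW : ∀ s, W (v s) = w s := by
    intro s
    have hx : ∃ s', v s' = v s := ⟨s, rfl⟩
    simp only [W, dif_pos hx]
    exact h _ _ hx.choose_spec
  let p : Polynomial ℂ := Lagrange.interpolate T id W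
  have hp : ∀ s, p.eval (v s) = w s := by
    intro s
    have hs : v s ∈ T := Finset.mem_image_of_mem _ (Finset.mem_univ _)
    have h1 := Lagrange.eval_interpolate_at_node (s := T) (v := id) W
      (Function.injective_id.injOn) hs
    rw [← hW s]
    exact h1
  have := hpoly p
  simpa only [hp] using this

/-- Linear independence of the sequences `α ^ k` and `k α ^ k`. -/
theorem confluent_zero {S : Type*} [Fintype S] [DecidableEq S] (α c e : S → ℂ)
    (hα : Function.Injective α) (h0 : ∀ s, α s ≠ 0)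
    (h : ∀ k : ℕ, ∑ s, (c s * α s ^ k + e s * (k * α s ^ k)) = 0) : ∀ s, e s = 0 := by
  have hpoly : ∀ p : Polynomial ℂ,
      ∑ s, (c s * p.eval (α s) + e s * (α s * p.derivative.eval (α s))) = 0 := by
    intro p
    induction p using Polynomial.induction_on' with
    | add p q hp hq =>
      have : ∀ s, c s * (p + q).eval (α s) + e s * (α s * (p + q).derivative.eval (α s)) =
          (c s * p.eval (α s) + e s * (α s * p.derivative.eval (α s))) +
          (c s * q.eval (α s) + e s * (α s * q.derivative.eval (α s))) := by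
        intro s
        simp only [Polynomial.derivative_add, Polynomial.eval_add]
        ring
      simp only [this, Finset.sum_add_distrib, hp, hq, add_zero]
    | monomial k a =>
      have : ∀ s, c s * (Polynomial.monomial k a).eval (α s) +
          e s * (α s * (Polynomial.monomial k a).derivative.eval (α s)) =
          a * (c s * α s ^ k + e s * (k * α s ^ k)) := by
        intro s
        simp only [Polynomial.derivative_monomial, Polynomial.eval_monomial]
        rcases k with _ | k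
        · simp; ring
        · simp only [Nat.add_sub_cancel, pow_succ]
          ring
      simp only [this, ← Finset.mul_sum, h, mul_zero]
  intro s
  let p : Polynomial ℂ := (Polynomial.X - Polynomial.C (α s)) *
    (∏ i ∈ Finset.univ.erase s, (Polynomial.X - Polynomial.C (α i))) ^ 2
  have h1 := hpoly p
  have hval : ∀ i, p.eval (α i) = 0 := by
    intro i
    by_cases hi : i = s
    · subst hi; simp [p]
    · have : (∏ i ∈ Finset.univ.erase s, (Polynomial.X - Polynomial.C (α i))).eval (α i) = 0 := by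
        rw [Polynomial.eval_prod]
        apply Finset.prod_eq_zero (i := i)
        · simp [hi]
        · simp
      simp only [p, Polynomial.eval_mul, Polynomial.eval_pow, this]
      simp
  have hder : ∀ i, i ≠ s → p.derivative.eval (α i) = 0 := by
    intro i hi
    have : (∏ i ∈ Finset.univ.erase s, (Polynomial.X - Polynomial.C (α i))).eval (α i) = 0 := by
      rw [Polynomial.eval_prod]
      apply Finset.prod_eq_zero (i := i)
      · simp [hi]
      · simp
    simp only [p, Polynomial.derivative_mul, Polynomial.derivative_pow, Polynomial.eval_add,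
      Polynomial.eval_mul, Polynomial.eval_pow, this]
    simp
  have hders : p.derivative.eval (α s) =
      ((∏ i ∈ Finset.univ.erase s, (Polynomial.X - Polynomial.C (α i))).eval (α s)) ^ 2 := by
    simp only [p, Polynomial.derivative_mul, Polynomial.eval_add, Polynomial.eval_mul,
      Polynomial.eval_pow]
    simp
  rw [Finset.sum_eq_single s] at h1
  · rw [hval, hders, mul_zero, zero_add] at h1
    rcases mul_eq_zero.1 h1 with h2 | h2
    · exact h2
    · exfalso
      rcases mul_eq_zero.1 h2 with h3 | h3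
      · exact h0 s h3
      · have h4 := pow_eq_zero_iff (two_ne_zero) |>.1 h3
        rw [Polynomial.eval_prod, Finset.prod_eq_zero_iff] at h4
        obtain ⟨i, hi, h5⟩ := h4
        simp only [Polynomial.eval_sub, Polynomial.eval_X, Polynomial.eval_C, sub_eq_zero] at h5
        exact (Finset.ne_of_mem_erase hi) (hα h5).symm
  · intro i _ hi
    rw [hval, hder i hi]; ring
  · intro hs; exact absurd (Finset.mem_univ s) hs

/-! ### Cocycles -/

section cocycle

variable {L : Type*} (P : L → (Mat r ℂ)ˣ) (A : (Mat r ℂ)ˣ)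

/-- The inverse as a matrix. -/
noncomputable abbrev iv (x : (Mat r ℂ)ˣ) : Mat r ℂ := ((x⁻¹ : (Mat r ℂ)ˣ) : Mat r ℂ)

theorem wP_append (p p' : List L) : wP P (p ++ p') = wP P p * wP P p' := by
  induction p with
  | nil => simp [wP]
  | cons q p ih => rw [List.cons_append, wP, wP, ih, mul_assoc]

theorem theta_append (R : L → Mat r ℂ) (p p' : List L) :
    theta P R (p ++ p') = theta P R p + (wP P p : Mat r ℂ) * theta P R p' * iv (wP P p) := by
  induction p with
  | nil => simp [wP, theta, iv]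
  | cons q p ih =>
    rw [List.cons_append, theta, theta, ih, wP]
    simp only [iv, _root_.mul_inv_rev, Units.val_mul, mul_add, add_mul, mul_assoc, add_assoc]

theorem theta_sub (R R' : L → Mat r ℂ) (p : List L) :
    theta P (fun q => R q - R' q) p = theta P R p - theta P R' p := by
  induction p with
  | nil => simp [theta]
  | cons q p ih =>
    rw [theta, theta, theta, ih, mul_sub, sub_mul]
    abel

theorem theta_cob (w : Mat r ℂ) (p : List L) :
    theta P (fun q => w - (P q : Mat r ℂ) * w * iv (P q)) p =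
      w - (wP P p : Mat r ℂ) * w * iv (wP P p) := by
  induction p with
  | nil => simp [theta, wP, iv]
  | cons q p ih =>
    rw [theta, ih, wP]
    simp only [iv, _root_.mul_inv_rev, Units.val_mul, mul_sub, sub_mul, mul_assoc]
    abel

theorem trace_cob (w : Mat r ℂ) (T : (Mat r ℂ)ˣ) (k : ℕ) :
    trace ((iv A * w * (A : Mat r ℂ) - (T : Mat r ℂ) * w * iv T) *
      ((T * A : (Mat r ℂ)ˣ) : Mat r ℂ) ^ k) = 0 := by
  have h1 : ∀ k : ℕ, (A : Mat r ℂ) * ((T * A : (Mat r ℂ)ˣ) : Mat r ℂ) ^ k =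
      ((A * T : (Mat r ℂ)ˣ) : Mat r ℂ) ^ k * (A : Mat r ℂ) := by
    intro k
    induction k with
    | zero => simp
    | succ k ih =>
      rw [pow_succ, ← mul_assoc, ih, pow_succ]
      simp only [Units.val_mul, mul_assoc]
  have h2 : ∀ k : ℕ, ((T * A : (Mat r ℂ)ˣ) : Mat r ℂ) ^ k * (T : Mat r ℂ) =
      (T : Mat r ℂ) * ((A * T : (Mat r ℂ)ˣ) : Mat r ℂ) ^ k := by
    intro k
    induction k with
    | zero => simp
    | succ k ih =>
      rw [pow_succ', pow_succ', mul_assoc, ih]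
      simp only [Units.val_mul, mul_assoc]
  rw [sub_mul, trace_sub, mul_assoc (iv A * w), h1, mul_assoc ((T : Mat r ℂ) * w),
    mul_assoc (iv A), Matrix.trace_mul_comm (iv A), mul_assoc w,
    mul_assoc (((A * T : (Mat r ℂ)ˣ) : Mat r ℂ) ^ k)]
  have h3 : (A : Mat r ℂ) * iv A = 1 := A.mul_inv
  rw [← mul_assoc w (((A * T : (Mat r ℂ)ˣ) : Mat r ℂ) ^ k), h3, mul_one]
  rw [mul_assoc (T : Mat r ℂ) w, Matrix.trace_mul_comm (T : Mat r ℂ), mul_assoc w, mul_assoc (iv T),
    h2, ← mul_assoc (iv T)]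
  have h4 : iv T * (T : Mat r ℂ) = 1 := T.inv_mul
  rw [h4, one_mul, sub_self]

end cocycle

theorem trace1 (X : Mat r ℂ) (d : Fin r → ℂ) : trace (X * diagonal d) = ∑ i, X i i * d i := by
  simp [trace, mul_diagonal]

end Vale.Agent.P002R
end

section

/-!
# The dual lemma for block data, part A: reduction to one matrix `μ`
-/

namespace Vale.Agent.P002R

open Matrix

variable {r : ℕ}

/-- The dual property. -/
def DualProp {L : Type*} (P : L → (Mat r ℂ)ˣ) (A : (Mat r ℂ)ˣ) : Prop :=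
  ∀ (R : L → Mat r ℂ) (Q : Mat r ℂ),
    (∀ p : List L, ∀ k : ℕ, 1 ≤ k →
      trace ((Q + theta P R p) * ((wP P p * A : (Mat r ℂ)ˣ) : Mat r ℂ) ^ k) = 0) →
    ∃ η : Mat r ℂ, (∀ q, R q = η - (P q : Mat r ℂ) * η * (((P q)⁻¹ : (Mat r ℂ)ˣ) : Mat r ℂ)) ∧
      Q = ((A⁻¹ : (Mat r ℂ)ˣ) : Mat r ℂ) * η * (A : Mat r ℂ) - η

/-- The functional of degree `k + 1` in `X`. -/
def Phi {S : Type*} [CommRing S] (k : ℕ) (μ A X : Mat r S) : S :=
  trace ((μ ⊙ X) * A * (X * A) ^ k) - trace ((μᵀ ⊙ A) * X * (A * X) ^ k)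

/-- The conditions on `μ`. -/
def MuOK {L : Type*} (P : L → (Mat r ℂ)ˣ) (A μ : Mat r ℂ) : Prop :=
  (∀ (p p' : List L) (i j k : Fin r), (wP P p : Mat r ℂ) i j ≠ 0 → (wP P p' : Mat r ℂ) j k ≠ 0 →
    μ i k = μ i j + μ j k) ∧ ∀ (p : List L) (k : ℕ), Phi k μ A (wP P p : Mat r ℂ) = 0

theorem single_interp {α : Fin r → ℂ} (hα : Function.Injective α) (c : Fin r → ℂ)
    (h : ∀ n : ℕ, ∑ i, c i * α i ^ n = 0) (i : Fin r) : c i = 0 := by
  classical
  have h1 := interp_zero α (fun s => if s = i then (1 : ℂ) else 0) c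
    (fun s s' hs => by rw [hα hs]) h
  simpa using h1

theorem double_interp {α : Fin r → ℂ} (hα : Function.Injective α) (M : Fin r → Fin r → ℂ)
    (h : ∀ n n' : ℕ, ∑ i, ∑ j, M i j * α i ^ n * α j ^ n' = 0) (i j : Fin r) : M i j = 0 := by
  have h1 : ∀ n j, ∑ i, M i j * α i ^ n = 0 := by
    intro n j
    apply single_interp hα (fun j => ∑ i, M i j * α i ^ n)
    intro n'
    rw [← h n n', Finset.sum_comm]
    refine Finset.sum_congr rfl fun j _ => ?_
    rw [Finset.sum_mul]
  exact single_interp hα (fun i => M i j) (fun n => h1 n j) i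

theorem trace_diag_mul (M X : Mat r ℂ) (a b : Fin r → ℂ) :
    trace (M * (diagonal a * X * diagonal b)) = ∑ i, ∑ j, M j i * X i j * a i * b j := by
  simp only [trace, Matrix.diag_apply]
  have h : ∀ j, (M * (diagonal a * X * diagonal b)) j j = ∑ i, M j i * X i j * a i * b j := by
    intro j
    rw [mul_apply]
    refine Finset.sum_congr rfl fun i _ => ?_
    rw [mul_diagonal, diagonal_mul]
    ring
  simp only [h]
  rw [Finset.sum_comm]

section

variable {L : Type*} (P : L → (Mat r ℂ)ˣ) (A : (Mat r ℂ)ˣ)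

/-- The derivation of a word. -/
noncomputable def dW (R : L → Mat r ℂ) (p : List L) : Mat r ℂ := theta P R p * (wP P p : Mat r ℂ)

theorem dW_append (R : L → Mat r ℂ) (p p' : List L) :
    dW P R (p ++ p') = dW P R p * (wP P p' : Mat r ℂ) + (wP P p : Mat r ℂ) * dW P R p' := by
  unfold dW
  rw [theta_append, wP_append, Units.val_mul, add_mul]
  have h : iv (wP P p) * (wP P p : Mat r ℂ) = 1 := (wP P p).inv_mul
  congr 1
  · simp only [mul_assoc]
  · calc _ = (wP P p : Mat r ℂ) * theta P R p' * (iv (wP P p) * (wP P p : Mat r ℂ)) *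
          (wP P p' : Mat r ℂ) := by simp only [mul_assoc]
      _ = _ := by rw [h, mul_one]; simp only [mul_assoc]

theorem wP_replicate (q₀ : L) (α : Fin r → ℂ) (hq₀ : (P q₀ : Mat r ℂ) = diagonal α) (k : ℕ) :
    (wP P (List.replicate k q₀) : Mat r ℂ) = diagonal fun i => α i ^ k := by
  induction k with
  | zero => simp [wP]
  | succ k ih =>
    rw [List.replicate_succ, wP, Units.val_mul, ih, hq₀, diagonal_mul_diagonal]
    congr 1
    funext i
    rw [pow_succ']

theorem alpha_ne_zero (q₀ : L) (α : Fin r → ℂ) (hq₀ : (P q₀ : Mat r ℂ) = diagonal α)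
    (i : Fin r) : α i ≠ 0 := by
  intro h
  have h1 : IsUnit (P q₀ : Mat r ℂ) := (P q₀).isUnit
  rw [hq₀, Matrix.isUnit_iff_isUnit_det, det_diagonal, isUnit_iff_ne_zero] at h1
  exact h1 (Finset.prod_eq_zero (Finset.mem_univ i) h)

/-- First gauge: make the cocycle zero at `q₀`. -/
theorem gauge_q₀ (R : L → Mat r ℂ) (Q : Mat r ℂ) (q₀ : L) (α : Fin r → ℂ)
    (hinj : Function.Injective α) (hq₀ : (P q₀ : Mat r ℂ) = diagonal α)
    (hA : ∀ i j, (A : Mat r ℂ) i j ≠ 0)
    (H : ∀ p : List L, ∀ k : ℕ, 1 ≤ k →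
      trace ((Q + theta P R p) * ((wP P p * A : (Mat r ℂ)ˣ) : Mat r ℂ) ^ k) = 0) :
    ∃ w : Mat r ℂ,
      (R q₀ - (w - (P q₀ : Mat r ℂ) * w * iv (P q₀)) = 0) ∧
      ∀ p : List L, ∀ k : ℕ, 1 ≤ k →
      trace (((Q - (iv A * w * (A : Mat r ℂ) - w)) +
        theta P (fun q => R q - (w - (P q : Mat r ℂ) * w * iv (P q))) p) *
        ((wP P p * A : (Mat r ℂ)ˣ) : Mat r ℂ) ^ k) = 0 := by
  classical
  have h0 := alpha_ne_zero P q₀ α hq₀
  have hsub : ∀ (R : L → Mat r ℂ) (Q w : Mat r ℂ), (∀ p : List L, ∀ k : ℕ, 1 ≤ k →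
      trace ((Q + theta P R p) * ((wP P p * A : (Mat r ℂ)ˣ) : Mat r ℂ) ^ k) = 0) →
      ∀ p : List L, ∀ k : ℕ, 1 ≤ k →
      trace (((Q - (iv A * w * (A : Mat r ℂ) - w)) +
        theta P (fun q => R q - (w - (P q : Mat r ℂ) * w * iv (P q))) p) *
        ((wP P p * A : (Mat r ℂ)ˣ) : Mat r ℂ) ^ k) = 0 := by
    intro R Q w h p k h1
    rw [theta_sub, theta_cob]
    have e : Q - (iv A * w * (A : Mat r ℂ) - w) + (theta P R p -
        (w - (wP P p : Mat r ℂ) * w * iv (wP P p))) = (Q + theta P R p) -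
        (iv A * w * (A : Mat r ℂ) - (wP P p : Mat r ℂ) * w * iv (wP P p)) := by abel
    rw [e, sub_mul, trace_sub, h p k h1, trace_cob, sub_self]
  have hiv : iv (P q₀) = diagonal fun i => (α i)⁻¹ := by
    have h1 : (P q₀ : Mat r ℂ) * (diagonal fun i => (α i)⁻¹) = 1 := by
      rw [hq₀, diagonal_mul_diagonal]
      have : (fun i => α i * (α i)⁻¹) = fun _ => (1 : ℂ) := by
        funext i; exact mul_inv_cancel₀ (h0 i)
      rw [this, diagonal_one]
    have h2 : iv (P q₀) * (P q₀ : Mat r ℂ) = 1 := (P q₀).inv_mul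
    calc iv (P q₀) = iv (P q₀) * ((P q₀ : Mat r ℂ) * (diagonal fun i => (α i)⁻¹)) := by
          rw [h1, mul_one]
      _ = diagonal fun i => (α i)⁻¹ := by rw [← mul_assoc, h2, one_mul]
  have hwP := wP_replicate P q₀ α hq₀
  obtain ⟨w, hw⟩ : ∃ w : Mat r ℂ, w = Matrix.of fun i j =>
    if i = j then 0 else R q₀ i j / (1 - α i * (α j)⁻¹) := ⟨_, rfl⟩
  obtain ⟨R1, hR1⟩ : ∃ R1 : L → Mat r ℂ, R1 = fun q => R q - (w - (P q : Mat r ℂ) * w * iv (P q)) :=
    ⟨_, rfl⟩
  obtain ⟨Q1, hQ1⟩ : ∃ Q1 : Mat r ℂ, Q1 = Q - (iv A * w * (A : Mat r ℂ) - w) := ⟨_, rfl⟩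
  have H1 := hsub R Q w H
  refine ⟨w, ?_, H1⟩
  rw [← hR1, ← hQ1] at H1
  have hR1d : R1 q₀ = diagonal fun i => R q₀ i i := by
    rw [hR1]
    simp only
    rw [hiv, hq₀]
    ext i j
    simp only [Matrix.sub_apply, mul_diagonal, diagonal_mul, hw, Matrix.of_apply]
    by_cases hij : i = j
    · subst hij; simp
    · have hne : 1 - α i * (α j)⁻¹ ≠ 0 := by
        intro h
        apply hij
        apply hinj
        have h1 := h0 j
        field_simp at h
        linear_combination -h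
      simp only [hij, if_false, diagonal_apply_ne _ hij]
      have hq := div_mul_cancel₀ (R q₀ i j) hne
      linear_combination -hq
  have hth : ∀ k : ℕ, theta P R1 (List.replicate k q₀) =
      (k : ℂ) • diagonal fun i => R q₀ i i := by
    intro k
    induction k with
    | zero => simp [theta]
    | succ k ih =>
      rw [List.replicate_succ, theta, ih, hR1d]
      change _ + (P q₀ : Mat r ℂ) * _ * iv (P q₀) = _
      rw [hiv, hq₀]
      ext i j
      by_cases hij : i = j
      · subst hij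
        simp only [Matrix.add_apply, mul_diagonal, diagonal_mul, Matrix.smul_apply,
          diagonal_apply_eq, smul_eq_mul]
        have := h0 i
        push_cast
        field_simp
        ring
      · simp [hij]
  have hρ : ∀ i, R q₀ i i = 0 := by
    have h1 := confluent_zero α (fun i => ((A : Mat r ℂ) * Q1) i i)
      (fun i => R q₀ i i * (A : Mat r ℂ) i i) hinj h0 (by
        intro k
        have h2 := H1 (List.replicate k q₀) 1 le_rfl
        rw [pow_one, hth, Units.val_mul, hwP, add_mul, trace_add] at h2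
        rw [← mul_assoc Q1, Matrix.trace_mul_comm (Q1 * _), ← mul_assoc, trace1,
          Matrix.smul_mul, trace_smul, ← mul_assoc, diagonal_mul_diagonal,
          Matrix.trace_mul_comm (diagonal _), trace1, smul_eq_mul, Finset.mul_sum,
          ← Finset.sum_add_distrib] at h2
        rw [← h2]
        apply Finset.sum_congr rfl
        intro i _
        ring)
    intro i
    rcases mul_eq_zero.1 (h1 i) with h2 | h2
    · exact h2
    · exact absurd h2 (hA i i)
  have : R1 q₀ = 0 := by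
    rw [hR1d]
    simp [hρ]
  rw [hR1] at this
  exact this

theorem pow_shift (X A : Mat r ℂ) (k : ℕ) : (A * X) ^ k * A = A * (X * A) ^ k := by
  induction k with
  | zero => simp
  | succ k ih => rw [pow_succ', mul_assoc, ih, pow_succ']; simp only [mul_assoc]

/-- The conditions in terms of `μ`. -/
theorem exists_mu (R : L → Mat r ℂ) (Q : Mat r ℂ) (q₀ : L) (α : Fin r → ℂ)
    (hinj : Function.Injective α) (hq₀ : (P q₀ : Mat r ℂ) = diagonal α)
    (hA : ∀ i j, (A : Mat r ℂ) i j ≠ 0) (hR : R q₀ = 0)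
    (H : ∀ p : List L, ∀ k : ℕ, 1 ≤ k →
      trace ((Q + theta P R p) * ((wP P p * A : (Mat r ℂ)ˣ) : Mat r ℂ) ^ k) = 0) :
    ∃ μ : Mat r ℂ, MuOK P (A : Mat r ℂ) μ ∧ (∀ p, dW P R p = μ ⊙ (wP P p : Mat r ℂ)) ∧
      (A : Mat r ℂ) * Q = -(μᵀ ⊙ (A : Mat r ℂ)) := by
  have hth : ∀ k : ℕ, dW P R (List.replicate k q₀) = 0 := by
    intro k
    unfold dW
    have : theta P R (List.replicate k q₀) = 0 := by
      induction k with
      | zero => simp [theta]
      | succ k ih => rw [List.replicate_succ, theta, ih, hR]; simp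
    rw [this, zero_mul]
  have hwP := wP_replicate P q₀ α hq₀
  -- the conditions in terms of `dW`
  have H' : ∀ (p : List L) (k : ℕ), trace ((A : Mat r ℂ) * Q * (wP P p : Mat r ℂ) *
      ((A : Mat r ℂ) * (wP P p : Mat r ℂ)) ^ k) +
      trace (dW P R p * (A : Mat r ℂ) * ((wP P p : Mat r ℂ) * (A : Mat r ℂ)) ^ k) = 0 := by
    intro p k
    have h1 := H p (k + 1) (by omega)
    rw [add_mul, trace_add, Units.val_mul, pow_succ'] at h1
    rw [← h1]
    congr 1
    · calc trace ((A : Mat r ℂ) * Q * (wP P p : Mat r ℂ) *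
            ((A : Mat r ℂ) * (wP P p : Mat r ℂ)) ^ k) =
            trace ((A : Mat r ℂ) * (Q * (wP P p : Mat r ℂ) *
            ((A : Mat r ℂ) * (wP P p : Mat r ℂ)) ^ k)) := by simp only [mul_assoc]
        _ = trace (Q * (wP P p : Mat r ℂ) *
            (((A : Mat r ℂ) * (wP P p : Mat r ℂ)) ^ k * (A : Mat r ℂ))) := by
            rw [Matrix.trace_mul_comm]; simp only [mul_assoc]
        _ = _ := by rw [pow_shift]; simp only [mul_assoc]
    · unfold dW
      simp only [mul_assoc]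
  -- first identity
  have K1 : ∀ (p : List L) (i j : Fin r), ((A : Mat r ℂ) * Q) j i * (wP P p : Mat r ℂ) i j +
      dW P R p i j * (A : Mat r ℂ) j i = 0 := by
    intro p
    apply double_interp hinj (fun i j => ((A : Mat r ℂ) * Q) j i * (wP P p : Mat r ℂ) i j +
      dW P R p i j * (A : Mat r ℂ) j i)
    intro n n'
    have h1 := H' (List.replicate n q₀ ++ (p ++ List.replicate n' q₀)) 0
    rw [pow_zero, pow_zero, mul_one, mul_one, dW_append, dW_append, hth, hth, zero_mul, mul_zero,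
      zero_add, add_zero, wP_append, wP_append, Units.val_mul, Units.val_mul, hwP, hwP] at h1
    rw [← mul_assoc (diagonal _) (wP P p : Mat r ℂ), trace_diag_mul] at h1
    have h2 : trace ((diagonal fun i => α i ^ n) * (dW P R p * diagonal fun i => α i ^ n') *
        (A : Mat r ℂ)) = ∑ i, ∑ j, (A : Mat r ℂ) j i * dW P R p i j * α i ^ n * α j ^ n' := by
      rw [Matrix.trace_mul_comm, ← mul_assoc (diagonal _) (dW P R p), trace_diag_mul]
    rw [h2, ← Finset.sum_add_distrib] at h1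
    rw [← h1]
    refine Finset.sum_congr rfl fun i _ => ?_
    rw [← Finset.sum_add_distrib]
    refine Finset.sum_congr rfl fun j _ => ?_
    ring
  obtain ⟨μ, hμ⟩ : ∃ μ : Mat r ℂ, μ = Matrix.of fun i j =>
    -(((A : Mat r ℂ) * Q) j i / (A : Mat r ℂ) j i) := ⟨_, rfl⟩
  have hN : (A : Mat r ℂ) * Q = -(μᵀ ⊙ (A : Mat r ℂ)) := by
    ext j i
    rw [Matrix.neg_apply, Matrix.hadamard_apply, Matrix.transpose_apply, hμ, Matrix.of_apply]
    have := hA j i
    field_simp
  have hD : ∀ p, dW P R p = μ ⊙ (wP P p : Mat r ℂ) := by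
    intro p
    ext i j
    have h1 := K1 p i j
    rw [Matrix.hadamard_apply, hμ, Matrix.of_apply]
    have h2 := hA j i
    field_simp
    linear_combination h1
  refine ⟨μ, ⟨?_, ?_⟩, hD, hN⟩
  · intro p p' i j k h1 h2
    have h3 := single_interp hinj (fun j => (μ i k - μ i j - μ j k) *
      ((wP P p : Mat r ℂ) i j * (wP P p' : Mat r ℂ) j k)) (by
        intro n
        have h4 := hD (p ++ (List.replicate n q₀ ++ p'))
        rw [dW_append, dW_append, hth, zero_mul, zero_add, hD, hD] at h4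
        simp only [wP_append, Units.val_mul, hwP] at h4
        have h5 := congrFun (congrFun h4 i) k
        rw [Matrix.add_apply, Matrix.hadamard_apply, Matrix.mul_apply, Matrix.mul_apply,
          Matrix.mul_apply, Finset.mul_sum, ← Finset.sum_add_distrib] at h5
        rw [← sub_eq_zero, ← Finset.sum_sub_distrib] at h5
        rw [← neg_eq_zero, ← Finset.sum_neg_distrib, ← h5]
        refine Finset.sum_congr rfl fun j _ => ?_
        simp only [Matrix.hadamard_apply, Matrix.diagonal_mul]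
        ring) j
    rcases mul_eq_zero.1 h3 with h | h
    · linear_combination h
    · exact absurd h (mul_ne_zero h1 h2)
  · intro p k
    have h1 := H' p k
    rw [hN, hD] at h1
    unfold Phi
    rw [Matrix.neg_mul, Matrix.neg_mul, trace_neg] at h1
    linear_combination h1

/-- Reduction of the dual property to `μ`. -/
theorem dual_of_mu (q₀ : L) (α : Fin r → ℂ)
    (hinj : Function.Injective α) (hq₀ : (P q₀ : Mat r ℂ) = diagonal α)
    (hA : ∀ i j, (A : Mat r ℂ) i j ≠ 0)
    (hμ : ∀ μ : Mat r ℂ, MuOK P (A : Mat r ℂ) μ →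
      ∃ η : Fin r → ℂ, ∀ i j, μ i j = η i - η j) : DualProp P A := by
  intro R Q H
  obtain ⟨w, hw, H1⟩ := gauge_q₀ P A R Q q₀ α hinj hq₀ hA H
  obtain ⟨R1, hR1⟩ : ∃ R1 : L → Mat r ℂ, R1 = fun q => R q - (w - (P q : Mat r ℂ) * w * iv (P q)) :=
    ⟨_, rfl⟩
  obtain ⟨Q1, hQ1⟩ : ∃ Q1 : Mat r ℂ, Q1 = Q - (iv A * w * (A : Mat r ℂ) - w) := ⟨_, rfl⟩
  rw [← hR1, ← hQ1] at H1
  have hR10 : R1 q₀ = 0 := by rw [hR1]; exact hw
  obtain ⟨μ, hOK, hD, hN⟩ := exists_mu P A R1 Q1 q₀ α hinj hq₀ hA hR10 H1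
  obtain ⟨θ, hθ⟩ := hμ μ hOK
  have hcob : ∀ X : Mat r ℂ, μ ⊙ X = diagonal θ * X - X * diagonal θ := by
    intro X
    ext i j
    rw [Matrix.hadamard_apply, Matrix.sub_apply, Matrix.diagonal_mul, Matrix.mul_diagonal, hθ]
    ring
  have hcobt : ∀ X : Mat r ℂ, -(μᵀ ⊙ X) = diagonal θ * X - X * diagonal θ := by
    intro X
    ext i j
    rw [Matrix.neg_apply, Matrix.hadamard_apply, Matrix.transpose_apply, Matrix.sub_apply,
      Matrix.diagonal_mul, Matrix.mul_diagonal, hθ]
    ring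
  have hR1q : ∀ q, R1 q = diagonal θ - (P q : Mat r ℂ) * diagonal θ * iv (P q) := by
    intro q
    have h1 := hD [q]
    have e1 : theta P R1 [q] = R1 q := by simp [theta]
    have e2 : wP P [q] = P q := by simp [wP]
    rw [dW, e1, e2, hcob] at h1
    have h2 : (P q : Mat r ℂ) * iv (P q) = 1 := (P q).mul_inv
    calc R1 q = R1 q * (P q : Mat r ℂ) * iv (P q) := by rw [mul_assoc, h2, mul_one]
      _ = _ := by rw [h1, sub_mul, mul_assoc, h2, mul_one]
  have hAi : iv A * (A : Mat r ℂ) = 1 := A.inv_mul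
  have hQ1q : Q1 = iv A * diagonal θ * (A : Mat r ℂ) - diagonal θ := by
    calc Q1 = iv A * ((A : Mat r ℂ) * Q1) := by rw [← mul_assoc, hAi, one_mul]
      _ = _ := by rw [hN, hcobt, mul_sub, ← mul_assoc, ← mul_assoc, hAi, one_mul]
  refine ⟨w + diagonal θ, ?_, ?_⟩
  · intro q
    have h1 := hR1q q
    rw [hR1] at h1
    simp only at h1
    rw [sub_eq_iff_eq_add] at h1
    rw [h1, mul_add, add_mul]
    abel
  · rw [hQ1, sub_eq_iff_eq_add] at hQ1q
    rw [hQ1q, mul_add, add_mul]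
    abel

end

end Vale.Agent.P002R
end

section

/-!
# P002 TASK M: from scaled representations to representations into `SL_r`
-/

namespace Vale.Agent.P002

open Matrix

variable {g r : ℕ}

/-- Fourier inversion over a product of groups of `r`-th roots of unity. -/
theorem fourier_inversion {G M : Type*} [Fintype G] [DecidableEq G] {z : ℂ}
    (hz : IsPrimitiveRoot z r) (hr : 0 < r) (s : Finset M) (a : M → G → ℕ) (T : M → ℂ)
    (h : ∀ e : G → ℕ, ∑ m ∈ s, (∏ k, (z ^ e k) ^ a m k) * T m = 0) (δ : G → ℕ) :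
    ∑ m ∈ s with (fun k => z ^ a m k) = (fun k => z ^ δ k), T m = 0 := by
  classical
  have hz0 : z ≠ 0 := hz.ne_zero hr.ne'
  have hsum : ∀ m ∈ s, ∏ k, ∑ j : Fin r, ((z ^ δ k)⁻¹ * z ^ a m k) ^ (j : ℕ) =
      if (fun k => z ^ a m k) = (fun k => z ^ δ k) then (r : ℂ) ^ Fintype.card G else 0 := by
    intro m _
    split_ifs with hm
    · have : ∀ k, ∑ j : Fin r, ((z ^ δ k)⁻¹ * z ^ a m k) ^ (j : ℕ) = (r : ℂ) := by
        intro k
        have h1 : z ^ a m k = z ^ δ k := congrFun hm k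
        rw [h1, inv_mul_cancel₀ (pow_ne_zero _ hz0)]
        simp
      rw [Finset.prod_congr rfl fun k _ => this k, Finset.prod_const, Finset.card_univ]
    · obtain ⟨k, hk⟩ : ∃ k, z ^ a m k ≠ z ^ δ k := by
        by_contra hcon
        push Not at hcon
        exact hm (funext hcon)
      refine Finset.prod_eq_zero (Finset.mem_univ k) ?_
      rw [Fin.sum_univ_eq_sum_range (fun j => ((z ^ δ k)⁻¹ * z ^ a m k) ^ j) r]
      have hu : (z ^ δ k)⁻¹ * z ^ a m k ≠ 1 := by
        intro h1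
        apply hk
        rw [inv_mul_eq_one₀ (pow_ne_zero _ hz0)] at h1
        exact h1.symm
      have hur : ((z ^ δ k)⁻¹ * z ^ a m k) ^ r = 1 := by
        rw [mul_pow, inv_pow, ← pow_mul, ← pow_mul, mul_comm (δ k), mul_comm (a m k), pow_mul,
          pow_mul, hz.pow_eq_one, one_pow, one_pow, inv_one, one_mul]
      rw [geom_sum_eq hu, hur, sub_self, zero_div]
  have h1 : ∑ e : G → Fin r, (∏ k, ((z ^ δ k)⁻¹) ^ (e k : ℕ)) *
      ∑ m ∈ s, (∏ k, (z ^ (e k : ℕ)) ^ a m k) * T m = 0 :=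
    Finset.sum_eq_zero fun e _ => by rw [h fun k => (e k : ℕ), mul_zero]
  have h2 : ∑ e : G → Fin r, (∏ k, ((z ^ δ k)⁻¹) ^ (e k : ℕ)) *
      ∑ m ∈ s, (∏ k, (z ^ (e k : ℕ)) ^ a m k) * T m =
      ∑ m ∈ s, (∏ k, ∑ j : Fin r, ((z ^ δ k)⁻¹ * z ^ a m k) ^ (j : ℕ)) * T m := by
    simp only [Finset.mul_sum]
    rw [Finset.sum_comm]
    refine Finset.sum_congr rfl fun m _ => ?_
    rw [Fintype.prod_sum, Finset.sum_mul]
    refine Finset.sum_congr rfl fun e _ => ?_
    rw [← mul_assoc, ← Finset.prod_mul_distrib]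
    congr 1
    refine Finset.prod_congr rfl fun k _ => ?_
    rw [mul_pow, ← pow_mul, ← pow_mul, mul_comm (e k : ℕ)]
  rw [h2, Finset.sum_congr rfl fun m hm => by rw [hsum m hm]] at h1
  simp only [ite_mul, zero_mul] at h1
  rw [← Finset.sum_filter, ← Finset.mul_sum] at h1
  have h3 : (r : ℂ) ^ Fintype.card G ≠ 0 := pow_ne_zero _ (Nat.cast_ne_zero.2 hr.ne')
  exact (mul_eq_zero.1 h1).resolve_left h3

end Vale.Agent.P002
end

section

/-!
# P002R TASK M: from scaled representations to representations into `SL_r` (relative version)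
-/

namespace Vale.Agent.P002R

open Matrix

variable {g n r : ℕ}

end Vale.Agent.P002R
end

section

/-!
# The dual lemma for block data, part B: block scalars and block diagonal parts
-/

namespace Vale.Agent.P002R

open Matrix

variable {r : ℕ}

/-! ### Homogeneous matrices -/

/-- All entries are homogeneous of degree `d`. -/
def HomM (d : ℕ) (X : Mat r (MvPolynomial (Fin r) ℂ)) : Prop := ∀ i j, (X i j).IsHomogeneous d

theorem HomM.mul {d e : ℕ} {X Y : Mat r (MvPolynomial (Fin r) ℂ)} (hX : HomM d X)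
    (hY : HomM e Y) : HomM (d + e) (X * Y) := by
  intro i j
  rw [Matrix.mul_apply]
  exact MvPolynomial.IsHomogeneous.sum _ _ _ fun k _ => (hX i k).mul (hY k j)

theorem HomM.pow {d : ℕ} {X : Mat r (MvPolynomial (Fin r) ℂ)} (hX : HomM d X) (k : ℕ) :
    HomM (d * k) (X ^ k) := by
  induction k with
  | zero =>
    rw [pow_zero, mul_zero]
    intro i j
    rw [Matrix.one_apply]
    split_ifs
    · exact MvPolynomial.isHomogeneous_one _ _
    · exact MvPolynomial.isHomogeneous_zero _ _ _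
  | succ k ih =>
    rw [pow_succ, mul_add, mul_one]
    exact ih.mul hX

theorem HomM.const (X : Mat r ℂ) : HomM 0 (X.map (MvPolynomial.C (σ := Fin r))) := by
  intro i j
  rw [Matrix.map_apply]
  exact MvPolynomial.isHomogeneous_C _ _

theorem HomM.hadamard {d : ℕ} (μ : Mat r ℂ) {X : Mat r (MvPolynomial (Fin r) ℂ)} (hX : HomM d X) :
    HomM d (μ.map (MvPolynomial.C (σ := Fin r)) ⊙ X) := by
  intro i j
  rw [Matrix.hadamard_apply, Matrix.map_apply]
  exact (hX i j).C_mul _

theorem HomM.trace {d : ℕ} {X : Mat r (MvPolynomial (Fin r) ℂ)} (hX : HomM d X) :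
    (Matrix.trace X).IsHomogeneous d :=
  MvPolynomial.IsHomogeneous.sum _ _ _ fun i _ => hX i i

/-- The generic block scalar. -/
noncomputable def genD (c : Fin r → Fin r) : Mat r (MvPolynomial (Fin r) ℂ) :=
  diagonal fun i => MvPolynomial.X (c i)

theorem HomM.genD (c : Fin r → Fin r) : HomM 1 (genD c) := by
  intro i j
  unfold P002R.genD
  by_cases h : i = j
  · subst h; rw [diagonal_apply_eq]; exact MvPolynomial.isHomogeneous_X _ _
  · rw [diagonal_apply_ne _ h]; exact MvPolynomial.isHomogeneous_zero _ _ _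

theorem Phi_map {S T : Type*} [CommRing S] [CommRing T] (f : S →+* T) (k : ℕ)
    (μ A X : Mat r S) : f (Phi k μ A X) = Phi k (μ.map f) (A.map f) (X.map f) := by
  have hh : ∀ U V : Mat r S, (U ⊙ V).map f = U.map f ⊙ V.map f := by
    intro U V
    ext i j
    simp
  have hp : ∀ (U : Mat r S) (k : ℕ), (U ^ k).map f = (U.map f) ^ k := fun U k =>
    map_pow (RingHom.mapMatrix f) U k
  have ht : ∀ U : Mat r S, f (trace U) = trace (U.map f) := by
    intro U
    simp [Matrix.trace, map_sum]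
  unfold Phi
  rw [map_sub, ht, ht, Matrix.map_mul, Matrix.map_mul, Matrix.map_mul, Matrix.map_mul, hh, hh, hp,
    hp, Matrix.map_mul, Matrix.map_mul, Matrix.transpose_map]

theorem Phi_homog (k : ℕ) (μ A : Mat r ℂ) {X : Mat r (MvPolynomial (Fin r) ℂ)}
    (hX : HomM 1 X) :
    (Phi k (μ.map (MvPolynomial.C (σ := Fin r))) (A.map (MvPolynomial.C (σ := Fin r))) X).IsHomogeneous
      (k + 1) := by
  unfold Phi
  apply MvPolynomial.IsHomogeneous.sub
  · have h := (((HomM.hadamard μ hX).mul (HomM.const A)).mul ((hX.mul (HomM.const A)).pow k)).trace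
    have e : 1 + 0 + (1 + 0) * k = k + 1 := by ring
    rwa [e] at h
  · have h := (((HomM.hadamard μᵀ (HomM.const A)).mul hX).mul (((HomM.const A).mul hX).pow k)).trace
    have e : 0 + 1 + (0 + 1) * k = k + 1 := by ring
    rw [e] at h
    rw [← Matrix.transpose_map]
    exact h

/-- The block diagonal part. -/
def blkD (c : Fin r → Fin r) (X : Mat r ℂ) : Mat r ℂ :=
  Matrix.of fun i j => if c i = c j then X i j else 0

theorem Phi_continuous (k : ℕ) (μ A : Mat r ℂ) {f : ℂ → Mat r ℂ} (hf : Continuous f) :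
    Continuous fun t => Phi k μ A (f t) := by
  unfold Phi
  have h1 : Continuous fun t => μ ⊙ f t := by
    apply continuous_matrix
    intro i j
    simp only [Matrix.hadamard_apply]
    exact continuous_const.mul (hf.matrix_elem i j)
  exact (((h1.matrix_mul continuous_const).matrix_mul
    ((hf.matrix_mul continuous_const).pow k)).matrix_trace).sub
    (((continuous_const.matrix_mul hf).matrix_mul
    ((continuous_const.matrix_mul hf).pow k)).matrix_trace)

section

variable {L : Type*} (P : L → (Mat r ℂ)ˣ)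

/-- Products of block triangular matrices are block triangular. -/
theorem wP_tri (c : Fin r → Fin r) (htri : ∀ q i j, c j < c i → (P q : Mat r ℂ) i j = 0)
    (p : List L) (i j : Fin r) (hij : c j < c i) : (wP P p : Mat r ℂ) i j = 0 := by
  induction p generalizing i j with
  | nil =>
    rw [wP, Units.val_one, Matrix.one_apply_ne]
    intro h
    rw [h] at hij
    exact lt_irrefl _ hij
  | cons q p ih =>
    rw [wP, Units.val_mul, Matrix.mul_apply]
    apply Finset.sum_eq_zero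
    intro l _
    rcases lt_or_ge (c l) (c i) with h | h
    · rw [htri q i l h, zero_mul]
    · rw [ih l j (lt_of_lt_of_le hij h), mul_zero]

end

end Vale.Agent.P002R
end

section

/-!
# The dual lemma for block data, part C: the limit `A = 1 + ε B`, `ε → 0`
-/

namespace Vale.Agent.P002R

open Matrix Filter Topology

variable {r : ℕ}

/-- Block diagonal matrices. -/
def BD (c : Fin r → Fin r) (X : Mat r ℂ) : Prop := ∀ i j, c i ≠ c j → X i j = 0

theorem BD.mul {c : Fin r → Fin r} {X Y : Mat r ℂ} (hX : BD c X) (hY : BD c Y) : BD c (X * Y) := by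
  intro i j hij
  rw [Matrix.mul_apply]
  apply Finset.sum_eq_zero
  intro l _
  by_cases h : c i = c l
  · rw [hY l j (fun h' => hij (h.trans h')), mul_zero]
  · rw [hX i l h, zero_mul]

theorem BD.pow {c : Fin r → Fin r} {X : Mat r ℂ} (hX : BD c X) (k : ℕ) : BD c (X ^ k) := by
  induction k with
  | zero =>
    intro i j hij
    rw [pow_zero, Matrix.one_apply_ne]
    intro h; exact hij (by rw [h])
  | succ k ih => rw [pow_succ]; exact ih.mul hX

theorem BD.blkD (c : Fin r → Fin r) (X : Mat r ℂ) : BD c (blkD c X) := by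
  intro i j hij
  rw [P002R.blkD, Matrix.of_apply, if_neg hij]

theorem BD.diagonal (c : Fin r → Fin r) (a : Fin r → ℂ) : BD c (diagonal a) := by
  intro i j hij
  exact diagonal_apply_ne _ (fun h => hij (by rw [h]))

theorem trace_mul_BD {c : Fin r → Fin r} {V X : Mat r ℂ} (hV : ∀ i j, c i = c j → V i j = 0)
    (hX : BD c X) : trace (V * X) = 0 := by
  rw [Matrix.trace]
  apply Finset.sum_eq_zero
  intro i _
  rw [Matrix.diag_apply, Matrix.mul_apply]
  apply Finset.sum_eq_zero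
  intro j _
  by_cases h : c i = c j
  · rw [hV i j h, zero_mul]
  · rw [hX j i (Ne.symm h), mul_zero]

theorem pow_expand (ε : ℂ) (B X : Mat r ℂ) (k : ℕ) : ((1 + ε • B) * X) ^ k =
    X ^ k + ε • ∑ l ∈ Finset.range k, ((1 + ε • B) * X) ^ l * (B * X ^ (k - l)) := by
  induction k with
  | zero => simp
  | succ k ih =>
    have h1 : (1 + ε • B) * X = X + ε • (B * X) := by
      rw [add_mul, one_mul, Matrix.smul_mul]
    rw [pow_succ]
    conv_lhs => rw [h1, mul_add]
    conv_lhs => rw [← h1]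
    rw [Finset.sum_range_succ, smul_add, ← add_assoc, Nat.add_sub_cancel_left, pow_one,
      Matrix.mul_smul]
    congr 1
    have h2 : ((1 + ε • B) * X) ^ k * X = X ^ (k + 1) +
        ε • ∑ l ∈ Finset.range k, ((1 + ε • B) * X) ^ l * (B * X ^ (k + 1 - l)) := by
      conv_lhs => rw [ih]
      rw [add_mul, ← pow_succ, Matrix.smul_mul, Finset.sum_mul]
      congr 2
      refine Finset.sum_congr rfl fun l hl => ?_
      have : k + 1 - l = (k - l) + 1 := by
        have := Finset.mem_range.1 hl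
        omega
      rw [this, pow_succ, mul_assoc, mul_assoc]
    exact h2

/-- The functional after division by `ε`. -/
def Gk (k : ℕ) (μ B : Mat r ℂ) (ε : ℂ) (X : Mat r ℂ) : ℂ :=
  ∑ l ∈ Finset.range k, trace ((μᵀ ⊙ B) * X * (((1 + ε • B) * X) ^ l * (B * X ^ (k - l))))

/-- The trilinear functional. -/
def Tri (μ B U₁ U₂ U₃ : Mat r ℂ) : ℂ := trace ((μᵀ ⊙ B) * U₁ * B * U₂ * B * U₃)

/-- The idempotent of a block. -/
def eb (c : Fin r → Fin r) (b : Fin r) : Mat r ℂ := diagonal fun i => if c i = b then 1 else 0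

theorem had_one_add {c : Fin r → Fin r} (μ B : Mat r ℂ) (ε : ℂ)
    (hμ : ∀ i j, c i = c j → μ i j = 0) : μᵀ ⊙ (1 + ε • B) = ε • (μᵀ ⊙ B) := by
  ext i j
  rw [Matrix.hadamard_apply, Matrix.smul_apply, Matrix.hadamard_apply, Matrix.add_apply,
    Matrix.smul_apply, smul_eq_mul, smul_eq_mul, Matrix.transpose_apply]
  by_cases h : i = j
  · subst h; rw [hμ i i rfl]; ring
  · rw [Matrix.one_apply_ne h]; ring

theorem had_BD {c : Fin r → Fin r} (μ X : Mat r ℂ) (hμ : ∀ i j, c i = c j → μ i j = 0)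
    (hX : BD c X) : μ ⊙ X = 0 := by
  ext i j
  rw [Matrix.hadamard_apply, Matrix.zero_apply]
  by_cases h : c i = c j
  · rw [hμ i j h, zero_mul]
  · rw [hX i j h, mul_zero]

theorem Phi_BD {c : Fin r → Fin r} (k : ℕ) (μ B X : Mat r ℂ) (ε : ℂ) (hε : ε ≠ 0)
    (hμ : ∀ i j, c i = c j → μ i j = 0) (hX : BD c X) (h : Phi k μ (1 + ε • B) X = 0) :
    trace ((μᵀ ⊙ B) * X * ((1 + ε • B) * X) ^ k) = 0 := by
  unfold Phi at h
  rw [had_BD μ X hμ hX, had_one_add μ B ε hμ, zero_mul, zero_mul, trace_zero, zero_sub,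
    neg_eq_zero, Matrix.smul_mul, Matrix.smul_mul, trace_smul, smul_eq_mul] at h
  exact (mul_eq_zero.1 h).resolve_left hε

theorem Gk_eq_zero {c : Fin r → Fin r} (k : ℕ) (μ B X : Mat r ℂ) (ε : ℂ) (hε : ε ≠ 0)
    (hμ : ∀ i j, c i = c j → μ i j = 0) (hX : BD c X) (h : Phi k μ (1 + ε • B) X = 0) :
    Gk k μ B ε X = 0 := by
  have h1 := Phi_BD k μ B X ε hε hμ hX h
  rw [pow_expand, mul_add, trace_add, mul_assoc, ← pow_succ',
    trace_mul_BD (c := c) (V := μᵀ ⊙ B) (fun i j hij => by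
      rw [Matrix.hadamard_apply, Matrix.transpose_apply, hμ j i hij.symm, zero_mul])
      (hX.pow (k + 1)), zero_add, Matrix.mul_smul, trace_smul, smul_eq_mul,
    Finset.mul_sum, trace_sum] at h1
  exact (mul_eq_zero.1 h1).resolve_left hε

theorem eb_mul_eb {c : Fin r → Fin r} {b b' : Fin r} (h : b ≠ b') : eb c b * eb c b' = 0 := by
  rw [eb, eb, diagonal_mul_diagonal, ← diagonal_zero]
  congr 1
  funext i
  by_cases h1 : c i = b
  · rw [if_pos h1, if_neg (fun h2 => h (h1.symm.trans h2)), mul_zero]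
  · rw [if_neg h1, zero_mul]

/-- Sum of the six terms. -/
def Six (μ B : Mat r ℂ) (c : Fin r → Fin r) (b₁ b₂ b₃ : Fin r) : ℂ :=
  Tri μ B (eb c b₁) (eb c b₂) (eb c b₃) + Tri μ B (eb c b₂) (eb c b₃) (eb c b₁) +
  Tri μ B (eb c b₃) (eb c b₁) (eb c b₂) + Tri μ B (eb c b₁) (eb c b₃) (eb c b₂) +
  Tri μ B (eb c b₃) (eb c b₂) (eb c b₁) + Tri μ B (eb c b₂) (eb c b₁) (eb c b₃)

theorem polarize {V A : Mat r ℂ} (e₁ e₂ e₃ : Mat r ℂ)
    (h : ∀ X ∈ ({e₁, e₂, e₃, e₁ + e₂, e₁ + e₃, e₂ + e₃, e₁ + e₂ + e₃} : Set (Mat r ℂ)),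
      trace (V * X * (A * X) ^ 2) = 0) :
    trace (V * e₁ * A * e₂ * A * e₃) + trace (V * e₂ * A * e₃ * A * e₁) +
    trace (V * e₃ * A * e₁ * A * e₂) + trace (V * e₁ * A * e₃ * A * e₂) +
    trace (V * e₃ * A * e₂ * A * e₁) + trace (V * e₂ * A * e₁ * A * e₃) = 0 := by
  have h1 := h e₁ (by simp)
  have h2 := h e₂ (by simp)
  have h3 := h e₃ (by simp)
  have h4 := h (e₁ + e₂) (by simp)
  have h5 := h (e₁ + e₃) (by simp)
  have h6 := h (e₂ + e₃) (by simp)
  have h7 := h (e₁ + e₂ + e₃) (by simp)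
  simp only [pow_two, mul_add, add_mul, trace_add, ← mul_assoc] at h1 h2 h3 h4 h5 h6 h7 ⊢
  linear_combination h7 - h4 - h5 - h6 + h1 + h2 + h3

theorem Six_eq_zero {c : Fin r → Fin r} (μ B : Mat r ℂ) (ε : ℂ) (hε : ε ≠ 0)
    (hμ : ∀ i j, c i = c j → μ i j = 0) (b₁ b₂ b₃ : Fin r) (h12 : b₁ ≠ b₂) (h23 : b₂ ≠ b₃)
    (h13 : b₁ ≠ b₃)
    (h : ∀ δ : Fin r → ℂ, Phi 2 μ (1 + ε • B) (diagonal fun i => δ (c i)) = 0) :
    Six μ B c b₁ b₂ b₃ = 0 := by
  have hX : ∀ δ : Fin r → ℂ, trace ((μᵀ ⊙ B) * (diagonal fun i => δ (c i)) *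
      ((1 + ε • B) * (diagonal fun i => δ (c i))) ^ 2) = 0 := fun δ =>
    Phi_BD 2 μ B _ ε hε hμ (BD.diagonal c _) (h δ)
  have hδ : ∀ (s : Fin r → Prop) [DecidablePred s], (trace ((μᵀ ⊙ B) *
      (diagonal fun i => if s (c i) then (1 : ℂ) else 0) *
      ((1 + ε • B) * (diagonal fun i => if s (c i) then (1 : ℂ) else 0)) ^ 2) = 0) :=
    fun s _ => hX fun b => if s b then 1 else 0
  have hp := polarize (V := μᵀ ⊙ B) (A := 1 + ε • B) (eb c b₁) (eb c b₂) (eb c b₃) (by
    intro X hXm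
    simp only [Set.mem_insert_iff, Set.mem_singleton_iff] at hXm
    have key : ∀ (f : Fin r → ℂ), X = (diagonal fun i => f (c i)) → trace ((μᵀ ⊙ B) * X *
      ((1 + ε • B) * X) ^ 2) = 0 := by
      intro f hf
      rw [hf]; exact hX f
    rcases hXm with h | h | h | h | h | h | h
    · exact key (fun b => if b = b₁ then 1 else 0) h
    · exact key (fun b => if b = b₂ then 1 else 0) h
    · exact key (fun b => if b = b₃ then 1 else 0) h
    · exact key (fun b => (if b = b₁ then 1 else 0) + (if b = b₂ then 1 else 0)) (by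
        rw [h, eb, eb, diagonal_add])
    · exact key (fun b => (if b = b₁ then 1 else 0) + (if b = b₃ then 1 else 0)) (by
        rw [h, eb, eb, diagonal_add])
    · exact key (fun b => (if b = b₂ then 1 else 0) + (if b = b₃ then 1 else 0)) (by
        rw [h, eb, eb, diagonal_add])
    · exact key (fun b => (if b = b₁ then 1 else 0) + (if b = b₂ then 1 else 0) +
        (if b = b₃ then 1 else 0)) (by
        rw [h, eb, eb, eb, diagonal_add, diagonal_add]))
  have hA : ∀ {b b' : Fin r}, b ≠ b' → eb c b * (1 + ε • B) * eb c b' =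
      ε • (eb c b * B * eb c b') := by
    intro b b' hb
    rw [mul_add, add_mul, mul_one, eb_mul_eb hb, zero_add, Matrix.mul_smul, Matrix.smul_mul]
  have hT : ∀ {b b' b'' : Fin r}, b ≠ b' → b' ≠ b'' →
      trace ((μᵀ ⊙ B) * eb c b * (1 + ε • B) * eb c b' * (1 + ε • B) * eb c b'') =
        ε ^ 2 * Tri μ B (eb c b) (eb c b') (eb c b'') := by
    intro b b' b'' h1 h2
    have hid : eb c b' * eb c b' = eb c b' := by
      rw [eb, diagonal_mul_diagonal]
      congr 1
      funext i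
      split_ifs <;> simp
    have e1 : (μᵀ ⊙ B) * eb c b * (1 + ε • B) * eb c b' * (1 + ε • B) * eb c b'' =
        (μᵀ ⊙ B) * (eb c b * (1 + ε • B) * eb c b') * (eb c b' * (1 + ε • B) * eb c b'') := by
      calc _ = (μᵀ ⊙ B) * eb c b * (1 + ε • B) * (eb c b' * eb c b') * (1 + ε • B) * eb c b'' := by
            rw [hid]
        _ = _ := by simp only [mul_assoc]
    have e2 : (μᵀ ⊙ B) * eb c b * B * eb c b' * B * eb c b'' =
        (μᵀ ⊙ B) * (eb c b * B * eb c b') * (eb c b' * B * eb c b'') := by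
      calc _ = (μᵀ ⊙ B) * eb c b * B * (eb c b' * eb c b') * B * eb c b'' := by
            rw [hid]
        _ = _ := by simp only [mul_assoc]
    unfold Tri
    rw [e1, e2, hA h1, hA h2]
    simp only [Matrix.mul_smul, Matrix.smul_mul, smul_smul, trace_smul, smul_eq_mul]
    ring
  rw [hT h12 h23, hT h23 h13.symm, hT h13.symm h12, hT h13 h23.symm, hT h23.symm h12.symm,
    hT h12.symm h13] at hp
  have hε2 : ε ^ 2 ≠ 0 := pow_ne_zero _ hε
  have : ε ^ 2 * Six μ B c b₁ b₂ b₃ = 0 := by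
    unfold Six
    linear_combination hp
  exact (mul_eq_zero.1 this).resolve_left hε2

/-- The conditions in the limit. -/
structure LimOK {L : Type*} (P : L → (Mat r ℂ)ˣ) (c : Fin r → Fin r) (D : ℕ) (μ B : Mat r ℂ) :
    Prop where
  zero : ∀ i j, c i = c j → μ i j = 0
  two : ∀ (p : List L) (k : ℕ), k + 1 ≤ D → ∀ δ : Fin r → ℂ,
    Gk k μ B 0 (diagonal (fun i => δ (c i)) * blkD c (wP P p : Mat r ℂ)) = 0
  three : ∀ b₁ b₂ b₃ : Fin r, b₁ ≠ b₂ → b₂ ≠ b₃ → b₁ ≠ b₃ → Six μ B c b₁ b₂ b₃ = 0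

theorem tendsto_mul {f g : ℕ → Mat r ℂ} {a b : Mat r ℂ} (hf : Tendsto f atTop (𝓝 a))
    (hg : Tendsto g atTop (𝓝 b)) : Tendsto (fun n => f n * g n) atTop (𝓝 (a * b)) :=
  hf.mul hg

theorem tendsto_trace {f : ℕ → Mat r ℂ} {a : Mat r ℂ} (hf : Tendsto f atTop (𝓝 a)) :
    Tendsto (fun n => trace (f n)) atTop (𝓝 (trace a)) :=
  ((continuous_id (X := Mat r ℂ)).matrix_trace.tendsto a).comp hf

theorem tendsto_had {f g : ℕ → Mat r ℂ} {a b : Mat r ℂ} (hf : Tendsto f atTop (𝓝 a))
    (hg : Tendsto g atTop (𝓝 b)) : Tendsto (fun n => (f n)ᵀ ⊙ g n) atTop (𝓝 (aᵀ ⊙ b)) := by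
  refine tendsto_pi_nhds.2 fun i => tendsto_pi_nhds.2 fun j => ?_
  have h1 : Tendsto (fun n => f n j i) atTop (𝓝 (a j i)) :=
    tendsto_pi_nhds.1 (tendsto_pi_nhds.1 hf j) i
  have h2 : Tendsto (fun n => g n i j) atTop (𝓝 (b i j)) :=
    tendsto_pi_nhds.1 (tendsto_pi_nhds.1 hg i) j
  exact h1.mul h2

/-- Passage to the limit. -/
theorem limOK_of_seq {L : Type*} (P : L → (Mat r ℂ)ˣ) (c : Fin r → Fin r) (D : ℕ) (hD : 3 ≤ D)
    (μ B : ℕ → Mat r ℂ) (ε : ℕ → ℂ) (hε : ∀ n, ε n ≠ 0) (μ' B' : Mat r ℂ)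
    (hμ : Tendsto μ atTop (𝓝 μ')) (hB : Tendsto B atTop (𝓝 B')) (hε0 : Tendsto ε atTop (𝓝 0))
    (hz : ∀ n i j, c i = c j → μ n i j = 0)
    (h : ∀ n (p : List L) (k : ℕ), k + 1 ≤ D → ∀ δ : Fin r → ℂ,
      Phi k (μ n) (1 + ε n • B n) (diagonal (fun i => δ (c i)) * blkD c (wP P p : Mat r ℂ)) = 0) :
    LimOK P c D μ' B' where
  zero i j hij := by
    have h1 : Tendsto (fun n => μ n i j) atTop (𝓝 (μ' i j)) :=
      (((continuous_id (X := Mat r ℂ)).matrix_elem i j).tendsto μ').comp hμ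
    have h2 : (fun n => μ n i j) = fun _ => 0 := funext fun n => hz n i j hij
    rw [h2] at h1
    exact (tendsto_nhds_unique h1 tendsto_const_nhds)
  two p k hk δ := by
    obtain ⟨X, hX⟩ : ∃ X, X = diagonal (fun i => δ (c i)) * blkD c (wP P p : Mat r ℂ) := ⟨_, rfl⟩
    have hXBD : BD c X := by rw [hX]; exact (BD.diagonal c _).mul (BD.blkD c _)
    rw [← hX]
    have h1 : Tendsto (fun n => Gk k (μ n) (B n) (ε n) X) atTop (𝓝 (Gk k μ' B' 0 X)) := by
      unfold Gk
      apply tendsto_finsetSum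
      intro l _
      apply tendsto_trace
      apply tendsto_mul
      · exact tendsto_mul (tendsto_had hμ hB) tendsto_const_nhds
      · apply tendsto_mul
        · exact (tendsto_mul (tendsto_const_nhds.add (hε0.smul hB)) tendsto_const_nhds).pow l
        · exact tendsto_mul hB tendsto_const_nhds
    have h2 : (fun n => Gk k (μ n) (B n) (ε n) X) = fun _ => 0 := by
      funext n
      exact Gk_eq_zero k (μ n) (B n) X (ε n) (hε n) (hz n) hXBD (by rw [hX]; exact h n p k hk δ)
    rw [h2] at h1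
    exact (tendsto_nhds_unique h1 tendsto_const_nhds)
  three b₁ b₂ b₃ h12 h23 h13 := by
    have hT : ∀ U₁ U₂ U₃ : Mat r ℂ, Tendsto (fun n => Tri (μ n) (B n) U₁ U₂ U₃) atTop
        (𝓝 (Tri μ' B' U₁ U₂ U₃)) := by
      intro U₁ U₂ U₃
      unfold Tri
      apply tendsto_trace
      exact tendsto_mul (tendsto_mul (tendsto_mul (tendsto_mul (tendsto_mul (tendsto_had hμ hB)
        tendsto_const_nhds) hB) tendsto_const_nhds) hB) tendsto_const_nhds
    have h1 : Tendsto (fun n => Six (μ n) (B n) c b₁ b₂ b₃) atTop (𝓝 (Six μ' B' c b₁ b₂ b₃)) := by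
      unfold Six
      exact (((((hT _ _ _).add (hT _ _ _)).add (hT _ _ _)).add (hT _ _ _)).add (hT _ _ _)).add
        (hT _ _ _)
    have h2 : (fun n => Six (μ n) (B n) c b₁ b₂ b₃) = fun _ => 0 := by
      funext n
      apply Six_eq_zero (μ n) (B n) (ε n) (hε n) (hz n) b₁ b₂ b₃ h12 h23 h13
      intro δ
      have h3 := h n [] 2 (by omega) δ
      have h4 : blkD c (wP P [] : Mat r ℂ) = 1 := by
        ext i j
        rw [blkD, Matrix.of_apply, wP, Units.val_one]
        by_cases hij : i = j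
        · subst hij; simp
        · rw [Matrix.one_apply_ne hij]; simp
      rwa [h4, mul_one] at h3
    rw [h2] at h1
    exact (tendsto_nhds_unique h1 tendsto_const_nhds)

end Vale.Agent.P002R
end

section

/-!
# From scaled representations to representations into `SL_r`, for general groups
-/

set_option linter.unusedSectionVars false

namespace Vale.Agent.P002R

open Matrix

variable {κ ι : Type} {r : ℕ}

section

variable [Fintype κ] [Fintype ι]

/-- Multidegree of an exponent with respect to the matrices. -/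
noncomputable def mdegG (m : ((κ ⊕ ι) × Fin r × Fin r) →₀ ℕ) : κ ⊕ ι →₀ ℕ :=
  Finsupp.mapDomain Prod.fst m

theorem evalGG_monomial_twist (x x' : FreeGroup (κ ⊕ ι) →* (Mat r ℂ)ˣ) (t : κ → ℂ)
    (h : ∀ k, (x' (FreeGroup.of (Sum.inl k)) : Mat r ℂ) =
      t k • (x (FreeGroup.of (Sum.inl k)) : Mat r ℂ))
    (h' : ∀ j, (x' (FreeGroup.of (Sum.inr j)) : Mat r ℂ) =
      (x (FreeGroup.of (Sum.inr j)) : Mat r ℂ))
    (m : ((κ ⊕ ι) × Fin r × Fin r) →₀ ℕ) (c : ℂ) :
    evalG x' (MvPolynomial.monomial m c) =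
      (∏ k, t k ^ mdegG m (Sum.inl k)) * evalG x (MvPolynomial.monomial m c) := by
  obtain ⟨t', ht', ht''⟩ : ∃ t' : κ ⊕ ι → ℂ, (∀ k, t' (Sum.inl k) = t k) ∧
      ∀ j, t' (Sum.inr j) = 1 := ⟨Sum.elim t fun _ => 1, fun _ => rfl, fun _ => rfl⟩
  have hh : ∀ k, (x' (FreeGroup.of k) : Mat r ℂ) = t' k • (x (FreeGroup.of k) : Mat r ℂ) := by
    rintro (k | j)
    · rw [h, ht']
    · rw [h', ht'', one_smul]
  unfold evalG
  rw [MvPolynomial.aeval_monomial, MvPolynomial.aeval_monomial]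
  have h1 : (m.prod fun p n => ((x' (FreeGroup.of p.1) : Mat r ℂ) p.2.1 p.2.2) ^ n) =
      (m.prod fun p n => t' p.1 ^ n) *
        m.prod fun p n => ((x (FreeGroup.of p.1) : Mat r ℂ) p.2.1 p.2.2) ^ n := by
    rw [← Finsupp.prod_mul]
    refine Finsupp.prod_congr fun p _ => ?_
    rw [hh, Matrix.smul_apply, smul_eq_mul, mul_pow]
  have h2 : (m.prod fun p n => t' p.1 ^ n) = ∏ k, t k ^ mdegG m (Sum.inl k) := by
    have h3 : ∏ k, t k ^ mdegG m (Sum.inl k) = ∏ k, t' k ^ mdegG m k := by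
      rw [Fintype.prod_sum_type]
      simp only [ht', ht'', one_pow, Finset.prod_const_one, mul_one]
    rw [h3, mdegG, ← Finsupp.prod_fintype (Finsupp.mapDomain Prod.fst m) (fun k n => t' k ^ n)
      (fun k => pow_zero _), Finsupp.prod_mapDomain_index (fun k => pow_zero _)
        (fun k a b => pow_add _ _ _)]
  rw [h1, h2]
  ring

theorem evalGG_eq_sum (x : FreeGroup (κ ⊕ ι) →* (Mat r ℂ)ˣ)
    (f : MvPolynomial ((κ ⊕ ι) × Fin r × Fin r) ℂ) :
    evalG x f = ∑ m ∈ f.support, evalG x (MvPolynomial.monomial m (MvPolynomial.coeff m f)) := by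
  conv_lhs => rw [MvPolynomial.as_sum f]
  rw [map_sum]

/-- Semisimplicity is unchanged under twisting. -/
theorem SS.twistG {G : Type*} [Group G] {x x' : G →* (Mat r ℂ)ˣ} (c : G → ℂ)
    (hc : ∀ w, c w ≠ 0)
    (h : ∀ w, (x' w : Mat r ℂ) = c w • (x w : Mat r ℂ)) (hx : SS x) : SS x' := by
  have key : ∀ W : Submodule ℂ (Fin r → ℂ), (∀ w, ∀ v ∈ W, (x' w : Mat r ℂ) *ᵥ v ∈ W) ↔
      (∀ w, ∀ v ∈ W, (x w : Mat r ℂ) *ᵥ v ∈ W) := by
    intro W
    refine forall_congr' fun w => forall_congr' fun v => forall_congr' fun hv => ?_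
    rw [h, Matrix.smul_mulVec, Submodule.smul_mem_iff _ (hc w)]
  intro W hW
  obtain ⟨W', h1, h2⟩ := hx W ((key W).1 hW)
  exact ⟨W', (key W').2 h1, h2⟩

/-- The determinant of the generic matrix of a generator. -/
noncomputable def detXG (k : κ ⊕ ι) : MvPolynomial ((κ ⊕ ι) × Fin r × Fin r) ℂ :=
  det (Matrix.of fun i j => (MvPolynomial.X (k, i, j) :
    MvPolynomial ((κ ⊕ ι) × Fin r × Fin r) ℂ))

theorem evalGG_detX (x : FreeGroup (κ ⊕ ι) →* (Mat r ℂ)ˣ) (k : κ ⊕ ι) :
    evalG x (detXG k) = (x (FreeGroup.of k) : Mat r ℂ).det := by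
  unfold detXG
  rw [AlgHom.map_det]
  congr 1
  ext i j
  simp [evalG]

theorem coe_scalarU_mulG (c : ℂˣ) (u : (Mat r ℂ)ˣ) :
    ((scalarU c * u : (Mat r ℂ)ˣ) : Mat r ℂ) = (c : ℂ) • (u : Mat r ℂ) := by
  rw [Units.val_mul]
  show algebraMap ℂ (Mat r ℂ) (c : ℂ) * (u : Mat r ℂ) = _
  rw [Algebra.algebraMap_eq_smul_one, Matrix.smul_mul, Matrix.one_mul]

theorem coe_slUG {R : Type*} [CommRing R] (φ : R →+* ℂ) (y : SpecialLinearGroup (Fin r) R) :
    ((slU φ y : (Mat r ℂ)ˣ) : Mat r ℂ) = (y : Mat r R).map φ := rfl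

theorem det_slUG {R : Type*} [CommRing R] (φ : R →+* ℂ) (y : SpecialLinearGroup (Fin r) R) :
    ((slU φ y : (Mat r ℂ)ˣ) : Mat r ℂ).det = 1 := by
  rw [coe_slUG]
  have := (φ.map_det (y : Mat r R))
  rw [Matrix.SpecialLinearGroup.det_coe, map_one] at this
  exact this.symm

/-- Twisting an integral representation by powers of a root of unity. -/
theorem exists_twistG {R : Type*} [CommRing R] (ζ : R) (hζ : ζ ^ r = 1) (hr : 0 < r)
    (y : FreeGroup (κ ⊕ ι) →* SpecialLinearGroup (Fin r) R) (e : κ → ℕ) :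
    ∃ (y' : FreeGroup (κ ⊕ ι) →* SpecialLinearGroup (Fin r) R) (χ : FreeGroup (κ ⊕ ι) →* Rˣ),
      (∀ w, (y' w : Mat r R) = (χ w : R) • (y w : Mat r R)) ∧
        (∀ k, (χ (FreeGroup.of (Sum.inl k)) : R) = ζ ^ e k) ∧
          ∀ j, χ (FreeGroup.of (Sum.inr j)) = 1 := by
  obtain ⟨ζu, hζu⟩ : ∃ ζu : Rˣ, (ζu : R) = ζ := by
    refine ⟨⟨ζ, ζ ^ (r - 1), ?_, ?_⟩, rfl⟩
    · rw [← pow_succ', Nat.sub_add_cancel hr, hζ]
    · rw [← pow_succ, Nat.sub_add_cancel hr, hζ]
  obtain ⟨χ, hχ, hχ'⟩ : ∃ χ : FreeGroup (κ ⊕ ι) →* Rˣ, (∀ k, χ (FreeGroup.of (Sum.inl k)) = ζu ^ e k) ∧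
      ∀ j, χ (FreeGroup.of (Sum.inr j)) = 1 :=
    ⟨FreeGroup.lift (Sum.elim (fun k => ζu ^ e k) fun _ => 1), fun k => FreeGroup.lift_apply_of,
      fun k => FreeGroup.lift_apply_of⟩
  have hχr : ∀ w, (χ w) ^ r = 1 := by
    intro w
    have : (powMonoidHom r).comp χ = 1 := by
      refine FreeGroup.ext_hom _ _ fun k => ?_
      rcases k with k | j
      · rw [MonoidHom.comp_apply, hχ, powMonoidHom_apply, MonoidHom.one_apply, ← pow_mul,
          mul_comm, pow_mul]
        have : ζu ^ r = 1 := by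
          apply Units.ext
          rw [Units.val_pow_eq_pow_val, hζu, hζ, Units.val_one]
        rw [this, one_pow]
      · rw [MonoidHom.comp_apply, hχ', powMonoidHom_apply, MonoidHom.one_apply, one_pow]
    exact DFunLike.congr_fun this w
  have hdet : ∀ w, ((χ w : R) • (y w : Mat r R)).det = 1 := by
    intro w
    rw [det_smul, Fintype.card_fin, Matrix.SpecialLinearGroup.det_coe, mul_one,
      ← Units.val_pow_eq_pow_val, hχr, Units.val_one]
  refine ⟨⟨⟨fun w => ⟨(χ w : R) • (y w : Mat r R), hdet w⟩, ?_⟩, ?_⟩, χ, fun w => rfl,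
    fun k => ?_, hχ'⟩
  · apply Subtype.ext
    show (χ 1 : R) • (y 1 : Mat r R) = 1
    rw [map_one, map_one, Units.val_one, one_smul]
    rfl
  · intro w w'
    apply Subtype.ext
    show (χ (w * w') : R) • (y (w * w') : Mat r R) =
      ((χ w : R) • (y w : Mat r R)) * ((χ w' : R) • (y w' : Mat r R))
    rw [map_mul, map_mul, Units.val_mul, Matrix.SpecialLinearGroup.coe_mul, Matrix.smul_mul,
      Matrix.mul_smul, smul_smul]
  · rw [hχ, Units.val_pow_eq_pow_val, hζu]

/-- A semisimple representation integral up to scalars, with boundary classes of determinant one,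
is a twist of a representation into `SL_r(R)`. -/
theorem exists_descentG {R : Type*} [CommRing R] (φ : R →+* ℂ) (ζ : R) (hζ : ζ ^ r = 1)
    (hζ' : IsPrimitiveRoot (φ ζ) r) (hr : 0 < r)
    (Rel : Set (FreeGroup (κ ⊕ ι))) (C : ι → (Mat r ℂ)ˣ)
    (hC : ∀ j, (C j : Mat r ℂ).det = 1) (y' : FreeGroup (κ ⊕ ι) →* (Mat r ℂ)ˣ)
    (hy' : y' ∈ DG Rel φ C) :
    ∃ (y : FreeGroup (κ ⊕ ι) →* SpecialLinearGroup (Fin r) R) (χ : FreeGroup (κ ⊕ ι) →* ℂˣ),
      (∀ w, y' w = scalarU (χ w) * slU φ (y w)) ∧ ∀ j, χ (FreeGroup.of (Sum.inr j)) = 1 := by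
  have h1 : ∀ k : κ ⊕ ι, ∃ (c : ℂˣ) (s : SpecialLinearGroup (Fin r) R),
      y' (FreeGroup.of k) = scalarU c * slU φ s ∧ ∀ j, k = Sum.inr j → c = 1 := by
    rintro (k | j)
    · obtain ⟨c, s, h⟩ := hy'.2 (Sum.inl k)
      exact ⟨c, s, h, fun j hj => by simp at hj⟩
    · obtain ⟨c, s, h⟩ := hy'.2 (Sum.inr j)
      have hdet : (y' (FreeGroup.of (Sum.inr j)) : Mat r ℂ).det = 1 := by
        obtain ⟨P, hP⟩ := hy'.1.2.1 j
        rw [← hC j]
        have h2 : (y' (FreeGroup.of (Sum.inr j)) : Mat r ℂ) =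
            ((P : (Mat r ℂ)ˣ) * C j * P⁻¹ : (Mat r ℂ)ˣ) := by
          congr 1
          have h4 : (P : (Mat r ℂ)ˣ) * C j = y' (FreeGroup.of (Sum.inr j)) * P := hP
          rw [h4, mul_assoc]
          simp
        have h5 : (((P : (Mat r ℂ)ˣ) * C j * P⁻¹ : (Mat r ℂ)ˣ) : Mat r ℂ).det =
            (((P : (Mat r ℂ)ˣ) : Mat r ℂ) * (C j : Mat r ℂ) *
              ((((P : (Mat r ℂ)ˣ)⁻¹ : (Mat r ℂ)ˣ)) : Mat r ℂ)).det := by
          simp
        rw [h2, h5, det_mul_comm, ← mul_assoc, ← Units.val_mul, inv_mul_cancel, Units.val_one,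
          one_mul]
      have hcr : (c : ℂ) ^ r = 1 := by
        rw [h, coe_scalarU_mulG, det_smul, det_slUG, mul_one, Fintype.card_fin] at hdet
        exact hdet
      have : NeZero r := ⟨hr.ne'⟩
      obtain ⟨e, -, he⟩ := hζ'.eq_pow_of_pow_eq_one hcr
      have hdet' : ((ζ ^ e) • (s : Mat r R)).det = 1 := by
        rw [det_smul, Fintype.card_fin, Matrix.SpecialLinearGroup.det_coe, mul_one, ← pow_mul,
          mul_comm, pow_mul, hζ, one_pow]
      refine ⟨1, ⟨(ζ ^ e) • (s : Mat r R), hdet'⟩, ?_, fun _ _ => rfl⟩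
      rw [map_one, one_mul, h]
      ext1
      rw [coe_scalarU_mulG, coe_slUG]
      show (c : ℂ) • (s : Mat r R).map φ = ((ζ ^ e) • (s : Mat r R)).map φ
      rw [← he]
      ext i j
      simp
  choose c s hcs hc1 using h1
  refine ⟨FreeGroup.lift s, FreeGroup.lift c, ?_, fun j => ?_⟩
  · have : y' = (⟨⟨fun w => scalarU (FreeGroup.lift c w) * slU φ (FreeGroup.lift s w), by simp⟩,
        by
          intro w w'
          show scalarU (FreeGroup.lift c (w * w')) * slU φ (FreeGroup.lift s (w * w')) =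
            (scalarU (FreeGroup.lift c w) * slU φ (FreeGroup.lift s w)) *
              (scalarU (FreeGroup.lift c w') * slU φ (FreeGroup.lift s w'))
          rw [map_mul, map_mul, map_mul, map_mul, mul_assoc, mul_assoc]
          congr 1
          rw [← mul_assoc, ← mul_assoc, scalarU_comm]⟩ : FreeGroup (κ ⊕ ι) →* (Mat r ℂ)ˣ) := by
      refine FreeGroup.ext_hom _ _ fun k => ?_
      show y' (FreeGroup.of k) =
        scalarU (FreeGroup.lift c (FreeGroup.of k)) * slU φ (FreeGroup.lift s (FreeGroup.of k))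
      rw [FreeGroup.lift_apply_of, FreeGroup.lift_apply_of, hcs]
    intro w
    exact DFunLike.congr_fun this w
  · rw [FreeGroup.lift_apply_of]
    exact hc1 _ j rfl

/-- The version for `φ` not necessarily injective. -/
theorem unscaleG' {R : Type*} [CommRing R] (φ : R →+* ℂ) (ζ : R) (hζ : ζ ^ r = 1)
    (hζ' : IsPrimitiveRoot (φ ζ) r) (hr : 0 < r) (Rel : Set (FreeGroup (κ ⊕ ι)))
    (hchar : CharOK Rel) (C : ι → (Mat r ℂ)ˣ) (hC : ∀ j, (C j : Mat r ℂ).det = 1)
    (f : MvPolynomial ((κ ⊕ ι) × Fin r × Fin r) ℂ)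
    (hf : ∀ y : FreeGroup (κ ⊕ ι) →* SpecialLinearGroup (Fin r) R,
      (∀ w ∈ Rel, slU φ (y w) = 1) →
      (∀ j, IsConj (C j) (slU φ (y (FreeGroup.of (Sum.inr j))))) →
      SS ((slU φ).comp y) → evalG ((slU φ).comp y) f = 0)
    (x : FreeGroup (κ ⊕ ι) →* (Mat r ℂ)ˣ) (hdet : ∀ w, (x w : Mat r ℂ).det = 1)
    (hall : ∀ f' : MvPolynomial ((κ ⊕ ι) × Fin r × Fin r) ℂ,
      (∀ y ∈ DG Rel φ C, evalG y f' = 0) → evalG x f' = 0) :
    evalG x f = 0 := by
  classical
  obtain ⟨z, hz⟩ : ∃ z, z = φ ζ := ⟨_, rfl⟩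
  rw [← hz] at hζ'
  have hz0 : z ≠ 0 := hζ'.ne_zero hr.ne'
  -- the components of `f` vanish at integral representations
  have comp : ∀ y : FreeGroup (κ ⊕ ι) →* SpecialLinearGroup (Fin r) R,
      (∀ w ∈ Rel, slU φ (y w) = 1) →
      (∀ j, IsConj (C j) (slU φ (y (FreeGroup.of (Sum.inr j))))) →
      SS ((slU φ).comp y) → ∀ δ : κ → ℕ,
        ∑ m ∈ f.support with (fun k => z ^ mdegG m (Sum.inl k)) = (fun k => z ^ δ k),
          evalG ((slU φ).comp y) (MvPolynomial.monomial m (MvPolynomial.coeff m f)) = 0 := by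
    intro y hy hyC hyS δ
    refine Vale.Agent.P002.fourier_inversion hζ' hr f.support
      (fun m (k : κ) => mdegG m (Sum.inl k)) _ (fun e => ?_) δ
    obtain ⟨y', χ, h1, h2, h2'⟩ := exists_twistG ζ hζ hr y e
    have h3 : ∀ w, (((slU φ).comp y' w : (Mat r ℂ)ˣ) : Mat r ℂ) =
        φ (χ w : R) • (((slU φ).comp y w : (Mat r ℂ)ˣ) : Mat r ℂ) := by
      intro w
      rw [MonoidHom.comp_apply, MonoidHom.comp_apply, coe_slUG, coe_slUG, h1]
      ext i j
      simp
    have hy' : ∀ w ∈ Rel, slU φ (y' w) = 1 := by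
      intro w hw
      have h4 := h3 w
      have h5 := congrArg Units.val (hchar w hw ℂˣ ((Units.map (φ : R →* ℂ)).comp χ) (fun j => by
        rw [MonoidHom.comp_apply, h2', map_one]))
      have h6 : φ (χ w : R) = 1 := h5
      rw [h6, one_smul, MonoidHom.comp_apply, MonoidHom.comp_apply, hy w hw] at h4
      exact Units.ext h4
    have hyC' : ∀ j, slU φ (y' (FreeGroup.of (Sum.inr j))) =
        slU φ (y (FreeGroup.of (Sum.inr j))) := by
      intro j
      have h4 := h3 (FreeGroup.of (Sum.inr j))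
      rw [h2', Units.val_one, map_one, one_smul, MonoidHom.comp_apply,
        MonoidHom.comp_apply] at h4
      exact Units.ext h4
    have hy'S : SS ((slU φ).comp y') :=
      hyS.twistG (fun w => φ (χ w : R)) (fun w => ((χ w).isUnit.map φ).ne_zero) h3
    have h4 := hf y' hy' (fun j => by rw [hyC' j]; exact hyC j) hy'S
    rw [evalGG_eq_sum] at h4
    rw [← h4]
    refine Finset.sum_congr rfl fun m _ => ?_
    rw [evalGG_monomial_twist ((slU φ).comp y) ((slU φ).comp y') (fun k => z ^ e k) ?_ ?_]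
    · intro k
      rw [h3, h2, map_pow, hz]
    · intro j
      rw [h3, h2', Units.val_one, map_one, one_smul]
  -- now the components of `f` vanish at `x`
  have compx : ∀ m₀ ∈ f.support,
      ∑ m ∈ f.support with (fun k => z ^ mdegG m (Sum.inl k)) =
          (fun k : κ => z ^ mdegG m₀ (Sum.inl k)),
        evalG x (MvPolynomial.monomial m (MvPolynomial.coeff m f)) = 0 := by
    intro m₀ hm₀
    obtain ⟨B, hB⟩ : ∃ B : ℕ, ∀ m ∈ f.support, ∀ k : κ, mdegG m (Sum.inl k) ≤ B := by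
      refine ⟨∑ m ∈ f.support, ∑ k : κ, mdegG m (Sum.inl k), fun m hm k => ?_⟩
      exact (Finset.single_le_sum (f := fun k : κ => mdegG m (Sum.inl k))
        (fun _ _ => Nat.zero_le _)
        (Finset.mem_univ k)).trans (Finset.single_le_sum
          (f := fun m => ∑ k : κ, mdegG m (Sum.inl k))
          (fun _ _ => Nat.zero_le _) hm)
    obtain ⟨N, hN⟩ : ∃ N : κ → ℕ, ∀ k, N k = mdegG m₀ (Sum.inl k) + r * B :=
      ⟨_, fun k => rfl⟩
    obtain ⟨q, hq⟩ : ∃ q : (((κ ⊕ ι) × Fin r × Fin r) →₀ ℕ) → κ → ℕ,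
        ∀ m ∈ f.support, (fun k => z ^ mdegG m (Sum.inl k)) =
            (fun k : κ => z ^ mdegG m₀ (Sum.inl k)) →
          ∀ k, N k = mdegG m (Sum.inl k) + r * q m k := by
      have : ∀ m : ((κ ⊕ ι) × Fin r × Fin r) →₀ ℕ, ∀ k : κ, ∃ q : ℕ, m ∈ f.support →
          (fun k => z ^ mdegG m (Sum.inl k)) =
            (fun k : κ => z ^ mdegG m₀ (Sum.inl k)) →
            N k = mdegG m (Sum.inl k) + r * q := by
        intro m k
        by_cases hm : m ∈ f.support ∧ (fun k => z ^ mdegG m (Sum.inl k)) =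
            (fun k : κ => z ^ mdegG m₀ (Sum.inl k))
        · have h1 : z ^ mdegG m (Sum.inl k) = z ^ mdegG m₀ (Sum.inl k) := congrFun hm.2 k
          have h2 : z ^ mdegG m (Sum.inl k) = z ^ N k := by
            rw [h1, hN, pow_add, pow_mul, hζ'.pow_eq_one, one_pow, mul_one]
          have hfin : IsOfFinOrder z := isOfFinOrder_iff_pow_eq_one.2 ⟨r, hr, hζ'.pow_eq_one⟩
          rw [hfin.pow_eq_pow_iff_modEq, ← hζ'.eq_orderOf] at h2
          have h3 : mdegG m (Sum.inl k) ≤ N k := by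
            rw [hN]
            calc mdegG m (Sum.inl k) ≤ B := hB m hm.1 k
              _ ≤ r * B := Nat.le_mul_of_pos_left B hr
              _ ≤ _ := Nat.le_add_left _ _
          obtain ⟨q, hq⟩ := (Nat.modEq_iff_dvd' h3).1 h2
          exact ⟨q, fun _ _ => by omega⟩
        · exact ⟨0, fun h1 h2 => absurd ⟨h1, h2⟩ hm⟩
      choose q hq using this
      exact ⟨q, fun m h1 h2 k => hq m k h1 h2⟩
    -- the homogenized component
    obtain ⟨f', hf'⟩ : ∃ f' : MvPolynomial ((κ ⊕ ι) × Fin r × Fin r) ℂ, f' =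
        ∑ m ∈ f.support with (fun k => z ^ mdegG m (Sum.inl k)) =
            (fun k : κ => z ^ mdegG m₀ (Sum.inl k)),
          MvPolynomial.monomial m (MvPolynomial.coeff m f) *
            ∏ k : κ, detXG (Sum.inl k) ^ q m k := ⟨_, rfl⟩
    have heval : ∀ (x₀ x' : FreeGroup (κ ⊕ ι) →* (Mat r ℂ)ˣ) (t : κ → ℂ),
        (∀ k, (x' (FreeGroup.of (Sum.inl k)) : Mat r ℂ) =
          t k • (x₀ (FreeGroup.of (Sum.inl k)) : Mat r ℂ)) →
        (∀ j, (x' (FreeGroup.of (Sum.inr j)) : Mat r ℂ) =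
          (x₀ (FreeGroup.of (Sum.inr j)) : Mat r ℂ)) →
        (∀ k, (x₀ (FreeGroup.of (Sum.inl k)) : Mat r ℂ).det = 1) →
        evalG x' f' = (∏ k, t k ^ N k) *
          ∑ m ∈ f.support with (fun k => z ^ mdegG m (Sum.inl k)) =
              (fun k : κ => z ^ mdegG m₀ (Sum.inl k)),
            evalG x₀ (MvPolynomial.monomial m (MvPolynomial.coeff m f)) := by
      intro x₀ x' t h1 h1' h2
      rw [hf', map_sum, Finset.mul_sum]
      refine Finset.sum_congr rfl fun m hm => ?_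
      rw [Finset.mem_filter] at hm
      rw [map_mul, map_prod, evalGG_monomial_twist x₀ x' t h1 h1', mul_right_comm]
      congr 1
      rw [← Finset.prod_mul_distrib]
      refine Finset.prod_congr rfl fun k _ => ?_
      rw [map_pow, evalGG_detX, h1, det_smul, h2, mul_one, Fintype.card_fin, ← pow_mul, ← pow_add,
        hq m hm.1 hm.2 k]
    have hx' := hall f' ?_
    · rw [heval x x (fun _ => 1) (fun k => (one_smul _ _).symm) (fun j => rfl)
        (fun k => hdet _)] at hx'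
      simpa using hx'
    · intro y' hy'
      obtain ⟨y, χ, hχ, hχ'⟩ := exists_descentG φ ζ hζ (hz ▸ hζ') hr Rel C hC y' hy'
      have h1 : ∀ w, (y' w : Mat r ℂ) = (χ w : ℂ) • (((slU φ).comp y w : (Mat r ℂ)ˣ) : Mat r ℂ) := by
        intro w
        rw [hχ, coe_scalarU_mulG, MonoidHom.comp_apply]
      have hyS' : SS ((slU φ).comp y) := by
        refine hy'.1.2.2.twistG (fun w => ((χ w)⁻¹ : ℂˣ)) (fun w => Units.ne_zero _) fun w => ?_
        rw [h1, smul_smul, Units.inv_mul, one_smul]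
      have hrel : ∀ w ∈ Rel, slU φ (y w) = 1 := by
        intro w hw
        have h2 := hχ w
        rw [hy'.1.1 w hw, hchar w hw ℂˣ χ hχ', map_one, one_mul] at h2
        exact h2.symm
      have hcj : ∀ j, slU φ (y (FreeGroup.of (Sum.inr j))) = y' (FreeGroup.of (Sum.inr j)) := by
        intro j
        rw [hχ, hχ', map_one, one_mul]
      rw [heval ((slU φ).comp y) y' (fun k => (χ (FreeGroup.of (Sum.inl k)) : ℂ)) (fun k => h1 _)
        (fun j => by rw [MonoidHom.comp_apply, hcj])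
        (fun k => by rw [MonoidHom.comp_apply]; exact det_slUG φ _),
        comp y hrel (fun j => by rw [hcj]; exact hy'.1.2.1 j) hyS'
          (fun k => mdegG m₀ (Sum.inl k)), mul_zero]
  rw [evalGG_eq_sum, ← Finset.sum_fiberwise_of_maps_to
    (g := fun m => (fun k => z ^ mdegG m (Sum.inl k) : κ → ℂ))
    (t := f.support.image fun m => (fun k => z ^ mdegG m (Sum.inl k) : κ → ℂ))
    (fun m hm => Finset.mem_image_of_mem _ hm)]
  refine Finset.sum_eq_zero fun δ hδ => ?_
  rw [Finset.mem_image] at hδ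
  obtain ⟨m₀, hm₀, rfl⟩ := hδ
  exact compx m₀ hm₀

end

/-- From representations which are integral up to scalars to integral ones. -/
theorem unscaleG [Finite κ] [Finite ι] {R : Type*} [CommRing R] (φ : R →+* ℂ)
    (hφ : Function.Injective φ) (ζ : R) (hζ : ζ ^ r = 1)
    (hζ' : IsPrimitiveRoot (φ ζ) r) (hr : 0 < r) (Rel : Set (FreeGroup (κ ⊕ ι)))
    (hchar : CharOK Rel) (C : ι → (Mat r ℂ)ˣ) (hC : ∀ j, (C j : Mat r ℂ).det = 1)
    (f : MvPolynomial ((κ ⊕ ι) × Fin r × Fin r) ℂ)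
    (hf : ∀ y : FreeGroup (κ ⊕ ι) →* SpecialLinearGroup (Fin r) R, (∀ w ∈ Rel, y w = 1) →
      (∀ j, IsConj (C j) (slU φ (y (FreeGroup.of (Sum.inr j))))) →
      SS ((slU φ).comp y) → evalG ((slU φ).comp y) f = 0)
    (x : FreeGroup (κ ⊕ ι) →* (Mat r ℂ)ˣ) (hdet : ∀ w, (x w : Mat r ℂ).det = 1)
    (hall : ∀ f' : MvPolynomial ((κ ⊕ ι) × Fin r × Fin r) ℂ,
      (∀ y ∈ DG Rel φ C, evalG y f' = 0) → evalG x f' = 0) :
    evalG x f = 0 := by
  cases nonempty_fintype κ
  cases nonempty_fintype ι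
  refine unscaleG' φ ζ hζ hζ' hr Rel hchar C hC f (fun y hy => hf y fun w hw => ?_) x hdet hall
  apply Subtype.ext
  have h1 : ((slU φ (y w) : (Mat r ℂ)ˣ) : Mat r ℂ) = 1 := by
    rw [hy w hw, Units.val_one]
  rw [coe_slUG] at h1
  refine Matrix.map_injective hφ ?_
  show (y w : Mat r R).map φ = (1 : Mat r R).map φ
  rw [h1, Matrix.map_one _ (map_zero φ) (map_one φ)]

end Vale.Agent.P002R
end

section

/-!
# Lagrange interpolation: the integral cyclic vectors are dense
-/

namespace Vale.Agent.P002G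

open Matrix Polynomial
open Vale.Agent.P002 (kry mul_kry kry_mulVec_single)

variable {n : ℕ} {S T : Type*} [CommRing S] [CommRing T]

/-- `X` is congruent to a bidiagonal matrix below the diagonal. -/
def Bi (Δ : S) (X : Matrix (Fin n) (Fin n) S) : Prop :=
  ∀ i j, j < i → Δ ∣ X i j - if (i : ℕ) = j + 1 then 1 else 0

variable {R : Type*} [CommRing R]

end Vale.Agent.P002G
end

section

/-!
# Density of the integral cyclic vectors of a matrix with distinct eigenvalues
-/

namespace Vale.Agent.P002G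

open Matrix Polynomial

variable {n : ℕ} {R : Type*} [CommRing R]

end Vale.Agent.P002G
end

section

/-!
# The chart in genus one: algebra
-/

namespace Vale.Agent.P002G

open Matrix Polynomial
open Vale.Agent.P002 (kry mul_kry kry_mulVec_single krylov_comm)
open Vale.Agent.P002R (GenU FU relatorU)

variable {r : ℕ} {S T : Type*} [CommRing S] [CommRing T]

end Vale.Agent.P002G
end
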