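import Mathlib
import Vale.Agent.P002.Bd3.B2
import Vale.Agent.P002.Bd3.B3
import Vale.Agent.P002.Bd3.B1

set_option linter.all false

section

/-!
# P002 PART III': linear algebra for the dimension count
-/

namespace Vale.Agent.P002

open Matrix Module

variable {g r : ℕ}

/-- A subspace on which a family of functionals is separating has coordinates among this
family. -/
theorem exists_coords {ι V : Type*} [DecidableEq ι] [Fintype ι] [AddCommGroup V] [Module ℂ V]
    (e : ι → V →ₗ[ℂ] ℂ) (Z : Submodule ℂ V) (hsep : ∀ z ∈ Z, (∀ i, e i z = 0) → z = 0) :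
    ∃ I : Finset ι, (∀ z ∈ Z, (∀ i ∈ I, e i z = 0) → z = 0) ∧
      ∀ a : ι → ℂ, ∃ z ∈ Z, ∀ i ∈ I, e i z = a i := by
  have key : ∀ n : ℕ, ∀ I : Finset ι, I.card = n → (∀ z ∈ Z, (∀ i ∈ I, e i z = 0) → z = 0) →
      ∃ I : Finset ι, (∀ z ∈ Z, (∀ i ∈ I, e i z = 0) → z = 0) ∧
        ∀ a : ι → ℂ, ∃ z ∈ Z, ∀ i ∈ I, e i z = a i := by
    intro n
    induction n with
    | zero =>
      intro I hI hinj
      rw [Finset.card_eq_zero] at hI
      subst hI
      exact ⟨∅, hinj, fun a => ⟨0, Z.zero_mem, fun i hi => absurd hi (Finset.notMem_empty i)⟩⟩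
    | succ n ih =>
      intro I hI hinj
      by_cases h : ∃ i ∈ I, ∀ z ∈ Z, (∀ j ∈ I.erase i, e j z = 0) → z = 0
      · obtain ⟨i, hi, h1⟩ := h
        exact ih (I.erase i) (by rw [Finset.card_erase_of_mem hi, hI]; rfl) h1
      · push Not at h
        choose! b hbZ hb0 hb1 using h
        refine ⟨I, hinj, fun a => ?_⟩
        have hne : ∀ i ∈ I, e i (b i) ≠ 0 := by
          intro i hi h0
          refine hb1 i hi (hinj _ (hbZ i hi) fun j hj => ?_)
          by_cases hij : j = i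
          · rw [hij]; exact h0
          · exact hb0 i hi j (Finset.mem_erase.2 ⟨hij, hj⟩)
        refine ⟨∑ i ∈ I, (a i / e i (b i)) • b i,
          Z.sum_mem fun i hi => Z.smul_mem _ (hbZ i hi), fun j hj => ?_⟩
        rw [map_sum, Finset.sum_eq_single j]
        · rw [map_smul, smul_eq_mul, div_mul_cancel₀ _ (hne j hj)]
        · intro i hi hij
          rw [map_smul, hb0 i hi j (Finset.mem_erase.2 ⟨hij.symm, hj⟩), smul_zero]
        · intro h; exact absurd hj h
  exact key _ Finset.univ rfl fun z hz h => hsep z hz fun i => h i (Finset.mem_univ i)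

theorem finrank_map_inj {A B : Type*} [AddCommGroup A] [Module ℂ A] [AddCommGroup B]
    [Module ℂ B] (f : A →ₗ[ℂ] B) (hf : Function.Injective f) (p : Submodule ℂ A) :
    finrank ℂ (p.map f) = finrank ℂ p :=
  (LinearEquiv.finrank_eq (Submodule.equivMapOfInjective f hf p)).symm

/-- Rank-nullity for subspaces. -/
theorem finrank_eq_map_add {A B : Type*} [AddCommGroup A] [Module ℂ A] [AddCommGroup B]
    [Module ℂ B] [FiniteDimensional ℂ A] (H : Submodule ℂ A) (f : A →ₗ[ℂ] B) :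
    finrank ℂ H = finrank ℂ (H.map f) + finrank ℂ (H ⊓ LinearMap.ker f : Submodule ℂ A) := by
  have h1 := LinearMap.finrank_range_add_finrank_ker (f.domRestrict H)
  rw [LinearMap.range_domRestrict] at h1
  have h2 : finrank ℂ (LinearMap.ker (f.domRestrict H)) =
      finrank ℂ (H ⊓ LinearMap.ker f : Submodule ℂ A) := by
    have h3 : (LinearMap.ker (f.domRestrict H)).map H.subtype = H ⊓ LinearMap.ker f := by
      ext x
      rw [Submodule.mem_map]
      constructor
      · rintro ⟨y, hy, rfl⟩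
        exact ⟨y.2, hy⟩
      · rintro ⟨hx, hx'⟩
        exact ⟨⟨x, hx⟩, hx', rfl⟩
    rw [← h3, finrank_map_inj _ H.injective_subtype]
  rw [h2] at h1
  exact h1.symm

/-- Dimension of a subspace of a product (first projection). -/
theorem finrank_prod_fst {A B : Type*} [AddCommGroup A] [Module ℂ A] [AddCommGroup B] [Module ℂ B]
    [FiniteDimensional ℂ A] [FiniteDimensional ℂ B] (T : Submodule ℂ (A × B)) :
    finrank ℂ T = finrank ℂ (T.map (LinearMap.fst ℂ A B)) +
      finrank ℂ (T.comap (LinearMap.inr ℂ A B)) := by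
  rw [finrank_eq_map_add T (LinearMap.fst ℂ A B)]
  congr 1
  have h3 : (T.comap (LinearMap.inr ℂ A B)).map (LinearMap.inr ℂ A B) =
      T ⊓ LinearMap.ker (LinearMap.fst ℂ A B) := by
    ext x
    rw [Submodule.mem_map]
    constructor
    · rintro ⟨y, hy, rfl⟩
      exact ⟨hy, rfl⟩
    · rintro ⟨hx, hx'⟩
      have hx'' : x.1 = 0 := hx'
      have : x = LinearMap.inr ℂ A B x.2 := Prod.ext hx'' rfl
      exact ⟨x.2, by rw [Submodule.mem_comap, ← this]; exact hx, this.symm⟩
  rw [← h3, finrank_map_inj _ LinearMap.inr_injective]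

/-- Dimension of a subspace of a product (second projection). -/
theorem finrank_prod_snd {A B : Type*} [AddCommGroup A] [Module ℂ A] [AddCommGroup B] [Module ℂ B]
    [FiniteDimensional ℂ A] [FiniteDimensional ℂ B] (T : Submodule ℂ (A × B)) :
    finrank ℂ T = finrank ℂ (T.map (LinearMap.snd ℂ A B)) +
      finrank ℂ (T.comap (LinearMap.inl ℂ A B)) := by
  rw [finrank_eq_map_add T (LinearMap.snd ℂ A B)]
  congr 1
  have h3 : (T.comap (LinearMap.inl ℂ A B)).map (LinearMap.inl ℂ A B) =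
      T ⊓ LinearMap.ker (LinearMap.snd ℂ A B) := by
    ext x
    rw [Submodule.mem_map]
    constructor
    · rintro ⟨y, hy, rfl⟩
      exact ⟨hy, rfl⟩
    · rintro ⟨hx, hx'⟩
      have hx'' : x.2 = 0 := hx'
      have : x = LinearMap.inl ℂ A B x.1 := Prod.ext rfl hx''
      exact ⟨x.1, by rw [Submodule.mem_comap, ← this]; exact hx, this.symm⟩
  rw [← h3, finrank_map_inj _ LinearMap.inl_injective]

/-- Intertwiners from `η` to `θ`. -/
def homComm {V W : Type*} [AddCommGroup V] [Module ℂ V] [AddCommGroup W] [Module ℂ W]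
    (η : V →ₗ[ℂ] V) (θ : W →ₗ[ℂ] W) : Submodule ℂ (V →ₗ[ℂ] W) where
  carrier := {X | θ.comp X = X.comp η}
  add_mem' := fun {X Y} hX hY => by
    show θ.comp (X + Y) = (X + Y).comp η
    rw [LinearMap.comp_add, LinearMap.add_comp, hX, hY]
  zero_mem' := by
    show θ.comp 0 = (0 : V →ₗ[ℂ] W).comp η
    rw [LinearMap.comp_zero, LinearMap.zero_comp]
  smul_mem' := fun c X hX => by
    show θ.comp (c • X) = (c • X).comp η
    rw [LinearMap.comp_smul, LinearMap.smul_comp, hX]

theorem mem_homComm {V W : Type*} [AddCommGroup V] [Module ℂ V] [AddCommGroup W] [Module ℂ W]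
    {η : V →ₗ[ℂ] V} {θ : W →ₗ[ℂ] W} {X : V →ₗ[ℂ] W} :
    X ∈ homComm η θ ↔ θ.comp X = X.comp η := Iff.rfl

/-- Left eigenvectors. -/
theorem finrank_ker_dualMap {V : Type*} [AddCommGroup V] [Module ℂ V] [FiniteDimensional ℂ V]
    (ξ : V →ₗ[ℂ] V) : finrank ℂ (LinearMap.ker ξ.dualMap) = finrank ℂ (LinearMap.ker ξ) := by
  have h4 := Subspace.finrank_add_finrank_dualAnnihilator_eq (LinearMap.range ξ)
  have h5 := LinearMap.finrank_range_add_finrank_ker ξ
  rw [← LinearMap.ker_dualMap_eq_dualAnnihilator_range] at h4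
  omega

theorem finrank_line_le {V W : Type*} [AddCommGroup V] [Module ℂ V] [FiniteDimensional ℂ V]
    [AddCommGroup W] [Module ℂ W] [FiniteDimensional ℂ W] (η : V →ₗ[ℂ] V) (θ : W →ₗ[ℂ] W)
    (μ : ℂ) (w : W) (hθw : θ w = μ • w) (ℓ : W →ₗ[ℂ] ℂ) (hℓ : ℓ w = 1)
    (K : Submodule ℂ (V →ₗ[ℂ] W)) (hK : K ≤ homComm η θ)
    (hK' : ∀ X ∈ K, ∀ v, X v = ℓ (X v) • w) :
    finrank ℂ K ≤ finrank ℂ (LinearMap.ker (η - μ • LinearMap.id)) := by
  rw [finrank_eq_map_add K (LinearMap.compRight ℂ ℓ), ← finrank_ker_dualMap]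
  have h1 : K ⊓ LinearMap.ker (LinearMap.compRight ℂ ℓ : (V →ₗ[ℂ] W) →ₗ[ℂ] _) = ⊥ := by
    rw [eq_bot_iff]
    rintro X ⟨hX, hX'⟩
    rw [Submodule.mem_bot]
    ext v
    have h2 : ℓ (X v) = 0 := LinearMap.congr_fun hX' v
    rw [hK' X hX v, h2, zero_smul, LinearMap.zero_apply]
  rw [h1, finrank_bot, add_zero]
  refine Submodule.finrank_mono ?_
  rintro _ ⟨X, hX, rfl⟩
  rw [LinearMap.mem_ker]
  ext v
  have h4 : θ (X v) = X (η v) := LinearMap.congr_fun (hK hX) v
  show ℓ (X ((η - μ • LinearMap.id : V →ₗ[ℂ] V) v)) = 0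
  rw [LinearMap.sub_apply, map_sub, map_sub, ← h4, LinearMap.smul_apply, LinearMap.id_apply,
    map_smul, map_smul]
  have h5 : θ (X v) = ℓ (X v) • μ • w := by rw [← hθw, ← map_smul, ← hK' X hX v]
  rw [h5, map_smul, map_smul, hℓ, smul_eq_mul, smul_eq_mul, smul_eq_mul, mul_one, mul_comm,
    sub_self]

theorem finrank_homComm_le {V : Type} [AddCommGroup V] [Module ℂ V] [FiniteDimensional ℂ V]
    (η : V →ₗ[ℂ] V) (m : ℕ)
    (hm : ∀ μ : ℂ, finrank ℂ (LinearMap.ker (η - μ • LinearMap.id)) ≤ m) :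
    ∀ (n : ℕ) (W : Type) [AddCommGroup W] [Module ℂ W] [FiniteDimensional ℂ W]
      (θ : W →ₗ[ℂ] W), finrank ℂ W = n → finrank ℂ (homComm η θ) ≤ m * n := by
  intro n
  induction n with
  | zero =>
    intro W _ _ _ θ hW
    have : Subsingleton W := finrank_zero_iff.1 hW
    have h1 : finrank ℂ (V →ₗ[ℂ] W) = 0 := finrank_zero_of_subsingleton
    rw [mul_zero, ← h1]
    exact Submodule.finrank_le _
  | succ n ih =>
    intro W _ _ _ θ hW
    have : Nontrivial W := nontrivial_of_finrank_pos (R := ℂ) (by rw [hW]; exact Nat.succ_pos n)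
    obtain ⟨μ, hμ⟩ := Module.End.exists_eigenvalue θ
    obtain ⟨w, hw⟩ := hμ.exists_hasEigenvector
    have hθw : θ w = μ • w := hw.apply_eq_smul
    have hw0 : w ≠ 0 := hw.2
    obtain ⟨L, hL⟩ : ∃ L : Submodule ℂ W, L = Submodule.span ℂ {w} := ⟨_, rfl⟩
    have hLθ : L ≤ L.comap θ := by
      rw [hL, Submodule.span_singleton_le_iff_mem, Submodule.mem_comap, hθw]
      exact Submodule.smul_mem _ _ (Submodule.mem_span_singleton_self w)
    have hquot : finrank ℂ (W ⧸ L) = n := by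
      have h1 := Submodule.finrank_quotient_add_finrank L
      rw [hL, finrank_span_singleton hw0, ← hL, hW] at h1
      omega
    obtain ⟨ℓ, hℓ⟩ : ∃ ℓ : W →ₗ[ℂ] ℂ, ℓ w = 1 := by
      have h3 : ¬ ∀ φ : Module.Dual ℂ W, φ w = 0 := fun h =>
        hw0 ((Module.forall_dual_apply_eq_zero_iff ℂ w).1 h)
      push Not at h3
      obtain ⟨φ, hφ⟩ := h3
      exact ⟨(φ w)⁻¹ • φ, by rw [LinearMap.smul_apply, smul_eq_mul, inv_mul_cancel₀ hφ]⟩
    have h2 : finrank ℂ ((homComm η θ).map (LinearMap.compRight ℂ L.mkQ)) ≤ m * n := by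
      refine le_trans (Submodule.finrank_mono ?_) (ih (W ⧸ L) (L.mapQ L θ hLθ) hquot)
      rintro _ ⟨X, hX, rfl⟩
      rw [mem_homComm]
      ext v
      have h3 : θ (X v) = X (η v) := LinearMap.congr_fun hX v
      simp [h3]
    have h3 : finrank ℂ (homComm η θ ⊓ LinearMap.ker (LinearMap.compRight ℂ L.mkQ) :
        Submodule ℂ (V →ₗ[ℂ] W)) ≤ m := by
      refine le_trans (finrank_line_le η θ μ w hθw ℓ hℓ _ inf_le_left fun X hX v => ?_) (hm μ)
      have h4 : L.mkQ (X v) = 0 := LinearMap.congr_fun hX.2 v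
      rw [Submodule.mkQ_apply, Submodule.Quotient.mk_eq_zero] at h4
      have h5 : X v ∈ Submodule.span ℂ {w} := hL ▸ h4
      rw [Submodule.mem_span_singleton] at h5
      obtain ⟨c, hc⟩ := h5
      rw [← hc, map_smul, hℓ, smul_eq_mul, mul_one]
    rw [finrank_eq_map_add (homComm η θ) (LinearMap.compRight ℂ L.mkQ), mul_add, mul_one]
    omega

/-- The centralizer of a family of matrices. -/
def centr {κ : Type*} (y : κ → Mat r ℂ) : Submodule ℂ (Mat r ℂ) where
  carrier := {N | ∀ k, Commute N (y k)}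
  add_mem' := fun h1 h2 k => (h1 k).add_left (h2 k)
  zero_mem' := fun k => Commute.zero_left _
  smul_mem' := fun c N h k => (h k).smul_left c

theorem mem_centr {κ : Type*} {y : κ → Mat r ℂ} {N : Mat r ℂ} :
    N ∈ centr y ↔ ∀ k, Commute N (y k) := Iff.rfl

/-- Dimension of the centralizer of one matrix. -/
theorem finrank_centr_single (η : Mat r ℂ) (m : ℕ)
    (hm : ∀ μ : ℂ, finrank ℂ (LinearMap.ker (Matrix.toLin' η - μ • LinearMap.id)) ≤ m) :
    finrank ℂ (centr fun _ : Unit => η) ≤ m * r := by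
  have h1 := finrank_homComm_le (Matrix.toLin' η) m hm r (Fin r → ℂ) (Matrix.toLin' η) (by simp)
  refine le_trans ?_ h1
  rw [← finrank_map_inj (Matrix.toLin' : Mat r ℂ ≃ₗ[ℂ] _).toLinearMap
    (Matrix.toLin' : Mat r ℂ ≃ₗ[ℂ] _).injective]
  refine Submodule.finrank_mono ?_
  rintro _ ⟨N, hN, rfl⟩
  rw [mem_homComm]
  have h2 : N * η = η * N := hN ()
  show (Matrix.toLin' η).comp (Matrix.toLin' N) = (Matrix.toLin' N).comp (Matrix.toLin' η)
  rw [← Matrix.toLin'_mul, ← Matrix.toLin'_mul, h2]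

/-- Endomorphisms that map the kernel of `E₀` into its range, up to scalars. -/
theorem finrank_defect_le {V : Type*} [AddCommGroup V] [Module ℂ V] [FiniteDimensional ℂ V]
    (E₀ : V →ₗ[ℂ] V) (S : Submodule ℂ (V →ₗ[ℂ] V))
    (hS : ∀ X ∈ S, ∃ μ : ℂ, ∀ v, E₀ v = 0 → X v - μ • v ∈ LinearMap.range E₀) :
    finrank ℂ S + finrank ℂ (LinearMap.ker E₀) * finrank ℂ (LinearMap.ker E₀) ≤
      finrank ℂ V * finrank ℂ V + 1 := by
  obtain ⟨Θ, hΘ⟩ : ∃ Θ : (V →ₗ[ℂ] V) →ₗ[ℂ] (LinearMap.ker E₀ →ₗ[ℂ] V ⧸ LinearMap.range E₀),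
      ∀ X v, Θ X v = (LinearMap.range E₀).mkQ (X v) :=
    ⟨(LinearMap.compRight ℂ (LinearMap.range E₀).mkQ).comp
      (LinearMap.lcomp ℂ V (LinearMap.ker E₀).subtype), fun X v => rfl⟩
  have hsurj : LinearMap.range Θ = ⊤ := by
    rw [LinearMap.range_eq_top]
    intro f
    obtain ⟨s, hs⟩ := (LinearMap.range E₀).mkQ.exists_rightInverse_of_surjective
      (LinearMap.range_eq_top.2 (Submodule.mkQ_surjective _))
    obtain ⟨X, hX⟩ := LinearMap.exists_extend (s.comp f)
    refine ⟨X, ?_⟩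
    refine LinearMap.ext fun v => ?_
    have h1 : X v = s (f v) := LinearMap.congr_fun hX v
    rw [hΘ, h1]
    exact LinearMap.congr_fun hs (f v)
  have h1 := LinearMap.finrank_range_add_finrank_ker Θ
  have h2 : finrank ℂ (LinearMap.ker E₀ →ₗ[ℂ] V ⧸ LinearMap.range E₀) =
      finrank ℂ (LinearMap.ker E₀) * finrank ℂ (LinearMap.ker E₀) := by
    rw [Module.finrank_linearMap]
    congr 1
    have h3 := Submodule.finrank_quotient_add_finrank (LinearMap.range E₀)
    have h4 := LinearMap.finrank_range_add_finrank_ker E₀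
    omega
  rw [hsurj, finrank_top, h2, Module.finrank_linearMap] at h1
  have h5 := finrank_eq_map_add S Θ
  have h6 : finrank ℂ (S.map Θ) ≤ 1 := by
    have h7 : S.map Θ ≤ Submodule.span ℂ {Θ LinearMap.id} := by
      rintro _ ⟨X, hX, rfl⟩
      obtain ⟨μ, hμ⟩ := hS X hX
      rw [Submodule.mem_span_singleton]
      refine ⟨μ, ?_⟩
      refine LinearMap.ext fun v => ?_
      rw [LinearMap.smul_apply, hΘ, hΘ, ← map_smul, eq_comm, ← sub_eq_zero, ← map_sub,
        Submodule.mkQ_apply, Submodule.Quotient.mk_eq_zero]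
      exact hμ v v.2
    refine (Submodule.finrank_mono h7).trans ?_
    refine (finrank_span_le_card _).trans ?_
    simp
  have h8 : finrank ℂ (S ⊓ LinearMap.ker Θ : Submodule ℂ (V →ₗ[ℂ] V)) ≤
      finrank ℂ (LinearMap.ker Θ) := Submodule.finrank_mono inf_le_right
  omega

section der

variable (δ : Derivation ℤ ℂ ℂ)

theorem map_der_mul (M N : Mat r ℂ) : (M * N).map δ = M.map δ * N + M * N.map δ := by
  ext i j
  simp only [Matrix.map_apply, Matrix.mul_apply, Matrix.add_apply, map_sum, Derivation.leibniz,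
    smul_eq_mul, Finset.sum_add_distrib]
  rw [add_comm]
  congr 1
  refine Finset.sum_congr rfl fun k _ => mul_comm _ _

theorem map_der_mulVec (M : Mat r ℂ) (v : Fin r → ℂ) :
    (fun i => δ ((M *ᵥ v) i)) = M.map δ *ᵥ v + M *ᵥ fun i => δ (v i) := by
  ext i
  simp only [Matrix.mulVec, dotProduct, Matrix.map_apply, Pi.add_apply, map_sum,
    Derivation.leibniz, smul_eq_mul, Finset.sum_add_distrib]
  rw [add_comm]
  congr 1
  refine Finset.sum_congr rfl fun k _ => mul_comm _ _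

end der

/-- The dimension count of PART III'. -/
theorem count_main {κ : Type} [Fintype κ] (hκ : 2 ≤ Fintype.card κ) (y : κ → Mat r ℂ)
    (c : Fin r × Fin r → ℂ) (T : Submodule ℂ (κ → Mat r ℂ))
    (hgen : ∀ u ∈ T, ∀ γ : Fin r × Fin r → ℂ, ∃ δ : Derivation ℤ ℂ ℂ,
      (∀ k i j, δ (y k i j) = u k i j) ∧ ∀ p, δ (c p) = γ p)
    (hd : ∃ N ∈ centr y, ∀ a : ℂ, N ≠ a • (1 : Mat r ℂ)) :
    finrank ℂ T + finrank ℂ (centr y) ≤ Fintype.card κ * (r * r) := by
  classical
  -- coordinates on the centralizer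
  obtain ⟨I, hI1, hI2⟩ := exists_coords
    (fun p : Fin r × Fin r => (Matrix.entryLinearMap ℂ ℂ p.1 p.2 : Mat r ℂ →ₗ[ℂ] ℂ)) (centr y)
    (fun z _ h => by
      ext i j
      exact h (i, j))
  obtain ⟨η, hη, hηc⟩ := hI2 c
  have hηy : ∀ k, η * y k = y k * η := fun k => hη k
  -- the space of pairs
  obtain ⟨TT, hTT⟩ : ∃ TT : Submodule ℂ ((κ → Mat r ℂ) × Mat r ℂ), ∀ p, p ∈ TT ↔ p.1 ∈ T ∧
      ∀ k, (p.2 * y k - y k * p.2) + (η * p.1 k - p.1 k * η) = 0 := by
    refine ⟨{ carrier := {p | p.1 ∈ T ∧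
                ∀ k, (p.2 * y k - y k * p.2) + (η * p.1 k - p.1 k * η) = 0}
              add_mem' := ?_
              zero_mem' := ⟨T.zero_mem, fun k => by simp⟩
              smul_mem' := ?_ }, fun p => Iff.rfl⟩
    · rintro p q ⟨hp1, hp2⟩ ⟨hq1, hq2⟩
      refine ⟨T.add_mem hp1 hq1, fun k => ?_⟩
      have h1 := hp2 k
      have h2 := hq2 k
      calc ((p + q).2 * y k - y k * (p + q).2) + (η * (p + q).1 k - (p + q).1 k * η)
          = ((p.2 * y k - y k * p.2) + (η * p.1 k - p.1 k * η)) +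
            ((q.2 * y k - y k * q.2) + (η * q.1 k - q.1 k * η)) := by
            simp only [Prod.fst_add, Prod.snd_add, Pi.add_apply, Matrix.add_mul, Matrix.mul_add]
            abel
        _ = 0 := by rw [h1, h2, add_zero]
    · rintro a p ⟨hp1, hp2⟩
      refine ⟨T.smul_mem a hp1, fun k => ?_⟩
      have h1 := hp2 k
      calc ((a • p).2 * y k - y k * (a • p).2) + (η * (a • p).1 k - (a • p).1 k * η)
          = a • ((p.2 * y k - y k * p.2) + (η * p.1 k - p.1 k * η)) := by
            simp only [Prod.smul_fst, Prod.smul_snd, Pi.smul_apply, Matrix.smul_mul,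
              Matrix.mul_smul, smul_add, smul_sub]
        _ = 0 := by rw [h1, smul_zero]
  -- derivative of the commutation relation
  have hder : ∀ δ : Derivation ℤ ℂ ℂ, ∀ u : κ → Mat r ℂ, (∀ k i j, δ (y k i j) = u k i j) →
      ∀ k, (η.map δ * y k - y k * η.map δ) + (η * u k - u k * η) = 0 := by
    intro δ u hδ k
    have hu : (y k).map δ = u k := by ext i j; exact hδ k i j
    have h1 := congrArg (fun M : Mat r ℂ => M.map δ) (hηy k)
    simp only [map_der_mul, hu] at h1
    rw [sub_add_sub_comm, h1, sub_eq_zero]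
    abel
  have claimA : ∀ p ∈ TT, ∃ δ : Derivation ℤ ℂ ℂ, (∀ k i j, δ (y k i j) = p.1 k i j) ∧
      η.map δ = p.2 := by
    intro p hp
    obtain ⟨hp1, hp2⟩ := (hTT p).1 hp
    obtain ⟨δ, hδ1, hδ2⟩ := hgen p.1 hp1 fun q => p.2 q.1 q.2
    refine ⟨δ, hδ1, ?_⟩
    have h1 : η.map δ - p.2 ∈ centr y := by
      intro k
      show (η.map δ - p.2) * y k = y k * (η.map δ - p.2)
      have h2 := hder δ p.1 hδ1 k
      have h3 := hp2 k
      have h4 : (η.map δ * y k - y k * η.map δ) = (p.2 * y k - y k * p.2) :=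
        add_right_cancel (h2.trans h3.symm)
      rw [Matrix.sub_mul, Matrix.mul_sub, sub_eq_sub_iff_sub_eq_sub]
      have h5 : η.map δ * y k - y k * η.map δ = p.2 * y k - y k * p.2 := h4
      rw [h5]
    have h2 := hI1 _ h1 fun q hq => by
      have h3 := hηc q hq
      simp only [Matrix.entryLinearMap_apply] at h3 ⊢
      rw [Matrix.sub_apply, Matrix.map_apply, h3, hδ2, sub_self]
    exact sub_eq_zero.1 h2
  have claimB : TT.map (LinearMap.fst ℂ _ _) = T := by
    ext u
    rw [Submodule.mem_map]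
    constructor
    · rintro ⟨p, hp, rfl⟩
      exact ((hTT p).1 hp).1
    · intro hu
      obtain ⟨δ, hδ1, -⟩ := hgen u hu 0
      exact ⟨(u, η.map δ), (hTT _).2 ⟨hu, hder δ u hδ1⟩, rfl⟩
  have claimB' : TT.comap (LinearMap.inr ℂ (κ → Mat r ℂ) (Mat r ℂ)) = centr y := by
    ext N
    rw [Submodule.mem_comap, hTT, mem_centr]
    constructor
    · rintro ⟨-, h⟩ k
      have h1 := h k
      simp only [LinearMap.inr_apply, Pi.zero_apply, Matrix.mul_zero, Matrix.zero_mul, sub_self,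
        add_zero] at h1
      exact sub_eq_zero.1 h1
    · intro h
      refine ⟨T.zero_mem, fun k => ?_⟩
      simp only [LinearMap.inr_apply, Pi.zero_apply, Matrix.mul_zero, Matrix.zero_mul, sub_self,
        add_zero]
      exact sub_eq_zero.2 (h k)
  -- `η` is not a scalar
  have hns : ∀ a : ℂ, η ≠ a • (1 : Mat r ℂ) := by
    intro a ha
    obtain ⟨N, hN, hN'⟩ := hd
    have h1 : N ∈ TT.comap (LinearMap.inr ℂ (κ → Mat r ℂ) (Mat r ℂ)) := claimB' ▸ hN
    obtain ⟨δ, -, hδ⟩ := claimA _ h1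
    apply hN' (δ a)
    have h2 : η.map δ = N := hδ
    rw [← h2, ha]
    ext i j
    rw [Matrix.map_apply, Matrix.smul_apply, Matrix.smul_apply, Matrix.one_apply]
    split_ifs with hij
    · rw [smul_eq_mul, mul_one, smul_eq_mul, mul_one]
    · rw [smul_zero, smul_zero, map_zero]
  -- maximal geometric multiplicity
  obtain ⟨lam, hlam⟩ : ∃ lam : ℂ, ∀ μ : ℂ,
      finrank ℂ (LinearMap.ker (Matrix.toLin' η - μ • LinearMap.id)) ≤
        finrank ℂ (LinearMap.ker (Matrix.toLin' η - lam • LinearMap.id)) := by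
    have hbdd : BddAbove (Set.range fun μ : ℂ =>
        finrank ℂ (LinearMap.ker (Matrix.toLin' η - μ • LinearMap.id))) := by
      refine ⟨r, ?_⟩
      rintro _ ⟨μ, rfl⟩
      refine (Submodule.finrank_le _).trans ?_
      simp
    obtain ⟨lam, hlam⟩ := Nat.sSup_mem (Set.range_nonempty _) hbdd
    exact ⟨lam, fun μ => by
      simp only at hlam
      rw [hlam]
      exact le_csSup hbdd ⟨μ, rfl⟩⟩
  obtain ⟨m, hm⟩ : ∃ m, m = finrank ℂ (LinearMap.ker (Matrix.toLin' η - lam • LinearMap.id)) :=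
    ⟨_, rfl⟩
  rw [← hm] at hlam
  have hmr : m < r := by
    have h1 : m ≤ r := by
      rw [hm]
      refine (Submodule.finrank_le _).trans ?_
      simp
    refine lt_of_le_of_ne h1 fun h2 => ?_
    have h3 : LinearMap.ker (Matrix.toLin' η - lam • LinearMap.id) = ⊤ := by
      apply Submodule.eq_top_of_finrank_eq
      rw [← hm, h2]
      simp
    rw [LinearMap.ker_eq_top, sub_eq_zero] at h3
    apply hns lam
    apply Matrix.toLin'.injective
    rw [h3, map_smul, Matrix.toLin'_one]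
  -- bound of the pairs
  have hsnd : finrank ℂ (TT.map (LinearMap.snd ℂ (κ → Mat r ℂ) (Mat r ℂ))) + m * m ≤
      r * r + 1 := by
    have h1 := finrank_defect_le (Matrix.toLin' η - lam • LinearMap.id)
      ((TT.map (LinearMap.snd ℂ (κ → Mat r ℂ) (Mat r ℂ))).map
        (Matrix.toLin' : Mat r ℂ ≃ₗ[ℂ] _).toLinearMap) ?_
    · rw [finrank_map_inj _ (Matrix.toLin' : Mat r ℂ ≃ₗ[ℂ] _).injective, ← hm] at h1
      simpa using h1
    · rintro _ ⟨_, ⟨p, hp, rfl⟩, rfl⟩
      obtain ⟨δ, -, hδ⟩ := claimA p hp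
      refine ⟨δ lam, fun v hv => ?_⟩
      refine ⟨-fun i => δ (v i), ?_⟩
      have h2 : η *ᵥ v = lam • v := by
        have := hv
        rw [LinearMap.sub_apply, Matrix.toLin'_apply, LinearMap.smul_apply, LinearMap.id_apply,
          sub_eq_zero] at this
        exact this
      have h3 := map_der_mulVec δ η v
      have h4 : (fun i => δ ((η *ᵥ v) i)) = δ lam • v + lam • fun i => δ (v i) := by
        ext i
        rw [h2]
        simp only [Pi.smul_apply, Pi.add_apply, smul_eq_mul, Derivation.leibniz]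
        ring
      rw [h3] at h4
      show (Matrix.toLin' η - lam • LinearMap.id : (Fin r → ℂ) →ₗ[ℂ] _) (-fun i => δ (v i)) =
        Matrix.toLin' p.2 v - δ lam • v
      rw [map_neg, LinearMap.sub_apply, Matrix.toLin'_apply, LinearMap.smul_apply,
        LinearMap.id_apply, Matrix.toLin'_apply, ← hδ]
      have h5 : η.map δ *ᵥ v = δ lam • v + lam • (fun i => δ (v i)) -
          η *ᵥ (fun i => δ (v i)) := by rw [← h4]; abel
      rw [h5]
      abel
  have hinl : finrank ℂ (TT.comap (LinearMap.inl ℂ (κ → Mat r ℂ) (Mat r ℂ))) ≤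
      Fintype.card κ * (m * r) := by
    have hmem : ∀ u ∈ TT.comap (LinearMap.inl ℂ (κ → Mat r ℂ) (Mat r ℂ)), ∀ k,
        u k ∈ centr fun _ : Unit => η := by
      intro u hu k _
      rw [Submodule.mem_comap, hTT] at hu
      have h2 := hu.2 k
      simp only [LinearMap.inl_apply, Matrix.mul_zero, Matrix.zero_mul, sub_self, zero_add] at h2
      exact (sub_eq_zero.1 h2).symm
    refine (LinearMap.finrank_le_finrank_of_injective (f := (LinearMap.pi fun k =>
      ((LinearMap.proj k).comp (Submodule.subtype _)).codRestrict (centr fun _ : Unit => η)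
        fun u => hmem u.1 u.2 k :
          TT.comap (LinearMap.inl ℂ (κ → Mat r ℂ) (Mat r ℂ)) →ₗ[ℂ]
            (κ → centr fun _ : Unit => η))) ?_).trans ?_
    · intro u v huv
      apply Subtype.ext
      funext k
      exact congrArg Subtype.val (congrFun huv k)
    · rw [Module.finrank_pi_fintype, Finset.sum_const, Finset.card_univ, smul_eq_mul]
      exact Nat.mul_le_mul_left _ (finrank_centr_single η m hlam)
  have e1 := finrank_prod_fst TT
  have e2 := finrank_prod_snd TT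
  rw [claimB, claimB'] at e1
  rw [← e1, e2]
  have h3 : Fintype.card κ * (m * r) + (r * r + 1) ≤ Fintype.card κ * (r * r) + m * m := by
    obtain ⟨q, hq⟩ := Nat.exists_eq_add_of_le hκ
    obtain ⟨t, ht⟩ := Nat.exists_eq_add_of_lt hmr
    rw [hq, ht]
    ring_nf
    nlinarith [Nat.zero_le (q * m), Nat.zero_le (q * t), Nat.zero_le (q * t * m),
      Nat.zero_le (q * t * t), Nat.zero_le (t * t)]
  omega

end Vale.Agent.P002
end

section

/-!
# P002 PART III': existence of generic points on a fibre of a submersion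
-/

namespace Vale.Agent.P002

open Matrix Module

variable {r : ℕ}

section normed

open scoped Matrix.Norms.Operator

/-- If `f` is approximated by a linear isomorphism then its derivative is injective nearby. -/
theorem injective_of_approx {E F : Type*} [NormedAddCommGroup E] [NormedSpace ℂ E]
    [NormedAddCommGroup F] [NormedSpace ℂ F] {f : E → F} (A : E ≃L[ℂ] F) {s : Set E}
    {c : NNReal} (hf : ApproximatesLinearOn f (A : E →L[ℂ] F) s c)
    (hc : (c : ℝ) * ‖(A.symm : F →L[ℂ] E)‖ < 1) {p : E} (hs : s ∈ nhds p) {f' : E →L[ℂ] F}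
    (hf' : HasFDerivAt f f' p) (u : E) (hu : f' u = 0) : u = 0 := by
  have h1 : HasFDerivAt (f - ⇑(A : E →L[ℂ] F)) (f' - (A : E →L[ℂ] F)) p :=
    hf'.sub (A : E →L[ℂ] F).hasFDerivAt
  have h2 : ‖f' - (A : E →L[ℂ] F)‖ ≤ c := h1.le_of_lipschitzOn hs hf.lipschitzOnWith
  have h3 : ‖A u‖ ≤ c * ‖u‖ := by
    have h4 : (f' - (A : E →L[ℂ] F)) u = - A u := by
      rw [_root_.sub_apply, hu, zero_sub]
      rfl
    calc ‖A u‖ = ‖(f' - (A : E →L[ℂ] F)) u‖ := by rw [h4, norm_neg]
      _ ≤ ‖f' - (A : E →L[ℂ] F)‖ * ‖u‖ := ContinuousLinearMap.le_opNorm _ _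
      _ ≤ c * ‖u‖ := by gcongr
  have h5 : ‖u‖ ≤ ‖(A.symm : F →L[ℂ] E)‖ * ‖A u‖ := by
    have h6 := (A.symm : F →L[ℂ] E).le_opNorm (A u)
    have h7 : (A.symm : F →L[ℂ] E) (A u) = u := A.symm_apply_apply u
    rw [h7] at h6
    exact h6
  by_contra hne
  have hpos : 0 < ‖u‖ := norm_pos_iff.2 hne
  have h8 : ‖u‖ ≤ (c * ‖(A.symm : F →L[ℂ] E)‖) * ‖u‖ := by
    calc ‖u‖ ≤ ‖(A.symm : F →L[ℂ] E)‖ * ‖A u‖ := h5
      _ ≤ ‖(A.symm : F →L[ℂ] E)‖ * (c * ‖u‖) := by gcongr
      _ = _ := by ring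
  nlinarith

theorem exists_approx {E F : Type*} [NormedAddCommGroup E] [NormedSpace ℂ E]
    [NormedAddCommGroup F] [NormedSpace ℂ F] {f : E → F} (A : E ≃L[ℂ] F) {p : E}
    (hf : HasStrictFDerivAt f (A : E →L[ℂ] F) p) :
    ∃ s ∈ nhds p, ∀ q, s ∈ nhds q → ∀ f' : E →L[ℂ] F, HasFDerivAt f f' q →
      ∀ u, f' u = 0 → u = 0 := by
  obtain ⟨c, hc0, hc1⟩ : ∃ c : NNReal, 0 < c ∧ (c : ℝ) * ‖(A.symm : F →L[ℂ] E)‖ < 1 := by
    refine ⟨Real.toNNReal (1 / (2 * (‖(A.symm : F →L[ℂ] E)‖ + 1))),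
      Real.toNNReal_pos.2 (by positivity), ?_⟩
    rw [Real.coe_toNNReal _ (by positivity)]
    have h0 : 0 ≤ ‖(A.symm : F →L[ℂ] E)‖ := norm_nonneg _
    rw [div_mul_eq_mul_div, one_mul, div_lt_one (by positivity)]
    linarith
  obtain ⟨s, hs, hA⟩ := hf.approximates_deriv_on_nhds (Or.inr hc0)
  exact ⟨s, hs, fun q hq f' hf' u hu => injective_of_approx A hA hc1 hq hf' u hu⟩

/-- Existence of generic points. -/
theorem exists_generic_point_norm {G : Type} [Fintype G] [DecidableEq G] (hr : 1 ≤ r)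
    (K₀ : Subfield ℂ) (hK₀ : Countable K₀) (Φ : (G → Mat r ℂ) → Mat r ℂ)
    (hΦ : ∀ Y : G → Mat r ℂ, (∀ k, IsUnit (Y k)) → ∃ D : (G → Mat r ℂ) →L[ℂ] Mat r ℂ,
      HasStrictFDerivAt Φ D Y ∧ ∀ δ : Derivation ℤ ℂ ℂ, (∀ c ∈ K₀, δ c = 0) →
        (Φ Y).map δ = D fun k => (Y k).map δ)
    (hdet : ∀ Y : G → Mat r ℂ, (∀ k, IsUnit (Y k)) → (Φ Y).det = 1)
    (X : G → Mat r ℂ) (hX : ∀ k, IsUnit (X k)) (hΦX : Φ X = 1)
    (hdual : ∀ D : (G → Mat r ℂ) →L[ℂ] Mat r ℂ, HasStrictFDerivAt Φ D X →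
      ∀ N : Mat r ℂ, (∀ H, trace (N * D H) = 0) → ∃ c : ℂ, N = c • (1 : Mat r ℂ))
    (U : Set (G → Mat r ℂ)) (hU : U ∈ nhds X) :
    ∃ Y ∈ U, (∀ k, IsUnit (Y k)) ∧ Φ Y = 1 ∧ ∃ c : Fin r × Fin r → ℂ,
      ∀ D : (G → Mat r ℂ) →L[ℂ] Mat r ℂ, HasStrictFDerivAt Φ D Y →
        ∀ H : G → Mat r ℂ, D H = 0 → ∀ γ : Fin r × Fin r → ℂ,
          ∃ δ : Derivation ℤ ℂ ℂ, (∀ k i j, δ (Y k i j) = H k i j) ∧ ∀ p, δ (c p) = γ p := by
  have hr0 : 0 < r := hr
  -- the derivative of `c • Φ Y`
  have hder : ∀ (Y : G → Mat r ℂ) (c : ℂ) (D : (G → Mat r ℂ) →L[ℂ] Mat r ℂ),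
      HasStrictFDerivAt Φ D Y → ∃ D' : ((G → Mat r ℂ) × ℂ) →L[ℂ] Mat r ℂ,
        HasStrictFDerivAt (fun p : (G → Mat r ℂ) × ℂ => p.2 • Φ p.1) D' (Y, c) ∧
          ∀ H γ, D' (H, γ) = c • D H + γ • Φ Y := by
    intro Y c D hD
    have hfst : HasStrictFDerivAt (fun p : (G → Mat r ℂ) × ℂ => Φ p.1)
        (D.comp (ContinuousLinearMap.fst ℂ (G → Mat r ℂ) ℂ)) (Y, c) :=
      HasStrictFDerivAt.comp (Y, c) hD
        (ContinuousLinearMap.fst ℂ (G → Mat r ℂ) ℂ).hasStrictFDerivAt
    have hsnd : HasStrictFDerivAt (fun p : (G → Mat r ℂ) × ℂ => p.2)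
        (ContinuousLinearMap.snd ℂ (G → Mat r ℂ) ℂ) (Y, c) :=
      (ContinuousLinearMap.snd ℂ (G → Mat r ℂ) ℂ).hasStrictFDerivAt
    exact ⟨_, hsnd.smul hfst, fun H γ => rfl⟩
  obtain ⟨D₀, hD₀, -⟩ := hΦ X hX
  obtain ⟨D, hD, hDe⟩ := hder X 1 D₀ hD₀
  have hDe' : ∀ H γ, D (H, γ) = D₀ H + γ • (1 : Mat r ℂ) := fun H γ => by
    rw [hDe, one_smul, hΦX]
  have hsurj : ∀ M, ∃ p, D p = M := by
    have h1 : D.range = ⊤ := by
      by_contra hne
      obtain ⟨φ, hφ, hle⟩ := Submodule.exists_le_ker_of_lt_top _ (lt_top_iff_ne_top.2 hne)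
      obtain ⟨N, hNφ⟩ := exists_trace_repr φ
      have h0 : ∀ p, trace (N * D p) = 0 := fun p => by
        have := hle (LinearMap.mem_range_self D.toLinearMap p)
        rw [LinearMap.mem_ker, hNφ] at this
        exact this
      have h1 : ∀ H, trace (N * D₀ H) = 0 := fun H => by
        have := h0 (H, 0)
        rw [hDe', zero_smul, add_zero] at this
        exact this
      obtain ⟨c, hcN⟩ := hdual D₀ hD₀ N h1
      have h2 : trace N = 0 := by
        have := h0 (0, 1)
        rw [hDe', map_zero, one_smul, zero_add, Matrix.mul_one] at this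
        exact this
      rw [hcN, trace_smul, trace_one, smul_eq_mul, Fintype.card_fin] at h2
      have hc0 : c = 0 := by
        rcases mul_eq_zero.1 h2 with h | h
        · exact h
        · exact absurd (Nat.cast_eq_zero.1 h) hr0.ne'
      rw [hc0, zero_smul] at hcN
      apply hφ
      ext1 M
      rw [hNφ, hcN, Matrix.zero_mul, trace_zero, LinearMap.zero_apply]
    intro M
    have h2 : M ∈ D.range := h1 ▸ Submodule.mem_top
    exact h2
  -- coordinates
  obtain ⟨e, he⟩ : ∃ e : (G × Fin r × Fin r) → ((G → Mat r ℂ) × ℂ) →ₗ[ℂ] ℂ,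
      ∀ a p, e a p = p.1 a.1 a.2.1 a.2.2 :=
    ⟨fun a => (Matrix.entryLinearMap ℂ ℂ a.2.1 a.2.2 : Mat r ℂ →ₗ[ℂ] ℂ).comp
      ((LinearMap.proj a.1).comp (LinearMap.fst ℂ (G → Mat r ℂ) ℂ)), fun a p => rfl⟩
  obtain ⟨I, hI1, hI2⟩ := exists_coords e (LinearMap.ker D.toLinearMap) (by
    rintro ⟨H, γ⟩ hz h
    have h1 : H = 0 := by
      funext k
      ext i j
      have := h (k, i, j)
      rw [he] at this
      exact this
    have h2 : D (H, γ) = 0 := hz
    rw [hDe', h1, map_zero, zero_add] at h2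
    have h3 : γ = 0 := by
      have := congrFun (congrFun h2 ⟨0, hr0⟩) ⟨0, hr0⟩
      simpa using this
    rw [h1, h3]
    rfl)
  -- the local diffeomorphism
  obtain ⟨eI, heI⟩ : ∃ eI : ((G → Mat r ℂ) × ℂ) →L[ℂ] (I → ℂ), ∀ p a, eI p a = e a p :=
    ⟨LinearMap.toContinuousLinearMap (LinearMap.pi fun a : I => e a), fun p a => rfl⟩
  have hbij : Function.Bijective (D.prod eI) := by
    constructor
    · rw [injective_iff_map_eq_zero]
      intro z hz
      have h1 : D z = 0 := congrArg Prod.fst hz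
      have h2 : eI z = 0 := congrArg Prod.snd hz
      refine hI1 z h1 fun i hi => ?_
      rw [← heI z ⟨i, hi⟩, h2]
      rfl
    · rintro ⟨M, a⟩
      obtain ⟨p, hp⟩ := hsurj M
      obtain ⟨z, hz, hz'⟩ := hI2 fun i => if h : i ∈ I then a ⟨i, h⟩ - e i p else 0
      have hz0 : D z = 0 := hz
      refine ⟨p + z, Prod.ext ?_ ?_⟩
      · show D (p + z) = M
        rw [map_add, hp, hz0, add_zero]
      · show eI (p + z) = a
        funext i
        rw [map_add, Pi.add_apply, heI, heI, hz' i i.2, dif_pos i.2]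
        ring
  obtain ⟨A, hA⟩ : ∃ A : ((G → Mat r ℂ) × ℂ) ≃L[ℂ] (Mat r ℂ × (I → ℂ)),
      (A : ((G → Mat r ℂ) × ℂ) →L[ℂ] (Mat r ℂ × (I → ℂ))) = D.prod eI := by
    refine ⟨(LinearEquiv.ofBijective (D.prod eI).toLinearMap hbij).toContinuousLinearEquiv, ?_⟩
    ext p <;> rfl
  have hΨ : HasStrictFDerivAt (fun p : (G → Mat r ℂ) × ℂ => (p.2 • Φ p.1, eI p))
      (A : ((G → Mat r ℂ) × ℂ) →L[ℂ] (Mat r ℂ × (I → ℂ))) (X, (1 : ℂ)) := by
    rw [hA]
    exact hD.prodMk eI.hasStrictFDerivAt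
  obtain ⟨s, hs, hsinj⟩ := exists_approx A hΨ
  have hmap := hΨ.map_nhds_eq_of_equiv
  -- the neighbourhood
  have hUn : {Y : G → Mat r ℂ | ∀ k, IsUnit (Y k)} ∈ nhds X := by
    have : {Y : G → Mat r ℂ | ∀ k, IsUnit (Y k)} =
        ⋂ k, {Y : G → Mat r ℂ | (Y k).det ≠ 0} := by
      ext Y
      simp only [Set.mem_ofPred_eq, Set.mem_iInter]
      exact forall_congr' fun k => by rw [Matrix.isUnit_iff_isUnit_det, isUnit_iff_ne_zero]
    rw [this]
    refine (isOpen_iInter_of_finite fun k => ?_).mem_nhds ?_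
    · exact isOpen_ne.preimage (Continuous.matrix_det (continuous_apply k))
    · simp only [Set.mem_iInter, Set.mem_ofPred_eq]
      intro k
      rw [← isUnit_iff_ne_zero, ← Matrix.isUnit_iff_isUnit_det]
      exact hX k
  have hCn : {c : ℂ | c ^ r = 1 → c = 1} ∈ nhds (1 : ℂ) := by
    have hfin : ({c : ℂ | c ^ r = 1 ∧ c ≠ 1}).Finite := by
      refine (Multiset.finite_toSet (Polynomial.nthRoots r (1 : ℂ))).subset ?_
      rintro c ⟨h1, -⟩
      exact (Polynomial.mem_nthRoots hr0).2 h1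
    have h1 : {c : ℂ | c ^ r = 1 → c = 1} = {c : ℂ | c ^ r = 1 ∧ c ≠ 1}ᶜ := by
      ext c
      simp only [Set.mem_ofPred_eq, Set.mem_compl_iff, not_and, not_not]
    rw [h1]
    refine hfin.isClosed.isOpen_compl.mem_nhds ?_
    simp
  have hprod : (U ∩ {Y : G → Mat r ℂ | ∀ k, IsUnit (Y k)}) ×ˢ
      {c : ℂ | c ^ r = 1 → c = 1} ∈ nhds (X, (1 : ℂ)) :=
    prod_mem_nhds (Filter.inter_mem hU hUn) hCn
  have hall : ((U ∩ {Y : G → Mat r ℂ | ∀ k, IsUnit (Y k)}) ×ˢ
      {c : ℂ | c ^ r = 1 → c = 1}) ∩ interior s ∈ nhds (X, (1 : ℂ)) :=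
    Filter.inter_mem hprod (interior_mem_nhds.2 hs)
  have himg := hmap.ge (Filter.image_mem_map (m := fun p : (G → Mat r ℂ) × ℂ =>
    (p.2 • Φ p.1, eI p)) hall)
  have hbase : ((X, (1 : ℂ)).2 • Φ (X, (1 : ℂ)).1, eI (X, (1 : ℂ))) =
      ((1 : Mat r ℂ), eI (X, (1 : ℂ))) := by
    simp only [one_smul, hΦX]
  rw [hbase, nhds_prod_eq] at himg
  obtain ⟨V₁, hV₁, V₂, hV₂, hV⟩ := Filter.mem_prod_iff.1 himg
  obtain ⟨ε, hε, hball⟩ := Metric.mem_nhds_iff.1 hV₂
  -- algebraically independent coordinates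
  obtain ⟨tc, htV, htind⟩ := exists_dense_algIndep K₀ hK₀
    (ι := I ⊕ (Fin r × Fin r))
    (fun a => Sum.elim (fun a : I => Metric.ball (eI (X, (1 : ℂ)) a) ε) (fun _ => Set.univ) a)
    (fun a => by
      cases a with
      | inl a => exact Metric.isOpen_ball
      | inr a => exact isOpen_univ)
    (fun a => by
      cases a with
      | inl a => exact Metric.nonempty_ball.2 hε
      | inr a => exact Set.univ_nonempty)
  have htmem : (fun a : I => tc (Sum.inl a)) ∈ V₂ := by
    refine hball ?_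
    rw [Metric.mem_ball, dist_pi_lt_iff hε]
    intro a
    exact htV (Sum.inl a)
  obtain ⟨⟨Y, c₁⟩, ⟨⟨⟨hYU, hYn⟩, hc₁⟩, hYs⟩, hYeq⟩ := hV (Set.mk_mem_prod
    (mem_of_mem_nhds hV₁) htmem)
  have hY1 : c₁ • Φ Y = 1 := congrArg Prod.fst hYeq
  have hY2 : eI (Y, c₁) = fun a : I => tc (Sum.inl a) := congrArg Prod.snd hYeq
  have hc1 : c₁ = 1 := by
    apply hc₁
    have h1 := congrArg Matrix.det hY1
    rw [det_smul, hdet Y hYn, mul_one, det_one, Fintype.card_fin] at h1
    exact h1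
  rw [hc1] at hY1 hY2 hYs
  rw [one_smul] at hY1
  refine ⟨Y, hYU, hYn, hY1, fun p => tc (Sum.inr p), fun D₁ hD₁ H hH γ => ?_⟩
  obtain ⟨δ, hδ0, hδ⟩ := exists_derivation K₀ tc htind
    (fun a => Sum.elim (fun a : I => H a.1.1 a.1.2.1 a.1.2.2) γ a)
  refine ⟨δ, ?_, fun p => hδ (Sum.inr p)⟩
  obtain ⟨D₂, hD₂, hD₂δ⟩ := hΦ Y hYn
  have hDD : D₂ = D₁ := hD₂.hasFDerivAt.unique hD₁.hasFDerivAt
  have h1 : D₁ (fun k => (Y k).map δ) = 0 := by
    rw [← hDD, ← hD₂δ δ hδ0, hY1]
    ext i j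
    rw [Matrix.map_apply, Matrix.one_apply]
    split_ifs
    · simp
    · simp
  obtain ⟨D₃, hD₃, hD₃e⟩ := hder Y 1 D₁ hD₁
  have h2 : ((fun k => (Y k).map δ) - H, (0 : ℂ)) = 0 := by
    refine hsinj (Y, (1 : ℂ)) (mem_interior_iff_mem_nhds.1 hYs) (D₃.prod eI)
      (hD₃.prodMk eI.hasStrictFDerivAt).hasFDerivAt _ ?_
    refine Prod.ext ?_ ?_
    · show D₃ ((fun k => (Y k).map δ) - H, (0 : ℂ)) = 0
      rw [hD₃e, map_sub, h1, hH, sub_zero, smul_zero, zero_smul, add_zero]
    · show eI ((fun k => (Y k).map δ) - H, (0 : ℂ)) = 0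
      funext a
      have h3 : Y a.1.1 a.1.2.1 a.1.2.2 = tc (Sum.inl a) := by
        have := congrFun hY2 a
        rw [heI, he] at this
        exact this
      have h4 := hδ (Sum.inl a)
      rw [heI, he]
      show δ (Y a.1.1 a.1.2.1 a.1.2.2) - H a.1.1 a.1.2.1 a.1.2.2 = 0
      rw [h3, h4]
      exact sub_self _
  have h3 : (fun k => (Y k).map δ) - H = 0 := congrArg Prod.fst h2
  intro k i j
  have h4 := congrFun (congrFun (congrFun (sub_eq_zero.1 h3) k) i) j
  exact h4

end normed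

end Vale.Agent.P002
end

section

/-!
# P002 PART III': annihilators, products of good functions, two handles
-/

namespace Vale.Agent.P002

open Matrix Module

variable {r : ℕ}

/-- The orthogonal complement for the trace form. -/
def annT (R : Submodule ℂ (Mat r ℂ)) : Submodule ℂ (Mat r ℂ) where
  carrier := {N | ∀ M ∈ R, trace (N * M) = 0}
  add_mem' := fun {a b} ha hb M hM => by rw [Matrix.add_mul, trace_add, ha M hM, hb M hM, add_zero]
  zero_mem' := fun M _ => by rw [Matrix.zero_mul, trace_zero]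
  smul_mem' := fun c a ha M hM => by rw [Matrix.smul_mul, trace_smul, ha M hM, smul_zero]

theorem mem_annT {R : Submodule ℂ (Mat r ℂ)} {N : Mat r ℂ} :
    N ∈ annT R ↔ ∀ M ∈ R, trace (N * M) = 0 := Iff.rfl

theorem finrank_annT (R : Submodule ℂ (Mat r ℂ)) :
    finrank ℂ R + finrank ℂ (annT R) = r * r := by
  have h1 := Subspace.finrank_add_finrank_dualAnnihilator_eq R
  obtain ⟨T, hT⟩ : ∃ T : Mat r ℂ →ₗ[ℂ] Module.Dual ℂ (Mat r ℂ), ∀ N M, T N M = trace (N * M) :=
    ⟨{ toFun := fun N => (Matrix.traceLinearMap (Fin r) ℂ ℂ).comp (LinearMap.mulLeft ℂ N)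
       map_add' := fun N N' => by
        ext M
        simp [Matrix.add_mul]
       map_smul' := fun c N => by
        ext M
        simp }, fun N M => rfl⟩
  have hinj : Function.Injective T := fun N N' h =>
    eq_of_trace_eq fun H => by rw [← hT, ← hT, h]
  have h2 : (annT R).map T = R.dualAnnihilator := by
    ext φ
    rw [Submodule.mem_map, Submodule.mem_dualAnnihilator]
    constructor
    · rintro ⟨N, hN, rfl⟩ M hM
      rw [hT]; exact hN M hM
    · intro h
      obtain ⟨N, hN⟩ := exists_trace_repr φ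
      exact ⟨N, fun M hM => by rw [← hN]; exact h M hM, LinearMap.ext fun M => by rw [hT, hN]⟩
  have h3 := finrank_map_inj T hinj (annT R)
  rw [h2] at h3
  rw [h3] at h1
  rw [h1, Module.finrank_matrix, Fintype.card_fin, Module.finrank_self, mul_one]

section normed

open scoped Matrix.Norms.Operator

/-- The determinant is an obstruction to surjectivity. -/
theorem range_ne_top {E : Type*} [NormedAddCommGroup E] [NormedSpace ℂ E] [CompleteSpace E]
    (hr : 1 ≤ r) {Φ : E → Mat r ℂ} {Y : E} {D : E →L[ℂ] Mat r ℂ} (hD : HasStrictFDerivAt Φ D Y)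
    (hdet : ∀ᶠ Y' in nhds Y, (Φ Y').det = 1) : D.range ≠ ⊤ := by
  intro htop
  have hr0 : 0 < r := hr
  have hmap := hD.map_nhds_eq_of_surj htop
  have h1 : {M : Mat r ℂ | M.det = 1} ∈ nhds (Φ Y) := hmap.ge hdet
  have hY : (Φ Y).det = 1 := mem_of_mem_nhds (s := {M : Mat r ℂ | M.det = 1}) h1
  have hcont : Continuous fun c : ℂ => c • Φ Y := continuous_id.smul continuous_const
  have h2 : (fun c : ℂ => c • Φ Y) ⁻¹' {M : Mat r ℂ | M.det = 1} ∈ nhds (1 : ℂ) := by
    apply hcont.continuousAt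
    have h0 : (1 : ℂ) • Φ Y = Φ Y := one_smul _ _
    show {M : Mat r ℂ | M.det = 1} ∈ nhds ((1 : ℂ) • Φ Y)
    rw [h0]
    exact h1
  have hCn : {c : ℂ | c ^ r = 1 → c = 1} ∈ nhds (1 : ℂ) := by
    have hfin : ({c : ℂ | c ^ r = 1 ∧ c ≠ 1}).Finite := by
      refine (Multiset.finite_toSet (Polynomial.nthRoots r (1 : ℂ))).subset ?_
      rintro c ⟨h1, -⟩
      exact (Polynomial.mem_nthRoots hr0).2 h1
    have h1 : {c : ℂ | c ^ r = 1 → c = 1} = {c : ℂ | c ^ r = 1 ∧ c ≠ 1}ᶜ := by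
      ext c
      simp only [Set.mem_ofPred_eq, Set.mem_compl_iff, not_and, not_not]
    rw [h1]
    refine hfin.isClosed.isOpen_compl.mem_nhds ?_
    simp
  have h3 : ({1} : Set ℂ) ∈ nhds (1 : ℂ) := by
    filter_upwards [h2, hCn] with c hc1 hc2
    have h4 : (c • Φ Y).det = 1 := hc1
    rw [det_smul, hY, mul_one, Fintype.card_fin] at h4
    exact hc2 h4
  have h4 : (nhdsWithin (1 : ℂ) {1}ᶜ).NeBot := inferInstance
  have h5 : nhdsWithin (1 : ℂ) {1}ᶜ = ⊥ := by
    rw [← Filter.empty_mem_iff_bot]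
    have h7 : ({1} : Set ℂ) ∈ nhdsWithin (1 : ℂ) {1}ᶜ := mem_nhdsWithin_of_mem_nhds h3
    have h6 := Filter.inter_mem h7 self_mem_nhdsWithin
    rw [Set.inter_compl_self] at h6
    exact h6
  exact h4.ne h5

/-- Functions which are strictly differentiable, compatibly with derivations over `K₀`. -/
def GoodG {G : Type} [Fintype G] (K₀ : Subfield ℂ) (f : (G → Mat r ℂ) → Mat r ℂ)
    (Y : G → Mat r ℂ) : Prop :=
  ∃ D : (G → Mat r ℂ) →L[ℂ] Mat r ℂ, HasStrictFDerivAt f D Y ∧
    ∀ δ : Derivation ℤ ℂ ℂ, (∀ c ∈ K₀, δ c = 0) → (f Y).map δ = D fun k => (Y k).map δ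

variable {G : Type} [Fintype G] {K₀ : Subfield ℂ} {f h : (G → Mat r ℂ) → Mat r ℂ}
  {Y : G → Mat r ℂ}

theorem GoodG.mul (hf : GoodG K₀ f Y) (hh : GoodG K₀ h Y) : GoodG K₀ (fun Y => f Y * h Y) Y := by
  obtain ⟨D, hD, hδ⟩ := hf
  obtain ⟨D', hD', hδ'⟩ := hh
  obtain ⟨D'', hD'', he⟩ := exists_deriv_mul hD hD'
  refine ⟨D'', hD'', fun δ hδ0 => ?_⟩
  have h1 : (f Y * h Y).map δ = D (fun k => (Y k).map δ) * h Y +
      f Y * D' (fun k => (Y k).map δ) := by
    rw [map_der_mul, hδ δ hδ0, hδ' δ hδ0]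
  exact h1.trans (he _).symm

theorem GoodG.inv (hf : GoodG K₀ f Y) (hu : IsUnit (f Y)) : GoodG K₀ (fun Y => (f Y)⁻¹) Y := by
  obtain ⟨D, hD, hδ⟩ := hf
  obtain ⟨D'', hD'', he⟩ := exists_deriv_inv hD hu
  refine ⟨D'', hD'', fun δ hδ0 => ?_⟩
  refine Eq.trans ?_ ((congrArg (fun M : Mat r ℂ => -((f Y)⁻¹ * M * (f Y)⁻¹))
    (hδ δ hδ0)).trans (he _).symm)
  have hud : IsUnit (f Y).det := (Matrix.isUnit_iff_isUnit_det _).1 hu
  have h1 : f Y * (f Y)⁻¹ = 1 := Matrix.mul_nonsing_inv _ hud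
  have h2 : (f Y)⁻¹ * f Y = 1 := Matrix.nonsing_inv_mul _ hud
  have h3 := congrArg (fun M : Mat r ℂ => M.map δ) h1
  simp only [map_der_mul] at h3
  have h4 : (1 : Mat r ℂ).map δ = 0 := by
    ext i j
    rw [Matrix.map_apply, Matrix.one_apply]
    split_ifs <;> simp
  rw [h4] at h3
  have h5 : f Y * (f Y)⁻¹.map δ = -((f Y).map δ * (f Y)⁻¹) := by
    rw [eq_neg_iff_add_eq_zero, add_comm]; exact h3
  calc (f Y)⁻¹.map δ = (f Y)⁻¹ * (f Y * (f Y)⁻¹.map δ) := by
        rw [← Matrix.mul_assoc, h2, Matrix.one_mul]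
    _ = -((f Y)⁻¹ * (f Y).map δ * (f Y)⁻¹) := by
        rw [h5, Matrix.mul_neg, Matrix.mul_assoc]

theorem GoodG.proj (k : G) : GoodG K₀ (fun Y : G → Mat r ℂ => Y k) Y :=
  ⟨ContinuousLinearMap.proj k, (ContinuousLinearMap.proj k :
    (G → Mat r ℂ) →L[ℂ] Mat r ℂ).hasStrictFDerivAt, fun _ _ => rfl⟩

theorem GoodG.const {J : Mat r ℂ} (hJ : ∀ i j, J i j ∈ K₀) :
    GoodG K₀ (fun _ : G → Mat r ℂ => J) Y := by
  refine ⟨0, hasStrictFDerivAt_const _ _, fun δ hδ => ?_⟩
  ext i j
  exact hδ _ (hJ i j)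

theorem GoodG.list_prod {β : Type*} (F : β → (G → Mat r ℂ) → Mat r ℂ) (l : List β)
    (hF : ∀ b ∈ l, GoodG K₀ (F b) Y) : GoodG K₀ (fun Y => (l.map fun b => F b Y).prod) Y := by
  induction l with
  | nil =>
    simp only [List.map_nil, List.prod_nil]
    refine GoodG.const fun i j => ?_
    rw [Matrix.one_apply]
    split_ifs
    · exact K₀.one_mem
    · exact K₀.zero_mem
  | cons b l ih =>
    simp only [List.map_cons, List.prod_cons]
    exact (hF b List.mem_cons_self).mul (ih fun b' hb' => hF b' (List.mem_cons_of_mem _ hb'))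

end normed

end Vale.Agent.P002
end

section

/-!
# P002R TASK N7: near every irreducible point there are points all of whose handles have scalar
commutant
-/

namespace Vale.Agent.P002R

open Matrix Module Vale.Agent.P002

variable {g n r : ℕ}

/-- Variables: handles and framings. -/
abbrev Var (g n : ℕ) := (Fin g × Bool) ⊕ Fin n

/-- Extension by the fixed matrices `J`. -/
def extV (J : Fin n → P002R.Mat r ℂ) (Y : Var g n → P002R.Mat r ℂ) : Gen g n → P002R.Mat r ℂ
  | Sum.inl k => Y (Sum.inl k)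
  | Sum.inr (j, false) => Y (Sum.inr j)
  | Sum.inr (j, true) => J j

/-- The blocks of the relation. -/
noncomputable def bv (J : Fin n → P002R.Mat r ℂ) (b : Fin n ⊕ Fin g)
    (Y : Var g n → P002R.Mat r ℂ) : P002R.Mat r ℂ :=
  match b with
  | Sum.inl j => Y (Sum.inr j) * J j * (Y (Sum.inr j))⁻¹
  | Sum.inr i => cm (Y (Sum.inl (i, false))) (Y (Sum.inl (i, true)))

/-- The list of the blocks. -/
def bl (g n : ℕ) : List (Fin n ⊕ Fin g) :=
  (List.finRange n).map Sum.inl ++ (List.finRange g).map Sum.inr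

theorem nodup_bl : (bl g n).Nodup := by
  unfold bl
  rw [List.nodup_append]
  refine ⟨(List.nodup_finRange n).map Sum.inl_injective,
    (List.nodup_finRange g).map Sum.inr_injective, ?_⟩
  intro a ha b hb hab
  rw [List.mem_map] at ha hb
  obtain ⟨x, -, rfl⟩ := ha
  obtain ⟨y, -, rfl⟩ := hb
  cases hab

theorem mem_bl (b : Fin n ⊕ Fin g) : b ∈ bl g n := by
  unfold bl
  rw [List.mem_append]
  cases b with
  | inl j => exact Or.inl (List.mem_map_of_mem (List.mem_finRange j))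
  | inr i => exact Or.inr (List.mem_map_of_mem (List.mem_finRange i))

theorem relM_extV (J : Fin n → P002R.Mat r ℂ) (Y : Var g n → P002R.Mat r ℂ) :
    relM (extV J Y) = ((bl g n).map fun b => bv J b Y).prod := by
  unfold relM bl
  rw [List.map_append, List.prod_append, List.map_map, List.map_map, List.ofFn_eq_map,
    List.ofFn_eq_map]
  rfl

/-- The block of a variable. -/
def blkOf : Var g n → Fin n ⊕ Fin g
  | Sum.inl (i, _) => Sum.inr i
  | Sum.inr j => Sum.inl j

theorem bv_congr (J : Fin n → P002R.Mat r ℂ) (b : Fin n ⊕ Fin g) {Y Y' : Var g n → P002R.Mat r ℂ}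
    (h : ∀ k, blkOf k = b → Y k = Y' k) : bv J b Y = bv J b Y' := by
  cases b with
  | inl j => unfold bv; simp only; rw [h (Sum.inr j) rfl]
  | inr i => unfold bv; simp only; rw [h (Sum.inl (i, false)) rfl, h (Sum.inl (i, true)) rfl]

/-- Restriction to the variables of a block. -/
def prj (b : Fin n ⊕ Fin g) : (Var g n → P002R.Mat r ℂ) →ₗ[ℂ] (Var g n → P002R.Mat r ℂ) where
  toFun H k := if blkOf k = b then H k else 0
  map_add' H H' := by
    funext k
    simp only [Pi.add_apply]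
    split_ifs
    · rfl
    · rw [add_zero]
  map_smul' c H := by
    funext k
    simp only [Pi.smul_apply, RingHom.id_apply]
    split_ifs
    · rfl
    · rw [smul_zero]

theorem prj_apply (b : Fin n ⊕ Fin g) (H : Var g n → P002R.Mat r ℂ) (k : Var g n) :
    prj b H k = if blkOf k = b then H k else 0 := rfl

theorem isUnit_bv {J : Fin n → P002R.Mat r ℂ} (hJ : ∀ j, IsUnit (J j)) (b : Fin n ⊕ Fin g)
    {Y : Var g n → P002R.Mat r ℂ} (hY : ∀ k, IsUnit (Y k)) : IsUnit (bv J b Y) := by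
  cases b with
  | inl j => exact ((hY _).mul (hJ j)).mul (Matrix.isUnit_nonsing_inv_iff.2 (hY _))
  | inr i => exact isUnit_cm (hY _) (hY _)

theorem isUnit_prod {J : Fin n → P002R.Mat r ℂ} (hJ : ∀ j, IsUnit (J j))
    {Y : Var g n → P002R.Mat r ℂ} (hY : ∀ k, IsUnit (Y k)) (l : List (Fin n ⊕ Fin g)) :
    IsUnit (l.map fun b => bv J b Y).prod := by
  induction l with
  | nil => simp
  | cons b l ih =>
    rw [List.map_cons, List.prod_cons]
    exact (isUnit_bv hJ b hY).mul ih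

/-- The elements of a block. -/
def CommBlk (J : Fin n → P002R.Mat r ℂ) (Y : Var g n → P002R.Mat r ℂ) (b : Fin n ⊕ Fin g)
    (T : P002R.Mat r ℂ) : Prop :=
  match b with
  | Sum.inl j => Commute T (bv J (Sum.inl j : Fin n ⊕ Fin g) Y)
  | Sum.inr i => Commute T (Y (Sum.inl (i, false))) ∧ Commute T (Y (Sum.inl (i, true)))

theorem CommBlk.comm {J : Fin n → P002R.Mat r ℂ} {Y : Var g n → P002R.Mat r ℂ}
    (hY : ∀ k, IsUnit (Y k)) {b : Fin n ⊕ Fin g} {T : P002R.Mat r ℂ} (h : CommBlk J Y b T) :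
    Commute T (bv J b Y) := by
  cases b with
  | inl j => exact h
  | inr i => exact commute_cm (hY _) (hY _) h.1 h.2

section normed

open scoped Matrix.Norms.Operator

theorem good_bv (K₀ : Subfield ℂ) {J : Fin n → P002R.Mat r ℂ} (hJK : ∀ j a b, J j a b ∈ K₀)
    (b : Fin n ⊕ Fin g) {Y : Var g n → P002R.Mat r ℂ} (hY : ∀ k, IsUnit (Y k)) :
    GoodG K₀ (bv J b) Y := by
  cases b with
  | inl j =>
    exact ((GoodG.proj _).mul (GoodG.const (hJK j))).mul (GoodG.inv (GoodG.proj _) (hY _))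
  | inr i =>
    exact (((GoodG.proj _).mul (GoodG.proj _)).mul (GoodG.inv (GoodG.proj _) (hY _))).mul
      (GoodG.inv (GoodG.proj _) (hY _))

theorem good_rel (K₀ : Subfield ℂ) {J : Fin n → P002R.Mat r ℂ} (hJK : ∀ j a b, J j a b ∈ K₀)
    {Y : Var g n → P002R.Mat r ℂ} (hY : ∀ k, IsUnit (Y k)) :
    GoodG K₀ (fun Y : Var g n → P002R.Mat r ℂ => relM (extV J Y)) Y := by
  have h1 : (fun Y : Var g n → P002R.Mat r ℂ => relM (extV J Y)) =
      fun Y => ((bl g n).map fun b => bv J b Y).prod := funext fun Y => relM_extV J Y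
  rw [h1]
  exact GoodG.list_prod (fun b => bv J b) (bl g n) fun b _ => good_bv K₀ hJK b hY

/-- The derivative of one block. -/
theorem exists_block_deriv {J : Fin n → P002R.Mat r ℂ} (b : Fin n ⊕ Fin g)
    {Y : Var g n → P002R.Mat r ℂ} (hY : ∀ k, IsUnit (Y k)) :
    ∃ D : (Var g n → P002R.Mat r ℂ) →L[ℂ] P002R.Mat r ℂ, HasStrictFDerivAt (bv J b) D Y ∧
      ∀ S : P002R.Mat r ℂ, (∀ H, trace (S * D H) = 0) → CommBlk J Y b (S * bv J b Y) := by
  have hp : ∀ k : Var g n,
      HasStrictFDerivAt (fun Y : Var g n → P002R.Mat r ℂ => Y k)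
        (ContinuousLinearMap.proj k : (Var g n → P002R.Mat r ℂ) →L[ℂ] P002R.Mat r ℂ) Y :=
    fun k => (ContinuousLinearMap.proj k :
      (Var g n → P002R.Mat r ℂ) →L[ℂ] P002R.Mat r ℂ).hasStrictFDerivAt
  cases b with
  | inl j =>
    obtain ⟨D1, h1, e1⟩ := exists_deriv_inv (hp (Sum.inr j)) (hY _)
    obtain ⟨D2, h2, e2⟩ := exists_deriv_mul (hp (Sum.inr j))
      (hasStrictFDerivAt_const (J j) Y)
    obtain ⟨D3, h3, e3⟩ := exists_deriv_mul h2 h1
    refine ⟨D3, h3, fun S hS => ?_⟩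
    have hud : IsUnit (Y (Sum.inr j)).det := (Matrix.isUnit_iff_isUnit_det _).1 (hY _)
    have a1 : Y (Sum.inr j) * (Y (Sum.inr j))⁻¹ = 1 := Matrix.mul_nonsing_inv _ hud
    have a2 : (Y (Sum.inr j))⁻¹ * Y (Sum.inr j) = 1 := Matrix.nonsing_inv_mul _ hud
    have key : J j * (Y (Sum.inr j))⁻¹ * S =
        (Y (Sum.inr j))⁻¹ * S * Y (Sum.inr j) * J j * (Y (Sum.inr j))⁻¹ := by
      refine eq_of_trace_eq fun H => ?_
      obtain ⟨Z, hZ⟩ : ∃ Z : Var g n → P002R.Mat r ℂ, ∀ k, Z (Sum.inr k) = H :=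
        ⟨fun _ => H, fun _ => rfl⟩
      have eqn : D3 Z = (Z (Sum.inr j) * J j + Y (Sum.inr j) * 0) * (Y (Sum.inr j))⁻¹ +
          Y (Sum.inr j) * J j * -((Y (Sum.inr j))⁻¹ * Z (Sum.inr j) * (Y (Sum.inr j))⁻¹) :=
        (e3 Z).trans (congrArg₂ (fun M N => M + N)
          (congrArg (fun M => M * (Y (Sum.inr j))⁻¹) (e2 Z))
          (congrArg (fun M => Y (Sum.inr j) * J j * M) (e1 Z)))
      have h0 := (congrArg (fun M => trace (S * M)) eqn).symm.trans (hS Z)
      simp only [hZ] at h0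
      have e : S * ((H * J j + Y (Sum.inr j) * 0) * (Y (Sum.inr j))⁻¹ +
          Y (Sum.inr j) * J j * -((Y (Sum.inr j))⁻¹ * H * (Y (Sum.inr j))⁻¹)) =
          (S * H) * (J j * (Y (Sum.inr j))⁻¹) -
            (S * Y (Sum.inr j) * J j * (Y (Sum.inr j))⁻¹ * H) * (Y (Sum.inr j))⁻¹ := by
        noncomm_ring
      rw [e, trace_sub, Matrix.trace_mul_comm (S * H),
        Matrix.trace_mul_comm (S * Y (Sum.inr j) * J j * (Y (Sum.inr j))⁻¹ * H),
        sub_eq_zero] at h0
      simpa only [Matrix.mul_assoc] using h0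
    have key2 : bv J (Sum.inl j : Fin n ⊕ Fin g) Y * S = S * bv J (Sum.inl j : Fin n ⊕ Fin g) Y := by
      show Y (Sum.inr j) * J j * (Y (Sum.inr j))⁻¹ * S = S * (Y (Sum.inr j) * J j * (Y (Sum.inr j))⁻¹)
      calc Y (Sum.inr j) * J j * (Y (Sum.inr j))⁻¹ * S
          = Y (Sum.inr j) * (J j * (Y (Sum.inr j))⁻¹ * S) := by simp only [Matrix.mul_assoc]
        _ = Y (Sum.inr j) * (Y (Sum.inr j))⁻¹ * (S * (Y (Sum.inr j) * J j *
              (Y (Sum.inr j))⁻¹)) := by rw [key]; simp only [Matrix.mul_assoc]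
        _ = _ := by rw [a1, Matrix.one_mul]
    show Commute (S * bv J (Sum.inl j : Fin n ⊕ Fin g) Y) (bv J (Sum.inl j : Fin n ⊕ Fin g) Y)
    exact Commute.mul_left key2.symm (Commute.refl _)
  | inr i =>
    obtain ⟨D1, h1, e1⟩ := exists_deriv_cm (hp (Sum.inl (i, false))) (hp (Sum.inl (i, true)))
      (hY _) (hY _)
    refine ⟨D1, h1, fun S hS => ?_⟩
    refine commute_of_trace (hY _) (hY _) fun H K => ?_
    obtain ⟨Z, hZ⟩ : ∃ Z : Var g n → P002R.Mat r ℂ, Z = fun k => match k with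
        | Sum.inl (_, b) => if b then K else H
        | Sum.inr _ => 0 := ⟨_, rfl⟩
    have hZ0 : Z (Sum.inl (i, false)) = H := by rw [hZ]; rfl
    have hZ1 : Z (Sum.inl (i, true)) = K := by rw [hZ]; rfl
    have h2 : trace (S * (Z (Sum.inl (i, false)) * Y (Sum.inl (i, true)) *
        (Y (Sum.inl (i, false)))⁻¹ * (Y (Sum.inl (i, true)))⁻¹ +
        Y (Sum.inl (i, false)) * Z (Sum.inl (i, true)) * (Y (Sum.inl (i, false)))⁻¹ *
          (Y (Sum.inl (i, true)))⁻¹ -
        Y (Sum.inl (i, false)) * Y (Sum.inl (i, true)) * (Y (Sum.inl (i, false)))⁻¹ *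
          Z (Sum.inl (i, false)) * (Y (Sum.inl (i, false)))⁻¹ * (Y (Sum.inl (i, true)))⁻¹ -
        Y (Sum.inl (i, false)) * Y (Sum.inl (i, true)) * (Y (Sum.inl (i, false)))⁻¹ *
          (Y (Sum.inl (i, true)))⁻¹ * Z (Sum.inl (i, true)) * (Y (Sum.inl (i, true)))⁻¹)) = 0 :=
      (congrArg (fun M => trace (S * M)) (e1 Z)).symm.trans (hS Z)
    rw [hZ0, hZ1] at h2
    exact h2

/-- The derivative of the relation in the direction of one block. -/
theorem deriv_block {J : Fin n → P002R.Mat r ℂ} {Y : Var g n → P002R.Mat r ℂ}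
    {D : (Var g n → P002R.Mat r ℂ) →L[ℂ] P002R.Mat r ℂ}
    (hD : HasStrictFDerivAt (fun Y : Var g n → P002R.Mat r ℂ => relM (extV J Y)) D Y)
    (b : Fin n ⊕ Fin g) {Db : (Var g n → P002R.Mat r ℂ) →L[ℂ] P002R.Mat r ℂ}
    (hDb : HasStrictFDerivAt (bv J b) Db Y) (l₁ l₂ : List (Fin n ⊕ Fin g))
    (hl : bl g n = l₁ ++ b :: l₂) (H : Var g n → P002R.Mat r ℂ) :
    D (prj b H) = (l₁.map fun b => bv J b Y).prod * Db H * (l₂.map fun b => bv J b Y).prod := by
  have hnd : (l₁ ++ b :: l₂).Nodup := hl ▸ nodup_bl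
  have hb1 : ∀ b' ∈ l₁, b' ≠ b := by
    intro b' hb' h
    rw [List.nodup_append] at hnd
    exact hnd.2.2 b' hb' b List.mem_cons_self h
  have hb2 : ∀ b' ∈ l₂, b' ≠ b := by
    intro b' hb' h
    rw [List.nodup_append, List.nodup_cons] at hnd
    exact hnd.2.1.1 (h ▸ hb')
  have hprod : ∀ l : List (Fin n ⊕ Fin g), (∀ b' ∈ l, b' ≠ b) → ∀ H : Var g n → P002R.Mat r ℂ,
      (l.map fun b' => bv J b' (Y + prj b H)).prod = (l.map fun b' => bv J b' Y).prod := by
    intro l hl H
    congr 1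
    refine List.map_congr_left fun b' hb' => bv_congr J b' fun k hk => ?_
    rw [Pi.add_apply, prj_apply, if_neg, add_zero]
    rw [hk]
    exact hl b' hb'
  have hfun : ∀ H : Var g n → P002R.Mat r ℂ, relM (extV J (Y + prj b H)) =
      (l₁.map fun b => bv J b Y).prod * bv J b (Y + H) * (l₂.map fun b => bv J b Y).prod := by
    intro H
    rw [relM_extV, hl, List.map_append, List.prod_append, List.map_cons, List.prod_cons,
      hprod l₁ hb1, hprod l₂ hb2, ← Matrix.mul_assoc]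
    congr 2
    refine bv_congr J b fun k hk => ?_
    rw [Pi.add_apply, Pi.add_apply, prj_apply, if_pos hk]
  -- the derivatives
  have e1 : HasFDerivAt (fun H : Var g n → P002R.Mat r ℂ => relM (extV J (Y + prj b H)))
      (D.comp (LinearMap.toContinuousLinearMap (prj b))) 0 := by
    have hD' : HasFDerivAt (fun Y : Var g n → P002R.Mat r ℂ => relM (extV J Y)) D
        (Y + (LinearMap.toContinuousLinearMap (prj b :
          (Var g n → P002R.Mat r ℂ) →ₗ[ℂ] _)) 0) := by
      rw [map_zero, add_zero]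
      exact hD.hasFDerivAt
    exact hD'.comp 0 ((LinearMap.toContinuousLinearMap (prj b :
      (Var g n → P002R.Mat r ℂ) →ₗ[ℂ] _)).hasFDerivAt.const_add Y)
  have e2 : HasFDerivAt (fun H : Var g n → P002R.Mat r ℂ =>
      (l₁.map fun b => bv J b Y).prod * bv J b (Y + H) * (l₂.map fun b => bv J b Y).prod)
      ((ContinuousLinearMap.mulLeftRight ℂ (P002R.Mat r ℂ) (l₁.map fun b => bv J b Y).prod
        (l₂.map fun b => bv J b Y).prod).comp Db) 0 := by
    have hDb' : HasFDerivAt (bv J b) Db (Y + 0) := by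
      rw [add_zero]; exact hDb.hasFDerivAt
    have h3 := hDb'.comp (0 : Var g n → P002R.Mat r ℂ) ((hasFDerivAt_id _).const_add Y)
    exact (ContinuousLinearMap.mulLeftRight ℂ (P002R.Mat r ℂ) (l₁.map fun b => bv J b Y).prod
        (l₂.map fun b => bv J b Y).prod).hasFDerivAt.comp 0 h3
  have e3 : (fun H : Var g n → P002R.Mat r ℂ => relM (extV J (Y + prj b H))) =
      (fun H : Var g n → P002R.Mat r ℂ =>
        (l₁.map fun b => bv J b Y).prod * bv J b (Y + H) * (l₂.map fun b => bv J b Y).prod) :=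
    funext hfun
  rw [e3] at e1
  have e4 := e1.unique e2
  exact congrArg (fun L : (Var g n → P002R.Mat r ℂ) →L[ℂ] P002R.Mat r ℂ => L H) e4

/-- A matrix which is orthogonal to the image of the derivative commutes with everything. -/
theorem comm_of_orth {J : Fin n → P002R.Mat r ℂ} (hJ : ∀ j, IsUnit (J j))
    {Y : Var g n → P002R.Mat r ℂ} (hY : ∀ k, IsUnit (Y k)) (hrel : relM (extV J Y) = 1)
    {D : (Var g n → P002R.Mat r ℂ) →L[ℂ] P002R.Mat r ℂ}
    (hD : HasStrictFDerivAt (fun Y : Var g n → P002R.Mat r ℂ => relM (extV J Y)) D Y)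
    (N : P002R.Mat r ℂ) (hN : ∀ H, trace (N * D H) = 0) (b : Fin n ⊕ Fin g) :
    CommBlk J Y b N := by
  have key : ∀ l₁ l₂ : List (Fin n ⊕ Fin g), bl g n = l₁ ++ l₂ →
      Commute N (l₁.map fun b => bv J b Y).prod ∧ ∀ b ∈ l₁, CommBlk J Y b N := by
    intro l₁
    induction l₁ using List.reverseRecOn with
    | nil => exact fun l₂ _ => ⟨by simp, by simp⟩
    | append_singleton l b ih =>
      intro l₂ hl
      have hl' : bl g n = l ++ b :: l₂ := by simpa using hl
      obtain ⟨h1, h2⟩ := ih (b :: l₂) hl'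
      obtain ⟨Db, hDb, hkill⟩ := exists_block_deriv b hY
      obtain ⟨P, hP⟩ : ∃ P, P = (l.map fun b => bv J b Y).prod := ⟨_, rfl⟩
      obtain ⟨Q, hQ⟩ : ∃ Q, Q = (l₂.map fun b => bv J b Y).prod := ⟨_, rfl⟩
      have hS : ∀ H, trace (Q * N * P * Db H) = 0 := by
        intro H
        have h3 := hN (prj b H)
        rw [deriv_block hD b hDb l l₂ hl' H, ← hP, ← hQ] at h3
        rw [← h3, ← Matrix.mul_assoc, ← Matrix.mul_assoc, Matrix.trace_mul_comm _ Q]
        simp only [Matrix.mul_assoc]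
      have hPFQ : P * bv J b Y * Q = 1 := by
        rw [← hrel, relM_extV, hl', List.map_append, List.prod_append, List.map_cons,
          List.prod_cons, ← hP, ← hQ, Matrix.mul_assoc]
      have hk := hkill _ hS
      have hc := hk.comm hY
      rw [← hP] at h1
      have hPu : IsUnit P := hP ▸ isUnit_prod hJ hY l
      have hFu : IsUnit (bv J b Y) := isUnit_bv hJ b hY
      have hT : Q * N * P * bv J b Y = N := by
        have e1 : P * (bv J b Y * (Q * N * P * bv J b Y)) = P * (N * bv J b Y) := by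
          calc P * (bv J b Y * (Q * N * P * bv J b Y))
              = (P * bv J b Y * Q) * (N * P) * bv J b Y := by simp only [Matrix.mul_assoc]
            _ = P * (N * bv J b Y) := by
                rw [hPFQ, Matrix.one_mul, h1.eq, Matrix.mul_assoc]
        have e2 := hPu.mul_left_cancel e1
        rw [← hc.eq] at e2
        exact hFu.mul_right_cancel e2
      rw [hT] at hk hc
      refine ⟨?_, ?_⟩
      · rw [List.map_append, List.prod_append, ← hP]
        simp only [List.map_cons, List.map_nil, List.prod_cons, List.prod_nil, mul_one]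
        exact h1.mul_right hc
      · intro b' hb'
        rcases List.mem_append.1 hb' with h | h
        · exact h2 b' h
        · rw [List.mem_singleton] at h
          rw [h]
          exact hk
  exact (key (bl g n) [] (by simp)).2 b (mem_bl b)

end normed

/-- Variations of one handle. -/
def inc (n : ℕ) (i : Fin g) : (Bool → P002R.Mat r ℂ) →ₗ[ℂ] (Var g n → P002R.Mat r ℂ) where
  toFun u k := match k with
    | Sum.inl (i', b) => if i' = i then u b else 0
    | Sum.inr _ => 0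
  map_add' u v := by
    funext k
    rcases k with ⟨i', b⟩ | j
    · simp only [Pi.add_apply]
      split_ifs
      · rfl
      · rw [add_zero]
    · simp
  map_smul' c u := by
    funext k
    rcases k with ⟨i', b⟩ | j
    · simp only [Pi.smul_apply, RingHom.id_apply]
      split_ifs
      · rfl
      · rw [smul_zero]
    · simp

theorem inc_inl (i i' : Fin g) (b : Bool) (u : Bool → P002R.Mat r ℂ) :
    inc n i u (Sum.inl (i', b)) = if i' = i then u b else 0 := rfl

theorem inc_inr (i : Fin g) (j : Fin n) (u : Bool → P002R.Mat r ℂ) :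
    inc n i u (Sum.inr j) = 0 := rfl

theorem prj_inr (i : Fin g) (H : Var g n → P002R.Mat r ℂ) :
    prj (Sum.inr i) H = inc n i fun b => H (Sum.inl (i, b)) := by
  funext k
  rcases k with ⟨i', b⟩ | j
  · rw [prj_apply, inc_inl]
    by_cases h : i' = i
    · subst h; simp [blkOf]
    · rw [if_neg h, if_neg]
      intro h1
      exact h (Sum.inr_injective h1)
  · rw [prj_apply, inc_inr, if_neg]
    intro h1
    cases h1

section normed

open scoped Matrix.Norms.Operator

/-- The annihilator of the image of the variations of one handle. -/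
theorem finrank_ann_handle {J : Fin n → P002R.Mat r ℂ} (hJ : ∀ j, IsUnit (J j))
    {Y : Var g n → P002R.Mat r ℂ} (hY : ∀ k, IsUnit (Y k))
    {D : (Var g n → P002R.Mat r ℂ) →L[ℂ] P002R.Mat r ℂ}
    (hD : HasStrictFDerivAt (fun Y : Var g n → P002R.Mat r ℂ => relM (extV J Y)) D Y)
    (i : Fin g) (D' : (Var g n → P002R.Mat r ℂ) →ₗ[ℂ] P002R.Mat r ℂ) (hD' : ∀ H, D' H = D H) :
    finrank ℂ (annT (LinearMap.range (D'.comp (inc n i)))) ≤
      finrank ℂ (centr fun b : Bool => Y (Sum.inl (i, b))) := by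
  obtain ⟨l₁, l₂, hl⟩ := List.append_of_mem (mem_bl (n := n) (Sum.inr i : Fin n ⊕ Fin g))
  obtain ⟨Db, hDb, hkill⟩ := exists_block_deriv (J := J) (Sum.inr i : Fin n ⊕ Fin g) hY
  obtain ⟨P, hP⟩ : ∃ P, P = (l₁.map fun b => bv J b Y).prod := ⟨_, rfl⟩
  obtain ⟨Q, hQ⟩ : ∃ Q, Q = (l₂.map fun b => bv J b Y).prod := ⟨_, rfl⟩
  have hPu : IsUnit P := hP ▸ isUnit_prod hJ hY l₁
  have hQu : IsUnit Q := hQ ▸ isUnit_prod hJ hY l₂
  have hFu : IsUnit (bv J (Sum.inr i : Fin n ⊕ Fin g) Y) := isUnit_bv hJ _ hY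
  obtain ⟨Θ, hΘ⟩ : ∃ Θ : P002R.Mat r ℂ →ₗ[ℂ] P002R.Mat r ℂ,
      ∀ N, Θ N = Q * N * P * bv J (Sum.inr i : Fin n ⊕ Fin g) Y :=
    ⟨(LinearMap.mulRight ℂ (bv J (Sum.inr i : Fin n ⊕ Fin g) Y)).comp
      ((LinearMap.mulRight ℂ P).comp (LinearMap.mulLeft ℂ Q)), fun N => rfl⟩
  have hinj : Function.Injective Θ := by
    intro N N' h
    rw [hΘ, hΘ] at h
    exact hQu.mul_left_cancel (hPu.mul_right_cancel (hFu.mul_right_cancel h))
  rw [← finrank_map_inj Θ hinj]
  refine Submodule.finrank_mono ?_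
  rintro _ ⟨N, hN, rfl⟩
  have hS : ∀ H, trace (Q * N * P * Db H) = 0 := by
    intro H
    have h3 : trace (N * D (prj (Sum.inr i) H)) = 0 := by
      rw [prj_inr, ← hD']
      exact hN _ ⟨_, rfl⟩
    rw [deriv_block hD _ hDb l₁ l₂ hl H, ← hP, ← hQ] at h3
    rw [← h3, ← Matrix.mul_assoc, ← Matrix.mul_assoc, Matrix.trace_mul_comm _ Q]
    simp only [Matrix.mul_assoc]
  have hk := hkill _ hS
  rw [hΘ]
  intro b
  cases b with
  | false => exact hk.1
  | true => exact hk.2

/-- Two handles. -/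
theorem two_handles (hr : 1 ≤ r) {J : Fin n → P002R.Mat r ℂ} (hJ : ∀ j, IsUnit (J j))
    {Y : Var g n → P002R.Mat r ℂ} (hY : ∀ k, IsUnit (Y k))
    {D : (Var g n → P002R.Mat r ℂ) →L[ℂ] P002R.Mat r ℂ}
    (hD : HasStrictFDerivAt (fun Y : Var g n → P002R.Mat r ℂ => relM (extV J Y)) D Y)
    (hdet : ∀ᶠ Y' in nhds Y, (relM (extV J Y')).det = 1)
    (i j : Fin g) (D' : (Var g n → P002R.Mat r ℂ) →ₗ[ℂ] P002R.Mat r ℂ) (hD' : ∀ H, D' H = D H) :
    2 * (r * r) + 1 ≤ finrank ℂ ((LinearMap.range (D'.comp (inc n j))).comap (D'.comp (inc n i))) +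
      finrank ℂ (centr fun b : Bool => Y (Sum.inl (j, b))) := by
  have h1 := finrank_eq_map_add ((LinearMap.range (D'.comp (inc n j))).comap (D'.comp (inc n i)))
    (D'.comp (inc n i))
  rw [Submodule.map_comap_eq] at h1
  have h2 : ((LinearMap.range (D'.comp (inc n j))).comap (D'.comp (inc n i)) ⊓
      LinearMap.ker (D'.comp (inc n i)) : Submodule ℂ (Bool → P002R.Mat r ℂ)) =
        LinearMap.ker (D'.comp (inc n i)) := by
    refine inf_eq_right.2 fun x hx => ?_
    rw [Submodule.mem_comap, LinearMap.mem_ker.1 hx]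
    exact Submodule.zero_mem _
  rw [h2] at h1
  have h3 := LinearMap.finrank_range_add_finrank_ker (D'.comp (inc (r := r) n i))
  have h4 : finrank ℂ (Bool → P002R.Mat r ℂ) = 2 * (r * r) := by
    rw [Module.finrank_pi_fintype]
    simp [Module.finrank_matrix]
  rw [h4] at h3
  have h5 := Submodule.finrank_sup_add_finrank_inf_eq (LinearMap.range (D'.comp (inc n i)))
    (LinearMap.range (D'.comp (inc (r := r) n j)))
  have h6 : finrank ℂ (LinearMap.range (D'.comp (inc n i)) ⊔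
      LinearMap.range (D'.comp (inc n j)) : Submodule ℂ (P002R.Mat r ℂ)) < r * r := by
    have h7 : LinearMap.range (D'.comp (inc n i)) ⊔ LinearMap.range (D'.comp (inc n j)) ≤
        LinearMap.range D' := sup_le (LinearMap.range_comp_le_range _ _)
          (LinearMap.range_comp_le_range _ _)
    have h8 : LinearMap.range D' < ⊤ := by
      rw [lt_top_iff_ne_top]
      intro h9
      apply range_ne_top hr hD hdet
      rw [← h9]
      ext M
      constructor
      · rintro ⟨H, rfl⟩; exact ⟨H, hD' H⟩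
      · rintro ⟨H, rfl⟩; exact ⟨H, (hD' H).symm⟩
    have h10 := Submodule.finrank_lt_finrank_of_lt h8
    rw [finrank_top, Module.finrank_matrix, Fintype.card_fin, Module.finrank_self, mul_one] at h10
    exact (Submodule.finrank_mono h7).trans_lt h10
  have h11 : finrank ℂ (LinearMap.range (D'.comp (inc (r := r) n j))) +
      finrank ℂ (annT (LinearMap.range (D'.comp (inc (r := r) n j)))) = r * r := finrank_annT _
  have h12 := finrank_ann_handle hJ hY hD j D' hD'
  omega

theorem det_rel {J : Fin n → P002R.Mat r ℂ} {Y Y' : Var g n → P002R.Mat r ℂ}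
    (hY : ∀ k, IsUnit (Y k)) (hY' : ∀ k, IsUnit (Y' k)) :
    (relM (extV J Y)).det = (relM (extV J Y')).det := by
  have h1 : ∀ Z : Var g n → P002R.Mat r ℂ, (∀ k, IsUnit (Z k)) → (relM (extV J Z)).det =
      ((bl g n).map fun b => Sum.elim (fun j => (J j).det) (fun _ => (1 : ℂ)) b).prod := by
    intro Z hZ
    rw [relM_extV, ← Matrix.coe_detMonoidHom, map_list_prod, List.map_map]
    congr 1
    refine List.map_congr_left fun b _ => ?_
    rw [Function.comp_apply, Matrix.coe_detMonoidHom]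
    cases b with
    | inl j =>
      show (Z (Sum.inr j) * J j * (Z (Sum.inr j))⁻¹).det = (J j).det
      have hud : IsUnit (Z (Sum.inr j)).det := (Matrix.isUnit_iff_isUnit_det _).1 (hZ _)
      rw [det_mul, det_mul, det_nonsing_inv, mul_right_comm, Ring.mul_inverse_cancel _ hud,
        one_mul]
    | inr i => exact det_cm (hZ _) (hZ _)
  rw [h1 Y hY, h1 Y' hY']

theorem one_mem_centr {κ : Type*} (y : κ → P002R.Mat r ℂ) : (1 : P002R.Mat r ℂ) ∈ centr y :=
  fun _ => Commute.one_left _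

theorem finrank_centr_pos (hr : 1 ≤ r) {κ : Type*} (y : κ → P002R.Mat r ℂ) :
    1 ≤ finrank ℂ (centr y) := by
  have : Nonempty (Fin r) := ⟨⟨0, hr⟩⟩
  have h : 0 < finrank ℂ (centr y) := by
    rw [Module.finrank_pos_iff]
    refine ⟨⟨⟨1, one_mem_centr y⟩, 0, fun h => ?_⟩⟩
    exact one_ne_zero (congrArg Subtype.val h)
  exact h

theorem finrank_centr_le_one {κ : Type*} (y : κ → P002R.Mat r ℂ)
    (h : ∀ N ∈ centr y, ∃ a : ℂ, N = a • (1 : P002R.Mat r ℂ)) : finrank ℂ (centr y) ≤ 1 := by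
  have h1 : centr y ≤ Submodule.span ℂ {(1 : P002R.Mat r ℂ)} := by
    intro N hN
    obtain ⟨a, ha⟩ := h N hN
    rw [ha]
    exact Submodule.smul_mem _ _ (Submodule.mem_span_singleton_self _)
  refine (Submodule.finrank_mono h1).trans ((finrank_span_le_card _).trans ?_)
  simp

theorem continuous_extV (J : Fin n → P002R.Mat r ℂ) :
    Continuous (extV (g := g) J) := by
  refine continuous_pi fun k => ?_
  rcases k with k | ⟨j, b⟩
  · exact continuous_apply (Sum.inl k : Var g n)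
  · cases b with
    | false => exact continuous_apply (Sum.inr j : Var g n)
    | true => exact continuous_const

theorem dense_handles_norm (hg : 2 ≤ g) (hr : 1 ≤ r) (X : Gen g n → P002R.Mat r ℂ)
    (hX : ∀ k, IsUnit (X k)) (hrel : relM X = 1)
    (hc : ∀ N : P002R.Mat r ℂ, (∀ k, Commute N (X (Sum.inl k))) →
      (∀ j, Commute N (X (Sum.inr (j, false)) * X (Sum.inr (j, true)) *
        (X (Sum.inr (j, false)))⁻¹)) → ∃ c : ℂ, N = c • (1 : P002R.Mat r ℂ))
    (U : Set (Gen g n → P002R.Mat r ℂ)) (hU : U ∈ nhds X) :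
    ∃ X' ∈ U, (∀ k, IsUnit (X' k)) ∧ (∀ j, X' (Sum.inr (j, true)) = X (Sum.inr (j, true))) ∧
      relM X' = 1 ∧ ∀ i : Fin g, ∀ N : P002R.Mat r ℂ, Commute N (X' (Sum.inl (i, false))) →
        Commute N (X' (Sum.inl (i, true))) → ∃ c : ℂ, N = c • (1 : P002R.Mat r ℂ) := by
  classical
  obtain ⟨J, hJ⟩ : ∃ J : Fin n → P002R.Mat r ℂ, ∀ j, J j = X (Sum.inr (j, true)) :=
    ⟨_, fun _ => rfl⟩
  have hJu : ∀ j, IsUnit (J j) := fun j => by rw [hJ]; exact hX _
  obtain ⟨Y₀, hY₀⟩ : ∃ Y₀ : Var g n → P002R.Mat r ℂ, extV J Y₀ = X := by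
    refine ⟨fun k => match k with
      | Sum.inl k => X (Sum.inl k)
      | Sum.inr j => X (Sum.inr (j, false)), ?_⟩
    funext k
    rcases k with k | ⟨j, b⟩
    · rfl
    · cases b with
      | false => rfl
      | true => exact hJ j
  have hY₀u : ∀ k, IsUnit (Y₀ k) := by
    intro k
    rcases k with k | j
    · have := hX (Sum.inl k); rw [← hY₀] at this; exact this
    · have := hX (Sum.inr (j, false)); rw [← hY₀] at this; exact this
  have hrel₀ : relM (extV J Y₀) = 1 := by rw [hY₀]; exact hrel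
  obtain ⟨K₀, hK₀, hK₀J⟩ := exists_countable_subfield'
    (Set.range fun p : Fin n × Fin r × Fin r => J p.1 p.2.1 p.2.2) (Set.countable_range _)
  have hJK : ∀ j a b, J j a b ∈ K₀ := fun j a b => hK₀J ⟨(j, a, b), rfl⟩
  have hdet : ∀ Y : Var g n → P002R.Mat r ℂ, (∀ k, IsUnit (Y k)) →
      (relM (extV J Y)).det = 1 := by
    intro Y hY
    rw [det_rel hY hY₀u, hrel₀, det_one]
  have hUn : ∀ Y : Var g n → P002R.Mat r ℂ, (∀ k, IsUnit (Y k)) →
      {Y : Var g n → P002R.Mat r ℂ | ∀ k, IsUnit (Y k)} ∈ nhds Y := by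
    intro Y hY
    have : {Y : Var g n → P002R.Mat r ℂ | ∀ k, IsUnit (Y k)} =
        ⋂ k, {Y : Var g n → P002R.Mat r ℂ | (Y k).det ≠ 0} := by
      ext Y
      simp only [Set.mem_ofPred_eq, Set.mem_iInter]
      exact forall_congr' fun k => by rw [Matrix.isUnit_iff_isUnit_det, isUnit_iff_ne_zero]
    rw [this]
    refine (isOpen_iInter_of_finite fun k => ?_).mem_nhds ?_
    · exact isOpen_ne.preimage (Continuous.matrix_det (continuous_apply k))
    · simp only [Set.mem_iInter, Set.mem_ofPred_eq]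
      intro k
      rw [← isUnit_iff_ne_zero, ← Matrix.isUnit_iff_isUnit_det]
      exact hY k
  have hU' : (extV J) ⁻¹' U ∈ nhds Y₀ := by
    apply (continuous_extV J).continuousAt
    rw [hY₀]
    exact hU
  obtain ⟨Y, hYU, hYu, hYrel, c, hgen⟩ := exists_generic_point_norm hr K₀ hK₀
    (fun Y : Var g n → P002R.Mat r ℂ => relM (extV J Y))
    (fun Y hY => good_rel K₀ hJK hY) hdet Y₀ hY₀u hrel₀
    (fun D hD N hN => by
      have h1 := comm_of_orth hJu hY₀u hrel₀ hD N hN
      refine hc N (fun k => ?_) fun j => ?_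
      · obtain ⟨i, b⟩ := k
        have h2 := h1 (Sum.inr i)
        rw [← hY₀]
        cases b with
        | false => exact h2.1
        | true => exact h2.2
      · have h2 := h1 (Sum.inl j)
        rw [← hY₀]
        exact h2)
    _ hU'
  refine ⟨extV J Y, hYU, ?_, fun j => hJ j, hYrel, ?_⟩
  · intro k
    rcases k with k | ⟨j, b⟩
    · exact hYu _
    · cases b with
      | false => exact hYu _
      | true => exact hJu j
  obtain ⟨D, hD, -⟩ := good_rel K₀ hJK hYu
  obtain ⟨D', hD'⟩ : ∃ D' : (Var g n → P002R.Mat r ℂ) →ₗ[ℂ] P002R.Mat r ℂ, ∀ H, D' H = D H :=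
    ⟨D.toLinearMap, fun _ => rfl⟩
  have hdetY : ∀ᶠ Y' in nhds Y, (relM (extV J Y')).det = 1 := by
    filter_upwards [hUn Y hYu] with Y' hY'
    exact hdet Y' hY'
  have key : ∀ i j : Fin g, i ≠ j →
      (∃ N ∈ centr fun b : Bool => Y (Sum.inl (i, b)), ∀ a : ℂ, N ≠ a • (1 : P002R.Mat r ℂ)) →
      finrank ℂ (centr fun b : Bool => Y (Sum.inl (i, b))) + 1 ≤
        finrank ℂ (centr fun b : Bool => Y (Sum.inl (j, b))) := by
    intro i j hij hN
    have h1 : finrank ℂ ((LinearMap.range (D'.comp (inc n j))).comap (D'.comp (inc n i))) +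
        finrank ℂ (centr fun b : Bool => Y (Sum.inl (i, b))) ≤ Fintype.card Bool * (r * r) := by
      refine count_main (κ := Bool) (by simp) (fun b => Y (Sum.inl (i, b))) c
        ((LinearMap.range (D'.comp (inc n j))).comap (D'.comp (inc n i))) ?_ hN
      intro u hu γ
      obtain ⟨v, hv⟩ := hu
      have hH : D' (inc n i u - inc n j v) = 0 := by
        rw [map_sub, sub_eq_zero]
        exact hv.symm
      rw [hD'] at hH
      obtain ⟨δ, hδ1, hδ2⟩ := hgen D hD _ hH γ
      refine ⟨δ, fun b a a' => ?_, hδ2⟩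
      rw [hδ1, Pi.sub_apply, inc_inl, inc_inl, if_pos rfl, if_neg hij, sub_zero]
    have h2 := two_handles hr hJu hYu hD hdetY i j D' hD'
    rw [Fintype.card_bool] at h1
    omega
  intro i N hN1 hN2
  by_contra hcon
  push Not at hcon
  obtain ⟨j, hij⟩ : ∃ j, i ≠ j := by
    by_cases h : i = ⟨0, by omega⟩
    · exact ⟨⟨1, by omega⟩, fun h2 => by rw [h] at h2; exact absurd (Fin.mk.inj h2) (by omega)⟩
    · exact ⟨_, h⟩
  have h1 := key i j hij ⟨N, fun b => by
    cases b with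
    | false => exact hN1
    | true => exact hN2, hcon⟩
  have h2 := finrank_centr_pos hr fun b : Bool => Y (Sum.inl (i, b))
  have h3 : ∃ N ∈ centr fun b : Bool => Y (Sum.inl (j, b)), ∀ a : ℂ,
      N ≠ a • (1 : P002R.Mat r ℂ) := by
    by_contra hcon2
    push Not at hcon2
    have h4 := finrank_centr_le_one _ hcon2
    omega
  have h5 := key j i hij.symm h3
  omega

end normed

/-- TASK N7 -/
theorem dense_handles (hg : 2 ≤ g) (hr : 1 ≤ r) (X : Gen g n → P002R.Mat r ℂ)
    (hX : ∀ k, IsUnit (X k)) (hrel : relM X = 1)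
    (hc : ∀ N : P002R.Mat r ℂ, (∀ k, Commute N (X (Sum.inl k))) →
      (∀ j, Commute N (X (Sum.inr (j, false)) * X (Sum.inr (j, true)) *
        (X (Sum.inr (j, false)))⁻¹)) → ∃ c : ℂ, N = c • (1 : P002R.Mat r ℂ))
    (U : Set (Gen g n → P002R.Mat r ℂ)) (hU : U ∈ nhds X) :
    ∃ X' ∈ U, (∀ k, IsUnit (X' k)) ∧ (∀ j, X' (Sum.inr (j, true)) = X (Sum.inr (j, true))) ∧
      relM X' = 1 ∧ ∀ i : Fin g, ∀ N : P002R.Mat r ℂ, Commute N (X' (Sum.inl (i, false))) →
        Commute N (X' (Sum.inl (i, true))) → ∃ c : ℂ, N = c • (1 : P002R.Mat r ℂ) :=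
  dense_handles_norm hg hr X hX hrel hc U hU

end Vale.Agent.P002R
end

section

/-! Jordan form with prescribed order of the eigenvalues. -/

namespace Vale.Agent.P002R

open Matrix

universe u

/-- a Jordan basis indexed by a finite type, with constant eigenvalue on the chains -/
def HasJordanC (V : Type u) [AddCommGroup V] [Module ℂ V] (T : Module.End ℂ V) : Prop :=
  ∃ (ι : Type) (_ : Fintype ι) (_ : DecidableEq ι) (b : Module.Basis ι ℂ V) (d : ι → ℂ)
    (pre : ι → Option ι) (h : ι → ℕ),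
    (∀ j, T (b j) = d j • b j + (pre j).elim 0 b) ∧
      ∀ i j, pre j = some i → h j = h i + 1 ∧ d j = d i

theorem exists_jordan_auxC (n : ℕ) : ∀ (V : Type u) [AddCommGroup V] [Module ℂ V]
    [FiniteDimensional ℂ V] (T : Module.End ℂ V), Module.finrank ℂ V = n → HasJordanC V T := by
  classical
  induction n using Nat.strong_induction_on with
  | _ n ih =>
  intro V _ _ _ T hV
  rcases Nat.eq_zero_or_pos n with rfl | hn
  · have : Subsingleton V := Module.finrank_zero_iff.mp hV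
    exact ⟨Empty, inferInstance, inferInstance, Module.Basis.empty V, fun j => j.elim,
      fun j => j.elim, fun j => j.elim, fun j => j.elim, fun i => i.elim⟩
  have : Nontrivial V := Module.finrank_pos_iff.mp (by omega : 0 < Module.finrank ℂ V)
  obtain ⟨lam, m, v, φ, hm, hv, hφ0, hφ1⟩ := P002.jordan_vector T
  set N : Module.End ℂ V := T - lam • 1 with hN
  have hT : ∀ x, T x = lam • x + N x := by
    intro x
    simp [hN]
  let α : (Fin m → ℂ) →ₗ[ℂ] V := Fintype.linearCombination ℂ fun k : Fin m => (N ^ (k : ℕ)) v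
  have hα : ∀ a, α a = ∑ k, a k • (N ^ (k : ℕ)) v := fun a =>
    Fintype.linearCombination_apply ℂ _ a
  let β : V →ₗ[ℂ] (Fin m → ℂ) := LinearMap.pi fun k : Fin m => φ ∘ₗ (N ^ (k : ℕ))
  have hβ : ∀ x k, β x k = φ ((N ^ (k : ℕ)) x) := fun x k => rfl
  have hvbig : ∀ k, m ≤ k → (N ^ k) v = 0 := by
    intro k hk
    obtain ⟨l, rfl⟩ := Nat.exists_eq_add_of_le' hk
    rw [pow_add, Module.End.mul_apply, hv, map_zero]
  have hinj : ∀ a, β (α a) = 0 → a = 0 := by
    intro a ha
    by_contra hne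
    have hex : ∃ k : ℕ, ∃ hk : k < m, a ⟨k, hk⟩ ≠ 0 := by
      by_contra hcon
      push Not at hcon
      exact hne (funext fun k => hcon k k.2)
    obtain ⟨hk, hak⟩ := Nat.find_spec hex
    set k₀ := Nat.find hex with hk₀
    have hmin : ∀ k (hk : k < m), k < k₀ → a ⟨k, hk⟩ = 0 := by
      intro k hk' hlt
      by_contra hcon
      exact Nat.find_min hex hlt ⟨hk', hcon⟩
    have h1 := congrFun ha ⟨m - 1 - k₀, by omega⟩
    rw [hβ, hα, map_sum, map_sum, Finset.sum_eq_single ⟨k₀, hk⟩] at h1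
    · rw [map_smul, map_smul, ← Module.End.mul_apply, ← pow_add, smul_eq_mul] at h1
      simp only [Pi.zero_apply] at h1
      have e : m - 1 - k₀ + k₀ = m - 1 := by omega
      rw [e] at h1
      rcases mul_eq_zero.mp h1 with h2 | h2
      · exact hak h2
      · exact hφ1 h2
    · intro k _ hkne
      rcases lt_or_ge (k : ℕ) k₀ with hlt | hge
      · rw [hmin k k.2 hlt, zero_smul, map_zero, map_zero]
      · have hgt : k₀ < (k : ℕ) := by
          rcases Nat.lt_or_eq_of_le hge with h | h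
          · exact h
          · exact absurd (Fin.ext h.symm) hkne
        rw [map_smul, ← Module.End.mul_apply, ← pow_add, hvbig _ (by
          simp only
          omega), smul_zero, map_zero]
    · intro h
      exact absurd (Finset.mem_univ _) h
  let U := LinearMap.ker β
  have hUN : ∀ x ∈ U, N x ∈ U := by
    intro x hx
    rw [LinearMap.mem_ker] at hx ⊢
    funext k
    rw [hβ, ← Module.End.mul_apply, ← pow_succ]
    by_cases hk : (k : ℕ) + 1 < m
    · have := congrFun hx ⟨(k : ℕ) + 1, hk⟩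
      rw [hβ] at this
      exact this
    · have : (k : ℕ) + 1 = m := by omega
      rw [this, hφ0]
      rfl
  have hUT : ∀ x ∈ U, T x ∈ U := by
    intro x hx
    rw [hT]
    exact U.add_mem (U.smul_mem _ hx) (hUN x hx)
  let Φ : ((Fin m → ℂ) × U) →ₗ[ℂ] V := LinearMap.coprod α U.subtype
  have hΦ : ∀ p, Φ p = α p.1 + (p.2 : V) := fun p => rfl
  have hβU : ∀ x : U, β (x : V) = 0 := fun x => x.2
  have hΦinj : Function.Injective Φ := by
    rw [← LinearMap.ker_eq_bot, LinearMap.ker_eq_bot']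
    rintro ⟨a, x⟩ hp
    rw [hΦ] at hp
    have h1 : β (α a) = 0 := by
      have := congrArg β hp
      rw [map_add, hβU, add_zero, map_zero] at this
      exact this
    have ha := hinj a h1
    subst ha
    rw [map_zero, zero_add] at hp
    ext1
    · rfl
    · exact Subtype.ext hp
  have hsurj0 : Function.Surjective (β ∘ₗ α) := by
    rw [← LinearMap.injective_iff_surjective, ← LinearMap.ker_eq_bot, LinearMap.ker_eq_bot']
    exact hinj
  have hΦsurj : Function.Surjective Φ := by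
    intro x
    obtain ⟨a, ha⟩ := hsurj0 (β x)
    refine ⟨(a, ⟨x - α a, ?_⟩), ?_⟩
    · rw [LinearMap.mem_ker, map_sub, ← ha]
      exact sub_self _
    · rw [hΦ]
      simp
  let Ψ : ((Fin m → ℂ) × U) ≃ₗ[ℂ] V := LinearEquiv.ofBijective Φ ⟨hΦinj, hΦsurj⟩
  have hdim : Module.finrank ℂ U < n := by
    have h1 := Ψ.finrank_eq
    rw [Module.finrank_prod, Module.finrank_fin_fun, hV] at h1
    omega
  obtain ⟨ι, _, _, b, d, pre, h, hb1, hb2⟩ := ih _ hdim U (T.restrict hUT) rfl
  refine ⟨Fin m ⊕ ι, inferInstance, inferInstance,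
    (Module.Basis.prod (Pi.basisFun ℂ (Fin m)) b).map Ψ,
    Sum.elim (fun _ => lam) d,
    Sum.elim (fun k => if hk : (k : ℕ) + 1 < m then some (Sum.inl ⟨(k : ℕ) + 1, hk⟩) else none)
      (fun j => (pre j).map Sum.inr),
    Sum.elim (fun k => m - 1 - (k : ℕ)) h, ?_, ?_⟩
  · have hl : ∀ k : Fin m, ((Module.Basis.prod (Pi.basisFun ℂ (Fin m)) b).map Ψ) (Sum.inl k) =
        (N ^ (k : ℕ)) v := by
      intro k
      rw [Module.Basis.map_apply]
      change Φ _ = _
      rw [hΦ, hα]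
      simp [Pi.single_apply]
    have hr : ∀ j : ι, ((Module.Basis.prod (Pi.basisFun ℂ (Fin m)) b).map Ψ) (Sum.inr j) =
        (b j : V) := by
      intro j
      rw [Module.Basis.map_apply]
      change Φ _ = _
      rw [hΦ, hα]
      simp
    rintro (k | j)
    · simp only [hl, Sum.elim_inl]
      rw [hT, ← Module.End.mul_apply, ← pow_succ']
      congr 1
      by_cases hk : (k : ℕ) + 1 < m
      · rw [dif_pos hk, Option.elim_some, hl]
      · rw [dif_neg hk, Option.elim_none]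
        exact hvbig _ (by omega)
    · simp only [hr, Sum.elim_inr]
      have h1 := congrArg (fun z : U => (z : V)) (hb1 j)
      simp only [LinearMap.coe_restrict_apply, Submodule.coe_add, Submodule.coe_smul] at h1
      rw [h1]
      congr 1
      cases pre j with
      | none => rfl
      | some i => simp [hr]
  · rintro (i | i) (j | j) hij
    · refine ⟨?_, rfl⟩
      simp only [Sum.elim_inl] at hij ⊢
      by_cases hk : (j : ℕ) + 1 < m
      · rw [dif_pos hk] at hij
        have : (i : ℕ) = (j : ℕ) + 1 := by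
          have := Sum.inl.inj (Option.some.inj hij)
          rw [← this]
        omega
      · rw [dif_neg hk] at hij
        exact absurd hij (by simp)
    · simp only [Sum.elim_inr] at hij
      cases hp : pre j with
      | none => rw [hp] at hij; simp at hij
      | some i' => rw [hp] at hij; simp at hij
    · simp only [Sum.elim_inl] at hij
      by_cases hk : (j : ℕ) + 1 < m
      · rw [dif_pos hk] at hij
        simp at hij
      · rw [dif_neg hk] at hij
        exact absurd hij (by simp)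
    · simp only [Sum.elim_inr] at hij ⊢
      cases hp : pre j with
      | none => rw [hp] at hij; simp at hij
      | some i' =>
        rw [hp] at hij
        simp only [Option.map_some, Option.some.injEq, Sum.inr.injEq] at hij
        subst hij
        exact hb2 _ _ hp

variable {r : ℕ}

/-- Jordan form for a given enumeration of the Jordan basis. -/
theorem jordan_of_enum {C : Mat r ℂ} {ι : Type} [Fintype ι] [DecidableEq ι]
    (b : Module.Basis ι ℂ (Fin r → ℂ)) (d : ι → ℂ) (pre : ι → Option ι) (h : ι → ℕ)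
    (hb : ∀ j, Matrix.mulVecLin C (b j) = d j • b j + (pre j).elim 0 b)
    (hpre : ∀ i j, pre j = some i → h j = h i + 1) (e : ι ≃ Fin r)
    (he : ∀ i j, pre j = some i → e i < e j) :
    ∃ ν : Matrix (Fin r) (Fin r) ℤ, (∀ i j, ¬ i < j → ν i j = 0) ∧
      ∀ N₀ : ℂ, N₀ ≠ 0 → ∃ P : (Mat r ℂ)ˣ,
        C = (P : Mat r ℂ) * (diagonal (fun k => d (e.symm k)) +
          N₀ • ν.map (Int.castRingHom ℂ)) * ((P⁻¹ : (Mat r ℂ)ˣ) : Mat r ℂ) := by
  classical
  let ν : Matrix (Fin r) (Fin r) ℤ := Matrix.of fun i j =>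
    if pre (e.symm j) = some (e.symm i) then 1 else 0
  have hν : ∀ i j, ν i j = if pre (e.symm j) = some (e.symm i) then 1 else 0 := fun i j => rfl
  have hνlt : ∀ i j, ¬ i < j → ν i j = 0 := by
    intro i j hij
    rw [hν]
    by_cases hp : pre (e.symm j) = some (e.symm i)
    · exfalso
      apply hij
      have h2 := he _ _ hp
      simpa using h2
    · rw [if_neg hp]
  refine ⟨ν, hνlt, ?_⟩
  intro N₀ hN₀
  let b' : Module.Basis (Fin r) ℂ (Fin r → ℂ) := b.reindex e
  let b'' : Module.Basis (Fin r) ℂ (Fin r → ℂ) :=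
    b'.unitsSMul fun k => (Units.mk0 N₀ hN₀) ^ (h (e.symm k))
  have hb'' : ∀ k, b'' k = N₀ ^ (h (e.symm k)) • b (e.symm k) := by
    intro k
    simp only [b'', b', Module.Basis.unitsSMul_apply, Module.Basis.reindex_apply]
    rw [Units.smul_def]
    simp
  let P₀ : Matrix (Fin r) (Fin r) ℂ := (Pi.basisFun ℂ (Fin r)).toMatrix b''
  have hP₀ : ∀ i j, P₀ i j = b'' j i := by
    intro i j
    simp [P₀, Module.Basis.toMatrix_apply]
  have hu : IsUnit P₀ := by
    have := (Pi.basisFun ℂ (Fin r)).invertibleToMatrix b''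
    exact isUnit_of_invertible _
  obtain ⟨P, hP⟩ := hu
  refine ⟨P, ?_⟩
  have key : C * P₀ = P₀ * (diagonal (fun k => d (e.symm k)) +
      N₀ • ν.map (Int.castRingHom ℂ)) := by
    ext i j
    have h1 := congrFun (hb (e.symm j)) i
    rw [Matrix.mulVecLin_apply] at h1
    have h2 : (C * P₀) i j = N₀ ^ (h (e.symm j)) * (C *ᵥ (b (e.symm j))) i := by
      rw [Matrix.mul_apply, Matrix.mulVec, dotProduct, Finset.mul_sum]
      refine Finset.sum_congr rfl fun k _ => ?_
      rw [hP₀, hb'', Pi.smul_apply, smul_eq_mul]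
      ring
    rw [h2, h1, Matrix.mul_add, Matrix.add_apply, Matrix.mul_diagonal, hP₀, hb'']
    simp only [Pi.add_apply, Pi.smul_apply, smul_eq_mul, mul_add]
    congr 1
    · ring
    · rw [Matrix.mul_smul, Matrix.smul_apply, smul_eq_mul, Matrix.mul_apply]
      cases hp : pre (e.symm j) with
      | none =>
        rw [Option.elim_none]
        rw [Finset.sum_eq_zero]
        · simp
        · intro k _
          rw [Matrix.map_apply, hν, hp]
          simp
      | some i' =>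
        rw [Option.elim_some, Finset.sum_eq_single (e i')]
        · rw [Matrix.map_apply, hν, hp, Equiv.symm_apply_apply, if_pos rfl, hP₀, hb'',
            Equiv.symm_apply_apply, Pi.smul_apply, smul_eq_mul, map_one, mul_one,
            hpre _ _ hp, pow_succ]
          ring
        · intro k _ hk
          rw [Matrix.map_apply, hν, hp, if_neg, map_zero, mul_zero]
          intro hcon
          apply hk
          rw [Option.some.injEq] at hcon
          rw [hcon, Equiv.apply_symm_apply]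
        · intro hk
          exact absurd (Finset.mem_univ _) hk
  have hPinv : (P : Mat r ℂ) * ((P⁻¹ : (Mat r ℂ)ˣ) : Mat r ℂ) = 1 := P.mul_inv
  rw [hP, ← key, ← hP, mul_assoc, hPinv, mul_one]

/-- Among the enumerations with given values there is one which is increasing on the fibres with
respect to a height function. -/
theorem exists_stable {ι : Type} [Fintype ι] [DecidableEq ι] (d : ι → ℂ) (h : ι → ℕ)
    (e₀ : ι ≃ Fin r) : ∃ e : ι ≃ Fin r, (∀ k, d (e.symm k) = d (e₀.symm k)) ∧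
      ∀ i j, d i = d j → h i < h j → e i < e j := by
  classical
  let S : Set (ι ≃ Fin r) := {e | ∀ k, d (e.symm k) = d (e₀.symm k)}
  have hS : S.Nonempty := ⟨e₀, fun k => rfl⟩
  obtain ⟨e, he, hmax⟩ := Set.exists_max_image S (fun e => ∑ i, h i * (e i : ℕ))
    (Set.toFinite S) hS
  refine ⟨e, he, fun i j hij hh => ?_⟩
  by_contra hcon
  have hne : i ≠ j := by rintro rfl; exact lt_irrefl _ hh
  have hlt : e j < e i := lt_of_le_of_ne (not_lt.1 hcon) (fun h => hne (e.injective h).symm)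
  let e' : ι ≃ Fin r := (Equiv.swap i j).trans e
  have he' : e' ∈ S := by
    intro k
    rw [← he k]
    change d ((Equiv.swap i j).symm (e.symm k)) = d (e.symm k)
    rw [Equiv.symm_swap]
    by_cases h1 : e.symm k = i
    · rw [h1, Equiv.swap_apply_left, hij]
    · by_cases h2 : e.symm k = j
      · rw [h2, Equiv.swap_apply_right, hij]
      · rw [Equiv.swap_apply_of_ne_of_ne h1 h2]
  have h3 := hmax e' he'
  have hsum : ∀ f : ι → ℕ, ∑ k, f k = f i + f j + ∑ k ∈ (Finset.univ.erase i).erase j, f k := by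
    intro f
    rw [add_assoc, Finset.add_sum_erase _ _ (Finset.mem_erase.2 ⟨hne.symm, Finset.mem_univ _⟩),
      Finset.add_sum_erase _ _ (Finset.mem_univ _)]
  have h4 : ∑ k ∈ (Finset.univ.erase i).erase j, h k * (e' k : ℕ) =
      ∑ k ∈ (Finset.univ.erase i).erase j, h k * (e k : ℕ) := by
    refine Finset.sum_congr rfl fun k hk => ?_
    rw [Finset.mem_erase, Finset.mem_erase] at hk
    change h k * (e (Equiv.swap i j k) : ℕ) = _
    rw [Equiv.swap_apply_of_ne_of_ne hk.2.1 hk.1]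
  rw [hsum (fun k => h k * (e' k : ℕ)), hsum (fun k => h k * (e k : ℕ)), h4] at h3
  have h5 : e' i = e j := by
    change e (Equiv.swap i j i) = _
    rw [Equiv.swap_apply_left]
  have h6 : e' j = e i := by
    change e (Equiv.swap i j j) = _
    rw [Equiv.swap_apply_right]
  rw [h5, h6] at h3
  have h7 : ((e j : Fin r) : ℕ) < (e i : ℕ) := hlt
  have h8 : h i * (e j : ℕ) + h j * (e i : ℕ) ≤ h i * (e i : ℕ) + h j * (e j : ℕ) := by omega
  obtain ⟨x, hx⟩ := Nat.exists_eq_add_of_lt hh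
  obtain ⟨y, hy⟩ := Nat.exists_eq_add_of_lt h7
  rw [hx, hy] at h8
  nlinarith [Nat.zero_le x, Nat.zero_le y, Nat.zero_le (x * y)]

theorem charpoly_conj_aux (P : (Mat r ℂ)ˣ) (d : Fin r → ℂ) (ν : Matrix (Fin r) (Fin r) ℤ)
    (hν : ∀ i j, ¬ i < j → ν i j = 0) :
    ((P : Mat r ℂ) * (diagonal d + ν.map (Int.castRingHom ℂ)) *
      ((P⁻¹ : (Mat r ℂ)ˣ) : Mat r ℂ)).charpoly = ∏ i, (Polynomial.X - Polynomial.C (d i)) := by
  have h1 : ν.map (Int.castRingHom ℂ) = ν.map (Int.cast : ℤ → ℂ) := by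
    ext i j
    rfl
  rw [h1]
  have h3 := P002.charpoly_diag_add d ν hν 1
  rw [one_smul] at h3
  rw [← h3, Matrix.mul_assoc, Matrix.charpoly_mul_comm, Matrix.mul_assoc, ← Units.val_mul,
    inv_mul_cancel, Units.val_one, Matrix.mul_one]

end Vale.Agent.P002R
end

section

/-!
# P002, genus 0: the rank one lemma
-/

namespace Vale.Agent.P002R

open Matrix Module

variable {r : ℕ} {ι : Type*}

/-- derivative of a product of conjugates -/
def DL (c x : ι → Mat r ℂ) : List ι → Mat r ℂ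
  | [] => 0
  | j :: l => (x j * c j - c j * x j) * (l.map c).prod + c j * DL c x l

theorem DL_nil (c x : ι → Mat r ℂ) : DL c x [] = 0 := rfl

theorem DL_cons (c x : ι → Mat r ℂ) (j : ι) (l : List ι) :
    DL c x (j :: l) = (x j * c j - c j * x j) * (l.map c).prod + c j * DL c x l := rfl

theorem DL_append (c x : ι → Mat r ℂ) (l₁ l₂ : List ι) :
    DL c x (l₁ ++ l₂) = DL c x l₁ * (l₂.map c).prod + (l₁.map c).prod * DL c x l₂ := by
  induction l₁ with
  | nil => simp [DL_nil]
  | cons j l₁ ih =>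
    rw [List.cons_append, DL_cons, DL_cons, ih, List.map_append, List.prod_append, List.map_cons,
      List.prod_cons]
    noncomm_ring

theorem DL_add (c x y : ι → Mat r ℂ) (l : List ι) :
    DL c (x + y) l = DL c x l + DL c y l := by
  induction l with
  | nil => simp [DL_nil]
  | cons j l ih =>
    rw [DL_cons, DL_cons, DL_cons, ih, Pi.add_apply]
    noncomm_ring

theorem DL_smul (c x : ι → Mat r ℂ) (a : ℂ) (l : List ι) :
    DL c (a • x) l = a • DL c x l := by
  induction l with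
  | nil => simp [DL_nil]
  | cons j l ih =>
    rw [DL_cons, DL_cons, ih, Pi.smul_apply]
    simp only [smul_add, Matrix.smul_mul, Matrix.mul_smul, smul_sub, Matrix.sub_mul]

/-- `DL` as a linear map -/
def DLlin (c : ι → Mat r ℂ) (l : List ι) : (ι → Mat r ℂ) →ₗ[ℂ] Mat r ℂ where
  toFun x := DL c x l
  map_add' x y := DL_add c x y l
  map_smul' a x := DL_smul c x a l

theorem DL_zero_of (c x : ι → Mat r ℂ) (l : List ι) (h : ∀ j ∈ l, x j = 0) : DL c x l = 0 := by
  induction l with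
  | nil => rfl
  | cons j l ih =>
    rw [DL_cons, ih fun k hk => h k (List.mem_cons_of_mem _ hk), h j List.mem_cons_self]
    simp

theorem DL_split (c x : ι → Mat r ℂ) (l' l'' : List ι) (j : ι) (h' : ∀ k ∈ l', x k = 0)
    (h'' : ∀ k ∈ l'', x k = 0) :
    DL c x (l' ++ j :: l'') =
      (l'.map c).prod * (x j * c j - c j * x j) * (l''.map c).prod := by
  rw [DL_append, DL_cons, DL_zero_of c x l' h', DL_zero_of c x l'' h'']
  noncomm_ring

theorem trace_vecMulVec_mul (u y : Fin r → ℂ) (M : Mat r ℂ) :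
    trace (vecMulVec u y * M) = y ⬝ᵥ (M *ᵥ u) := by
  simp only [trace, diag_apply, mul_apply, vecMulVec_apply, dotProduct, mulVec, Finset.mul_sum]
  rw [Finset.sum_comm]
  refine Finset.sum_congr rfl fun i _ => Finset.sum_congr rfl fun j _ => by ring

/-- commutation along a list -/
theorem pre_ind (c : ι → Mat r ℂ) (B : Mat r ℂ) (l : List ι)
    (h : ∀ l' j l'', l = l' ++ j :: l'' → Commute B (l'.map c).prod → Commute B (c j)) :
    Commute B (l.map c).prod ∧ ∀ j ∈ l, Commute B (c j) := by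
  have key : ∀ l₁ l₂ : List ι, l = l₁ ++ l₂ →
      Commute B (l₁.map c).prod ∧ ∀ j ∈ l₁, Commute B (c j) := by
    intro l₁
    induction l₁ using List.reverseRecOn with
    | nil => exact fun l₂ _ => ⟨by simp, by simp⟩
    | append_singleton l₁ j ih =>
      intro l₂ hl
      have hl' : l = l₁ ++ j :: l₂ := by simpa using hl
      obtain ⟨h1, h2⟩ := ih (j :: l₂) hl'
      have h3 := h l₁ j l₂ hl' h1
      refine ⟨?_, ?_⟩
      · rw [List.map_append, List.prod_append]
        simp only [List.map_cons, List.map_nil, List.prod_cons, List.prod_nil, mul_one]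
        exact h1.mul_right h3
      · intro k hk
        rcases List.mem_append.1 hk with hk | hk
        · exact h2 k hk
        · rw [List.mem_singleton] at hk
          rw [hk]; exact h3
  exact key l [] (by simp)

/-- the final contradiction -/
theorem rank_one_end (c : ι → Mat r ℂ) (b t : ι) (N B₂ P A : Mat r ℂ) (u y : Fin r → ℂ)
    (hA : A = vecMulVec u y) (hu0 : u ≠ 0) (hy0 : y ≠ 0) (hub : IsUnit (c b)) (hut : IsUnit (c t))
    (hP : IsUnit P) (hNP : Commute N P) (hB₂ : B₂ = N + A * P)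
    (E1 : N * c b = c b * (N + P * A)) (E4 : B₂ * c t = c t * N)
    (hall : ∀ j, j ≠ b → j ≠ t → Commute N (c j) ∨ Commute B₂ (c j))
    (hirr : ∀ W : Submodule ℂ (Fin r → ℂ), (∀ j, ∀ w ∈ W, c j *ᵥ w ∈ W) → W = ⊥ ∨ W = ⊤) :
    False := by
  have hne : Nonempty (Fin r) := by
    by_contra h
    rw [not_nonempty_iff] at h
    exact hu0 (funext fun i => (h.false i).elim)
  have hA0 : A ≠ 0 := by
    intro h0
    obtain ⟨i, hi⟩ := Function.ne_iff.1 hu0
    obtain ⟨j, hj⟩ := Function.ne_iff.1 hy0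
    have h1 := congrFun (congrFun (hA.symm.trans h0) i) j
    rw [vecMulVec_apply] at h1
    rcases mul_eq_zero.1 h1 with h | h
    · exact hi h
    · exact hj h
  -- not scalar
  have hns : ∀ a : ℂ, N ≠ a • (1 : Mat r ℂ) := by
    intro a ha
    rw [ha] at E1
    have h1 : c b * (P * A) = 0 := by
      have h2 : a • (1 : Mat r ℂ) * c b = c b * (a • (1 : Mat r ℂ)) := by
        rw [Matrix.smul_mul, Matrix.mul_smul, Matrix.one_mul, Matrix.mul_one]
      rw [h2, Matrix.mul_add, left_eq_add] at E1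
      exact E1
    have h2 : P * A = 0 := hub.mul_left_cancel (by rw [h1, Matrix.mul_zero])
    exact hA0 (hP.mul_left_cancel (by rw [h2, Matrix.mul_zero]))
  obtain ⟨lam, hlam⟩ := Module.End.exists_eigenvalue (Matrix.toLin' N)
  obtain ⟨w₀, hw₀⟩ := hlam.exists_hasEigenvector
  have hw₀1 : N *ᵥ w₀ = lam • w₀ := by
    have := hw₀.apply_eq_smul
    rwa [Matrix.toLin'_apply] at this
  have hw₀2 : w₀ ≠ 0 := hw₀.2
  let Kr : Mat r ℂ → Submodule ℂ (Fin r → ℂ) := fun M => LinearMap.ker (Matrix.toLin' (M - lam • 1))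
  let Rg : Mat r ℂ → Submodule ℂ (Fin r → ℂ) := fun M => LinearMap.range (Matrix.toLin' (M - lam • 1))
  have hKr : ∀ M w, w ∈ Kr M ↔ M *ᵥ w = lam • w := by
    intro M w
    simp only [Kr, LinearMap.mem_ker, Matrix.toLin'_apply, Matrix.sub_mulVec, Matrix.smul_mulVec,
      Matrix.one_mulVec, sub_eq_zero]
  have hRg : ∀ M w, w ∈ Rg M ↔ ∃ v, M *ᵥ v - lam • v = w := by
    intro M w
    simp only [Rg, LinearMap.mem_range, Matrix.toLin'_apply, Matrix.sub_mulVec, Matrix.smul_mulVec,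
      Matrix.one_mulVec]
  obtain ⟨ti, hti1, hti2⟩ : ∃ ti : Mat r ℂ, c t * ti = 1 ∧ ti * c t = 1 := by
    obtain ⟨q, hq⟩ := hut
    exact ⟨(q⁻¹ : (Mat r ℂ)ˣ), by rw [← hq]; simp, by rw [← hq]; simp⟩
  have E4' : N * ti = ti * B₂ := by
    calc N * ti = ti * (c t * N) * ti := by rw [← Matrix.mul_assoc, hti2, Matrix.one_mul]
      _ = ti * B₂ := by rw [← E4, Matrix.mul_assoc, Matrix.mul_assoc, hti1, Matrix.mul_one]
  have hAv : ∀ v : Fin r → ℂ, A *ᵥ v = (y ⬝ᵥ v) • u := by
    intro v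
    rw [hA, Matrix.vecMulVec_mulVec]
    ext i
    simp [mul_comm]
  by_cases hcase : ∀ w ∈ Kr N, y ⬝ᵥ w = 0
  · -- case 1: the kernel is invariant
    have hPK : ∀ w ∈ Kr N, P *ᵥ w ∈ Kr N := by
      intro w hw
      rw [hKr] at hw ⊢
      rw [Matrix.mulVec_mulVec, hNP.eq, ← Matrix.mulVec_mulVec, hw, Matrix.mulVec_smul]
    have hK1 : Kr N ≤ Kr (N + P * A) := by
      intro w hw
      have h1 := hcase w hw
      rw [hKr] at hw ⊢
      rw [Matrix.add_mulVec, hw, ← Matrix.mulVec_mulVec, hAv, h1, zero_smul, Matrix.mulVec_zero,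
        add_zero]
    have hK2 : Kr N ≤ Kr B₂ := by
      intro w hw
      have h1 := hcase _ (hPK w hw)
      rw [hKr] at hw ⊢
      rw [hB₂, Matrix.add_mulVec, hw, ← Matrix.mulVec_mulVec, hAv, h1, zero_smul, add_zero]
    have hK3 : Kr N = Kr B₂ := by
      refine Submodule.eq_of_le_of_finrank_le hK2 ?_
      have hmap : ∀ w ∈ Kr B₂, ti *ᵥ w ∈ Kr N := by
        intro w hw
        rw [hKr] at hw ⊢
        rw [Matrix.mulVec_mulVec, E4', ← Matrix.mulVec_mulVec, hw, Matrix.mulVec_smul]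
      refine LinearMap.finrank_le_finrank_of_injective
        (f := (Matrix.toLin' ti).restrict (p := Kr B₂) (q := Kr N) (fun w hw => by
          rw [Matrix.toLin'_apply]; exact hmap w hw)) ?_
      rintro ⟨w, hw⟩ ⟨w', hw'⟩ h
      have h1 : ti *ᵥ w = ti *ᵥ w' := congrArg Subtype.val h
      have h2 : c t *ᵥ (ti *ᵥ w) = c t *ᵥ (ti *ᵥ w') := by rw [h1]
      rw [Matrix.mulVec_mulVec, Matrix.mulVec_mulVec, hti1, Matrix.one_mulVec,
        Matrix.one_mulVec] at h2
      exact Subtype.ext h2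
    have hinv : ∀ j, ∀ w ∈ Kr N, c j *ᵥ w ∈ Kr N := by
      intro j w hw
      by_cases hjb : j = b
      · subst hjb
        have h1 := hK1 hw
        rw [hKr] at h1 ⊢
        rw [Matrix.mulVec_mulVec, E1, ← Matrix.mulVec_mulVec, h1, Matrix.mulVec_smul]
      by_cases hjt : j = t
      · subst hjt
        rw [hK3, hKr]
        rw [hKr] at hw
        rw [Matrix.mulVec_mulVec, E4, ← Matrix.mulVec_mulVec, hw, Matrix.mulVec_smul]
      rcases hall j hjb hjt with h | h
      · rw [hKr] at hw ⊢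
        rw [Matrix.mulVec_mulVec, h.eq, ← Matrix.mulVec_mulVec, hw, Matrix.mulVec_smul]
      · rw [hK3, hKr] at hw ⊢
        rw [Matrix.mulVec_mulVec, h.eq, ← Matrix.mulVec_mulVec, hw, Matrix.mulVec_smul]
    rcases hirr (Kr N) hinv with h | h
    · have h1 : w₀ ∈ Kr N := (hKr N w₀).2 hw₀1
      rw [h, Submodule.mem_bot] at h1
      exact hw₀2 h1
    · apply hns lam
      refine Matrix.toLin'.injective (LinearMap.ext fun w => ?_)
      have h1 : w ∈ Kr N := h ▸ Submodule.mem_top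
      rw [hKr] at h1
      rw [Matrix.toLin'_apply, Matrix.toLin'_apply, h1, Matrix.smul_mulVec, Matrix.one_mulVec]
  · -- case 2: the range is invariant
    push Not at hcase
    obtain ⟨w₁, hw₁, hw₁y⟩ := hcase
    rw [hKr] at hw₁
    have hPinv : ∃ w₂, P *ᵥ w₂ = w₁ ∧ N *ᵥ w₂ = lam • w₂ := by
      obtain ⟨q, hq⟩ := hP
      have hq1 : P * ((q⁻¹ : (Mat r ℂ)ˣ) : Mat r ℂ) = 1 := by rw [← hq]; simp
      have hq2 : ((q⁻¹ : (Mat r ℂ)ˣ) : Mat r ℂ) * P = 1 := by rw [← hq]; simp
      refine ⟨((q⁻¹ : (Mat r ℂ)ˣ) : Mat r ℂ) *ᵥ w₁, ?_, ?_⟩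
      · rw [Matrix.mulVec_mulVec, hq1, Matrix.one_mulVec]
      · have h1 : N * ((q⁻¹ : (Mat r ℂ)ˣ) : Mat r ℂ) = ((q⁻¹ : (Mat r ℂ)ˣ) : Mat r ℂ) * N := by
          calc N * ((q⁻¹ : (Mat r ℂ)ˣ) : Mat r ℂ)
              = ((q⁻¹ : (Mat r ℂ)ˣ) : Mat r ℂ) * (P * N) * ((q⁻¹ : (Mat r ℂ)ˣ) : Mat r ℂ) := by
                rw [← Matrix.mul_assoc, hq2, Matrix.one_mul]
            _ = _ := by rw [← hNP.eq, Matrix.mul_assoc, Matrix.mul_assoc, hq1, Matrix.mul_one]
        rw [Matrix.mulVec_mulVec, h1, ← Matrix.mulVec_mulVec, hw₁, Matrix.mulVec_smul]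
    obtain ⟨w₂, hw₂P, hw₂⟩ := hPinv
    have hu1 : P *ᵥ u ∈ Rg (N + P * A) := by
      rw [hRg]
      refine ⟨(y ⬝ᵥ w₁)⁻¹ • w₁, ?_⟩
      rw [Matrix.mulVec_smul, Matrix.add_mulVec, hw₁, ← Matrix.mulVec_mulVec, hAv,
        Matrix.mulVec_smul, smul_add, smul_smul (y ⬝ᵥ w₁)⁻¹ (y ⬝ᵥ w₁), inv_mul_cancel₀ hw₁y,
        one_smul, smul_comm lam, add_sub_cancel_left]
    have hu2 : u ∈ Rg B₂ := by
      rw [hRg]
      refine ⟨(y ⬝ᵥ w₁)⁻¹ • w₂, ?_⟩
      rw [Matrix.mulVec_smul, hB₂, Matrix.add_mulVec, hw₂, ← Matrix.mulVec_mulVec, hw₂P, hAv,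
        smul_add, smul_smul (y ⬝ᵥ w₁)⁻¹ (y ⬝ᵥ w₁), inv_mul_cancel₀ hw₁y, one_smul,
        smul_comm lam, add_sub_cancel_left]
    have hI1 : Rg N ≤ Rg (N + P * A) := by
      intro w hw
      obtain ⟨v, hv⟩ := (hRg _ _).1 hw
      have h1 : w = ((N + P * A) *ᵥ v - lam • v) - (y ⬝ᵥ v) • (P *ᵥ u) := by
        rw [Matrix.add_mulVec, ← Matrix.mulVec_mulVec, hAv, Matrix.mulVec_smul, ← hv]
        abel
      rw [h1]
      exact Submodule.sub_mem _ ((hRg _ _).2 ⟨v, rfl⟩) (Submodule.smul_mem _ _ hu1)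
    have hI2 : Rg N ≤ Rg B₂ := by
      intro w hw
      obtain ⟨v, hv⟩ := (hRg _ _).1 hw
      have h1 : w = (B₂ *ᵥ v - lam • v) - (y ⬝ᵥ (P *ᵥ v)) • u := by
        rw [hB₂, Matrix.add_mulVec, ← Matrix.mulVec_mulVec, hAv, ← hv]
        abel
      rw [h1]
      exact Submodule.sub_mem _ ((hRg _ _).2 ⟨v, rfl⟩) (Submodule.smul_mem _ _ hu2)
    have hI3 : Rg N = Rg B₂ := by
      refine Submodule.eq_of_le_of_finrank_le hI2 ?_
      have h1 : Rg B₂ ≤ (Rg N).map (Matrix.toLin' (c t)) := by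
        intro w hw
        obtain ⟨v, hv⟩ := (hRg _ _).1 hw
        refine ⟨N *ᵥ (ti *ᵥ v) - lam • (ti *ᵥ v), (hRg _ _).2 ⟨_, rfl⟩, ?_⟩
        have e1 : c t * N * ti = B₂ := by
          rw [Matrix.mul_assoc, E4', ← Matrix.mul_assoc, hti1, Matrix.one_mul]
        rw [Matrix.toLin'_apply, Matrix.mulVec_sub, Matrix.mulVec_smul, Matrix.mulVec_mulVec,
          Matrix.mulVec_mulVec, Matrix.mulVec_mulVec, e1, hti1, Matrix.one_mulVec, hv]
      exact (Submodule.finrank_mono h1).trans (Submodule.finrank_map_le _ _)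
    have hinv : ∀ j, ∀ w ∈ Rg N, c j *ᵥ w ∈ Rg N := by
      intro j w hw
      by_cases hjb : j = b
      · subst hjb
        obtain ⟨v, hv⟩ := (hRg _ _).1 (hI1 hw)
        refine (hRg _ _).2 ⟨c j *ᵥ v, ?_⟩
        rw [Matrix.mulVec_mulVec, E1, ← Matrix.mulVec_mulVec, ← Matrix.mulVec_smul,
          ← Matrix.mulVec_sub, hv]
      by_cases hjt : j = t
      · subst hjt
        obtain ⟨v, hv⟩ := (hRg _ _).1 hw
        rw [hI3]
        refine (hRg _ _).2 ⟨c j *ᵥ v, ?_⟩
        rw [Matrix.mulVec_mulVec, E4, ← Matrix.mulVec_mulVec, ← Matrix.mulVec_smul,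
          ← Matrix.mulVec_sub, hv]
      rcases hall j hjb hjt with h | h
      · obtain ⟨v, hv⟩ := (hRg _ _).1 hw
        refine (hRg _ _).2 ⟨c j *ᵥ v, ?_⟩
        rw [Matrix.mulVec_mulVec, h.eq, ← Matrix.mulVec_mulVec, ← Matrix.mulVec_smul,
          ← Matrix.mulVec_sub, hv]
      · rw [hI3] at hw ⊢
        obtain ⟨v, hv⟩ := (hRg _ _).1 hw
        refine (hRg _ _).2 ⟨c j *ᵥ v, ?_⟩
        rw [Matrix.mulVec_mulVec, h.eq, ← Matrix.mulVec_mulVec, ← Matrix.mulVec_smul,
          ← Matrix.mulVec_sub, hv]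
    rcases hirr (Rg N) hinv with h | h
    · apply hns lam
      refine Matrix.toLin'.injective (LinearMap.ext fun w => ?_)
      have h1 : N *ᵥ w - lam • w ∈ Rg N := (hRg _ _).2 ⟨w, rfl⟩
      rw [h, Submodule.mem_bot, sub_eq_zero] at h1
      rw [Matrix.toLin'_apply, Matrix.toLin'_apply, h1, Matrix.smul_mulVec, Matrix.one_mulVec]
    · have h1 : Function.Surjective (Matrix.toLin' (N - lam • 1)) := LinearMap.range_eq_top.1 h
      have h2 := LinearMap.injective_iff_surjective.2 h1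
      apply hw₀2
      apply h2
      rw [map_zero, Matrix.toLin'_apply, Matrix.sub_mulVec, Matrix.smul_mulVec, Matrix.one_mulVec,
        hw₀1, sub_self]


theorem tr_comm (N X Y a H : Mat r ℂ) :
    trace (N * (X * (H * a - a * H) * Y)) = trace ((a * (Y * N * X) - (Y * N * X) * a) * H) := by
  have e1 : trace (N * (X * (H * a) * Y)) = trace (a * (Y * N * X) * H) := by
    rw [show N * (X * (H * a) * Y) = (N * X * H) * (a * Y) by noncomm_ring,
      Matrix.trace_mul_comm]
    congr 1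
    noncomm_ring
  have e2 : trace (N * (X * (a * H) * Y)) = trace ((Y * N * X) * a * H) := by
    rw [show N * (X * (a * H) * Y) = (N * X * a * H) * Y by noncomm_ring,
      Matrix.trace_mul_comm]
    congr 1
    noncomm_ring
  rw [Matrix.mul_sub, Matrix.sub_mul, Matrix.mul_sub, trace_sub, e1, e2, Matrix.sub_mul, trace_sub]

/-- a linear functional vanishing on the kernel of `D` factors through `D` -/
theorem exists_factor {E : Type*} [AddCommGroup E] [Module ℂ E] (D : E →ₗ[ℂ] Mat r ℂ)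
    (F : E →ₗ[ℂ] ℂ) (h : ∀ x, D x = 0 → F x = 0) :
    ∃ N : Mat r ℂ, ∀ x, F x = trace (N * D x) := by
  have h1 : F ∈ LinearMap.range D.dualMap := by
    rw [LinearMap.range_dualMap_eq_dualAnnihilator_ker, Submodule.mem_dualAnnihilator]
    intro x hx
    exact h x hx
  obtain ⟨φ, hφ⟩ := h1
  obtain ⟨N, hN⟩ := Vale.Agent.P002.exists_trace_repr φ
  refine ⟨N, fun x => ?_⟩
  rw [← hφ, ← hN]
  rfl

/-- cyclic permutations of a product equal to one -/
theorem cyc_one {X a Y : Mat r ℂ} (h : X * a * Y = 1) : a * (Y * X) = 1 ∧ (Y * X) * a = 1 := by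
  have h1 : X * (a * Y) = 1 := by rw [← Matrix.mul_assoc]; exact h
  have h2 : (a * Y) * X = 1 := mul_eq_one_comm.1 h1
  have h3 : a * (Y * X) = 1 := by rw [← Matrix.mul_assoc]; exact h2
  exact ⟨h3, mul_eq_one_comm.1 h3⟩

theorem comm_of_inv {a V B : Mat r ℂ} (h1 : a * V = 1)
    (h : a * (V * B) - (V * B) * a = 0) : Commute B a := by
  have h3 : B = V * B * a := by
    rw [← Matrix.mul_assoc, h1, Matrix.one_mul, sub_eq_zero] at h
    exact h
  show B * a = a * B
  calc B * a = (a * V) * B * a := by rw [h1, Matrix.one_mul]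
    _ = a * (V * B * a) := by noncomm_ring
    _ = a * B := by rw [← h3]

section main

variable [DecidableEq ι]

/-- The rank one lemma. -/
theorem rank_one (c : ι → Mat r ℂ) (hc : ∀ j, IsUnit (c j)) (b t : ι) (l₁ l₂ l₃ : List ι)
    (hnd : (b :: (l₁ ++ (l₂ ++ t :: l₃))).Nodup)
    (hrel : ((b :: (l₁ ++ (l₂ ++ t :: l₃))).map c).prod = 1)
    (hmem : ∀ j, j ∈ b :: (l₁ ++ (l₂ ++ t :: l₃)))
    (hirr : ∀ W : Submodule ℂ (Fin r → ℂ), (∀ j, ∀ w ∈ W, c j *ᵥ w ∈ W) → W = ⊥ ∨ W = ⊤)
    (u y : Fin r → ℂ) (hu0 : u ≠ 0) (hy0 : y ≠ 0) :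
    ∃ x : ι → Mat r ℂ, DL c x (b :: (l₁ ++ (l₂ ++ t :: l₃))) = 0 ∧
      y ⬝ᵥ ((DL c x l₁ + (l₁.map c).prod * x t - x b * (l₁.map c).prod) *ᵥ u) ≠ 0 := by
  by_contra hcon
  push Not at hcon
  obtain ⟨P, hPdef⟩ : ∃ P, P = (l₁.map c).prod := ⟨_, rfl⟩
  obtain ⟨P₂, hP₂def⟩ : ∃ P₂, P₂ = (l₂.map c).prod := ⟨_, rfl⟩
  obtain ⟨P₃, hP₃def⟩ : ∃ P₃, P₃ = (l₃.map c).prod := ⟨_, rfl⟩
  obtain ⟨A, hA⟩ : ∃ A, A = vecMulVec u y := ⟨_, rfl⟩
  have hprodunit : ∀ l : List ι, IsUnit (l.map c).prod := by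
    intro l
    induction l with
    | nil => simp
    | cons j l ih => rw [List.map_cons, List.prod_cons]; exact (hc j).mul ih
  rw [← hPdef] at hcon
  -- the functional
  obtain ⟨F, hF⟩ : ∃ F : (ι → Mat r ℂ) →ₗ[ℂ] ℂ, ∀ x, F x =
      trace (A * (DL c x l₁ + P * x t - x b * P)) := by
    refine ⟨LinearMap.mk (AddHom.mk (fun x => trace (A * (DL c x l₁ + P * x t - x b * P)))
      ?_) ?_, fun x => rfl⟩
    · intro x x'
      rw [DL_add, ← trace_add, Pi.add_apply, Pi.add_apply]
      congr 1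
      noncomm_ring
    · intro a x
      show trace (A * (DL c (a • x) l₁ + P * (a • x) t - (a • x) b * P)) =
        a • trace (A * (DL c x l₁ + P * x t - x b * P))
      rw [DL_smul, Pi.smul_apply, Pi.smul_apply, ← trace_smul]
      congr 1
      simp only [Matrix.smul_mul, Matrix.mul_smul, smul_sub, smul_add, Matrix.mul_sub,
        Matrix.mul_add]
  obtain ⟨N, hN⟩ := exists_factor (DLlin c (b :: (l₁ ++ (l₂ ++ t :: l₃)))) F (by
    intro x hx
    rw [hF, hA, trace_vecMulVec_mul]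
    exact hcon x hx)
  have hN' : ∀ x, trace (A * (DL c x l₁ + P * x t - x b * P)) =
      trace (N * DL c x (b :: (l₁ ++ (l₂ ++ t :: l₃)))) := fun x => by rw [← hF, hN]; rfl
  -- variation of one generator
  have hvar : ∀ (j : ι) (l' l'' : List ι), b :: (l₁ ++ (l₂ ++ t :: l₃)) = l' ++ j :: l'' →
      ∀ H : Mat r ℂ, trace (A * (DL c (Function.update 0 j H) l₁ +
        P * (Function.update (0 : ι → Mat r ℂ) j H) t -
        (Function.update (0 : ι → Mat r ℂ) j H) b * P)) =
      trace ((c j * ((l''.map c).prod * N * (l'.map c).prod) -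
        ((l''.map c).prod * N * (l'.map c).prod) * c j) * H) := by
    intro j l' l'' hl H
    rw [hN', hl, ← tr_comm]
    have hnd' : (l' ++ j :: l'').Nodup := hl ▸ hnd
    rw [List.nodup_append, List.nodup_cons] at hnd'
    rw [DL_split c _ l' l'' j (fun k hk => ?_) (fun k hk => ?_), Function.update_self]
    · rw [Function.update_of_ne, Pi.zero_apply]
      exact hnd'.2.2 k hk j List.mem_cons_self
    · rw [Function.update_of_ne, Pi.zero_apply]
      rintro rfl
      exact hnd'.2.1.1 hk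
  have hvar0 : ∀ (j : ι) (l : List ι), j ∉ l → ∀ H : Mat r ℂ,
      DL c (Function.update 0 j H) l = 0 := by
    intro j l hj H
    refine DL_zero_of c _ l fun k hk => ?_
    rw [Function.update_of_ne, Pi.zero_apply]
    rintro rfl
    exact hj hk
  have hnd2 := hnd
  rw [List.nodup_cons, List.nodup_append, List.nodup_append, List.nodup_cons] at hnd2
  obtain ⟨hb, hn1, ⟨hn2, ⟨ht3, hn3⟩, hn23⟩, hn123⟩ := hnd2
  have hb1 : b ∉ l₁ := fun h => hb (List.mem_append_left _ h)
  have hbt : b ≠ t := fun h => hb (List.mem_append_right _ (List.mem_append_right _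
    (h ▸ List.mem_cons_self)))
  have ht1 : t ∉ l₁ := fun h => hn123 t h t (List.mem_append_right _ List.mem_cons_self) rfl
  -- the first equation
  have hrel' : c b * (P * (P₂ * (c t * P₃))) = 1 := by
    rw [← hrel, hPdef, hP₂def, hP₃def]
    simp only [List.map_cons, List.map_append, List.prod_cons, List.prod_append]
  have E1 : N * c b = c b * (N + P * A) := by
    have h1 : ∀ H, trace (-(P * A) * H) = trace ((c b * ((P * (P₂ * (c t * P₃))) * N) -
        ((P * (P₂ * (c t * P₃))) * N) * c b) * H) := by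
      intro H
      have h2 := hvar b [] (l₁ ++ (l₂ ++ t :: l₃)) rfl H
      rw [hvar0 b l₁ hb1, Function.update_of_ne (Ne.symm hbt), Pi.zero_apply,
        Function.update_self] at h2
      simp only [List.map_nil, List.prod_nil, Matrix.mul_one, List.map_append, List.map_cons,
        List.prod_append, List.prod_cons, Matrix.mul_zero, zero_add, zero_sub, ← hPdef,
        ← hP₂def, ← hP₃def] at h2
      rw [← h2, Matrix.neg_mul, trace_neg, Matrix.mul_neg, trace_neg,
        show A * (H * P) = (A * H) * P by noncomm_ring, Matrix.trace_mul_comm (A * H) P,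
        Matrix.mul_assoc]
    have h2 := Vale.Agent.P002.eq_of_trace_eq h1
    rw [← Matrix.mul_assoc (c b) _ N, hrel', Matrix.one_mul] at h2
    have h3 : c b * (N - (P * (P₂ * (c t * P₃))) * N * c b) = c b * (-(P * A)) := by rw [h2]
    rw [Matrix.mul_sub, show c b * ((P * (P₂ * (c t * P₃))) * N * c b) =
      (c b * (P * (P₂ * (c t * P₃)))) * (N * c b) by noncomm_ring, hrel', Matrix.one_mul] at h3
    rw [Matrix.mul_add]
    have h4 : c b * N - c b * (-(P * A)) = N * c b := by rw [← h3]; abel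
    rw [← h4]
    noncomm_ring
  -- the commutation in the first part
  have hc1 := pre_ind c N l₁ (by
    intro l' j l'' hl hcom
    have hjl : j ∈ l₁ := by rw [hl]; simp
    have hjb : b ≠ j := fun h => hb1 (h ▸ hjl)
    have hjt : t ≠ j := fun h => ht1 (h ▸ hjl)
    obtain ⟨X, hX⟩ : ∃ X, X = (l'.map c).prod := ⟨_, rfl⟩
    obtain ⟨Z, hZ⟩ : ∃ Z, Z = (l''.map c).prod := ⟨_, rfl⟩
    have hPX : P = X * (c j * Z) := by
      rw [hPdef, hl, hX, hZ]
      simp only [List.map_append, List.map_cons, List.prod_append, List.prod_cons]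
    rw [← hX] at hcom
    have h1 : ∀ H, trace ((c j * (Z * A * X) - (Z * A * X) * c j) * H) =
        trace ((c j * ((Z * (P₂ * (c t * P₃))) * N * (c b * X)) -
          ((Z * (P₂ * (c t * P₃))) * N * (c b * X)) * c j) * H) := by
      intro H
      have h2 := hvar j (b :: l') (l'' ++ (l₂ ++ t :: l₃)) (by rw [hl]; simp) H
      rw [Function.update_of_ne hjb, Function.update_of_ne hjt, Pi.zero_apply, Pi.zero_apply,
        Matrix.mul_zero, Matrix.zero_mul, add_zero, sub_zero] at h2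
      simp only [List.map_append, List.map_cons, List.prod_append, List.prod_cons,
        ← hP₂def, ← hP₃def, ← hX, ← hZ] at h2
      rw [← h2, ← tr_comm, hl]
      have hn1' : (l' ++ j :: l'').Nodup := hl ▸ hn1
      rw [List.nodup_append, List.nodup_cons] at hn1'
      rw [DL_split c _ l' l'' j (fun k hk => ?_) (fun k hk => ?_), Function.update_self, hX, hZ]
      · rw [Function.update_of_ne, Pi.zero_apply]
        exact hn1'.2.2 k hk j List.mem_cons_self
      · rw [Function.update_of_ne, Pi.zero_apply]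
        rintro rfl
        exact hn1'.2.1.1 hk
    have h2 := Vale.Agent.P002.eq_of_trace_eq h1
    obtain ⟨Q, hQ⟩ : ∃ Q, Q = Z * (P₂ * (c t * P₃)) := ⟨_, rfl⟩
    rw [← hQ] at h2
    have hcyc := cyc_one (X := c b * X) (a := c j) (Y := Q) (by
      rw [← hrel', hPX, hQ]; noncomm_ring)
    have h3 : Q * N * (c b * X) = (Q * (c b * X)) * N + Z * A * X := by
      calc Q * N * (c b * X) = Q * (N * c b) * X := by noncomm_ring
        _ = Q * c b * (N * X) + (Q * (c b * X) * c j) * (Z * A * X) := by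
          rw [E1, hPX]; noncomm_ring
        _ = _ := by rw [hcyc.2, hcom.eq, Matrix.one_mul]; noncomm_ring
    refine comm_of_inv hcyc.1 ?_
    rw [h3] at h2
    have h4 : c j * (Q * (c b * X) * N + Z * A * X) - (Q * (c b * X) * N + Z * A * X) * c j -
        (c j * (Z * A * X) - Z * A * X * c j) = 0 := by rw [← h2, sub_self]
    rw [← h4]
    noncomm_ring)
  obtain ⟨hNP, hNl₁⟩ := hc1
  rw [← hPdef] at hNP
  obtain ⟨B₂, hB₂⟩ : ∃ B₂, B₂ = N + A * P := ⟨_, rfl⟩
  have E2 : N * (c b * P) = c b * P * B₂ := by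
    calc N * (c b * P) = (N * c b) * P := by rw [Matrix.mul_assoc]
      _ = c b * (N * P + P * (A * P)) := by rw [E1]; noncomm_ring
      _ = c b * P * B₂ := by rw [hNP.eq, hB₂]; noncomm_ring
  -- the second part
  have hc2 := pre_ind c B₂ l₂ (by
    intro l' j l'' hl hcom
    have hjl : j ∈ l₂ := by rw [hl]; simp
    have hjb : b ≠ j := fun h => hb (List.mem_append_right _ (List.mem_append_left _ (h ▸ hjl)))
    have hjt : t ≠ j := fun h => hn23 j hjl t List.mem_cons_self h.symm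
    have hj1 : j ∉ l₁ := fun h => hn123 j h j (List.mem_append_left _ hjl) rfl
    obtain ⟨X, hX⟩ : ∃ X, X = (l'.map c).prod := ⟨_, rfl⟩
    obtain ⟨Z, hZ⟩ : ∃ Z, Z = (l''.map c).prod := ⟨_, rfl⟩
    have hPX : P₂ = X * (c j * Z) := by
      rw [hP₂def, hl, hX, hZ]
      simp only [List.map_append, List.map_cons, List.prod_append, List.prod_cons]
    rw [← hX] at hcom
    obtain ⟨Q, hQ⟩ : ∃ Q, Q = Z * (c t * P₃) := ⟨_, rfl⟩
    have h1 : ∀ H, trace ((0 : Mat r ℂ) * H) =
        trace ((c j * (Q * N * (c b * (P * X))) - (Q * N * (c b * (P * X))) * c j) * H) := by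
      intro H
      have h2 := hvar j (b :: (l₁ ++ l')) (l'' ++ t :: l₃) (by rw [hl]; simp) H
      rw [Function.update_of_ne hjb, Function.update_of_ne hjt, Pi.zero_apply, Pi.zero_apply,
        Matrix.mul_zero, Matrix.zero_mul, add_zero, sub_zero, hvar0 j l₁ hj1,
        Matrix.mul_zero] at h2
      simp only [List.map_append, List.map_cons, List.prod_append, List.prod_cons,
        ← hPdef, ← hP₃def, ← hX, ← hZ, ← hQ] at h2
      rw [← h2, Matrix.zero_mul]
    have h2 := Vale.Agent.P002.eq_of_trace_eq h1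
    have hcyc := cyc_one (X := c b * (P * X)) (a := c j) (Y := Q) (by
      rw [← hrel', hPX, hQ]; noncomm_ring)
    have h3 : Q * N * (c b * (P * X)) = (Q * (c b * (P * X))) * B₂ := by
      calc Q * N * (c b * (P * X)) = Q * (N * (c b * P)) * X := by noncomm_ring
        _ = Q * c b * P * (B₂ * X) := by rw [E2]; noncomm_ring
        _ = _ := by rw [hcom.eq]; noncomm_ring
    refine comm_of_inv hcyc.1 ?_
    rw [← h3, ← h2])
  obtain ⟨hBP₂, hBl₂⟩ := hc2
  rw [← hP₂def] at hBP₂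
  -- the equation at `t`
  have E3 : N * (c b * (P * P₂)) = c b * (P * P₂) * B₂ := by
    calc N * (c b * (P * P₂)) = (N * (c b * P)) * P₂ := by noncomm_ring
      _ = c b * P * (B₂ * P₂) := by rw [E2]; noncomm_ring
      _ = _ := by rw [hBP₂.eq]; noncomm_ring
  have hcyct := cyc_one (X := c b * (P * P₂)) (a := c t) (Y := P₃) (by
      rw [← hrel']; noncomm_ring)
  have E4 : B₂ * c t = c t * N := by
    have h1 : ∀ H, trace ((A * P) * H) =
        trace ((c t * (P₃ * N * (c b * (P * P₂))) - (P₃ * N * (c b * (P * P₂))) * c t) * H) := by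
      intro H
      have h2 := hvar t (b :: (l₁ ++ l₂)) l₃ (by simp) H
      rw [Function.update_self, Function.update_of_ne hbt, Pi.zero_apply,
        Matrix.zero_mul, sub_zero, hvar0 t l₁ ht1, zero_add] at h2
      simp only [List.map_append, List.map_cons, List.prod_append, List.prod_cons,
        ← hPdef, ← hP₃def, ← hP₂def] at h2
      rw [← h2, Matrix.mul_assoc]
    have h2 := Vale.Agent.P002.eq_of_trace_eq h1
    have h3 : P₃ * N * (c b * (P * P₂)) = P₃ * (c b * (P * P₂)) * B₂ := by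
      rw [Matrix.mul_assoc, E3]
      simp only [Matrix.mul_assoc]
    rw [h3] at h2
    -- `A P = B₂ - V B₂ c_t`
    have h4 : c t * (P₃ * (c b * (P * P₂)) * B₂) = B₂ := by
      rw [← Matrix.mul_assoc, hcyct.1, Matrix.one_mul]
    rw [h4] at h2
    have h5 : N = P₃ * (c b * (P * P₂)) * B₂ * c t := by
      have : N = B₂ - A * P := by rw [hB₂]; abel
      rw [this, h2]; abel
    rw [h5, show c t * (P₃ * (c b * (P * P₂)) * B₂ * c t) =
      (c t * (P₃ * (c b * (P * P₂)))) * (B₂ * c t) by noncomm_ring, hcyct.1, Matrix.one_mul]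
  have E5 : N * (c b * (P * (P₂ * c t))) = c b * (P * (P₂ * c t)) * N := by
    calc N * (c b * (P * (P₂ * c t))) = (N * (c b * (P * P₂))) * c t := by noncomm_ring
      _ = c b * (P * P₂) * (B₂ * c t) := by rw [E3]; noncomm_ring
      _ = _ := by rw [E4]; noncomm_ring
  -- the third part
  have hc3 := pre_ind c N l₃ (by
    intro l' j l'' hl hcom
    have hjl : j ∈ l₃ := by rw [hl]; simp
    have hjb : b ≠ j := fun h => hb (List.mem_append_right _ (List.mem_append_right _
      (List.mem_cons_of_mem _ (h ▸ hjl))))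
    have hjt : t ≠ j := fun h => ht3 (h ▸ hjl)
    have hj1 : j ∉ l₁ := fun h => hn123 j h j (List.mem_append_right _
      (List.mem_cons_of_mem _ hjl)) rfl
    obtain ⟨X, hX⟩ : ∃ X, X = (l'.map c).prod := ⟨_, rfl⟩
    obtain ⟨Z, hZ⟩ : ∃ Z, Z = (l''.map c).prod := ⟨_, rfl⟩
    have hPX : P₃ = X * (c j * Z) := by
      rw [hP₃def, hl, hX, hZ]
      simp only [List.map_append, List.map_cons, List.prod_append, List.prod_cons]
    rw [← hX] at hcom
    have h1 : ∀ H, trace ((0 : Mat r ℂ) * H) =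
        trace ((c j * (Z * N * (c b * (P * (P₂ * (c t * X))))) -
          (Z * N * (c b * (P * (P₂ * (c t * X))))) * c j) * H) := by
      intro H
      have h2 := hvar j (b :: (l₁ ++ (l₂ ++ t :: l'))) l'' (by rw [hl]; simp) H
      rw [Function.update_of_ne hjb, Function.update_of_ne hjt, Pi.zero_apply, Pi.zero_apply,
        Matrix.mul_zero, Matrix.zero_mul, add_zero, sub_zero, hvar0 j l₁ hj1,
        Matrix.mul_zero] at h2
      simp only [List.map_append, List.map_cons, List.prod_append, List.prod_cons,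
        ← hPdef, ← hP₂def, ← hX, ← hZ] at h2
      rw [← h2, Matrix.zero_mul]
    have h2 := Vale.Agent.P002.eq_of_trace_eq h1
    have hcyc := cyc_one (X := c b * (P * (P₂ * (c t * X)))) (a := c j) (Y := Z) (by
      rw [← hrel', hPX]; noncomm_ring)
    have h3 : Z * N * (c b * (P * (P₂ * (c t * X)))) =
        (Z * (c b * (P * (P₂ * (c t * X))))) * N := by
      calc Z * N * (c b * (P * (P₂ * (c t * X))))
          = Z * (N * (c b * (P * (P₂ * c t)))) * X := by noncomm_ring
        _ = Z * (c b * (P * (P₂ * c t))) * (N * X) := by rw [E5]; noncomm_ring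
        _ = _ := by rw [hcom.eq]; noncomm_ring
    refine comm_of_inv hcyc.1 ?_
    rw [← h3, ← h2])
  refine rank_one_end c b t N B₂ P A u y hA hu0 hy0 (hc b) (hc t) (hPdef ▸ hprodunit l₁) hNP hB₂ E1
    E4 ?_ hirr
  intro j hjb hjt
  have hj := hmem j
  rw [List.mem_cons, List.mem_append, List.mem_append, List.mem_cons] at hj
  rcases hj with h | h | h | h | h
  · exact absurd h hjb
  · exact Or.inl (hNl₁ j h)
  · exact Or.inr (hBl₂ j h)
  · exact absurd h hjt
  · exact Or.inl (hc3.2 j h)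

end main

end Vale.Agent.P002R
end

section

/-!
# P002, genus 1: rank one lemmas
-/

namespace Vale.Agent.P002R

open Matrix Module

variable {r : ℕ}

theorem vecMulVec_ne_zero {u y : Fin r → ℂ} (hu : u ≠ 0) (hy : y ≠ 0) :
    (vecMulVec u y : Mat r ℂ) ≠ 0 := by
  intro h0
  obtain ⟨i, hi⟩ := Function.ne_iff.1 hu
  obtain ⟨j, hj⟩ := Function.ne_iff.1 hy
  have h1 := congrFun (congrFun h0 i) j
  rw [vecMulVec_apply] at h1
  rcases mul_eq_zero.1 h1 with h | h
  · exact hi h
  · exact hj h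

theorem vmv_mulVec (u y v : Fin r → ℂ) : (vecMulVec u y : Mat r ℂ) *ᵥ v = (y ⬝ᵥ v) • u := by
  rw [Matrix.vecMulVec_mulVec]
  ext i
  simp [mul_comm]

/-- the final contradiction -/
theorem end_lemma {S : Type*} (g : S → Mat r ℂ) (hg : ∀ s, IsUnit (g s)) (N : Mat r ℂ)
    (y : Fin r → ℂ) (hy : y ≠ 0) (p : S → Fin r → ℂ)
    (h : ∀ s, N * g s = g s * (N + vecMulVec (p s) y) ∨ (N + vecMulVec (p s) y) * g s = g s * N)
    (hne : ∃ s, p s ≠ 0)
    (hirr : ∀ W : Submodule ℂ (Fin r → ℂ), (∀ s, ∀ w ∈ W, g s *ᵥ w ∈ W) → W = ⊥ ∨ W = ⊤) :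
    False := by
  have hnonempty : Nonempty (Fin r) := by
    by_contra h
    rw [not_nonempty_iff] at h
    exact hy (funext fun i => (h.false i).elim)
  -- not scalar
  have hns : ∀ a : ℂ, N ≠ a • (1 : Mat r ℂ) := by
    intro a ha
    obtain ⟨s, hs⟩ := hne
    have hcomm : a • (1 : Mat r ℂ) * g s = g s * (a • (1 : Mat r ℂ)) := by
      rw [Matrix.smul_mul, Matrix.mul_smul, Matrix.one_mul, Matrix.mul_one]
    have h2 : (vecMulVec (p s) y : Mat r ℂ) = 0 := by
      rcases h s with h1 | h1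
      · rw [ha, hcomm, Matrix.mul_add, left_eq_add] at h1
        exact (hg s).mul_left_cancel (by rw [h1, Matrix.mul_zero])
      · rw [ha, Matrix.add_mul, hcomm, add_eq_left] at h1
        exact (hg s).mul_right_cancel (by rw [h1, Matrix.zero_mul])
    exact vecMulVec_ne_zero hs hy h2
  obtain ⟨lam, hlam⟩ := Module.End.exists_eigenvalue (Matrix.toLin' N)
  obtain ⟨w₀, hw₀⟩ := hlam.exists_hasEigenvector
  have hw₀1 : N *ᵥ w₀ = lam • w₀ := by
    have := hw₀.apply_eq_smul
    rwa [Matrix.toLin'_apply] at this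
  have hw₀2 : w₀ ≠ 0 := hw₀.2
  let Kr : Mat r ℂ → Submodule ℂ (Fin r → ℂ) := fun M => LinearMap.ker (Matrix.toLin' (M - lam • 1))
  let Rg : Mat r ℂ → Submodule ℂ (Fin r → ℂ) := fun M => LinearMap.range (Matrix.toLin' (M - lam • 1))
  have hKr : ∀ M w, w ∈ Kr M ↔ M *ᵥ w = lam • w := by
    intro M w
    simp only [Kr, LinearMap.mem_ker, Matrix.toLin'_apply, Matrix.sub_mulVec, Matrix.smul_mulVec,
      Matrix.one_mulVec, sub_eq_zero]
  have hRg : ∀ M w, w ∈ Rg M ↔ ∃ v, M *ᵥ v - lam • v = w := by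
    intro M w
    simp only [Rg, LinearMap.mem_range, Matrix.toLin'_apply, Matrix.sub_mulVec, Matrix.smul_mulVec,
      Matrix.one_mulVec]
  -- intertwiners
  have hmapK : ∀ (A B G : Mat r ℂ), A * G = G * B → ∀ w ∈ Kr B, G *ᵥ w ∈ Kr A := by
    intro A B G hG w hw
    rw [hKr] at hw ⊢
    rw [Matrix.mulVec_mulVec, hG, ← Matrix.mulVec_mulVec, hw, Matrix.mulVec_smul]
  have hmapR : ∀ (A B G : Mat r ℂ), A * G = G * B → ∀ w ∈ Rg B, G *ᵥ w ∈ Rg A := by
    intro A B G hG w hw
    rw [hRg] at hw ⊢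
    obtain ⟨v, hv⟩ := hw
    refine ⟨G *ᵥ v, ?_⟩
    rw [Matrix.mulVec_mulVec, hG, ← Matrix.mulVec_mulVec, ← Matrix.mulVec_smul,
      ← Matrix.mulVec_sub, hv]
  have hdimK : ∀ (A B G : Mat r ℂ), IsUnit G → A * G = G * B →
      finrank ℂ (Kr B) ≤ finrank ℂ (Kr A) := by
    intro A B G hGu hG
    obtain ⟨G', hG'⟩ : ∃ G' : Mat r ℂ, G' * G = 1 := by
      obtain ⟨q, hq⟩ := hGu
      exact ⟨(q⁻¹ : (Mat r ℂ)ˣ), by rw [← hq]; simp⟩
    refine LinearMap.finrank_le_finrank_of_injective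
      (f := (Matrix.toLin' G).restrict (p := Kr B) (q := Kr A) (fun w hw => by
        rw [Matrix.toLin'_apply]; exact hmapK A B G hG w hw)) ?_
    rintro ⟨w, hw⟩ ⟨w', hw'⟩ h
    have h1 : G *ᵥ w = G *ᵥ w' := congrArg Subtype.val h
    have h2 : G' *ᵥ (G *ᵥ w) = G' *ᵥ (G *ᵥ w') := by rw [h1]
    rw [Matrix.mulVec_mulVec, Matrix.mulVec_mulVec, hG', Matrix.one_mulVec,
      Matrix.one_mulVec] at h2
    exact Subtype.ext h2
  have hdimR : ∀ (A B G : Mat r ℂ), IsUnit G → A * G = G * B →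
      finrank ℂ (Rg B) ≤ finrank ℂ (Rg A) := by
    intro A B G hGu hG
    obtain ⟨G', hG'⟩ : ∃ G' : Mat r ℂ, G' * G = 1 := by
      obtain ⟨q, hq⟩ := hGu
      exact ⟨(q⁻¹ : (Mat r ℂ)ˣ), by rw [← hq]; simp⟩
    refine LinearMap.finrank_le_finrank_of_injective
      (f := (Matrix.toLin' G).restrict (p := Rg B) (q := Rg A) (fun w hw => by
        rw [Matrix.toLin'_apply]; exact hmapR A B G hG w hw)) ?_
    rintro ⟨w, hw⟩ ⟨w', hw'⟩ h
    have h1 : G *ᵥ w = G *ᵥ w' := congrArg Subtype.val h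
    have h2 : G' *ᵥ (G *ᵥ w) = G' *ᵥ (G *ᵥ w') := by rw [h1]
    rw [Matrix.mulVec_mulVec, Matrix.mulVec_mulVec, hG', Matrix.one_mulVec,
      Matrix.one_mulVec] at h2
    exact Subtype.ext h2
  -- similar matrices have kernels and images of the same dimension
  have hswap : ∀ (A B G : Mat r ℂ), IsUnit G → A * G = G * B →
      ∃ G' : Mat r ℂ, IsUnit G' ∧ B * G' = G' * A := by
    intro A B G hGu hG
    obtain ⟨q, hq⟩ := hGu
    refine ⟨((q⁻¹ : (Mat r ℂ)ˣ) : Mat r ℂ), Units.isUnit _, ?_⟩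
    have h1 : (q : Mat r ℂ) * ((q⁻¹ : (Mat r ℂ)ˣ) : Mat r ℂ) = 1 := by simp
    have h2 : ((q⁻¹ : (Mat r ℂ)ˣ) : Mat r ℂ) * (q : Mat r ℂ) = 1 := by simp
    rw [← hq] at hG
    calc B * ((q⁻¹ : (Mat r ℂ)ˣ) : Mat r ℂ)
        = ((q⁻¹ : (Mat r ℂ)ˣ) : Mat r ℂ) * (q * B) * ((q⁻¹ : (Mat r ℂ)ˣ) : Mat r ℂ) := by
          rw [← Matrix.mul_assoc, h2, Matrix.one_mul]
      _ = _ := by rw [← hG, Matrix.mul_assoc, Matrix.mul_assoc, h1, Matrix.mul_one]
  have hdimK' : ∀ s, finrank ℂ (Kr (N + vecMulVec (p s) y)) ≤ finrank ℂ (Kr N) := by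
    intro s
    rcases h s with h1 | h1
    · exact hdimK _ _ _ (hg s) h1
    · obtain ⟨G', hG'u, hG'⟩ := hswap _ _ _ (hg s) h1
      exact hdimK _ _ _ hG'u hG'
  have hdimR' : ∀ s, finrank ℂ (Rg (N + vecMulVec (p s) y)) ≤ finrank ℂ (Rg N) := by
    intro s
    rcases h s with h1 | h1
    · exact hdimR _ _ _ (hg s) h1
    · obtain ⟨G', hG'u, hG'⟩ := hswap _ _ _ (hg s) h1
      exact hdimR _ _ _ hG'u hG'
  by_cases hcase : ∀ w ∈ Kr N, y ⬝ᵥ w = 0
  · -- case 1: the kernel is invariant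
    have hK : ∀ s, Kr N = Kr (N + vecMulVec (p s) y) := by
      intro s
      refine Submodule.eq_of_le_of_finrank_le ?_ (hdimK' s)
      intro w hw
      have h1 := hcase w hw
      rw [hKr] at hw ⊢
      rw [Matrix.add_mulVec, hw, vmv_mulVec, h1, zero_smul, add_zero]
    have hinv : ∀ s, ∀ w ∈ Kr N, g s *ᵥ w ∈ Kr N := by
      intro s w hw
      rcases h s with h1 | h1
      · exact hmapK _ _ _ h1 w (hK s ▸ hw)
      · rw [hK s]
        exact hmapK _ _ _ h1 w hw
    rcases hirr (Kr N) hinv with h | h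
    · have h1 : w₀ ∈ Kr N := (hKr N w₀).2 hw₀1
      rw [h, Submodule.mem_bot] at h1
      exact hw₀2 h1
    · apply hns lam
      refine Matrix.toLin'.injective (LinearMap.ext fun w => ?_)
      have h1 : w ∈ Kr N := h ▸ Submodule.mem_top
      rw [hKr] at h1
      rw [Matrix.toLin'_apply, Matrix.toLin'_apply, h1, Matrix.smul_mulVec, Matrix.one_mulVec]
  · -- case 2: the range is invariant
    push Not at hcase
    obtain ⟨w₁, hw₁, hw₁y⟩ := hcase
    rw [hKr] at hw₁
    have hR : ∀ s, Rg N = Rg (N + vecMulVec (p s) y) := by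
      intro s
      refine Submodule.eq_of_le_of_finrank_le ?_ (hdimR' s)
      have hp : p s ∈ Rg (N + vecMulVec (p s) y) := by
        rw [hRg]
        refine ⟨(y ⬝ᵥ w₁)⁻¹ • w₁, ?_⟩
        rw [Matrix.mulVec_smul, Matrix.add_mulVec, hw₁, vmv_mulVec, smul_add,
          smul_smul (y ⬝ᵥ w₁)⁻¹ (y ⬝ᵥ w₁), inv_mul_cancel₀ hw₁y,
          one_smul, smul_comm lam, add_sub_cancel_left]
      intro w hw
      obtain ⟨v, hv⟩ := (hRg _ _).1 hw
      have h1 : w = ((N + vecMulVec (p s) y) *ᵥ v - lam • v) - (y ⬝ᵥ v) • p s := by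
        rw [Matrix.add_mulVec, vmv_mulVec, ← hv]
        abel
      rw [h1]
      exact Submodule.sub_mem _ ((hRg _ _).2 ⟨v, rfl⟩) (Submodule.smul_mem _ _ hp)
    have hinv : ∀ s, ∀ w ∈ Rg N, g s *ᵥ w ∈ Rg N := by
      intro s w hw
      rcases h s with h1 | h1
      · exact hmapR _ _ _ h1 w (hR s ▸ hw)
      · rw [hR s]
        exact hmapR _ _ _ h1 w hw
    rcases hirr (Rg N) hinv with h | h
    · apply hns lam
      refine Matrix.toLin'.injective (LinearMap.ext fun w => ?_)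
      have h1 : N *ᵥ w - lam • w ∈ Rg N := (hRg _ _).2 ⟨w, rfl⟩
      rw [h, Submodule.mem_bot, sub_eq_zero] at h1
      rw [Matrix.toLin'_apply, Matrix.toLin'_apply, h1, Matrix.smul_mulVec, Matrix.one_mulVec]
    · have h1 : Function.Surjective (Matrix.toLin' (N - lam • 1)) := LinearMap.range_eq_top.1 h
      have h2 := LinearMap.injective_iff_surjective.2 h1
      apply hw₀2
      apply h2
      rw [map_zero, Matrix.toLin'_apply, Matrix.sub_mulVec, Matrix.smul_mulVec, Matrix.one_mulVec,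
        hw₀1, sub_self]

/-- The derivative of the relation in genus one. -/
noncomputable def D1 {ι : Type*} (c : ι → Mat r ℂ) (a b : Mat r ℂ) (L : List ι)
    (x : ι ⊕ Bool → Mat r ℂ) : Mat r ℂ :=
  DL c (fun j => x (Sum.inl j)) L * (a * b * a⁻¹ * b⁻¹) +
    (L.map c).prod * (x (Sum.inr false) * (a * b * a⁻¹ * b⁻¹) +
      a * x (Sum.inr true) * (b * a⁻¹ * b⁻¹) - a * b * a⁻¹ * x (Sum.inr false) * b⁻¹ -
      a * b * a⁻¹ * b⁻¹ * x (Sum.inr true))

theorem exists_D1lin {ι : Type*} (c : ι → Mat r ℂ) (a b : Mat r ℂ) (L : List ι) :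
    ∃ D : (ι ⊕ Bool → Mat r ℂ) →ₗ[ℂ] Mat r ℂ, ∀ x, D x = D1 c a b L x := by
  refine ⟨LinearMap.mk (AddHom.mk (D1 c a b L) ?_) ?_, fun x => rfl⟩
  · intro x y
    have h1 : (fun j => (x + y) (Sum.inl j)) = (fun j => x (Sum.inl j)) + fun j => y (Sum.inl j) :=
      rfl
    rw [D1, D1, D1, h1, DL_add, Pi.add_apply, Pi.add_apply]
    noncomm_ring
  · intro t x
    show D1 c a b L (t • x) = t • D1 c a b L x
    have h1 : (fun j => (t • x) (Sum.inl j)) = t • fun j => x (Sum.inl j) := rfl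
    rw [D1, D1, h1, DL_smul, Pi.smul_apply, Pi.smul_apply]
    simp only [smul_add, Matrix.smul_mul, Matrix.mul_smul, smul_sub, Matrix.mul_add,
      Matrix.mul_sub]

theorem DL_zero_fun {ι : Type*} (c : ι → Mat r ℂ) (l : List ι) (x : ι → Mat r ℂ)
    (hx : ∀ j, x j = 0) : DL c x l = 0 := DL_zero_of c x l fun j _ => hx j

/-- the functional of the rank one lemma for the handle -/
theorem exists_FB {ι : Type*} (c : ι → Mat r ℂ) (a P Pi' V Wm : Mat r ℂ) (i₀ : ι) (l₁ : List ι)
    (κ : ℂ) : ∃ F : (ι ⊕ Bool → Mat r ℂ) →ₗ[ℂ] ℂ, ∀ x, F x =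
      trace (Wm * (x (Sum.inr false) * a)) + κ * trace (V * (Pi' * x (Sum.inl i₀) * P -
        Pi' * DL c (fun j => x (Sum.inl j)) l₁)) := by
  refine ⟨LinearMap.mk (AddHom.mk (fun x => trace (Wm * (x (Sum.inr false) * a)) +
    κ * trace (V * (Pi' * x (Sum.inl i₀) * P -
      Pi' * DL c (fun j => x (Sum.inl j)) l₁))) ?_) ?_, fun x => rfl⟩
  · intro x x'
    have h1 : (fun j => (x + x') (Sum.inl j)) =
      (fun j => x (Sum.inl j)) + fun j => x' (Sum.inl j) := rfl
    rw [h1, DL_add, Pi.add_apply, Pi.add_apply]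
    have e1 : Wm * ((x (Sum.inr false) + x' (Sum.inr false)) * a) =
      Wm * (x (Sum.inr false) * a) + Wm * (x' (Sum.inr false) * a) := by
      rw [Matrix.add_mul, Matrix.mul_add]
    have e2 : V * (Pi' * (x (Sum.inl i₀) + x' (Sum.inl i₀)) * P -
        Pi' * (DL c (fun j => x (Sum.inl j)) l₁ + DL c (fun j => x' (Sum.inl j)) l₁)) =
        V * (Pi' * x (Sum.inl i₀) * P - Pi' * DL c (fun j => x (Sum.inl j)) l₁) +
        V * (Pi' * x' (Sum.inl i₀) * P - Pi' * DL c (fun j => x' (Sum.inl j)) l₁) := by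
      noncomm_ring
    rw [e1, e2, trace_add, trace_add]
    ring
  · intro t x
    show trace (Wm * ((t • x) (Sum.inr false) * a)) + κ * trace (V * (Pi' * (t • x) (Sum.inl i₀) *
      P - Pi' * DL c (fun j => (t • x) (Sum.inl j)) l₁)) = t • (trace (Wm * (x (Sum.inr false) *
      a)) + κ * trace (V * (Pi' * x (Sum.inl i₀) * P - Pi' * DL c (fun j => x (Sum.inl j)) l₁)))
    have h1 : (fun j => (t • x) (Sum.inl j)) = t • fun j => x (Sum.inl j) := rfl
    rw [h1, DL_smul, Pi.smul_apply, Pi.smul_apply]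
    have e1 : Wm * (t • x (Sum.inr false) * a) = t • (Wm * (x (Sum.inr false) * a)) := by
      simp only [Matrix.smul_mul, Matrix.mul_smul]
    have e2 : V * (Pi' * (t • x (Sum.inl i₀)) * P -
        Pi' * (t • DL c (fun j => x (Sum.inl j)) l₁)) =
        t • (V * (Pi' * x (Sum.inl i₀) * P - Pi' * DL c (fun j => x (Sum.inl j)) l₁)) := by
      simp only [Matrix.smul_mul, Matrix.mul_smul, smul_sub, Matrix.mul_sub]
    rw [e1, e2, trace_smul, trace_smul]
    simp only [smul_eq_mul]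
    ring

/-- data of a handle -/
structure HInv (a ai b bi h cP : Mat r ℂ) : Prop where
  a1 : a * ai = 1
  a2 : ai * a = 1
  b1 : b * bi = 1
  b2 : bi * b = 1
  hh : h = a * b * ai * bi
  rel : cP * h = 1

theorem mulL {x y z : Mat r ℂ} (h : x * y = 1) : x * (y * z) = z := by
  rw [← Matrix.mul_assoc, h, Matrix.one_mul]

theorem HInv.cP_eq {a ai b bi h cP : Mat r ℂ} (H : HInv a ai b bi h cP) :
    cP = b * (a * (bi * ai)) := by
  have h1 : h * (b * (a * (bi * ai))) = 1 := by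
    rw [H.hh]
    simp only [Matrix.mul_assoc, mulL H.b2, mulL H.a2, mulL H.b1, H.a1]
  calc cP = cP * (h * (b * (a * (bi * ai)))) := by rw [h1, Matrix.mul_one]
    _ = (cP * h) * (b * (a * (bi * ai))) := by rw [Matrix.mul_assoc]
    _ = _ := by rw [H.rel, Matrix.one_mul]

theorem HInv.rel' {a ai b bi h cP : Mat r ℂ} (H : HInv a ai b bi h cP) : h * cP = 1 :=
  mul_eq_one_comm.1 H.rel

theorem rankB_Eb {a ai b bi h cP N : Mat r ℂ} (H : HInv a ai b bi h cP)
    (hN : ∀ X, trace (N * (cP * (a * X * (b * ai * bi) - h * X))) = 0) :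
    b * (ai * (bi * N)) = N * (b * (ai * bi)) := by
  have h1 : ∀ X, trace ((0 : Mat r ℂ) * X) =
      trace ((b * ai * bi * N * (b * a * bi) - N) * X) := by
    intro X
    have e1 : cP * (a * X * (b * ai * bi) - h * X) =
        b * a * bi * X * (b * ai * bi) - X := by
      rw [Matrix.mul_sub, ← Matrix.mul_assoc cP h, H.rel, Matrix.one_mul, H.cP_eq]
      simp only [Matrix.mul_assoc, mulL H.a2]
    rw [Matrix.zero_mul, trace_zero, ← hN X, e1, Matrix.mul_sub, Matrix.sub_mul, trace_sub,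
      trace_sub]
    congr 1
    rw [show N * (b * a * bi * X * (b * ai * bi)) = (N * (b * a * bi) * X) * (b * ai * bi) by
        simp only [Matrix.mul_assoc], Matrix.trace_mul_comm (N * (b * a * bi) * X)]
    simp only [Matrix.mul_assoc]
  have h2 := Vale.Agent.P002.eq_of_trace_eq h1
  have h3 : b * ai * bi * N * (b * a * bi) = N := (sub_eq_zero.1 h2.symm)
  have e2 : b * a * bi * (b * ai * bi) = 1 := by
    simp only [Matrix.mul_assoc, mulL H.b2, mulL H.a1, H.b1]
  calc b * (ai * (bi * N)) = b * ai * bi * N * (b * a * bi * (b * ai * bi)) := by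
        rw [e2, Matrix.mul_one]
        simp only [Matrix.mul_assoc]
    _ = (b * ai * bi * N * (b * a * bi)) * (b * ai * bi) := by simp only [Matrix.mul_assoc]
    _ = _ := by rw [h3]; simp only [Matrix.mul_assoc]

theorem rankB_Ea {a ai b bi h cP N Wm : Mat r ℂ} (H : HInv a ai b bi h cP)
    (hN : ∀ X, trace (Wm * (X * a)) = trace (N * (cP * (X * h - a * b * ai * X * bi)))) :
    h * N * cP - bi * N * b = a * Wm := by
  refine Vale.Agent.P002.eq_of_trace_eq fun X => ?_
  have e1 : cP * (X * h - a * b * ai * X * bi) = cP * X * h - b * X * bi := by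
    rw [Matrix.mul_sub]
    congr 1
    · rw [Matrix.mul_assoc]
    · rw [H.cP_eq]
      simp only [Matrix.mul_assoc, mulL H.a2, mulL H.b2, mulL H.a1]
  have h2 := hN X
  rw [e1] at h2
  rw [Matrix.sub_mul, trace_sub]
  have e2 : trace (h * N * cP * X) = trace (N * (cP * X * h)) := by
    rw [show N * (cP * X * h) = (N * cP * X) * h by simp only [Matrix.mul_assoc],
      Matrix.trace_mul_comm (N * cP * X)]
    simp only [Matrix.mul_assoc]
  have e3 : trace (bi * N * b * X) = trace (N * (b * X * bi)) := by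
    rw [show N * (b * X * bi) = (N * b * X) * bi by simp only [Matrix.mul_assoc],
      Matrix.trace_mul_comm (N * b * X)]
    simp only [Matrix.mul_assoc]
  rw [e2, e3, ← trace_sub, ← Matrix.mul_sub, ← h2, Matrix.mul_assoc, Matrix.trace_mul_comm a,
    Matrix.mul_assoc]

theorem rankB_E0 {h c₀ P Pi' N V : Mat r ℂ} {κ : ℂ} (hrel : c₀ * P * h = 1)
    (hN : ∀ X, κ * trace (V * (Pi' * X * P)) = trace (N * ((X * c₀ - c₀ * X) * P * h))) :
    N * c₀ = c₀ * (N - κ • (P * V * Pi')) := by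
  have h1 : ∀ X, trace ((κ • (P * V * Pi')) * X) =
      trace ((c₀ * (P * h * N) - (P * h * N) * c₀) * X) := by
    intro X
    have e2 := tr_comm N 1 (P * h) c₀ X
    rw [Matrix.one_mul, Matrix.mul_one, ← Matrix.mul_assoc (X * c₀ - c₀ * X)] at e2
    rw [← e2, ← hN X, Matrix.smul_mul, trace_smul, smul_eq_mul]
    congr 1
    rw [show V * (Pi' * X * P) = (V * Pi' * X) * P by simp only [Matrix.mul_assoc],
      Matrix.trace_mul_comm (V * Pi' * X)]
    simp only [Matrix.mul_assoc]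
  have h2 := Vale.Agent.P002.eq_of_trace_eq h1
  have hrel' : c₀ * (P * h) = 1 := by rw [← Matrix.mul_assoc]; exact hrel
  have e1 : c₀ * (P * h * N) = N := by
    rw [← Matrix.mul_assoc, hrel', Matrix.one_mul]
  rw [e1] at h2
  rw [h2, sub_sub_cancel]
  simp only [← Matrix.mul_assoc]
  rw [hrel, Matrix.one_mul]

theorem rankB_step {h c₀ cj X Z V Pi' N P : Mat r ℂ} {κ : ℂ} (hPX : P = X * (cj * Z))
    (hrel : c₀ * P * h = 1) (E0 : N * c₀ = c₀ * (N - κ • (P * V * Pi'))) (hcom : Commute N X)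
    (hN : ∀ H, -(κ * trace (V * (Pi' * (X * (H * cj - cj * H) * Z)))) =
      trace (N * (c₀ * (X * (H * cj - cj * H) * Z) * h))) : Commute N cj := by
  have h1 : ∀ H, trace (-(κ • (cj * (Z * (V * Pi') * X) - (Z * (V * Pi') * X) * cj)) * H) =
      trace ((cj * ((Z * h) * N * (c₀ * X)) - ((Z * h) * N * (c₀ * X)) * cj) * H) := by
    intro H
    rw [← tr_comm, Matrix.neg_mul, trace_neg, Matrix.smul_mul, trace_smul, ← tr_comm, smul_eq_mul]
    have e1 : V * Pi' * (X * (H * cj - cj * H) * Z) = V * (Pi' * (X * (H * cj - cj * H) * Z)) :=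
      Matrix.mul_assoc _ _ _
    rw [e1, hN H]
    simp only [Matrix.mul_assoc]
  have h2 := Vale.Agent.P002.eq_of_trace_eq h1
  have hcyc := cyc_one (X := c₀ * X) (a := cj) (Y := Z * h) (by
    rw [← hrel, hPX]; simp only [Matrix.mul_assoc])
  have hrel2 : h * (c₀ * P) = 1 := mul_eq_one_comm.1 hrel
  have h3 : (Z * h) * N * (c₀ * X) = ((Z * h) * (c₀ * X)) * N - κ • (Z * (V * Pi') * X) := by
    calc (Z * h) * N * (c₀ * X) = (Z * h) * (N * c₀) * X := by simp only [Matrix.mul_assoc]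
      _ = (Z * h) * c₀ * (N * X) - κ • (Z * (h * (c₀ * P)) * V * Pi' * X) := by
        rw [E0]
        simp only [Matrix.mul_sub, Matrix.sub_mul, Matrix.mul_smul, Matrix.smul_mul,
          Matrix.mul_assoc]
      _ = _ := by
        rw [hrel2, hcom.eq, Matrix.mul_one]
        simp only [Matrix.mul_assoc]
  refine comm_of_inv hcyc.1 ?_
  rw [h3] at h2
  have h4 : cj * ((Z * h) * (c₀ * X) * N - κ • (Z * (V * Pi') * X)) -
      ((Z * h) * (c₀ * X) * N - κ • (Z * (V * Pi') * X)) * cj -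
      -(κ • (cj * (Z * (V * Pi') * X) - (Z * (V * Pi') * X) * cj)) = 0 := by
    rw [← h2, sub_self]
  rw [← h4]
  simp only [Matrix.mul_sub, Matrix.sub_mul, Matrix.mul_smul, Matrix.smul_mul, smul_sub]
  abel

/-- Stability under the inverse. -/
theorem inv_stab {P Pi' : Mat r ℂ} (hP2 : Pi' * P = 1) (W : Submodule ℂ (Fin r → ℂ))
    (hW : ∀ w ∈ W, P *ᵥ w ∈ W) : ∀ w ∈ W, Pi' *ᵥ w ∈ W := by
  obtain ⟨T, hT⟩ : ∃ T : W →ₗ[ℂ] W, ∀ z : W, ((T z : W) : Fin r → ℂ) = P *ᵥ (z : Fin r → ℂ) :=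
    ⟨(Matrix.toLin' P).restrict (fun z hz => by rw [Matrix.toLin'_apply]; exact hW z hz),
      fun z => rfl⟩
  have hinj : Function.Injective T := by
    intro z z' hzz
    have h1 := congrArg (fun q : W => Pi' *ᵥ (q : Fin r → ℂ)) hzz
    simp only [hT, Matrix.mulVec_mulVec, hP2, Matrix.one_mulVec] at h1
    exact Subtype.ext h1
  intro w hw
  obtain ⟨z, hz⟩ := (LinearMap.injective_iff_surjective.1 hinj) ⟨w, hw⟩
  have h1 : P *ᵥ (z : Fin r → ℂ) = w := by rw [← hT, hz]
  rw [← h1, Matrix.mulVec_mulVec, hP2, Matrix.one_mulVec]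
  exact z.2

theorem prod_stab {ι : Type*} (c : ι → Mat r ℂ) (W : Submodule ℂ (Fin r → ℂ)) (l : List ι)
    (hl : ∀ j ∈ l, ∀ z ∈ W, c j *ᵥ z ∈ W) : ∀ z ∈ W, (l.map c).prod *ᵥ z ∈ W := by
  induction l with
  | nil => intro z hz; simpa using hz
  | cons j l ih =>
    intro z hz
    rw [List.map_cons, List.prod_cons, ← Matrix.mulVec_mulVec]
    exact hl j List.mem_cons_self _ (ih (fun k hk => hl k (List.mem_cons_of_mem _ hk)) z hz)

/-- the algebraic end of the rank one lemma for the handle -/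
theorem rankB_end {ι : Type*} [DecidableEq ι] (c : ι → Mat r ℂ) (hc : ∀ j, IsUnit (c j))
    {a ai b bi h P Pi' N V Wm : Mat r ℂ} (i₀ : ι) (l₁ : List ι) (hi₀ : i₀ ∉ l₁)
    (hmem : ∀ j, j ∈ i₀ :: l₁) (hPdef : P = (l₁.map c).prod)
    (H : HInv a ai b bi h (c i₀ * P)) (hP1 : P * Pi' = 1) (hP2 : Pi' * P = 1)
    (hirr : ∀ W : Submodule ℂ (Fin r → ℂ), (∀ j, ∀ w ∈ W, c j *ᵥ w ∈ W) →
      (∀ w ∈ W, a *ᵥ w ∈ W) → (∀ w ∈ W, b *ᵥ w ∈ W) → W = ⊥ ∨ W = ⊤)
    (y w v : Fin r → ℂ) (hy : y ≠ 0) (hw : w ≠ 0) (lam κ : ℂ) (hlam : lam ≠ 0)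
    (haw : a *ᵥ w = lam • w - κ • v) (hV : V = vecMulVec v y) (hWm : Wm = vecMulVec w y)
    (Eb : b * (ai * (bi * N)) = N * (b * (ai * bi)))
    (Ea : h * N * (c i₀ * P) - bi * N * b = a * Wm)
    (E0 : N * c i₀ = c i₀ * (N - κ • (P * V * Pi')))
    (hNP : Commute N P) (hNl₁ : ∀ j ∈ l₁, Commute N (c j)) : False := by
  have hNPi : N * Pi' = Pi' * N := by
    calc N * Pi' = Pi' * (P * N) * Pi' := by rw [← Matrix.mul_assoc, hP2, Matrix.one_mul]
      _ = Pi' * N := by rw [← hNP.eq, Matrix.mul_assoc, Matrix.mul_assoc, hP1, Matrix.mul_one]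
  have EcP : N * (c i₀ * P) = (c i₀ * P) * (N - κ • V) := by
    calc N * (c i₀ * P) = (N * c i₀) * P := by rw [Matrix.mul_assoc]
      _ = c i₀ * (N * P) - κ • (c i₀ * P * V * (Pi' * P)) := by
        rw [E0]
        simp only [Matrix.mul_sub, Matrix.sub_mul, Matrix.mul_smul, Matrix.smul_mul,
          Matrix.mul_assoc]
      _ = _ := by
        rw [hP2, hNP.eq, Matrix.mul_one, Matrix.mul_sub, Matrix.mul_smul]
        simp only [Matrix.mul_assoc]
  have hhN : h * N * (c i₀ * P) = N - κ • V := by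
    rw [Matrix.mul_assoc, EcP, ← Matrix.mul_assoc, H.rel', Matrix.one_mul]
  have haN : a * N = (N - κ • V) * a := by
    have e1 : h * N * (c i₀ * P) = a * N * ai := by
      rw [H.cP_eq, H.hh]
      simp only [Matrix.mul_assoc]
      have e2 : b * (ai * (bi * (N * (b * (a * (bi * ai)))))) =
          (b * (ai * (bi * N))) * (b * (a * (bi * ai))) := by simp only [Matrix.mul_assoc]
      rw [e2, Eb]
      simp only [Matrix.mul_assoc, mulL H.b2, mulL H.a2, mulL H.b1]
    rw [← hhN, e1, Matrix.mul_assoc, H.a2, Matrix.mul_one]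
  have hbN : N * b = b * (N - lam • Wm) := by
    have e1 : lam • Wm = κ • V + a * Wm := by
      rw [hWm, hV, Matrix.mul_vecMulVec, haw]
      ext i j
      simp only [Matrix.add_apply, Matrix.smul_apply, vecMulVec_apply, Pi.sub_apply,
        Pi.smul_apply, smul_eq_mul]
      ring
    have e2 : N - lam • Wm = bi * N * b := by
      rw [e1, ← Ea, hhN]
      abel
    rw [e2]
    simp only [Matrix.mul_assoc, mulL H.b1]
  refine end_lemma (S := ι ⊕ Bool) (fun s => Sum.elim (fun j => if j = i₀ then Pi' * c i₀ * P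
    else c j) (fun s => if s then b else a) s) ?_ N y hy (fun s => Sum.elim (fun j =>
    if j = i₀ then (-κ) • v else 0) (fun s => if s then (-lam) • w else (-κ) • v) s) ?_ ?_ ?_
  · rintro (j | s)
    · show IsUnit (if j = i₀ then Pi' * c i₀ * P else c j)
      split_ifs
      · exact ((IsUnit.of_mul_eq_one _ hP2).mul (hc i₀)).mul (IsUnit.of_mul_eq_one _ hP1)
      · exact hc j
    · cases s
      · exact IsUnit.of_mul_eq_one _ H.a1
      · exact IsUnit.of_mul_eq_one _ H.b1
  · rintro (j | s)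
    · left
      show N * (if j = i₀ then Pi' * c i₀ * P else c j) = (if j = i₀ then Pi' * c i₀ * P else c j) *
        (N + vecMulVec (if j = i₀ then (-κ) • v else 0) y)
      by_cases hj : j = i₀
      · rw [if_pos hj, if_pos hj, smul_vecMulVec, ← hV, neg_smul, ← sub_eq_add_neg]
        calc N * (Pi' * c i₀ * P) = (N * Pi') * (c i₀ * P) := by simp only [Matrix.mul_assoc]
          _ = Pi' * (N * (c i₀ * P)) := by rw [hNPi, Matrix.mul_assoc]
          _ = _ := by rw [EcP]; simp only [Matrix.mul_assoc]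
      · rw [if_neg hj, if_neg hj, zero_vecMulVec, add_zero]
        have hj' := hmem j
        rw [List.mem_cons] at hj'
        exact (hNl₁ j (hj'.resolve_left hj)).eq
    · cases s
      · right
        show (N + vecMulVec ((-κ) • v) y) * a = a * N
        rw [smul_vecMulVec, ← hV, neg_smul, ← sub_eq_add_neg, haN]
      · left
        show N * b = b * (N + vecMulVec ((-lam) • w) y)
        rw [smul_vecMulVec, ← hWm, neg_smul, ← sub_eq_add_neg, hbN]
  · refine ⟨Sum.inr true, ?_⟩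
    show (-lam) • w ≠ 0
    rw [neg_smul, neg_ne_zero, smul_ne_zero_iff]
    exact ⟨hlam, hw⟩
  · intro W hW
    have hl₁ : ∀ j ∈ l₁, ∀ z ∈ W, c j *ᵥ z ∈ W := by
      intro j hj z hz
      have h1 := hW (Sum.inl j) z hz
      have hj0 : j ≠ i₀ := by rintro rfl; exact hi₀ hj
      simp only [Sum.elim_inl, if_neg hj0] at h1
      exact h1
    have hP' : ∀ z ∈ W, P *ᵥ z ∈ W := fun z hz => hPdef ▸ prod_stab c W l₁ hl₁ z hz
    refine hirr W (fun j z hz => ?_) (fun z hz => hW (Sum.inr false) z hz)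
      (fun z hz => hW (Sum.inr true) z hz)
    by_cases hj : j = i₀
    · rw [hj]
      have h1 := hW (Sum.inl i₀) _ (inv_stab hP2 W hP' z hz)
      simp only [Sum.elim_inl, if_true] at h1
      have h2 := hP' _ h1
      rw [Matrix.mulVec_mulVec, Matrix.mulVec_mulVec] at h2
      have e1 : P * (Pi' * c i₀ * P) * Pi' = c i₀ := by
        simp only [Matrix.mul_assoc, mulL hP1, hP1, Matrix.mul_one]
      rwa [e1] at h2
    · have hj' := hmem j
      rw [List.mem_cons] at hj'
      exact hl₁ j (hj'.resolve_left hj) z hz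

/-- The rank one lemma for the handle. -/
theorem rank_B {ι : Type*} [DecidableEq ι] (c : ι → Mat r ℂ) (hc : ∀ j, IsUnit (c j))
    (a b : Mat r ℂ) (ha : IsUnit a) (hb : IsUnit b) (i₀ : ι) (l₁ : List ι)
    (hnd : (i₀ :: l₁).Nodup) (hmem : ∀ j, j ∈ i₀ :: l₁)
    (hrel : ((i₀ :: l₁).map c).prod * (a * b * a⁻¹ * b⁻¹) = 1)
    (hirr : ∀ W : Submodule ℂ (Fin r → ℂ), (∀ j, ∀ w ∈ W, c j *ᵥ w ∈ W) →
      (∀ w ∈ W, a *ᵥ w ∈ W) → (∀ w ∈ W, b *ᵥ w ∈ W) → W = ⊥ ∨ W = ⊤)
    (y w v : Fin r → ℂ) (hy : y ≠ 0) (hw : w ≠ 0) (lam κ : ℂ) (hlam : lam ≠ 0)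
    (haw : a *ᵥ w = lam • w - κ • v) :
    ∃ x : ι ⊕ Bool → Mat r ℂ, D1 c a b (i₀ :: l₁) x = 0 ∧
      y ⬝ᵥ ((x (Sum.inr false) * a) *ᵥ w) +
        κ * (y ⬝ᵥ ((((l₁.map c).prod)⁻¹ * x (Sum.inl i₀) * (l₁.map c).prod -
          ((l₁.map c).prod)⁻¹ * DL c (fun j => x (Sum.inl j)) l₁) *ᵥ v)) ≠ 0 := by
  by_contra hcon
  push Not at hcon
  obtain ⟨P, hPdef⟩ : ∃ P, P = (l₁.map c).prod := ⟨_, rfl⟩
  have hprodunit : ∀ l : List ι, IsUnit (l.map c).prod := by
    intro l
    induction l with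
    | nil => simp
    | cons j l ih => rw [List.map_cons, List.prod_cons]; exact (hc j).mul ih
  have hPu : IsUnit P := hPdef ▸ hprodunit l₁
  have hPd : IsUnit P.det := (Matrix.isUnit_iff_isUnit_det _).1 hPu
  have had : IsUnit a.det := (Matrix.isUnit_iff_isUnit_det _).1 ha
  have hbd : IsUnit b.det := (Matrix.isUnit_iff_isUnit_det _).1 hb
  obtain ⟨Pi', hPi'⟩ : ∃ Pi', Pi' = P⁻¹ := ⟨_, rfl⟩
  have hP1 : P * Pi' = 1 := by rw [hPi']; exact Matrix.mul_nonsing_inv _ hPd
  have hP2 : Pi' * P = 1 := by rw [hPi']; exact Matrix.nonsing_inv_mul _ hPd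
  have hi₀ : i₀ ∉ l₁ := (List.nodup_cons.1 hnd).1
  have hnd1 : l₁.Nodup := (List.nodup_cons.1 hnd).2
  obtain ⟨h, hh⟩ : ∃ h, h = a * b * a⁻¹ * b⁻¹ := ⟨_, rfl⟩
  have H : HInv a a⁻¹ b b⁻¹ h (c i₀ * P) :=
    ⟨Matrix.mul_nonsing_inv _ had, Matrix.nonsing_inv_mul _ had, Matrix.mul_nonsing_inv _ hbd,
      Matrix.nonsing_inv_mul _ hbd, hh, by
        rw [← hrel, List.map_cons, List.prod_cons, hPdef, hh]⟩
  rw [← hPdef, ← hPi'] at hcon
  obtain ⟨F, hF⟩ := exists_FB c a P Pi' (vecMulVec v y) (vecMulVec w y) i₀ l₁ κ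
  obtain ⟨D, hD⟩ := exists_D1lin c a b (i₀ :: l₁)
  obtain ⟨N, hN⟩ := exists_factor D F (by
    intro x hx
    rw [hF, trace_vecMulVec_mul, trace_vecMulVec_mul]
    exact hcon x (by rw [← hD]; exact hx))
  have hN' : ∀ x : ι ⊕ Bool → Mat r ℂ,
      trace (vecMulVec w y * (x (Sum.inr false) * a)) + κ * trace (vecMulVec v y *
      (Pi' * x (Sum.inl i₀) * P - Pi' * DL c (fun j => x (Sum.inl j)) l₁)) =
      trace (N * (DL c (fun j => x (Sum.inl j)) (i₀ :: l₁) * h +
      c i₀ * P * (x (Sum.inr false) * h + a * x (Sum.inr true) * (b * a⁻¹ * b⁻¹) -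
        a * b * a⁻¹ * x (Sum.inr false) * b⁻¹ - h * x (Sum.inr true)))) := by
    intro x
    rw [← hF, hN, hD, D1, ← hh, List.map_cons, List.prod_cons, hPdef]
  have hu1 : ∀ (s : Bool) (X : Mat r ℂ) (j : ι),
      (Function.update (0 : ι ⊕ Bool → Mat r ℂ) (Sum.inr s) X) (Sum.inl j) = 0 := by
    intro s X j
    rw [Function.update_of_ne (by simp), Pi.zero_apply]
  have hu2 : ∀ (s : Bool) (X : Mat r ℂ) (j : ι),
      (Function.update (0 : ι ⊕ Bool → Mat r ℂ) (Sum.inl j) X) (Sum.inr s) = 0 := by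
    intro s X j
    rw [Function.update_of_ne (by simp), Pi.zero_apply]
  have hu3 : ∀ (X : Mat r ℂ) (j k : ι), k ≠ j →
      (Function.update (0 : ι ⊕ Bool → Mat r ℂ) (Sum.inl j) X) (Sum.inl k) = 0 := by
    intro X j k hk
    rw [Function.update_of_ne (by simpa using hk), Pi.zero_apply]
  have hu4 : ∀ X : Mat r ℂ,
      (Function.update (0 : ι ⊕ Bool → Mat r ℂ) (Sum.inr false) X) (Sum.inr true) = 0 := by
    intro X
    rw [Function.update_of_ne (by simp), Pi.zero_apply]
  have hu5 : ∀ X : Mat r ℂ,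
      (Function.update (0 : ι ⊕ Bool → Mat r ℂ) (Sum.inr true) X) (Sum.inr false) = 0 := by
    intro X
    rw [Function.update_of_ne (by simp), Pi.zero_apply]
  have Eb := rankB_Eb (N := N) H (fun X => by
    have h2 := hN' (Function.update 0 (Sum.inr true) X)
    rw [Function.update_self, hu5, hu1,
      DL_zero_fun c l₁ _ (fun j => hu1 true X j),
      DL_zero_fun c (i₀ :: l₁) _ (fun j => hu1 true X j)] at h2
    simp only [Matrix.zero_mul, Matrix.mul_zero, sub_zero, zero_add, trace_zero, mul_zero] at h2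
    exact h2.symm)
  have Ea := rankB_Ea (N := N) (Wm := vecMulVec w y) H (fun X => by
    have h2 := hN' (Function.update 0 (Sum.inr false) X)
    rw [Function.update_self, hu4, hu1,
      DL_zero_fun c l₁ _ (fun j => hu1 false X j),
      DL_zero_fun c (i₀ :: l₁) _ (fun j => hu1 false X j)] at h2
    simp only [Matrix.zero_mul, Matrix.mul_zero, sub_zero, zero_add, trace_zero, mul_zero,
      add_zero] at h2
    exact h2)
  have E0 := rankB_E0 (N := N) (V := vecMulVec v y) (κ := κ) (Pi' := Pi') H.rel (fun X => by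
    have h2 := hN' (Function.update 0 (Sum.inl i₀) X)
    have e0 : DL c (fun j => (Function.update (0 : ι ⊕ Bool → Mat r ℂ) (Sum.inl i₀) X)
        (Sum.inl j)) l₁ = 0 := DL_zero_of _ _ _ fun j hj => hu3 X i₀ j (by
          rintro rfl; exact hi₀ hj)
    rw [DL_cons, e0, Function.update_self, hu2, hu2, ← hPdef] at h2
    simp only [Matrix.zero_mul, Matrix.mul_zero, sub_zero, zero_add, trace_zero, mul_zero,
      add_zero] at h2
    exact h2)
  have hc1 := pre_ind c N l₁ (by
    intro l' j l'' hl hcom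
    have hjl : j ∈ l₁ := by rw [hl]; simp
    have hj0 : i₀ ≠ j := fun h => hi₀ (h ▸ hjl)
    have hn1' : (l' ++ j :: l'').Nodup := hl ▸ hnd1
    rw [List.nodup_append, List.nodup_cons] at hn1'
    refine rankB_step (X := (l'.map c).prod) (Z := (l''.map c).prod) (by
      rw [hPdef, hl]
      simp only [List.map_append, List.map_cons, List.prod_append, List.prod_cons]) H.rel E0 hcom
      (fun X => ?_)
    have h2 := hN' (Function.update 0 (Sum.inl j) X)
    have e0 : DL c (fun k => (Function.update (0 : ι ⊕ Bool → Mat r ℂ) (Sum.inl j) X)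
        (Sum.inl k)) l₁ = (l'.map c).prod * (X * c j - c j * X) * (l''.map c).prod := by
      rw [hl, DL_split c _ l' l'' j (fun k hk => ?_) (fun k hk => ?_), Function.update_self]
      · exact hu3 X j k (hn1'.2.2 k hk j List.mem_cons_self)
      · refine hu3 X j k ?_
        rintro rfl
        exact hn1'.2.1.1 hk
    rw [DL_cons, e0, hu3 X j i₀ hj0, hu2, hu2] at h2
    simp only [Matrix.zero_mul, Matrix.mul_zero, zero_add, trace_zero,
      add_zero, sub_self, zero_sub, Matrix.mul_neg, trace_neg, mul_neg] at h2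
    exact h2)
  exact rankB_end c hc i₀ l₁ hi₀ hmem hPdef H hP1 hP2 hirr y w v hy hw lam κ hlam haw rfl rfl
    Eb Ea E0 (hPdef ▸ hc1.1) hc1.2

end Vale.Agent.P002R
end

section

/-!
# P002, genus 1, arbitrary classes: idempotents commuting with the frozen tuple
-/

namespace Vale.Agent.P002R

open Matrix Module Vale.Agent.P002

variable {r : ℕ}

/-- matrices commuting with a matrix with distinct eigenvalues are diagonal in the eigenbasis -/
theorem diag_of_commute {M A N : P002R.Mat r ℂ} {ν : Fin r → ℂ} (hA : IsUnit A)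
    (hν : Function.Injective ν) (hMA : M * A = A * diagonal ν) (h : Commute N M) :
    ∃ n : Fin r → ℂ, N * A = A * diagonal n := by
  have hud : IsUnit A.det := (Matrix.isUnit_iff_isUnit_det _).1 hA
  have a1 : A * A⁻¹ = 1 := Matrix.mul_nonsing_inv _ hud
  have a2 : A⁻¹ * A = 1 := Matrix.nonsing_inv_mul _ hud
  obtain ⟨T, hT⟩ : ∃ T, T = A⁻¹ * (N * A) := ⟨_, rfl⟩
  have hAT : N * A = A * T := by rw [hT, mulL a1]
  have h1 : T * diagonal ν = diagonal ν * T := by
    have h2 : A * (T * diagonal ν) = A * (diagonal ν * T) := by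
      calc A * (T * diagonal ν) = N * (A * diagonal ν) := by
            rw [← Matrix.mul_assoc, ← hAT, Matrix.mul_assoc]
        _ = (N * M) * A := by rw [← hMA, Matrix.mul_assoc]
        _ = M * (N * A) := by rw [h.eq, Matrix.mul_assoc]
        _ = A * (diagonal ν * T) := by rw [hAT, ← Matrix.mul_assoc, hMA, Matrix.mul_assoc]
    exact hA.mul_left_cancel h2
  refine ⟨fun i => T i i, ?_⟩
  rw [hAT]
  congr 1
  ext i j
  by_cases hij : i = j
  · rw [hij, Matrix.diagonal_apply_eq]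
  · rw [Matrix.diagonal_apply_ne _ hij]
    have h3 := congrFun (congrFun h1 i) j
    rw [Matrix.mul_diagonal, Matrix.diagonal_mul] at h3
    have h4 : (ν i - ν j) * T i j = 0 := by linear_combination -h3
    rcases mul_eq_zero.1 h4 with h | h
    · exact absurd (hν (sub_eq_zero.1 h)) hij
    · exact h

theorem commute_of_diag {A N N' : P002R.Mat r ℂ} {n n' : Fin r → ℂ} (hA : IsUnit A)
    (h : N * A = A * diagonal n) (h' : N' * A = A * diagonal n') : Commute N N' := by
  have h1 : N * N' * A = N' * N * A := by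
    calc N * N' * A = N * (N' * A) := Matrix.mul_assoc _ _ _
      _ = A * (diagonal n * diagonal n') := by
        rw [h', ← Matrix.mul_assoc, h, Matrix.mul_assoc]
      _ = A * (diagonal n' * diagonal n) := by
        rw [Matrix.diagonal_mul_diagonal, Matrix.diagonal_mul_diagonal]
        congr 2
        funext i
        exact mul_comm _ _
      _ = N' * (N * A) := by rw [h, ← Matrix.mul_assoc N', h', Matrix.mul_assoc]
      _ = _ := (Matrix.mul_assoc _ _ _).symm
  exact hA.mul_right_cancel h1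

/-- Solving the commutator equation in an off diagonal block. -/
theorem exists_off {a A e S : P002R.Mat r ℂ} {ν : Fin r → ℂ} (hA : IsUnit A)
    (hν : Function.Injective ν) (haA : a * A = A * diagonal ν) (he : e * e = e)
    (hea : Commute e a) (hS : (1 - e) * S * e = S) :
    ∃ T : P002R.Mat r ℂ, T * a - a * T = S := by
  have hud : IsUnit A.det := (Matrix.isUnit_iff_isUnit_det _).1 hA
  have a1 : A * A⁻¹ = 1 := Matrix.mul_nonsing_inv _ hud
  have a2 : A⁻¹ * A = 1 := Matrix.nonsing_inv_mul _ hud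
  obtain ⟨n, hn⟩ := diag_of_commute hA hν haA hea
  have hn2 : ∀ i, n i * n i = n i := by
    intro i
    have h1 : A * (diagonal n * diagonal n) = A * diagonal n := by
      rw [← Matrix.mul_assoc, ← hn, Matrix.mul_assoc, ← hn, ← Matrix.mul_assoc, he]
    have h2 := hA.mul_left_cancel h1
    rw [Matrix.diagonal_mul_diagonal] at h2
    have h3 := congrFun (congrFun h2 i) i
    rwa [Matrix.diagonal_apply_eq, Matrix.diagonal_apply_eq] at h3
  obtain ⟨S', hS'⟩ : ∃ S', S' = A⁻¹ * (S * A) := ⟨_, rfl⟩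
  have hSA : S * A = A * S' := by rw [hS', mulL a1]
  have hS'd : ∀ i, S' i i = 0 := by
    intro i
    have h1 : A * ((1 - diagonal n) * S' * diagonal n) = A * S' := by
      calc A * ((1 - diagonal n) * S' * diagonal n)
          = (A - A * diagonal n) * S' * diagonal n := by
            simp only [Matrix.mul_sub, Matrix.sub_mul, Matrix.mul_assoc, Matrix.one_mul]
        _ = (1 - e) * (A * S') * diagonal n := by
            rw [← hn]
            simp only [Matrix.sub_mul, Matrix.mul_assoc, Matrix.one_mul]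
        _ = (1 - e) * S * (A * diagonal n) := by rw [← hSA]; simp only [Matrix.mul_assoc]
        _ = ((1 - e) * S * e) * A := by rw [← hn]; simp only [Matrix.mul_assoc]
        _ = A * S' := by rw [hS, hSA]
    have h2 := congrFun (congrFun (hA.mul_left_cancel h1) i) i
    rw [Matrix.mul_diagonal, Matrix.sub_mul, Matrix.sub_apply, Matrix.one_mul,
      Matrix.diagonal_mul] at h2
    have h3 := hn2 i
    linear_combination -h2 - S' i i * h3
  obtain ⟨T', hT'⟩ : ∃ T' : P002R.Mat r ℂ, T' * diagonal ν - diagonal ν * T' = S' := by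
    refine ⟨Matrix.of fun i j => if i = j then 0 else S' i j / (ν j - ν i), ?_⟩
    ext i j
    rw [Matrix.sub_apply, Matrix.mul_diagonal, Matrix.diagonal_mul, Matrix.of_apply]
    by_cases hij : i = j
    · rw [if_pos hij, zero_mul, mul_zero, sub_zero, hij, hS'd]
    · rw [if_neg hij]
      have h1 : ν j - ν i ≠ 0 := sub_ne_zero.2 fun h => hij (hν h).symm
      field_simp
  have hAi : A⁻¹ * a = diagonal ν * A⁻¹ := by
    calc A⁻¹ * a = A⁻¹ * (a * A) * A⁻¹ := by
          simp only [Matrix.mul_assoc, a1, Matrix.mul_one]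
      _ = _ := by rw [haA, mulL a2]
  refine ⟨A * T' * A⁻¹, ?_⟩
  calc A * T' * A⁻¹ * a - a * (A * T' * A⁻¹)
      = A * T' * (A⁻¹ * a) - (a * A) * T' * A⁻¹ := by simp only [Matrix.mul_assoc]
    _ = A * (T' * diagonal ν - diagonal ν * T') * A⁻¹ := by
      rw [hAi, haA]
      simp only [Matrix.mul_sub, Matrix.sub_mul, Matrix.mul_assoc]
    _ = S := by
      rw [hT', ← hSA, Matrix.mul_assoc, a1, Matrix.mul_one]

variable {ι : Type}

/-- the general functional -/
theorem exists_FI (c : ι → P002R.Mat r ℂ) (a Θ Wm : P002R.Mat r ℂ) (j : ι) :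
    ∃ F : (ι ⊕ Bool → P002R.Mat r ℂ) →ₗ[ℂ] ℂ, ∀ x, F x =
      trace (Θ * (x (Sum.inl j) * c j - c j * x (Sum.inl j))) +
        trace (Wm * (x (Sum.inr false) * a)) := by
  refine ⟨LinearMap.mk (AddHom.mk (fun x => trace (Θ * (x (Sum.inl j) * c j -
    c j * x (Sum.inl j))) + trace (Wm * (x (Sum.inr false) * a))) ?_) ?_, fun x => rfl⟩
  · intro x x'
    have e1 : Θ * ((x + x') (Sum.inl j) * c j - c j * (x + x') (Sum.inl j)) =
        Θ * (x (Sum.inl j) * c j - c j * x (Sum.inl j)) +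
          Θ * (x' (Sum.inl j) * c j - c j * x' (Sum.inl j)) := by
      rw [Pi.add_apply]
      noncomm_ring
    have e2 : Wm * ((x + x') (Sum.inr false) * a) = Wm * (x (Sum.inr false) * a) +
        Wm * (x' (Sum.inr false) * a) := by
      rw [Pi.add_apply]
      noncomm_ring
    rw [e1, e2, trace_add, trace_add]
    ring
  · intro t x
    show trace (Θ * ((t • x) (Sum.inl j) * c j - c j * (t • x) (Sum.inl j))) +
      trace (Wm * ((t • x) (Sum.inr false) * a)) =
      t • (trace (Θ * (x (Sum.inl j) * c j - c j * x (Sum.inl j))) +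
        trace (Wm * (x (Sum.inr false) * a)))
    have e1 : Θ * ((t • x) (Sum.inl j) * c j - c j * (t • x) (Sum.inl j)) =
        t • (Θ * (x (Sum.inl j) * c j - c j * x (Sum.inl j))) := by
      rw [Pi.smul_apply]
      simp only [Matrix.smul_mul, Matrix.mul_smul, smul_sub, Matrix.mul_sub]
    have e2 : Wm * ((t • x) (Sum.inr false) * a) = t • (Wm * (x (Sum.inr false) * a)) := by
      rw [Pi.smul_apply]
      simp only [Matrix.smul_mul, Matrix.mul_smul]
    rw [e1, e2, trace_smul, trace_smul]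
    simp only [smul_eq_mul]
    ring

/-- the dual equations -/
theorem dual_gen [DecidableEq ι] {c : ι → P002R.Mat r ℂ} {a b : P002R.Mat r ℂ}
    (ha : IsUnit a) (hb : IsUnit b) (L : List ι) (hnd : L.Nodup)
    (hrel : (L.map c).prod * (a * b * a⁻¹ * b⁻¹) = 1) (j : ι) (l' l'' : List ι)
    (hL : L = l' ++ j :: l'') (Θ Wm N : P002R.Mat r ℂ)
    (hN : ∀ x : ι ⊕ Bool → P002R.Mat r ℂ,
      trace (Θ * (x (Sum.inl j) * c j - c j * x (Sum.inl j))) +
        trace (Wm * (x (Sum.inr false) * a)) = trace (N * D1 c a b L x)) :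
    Commute N (b * a⁻¹ * b⁻¹) ∧
      (a * b * a⁻¹ * b⁻¹) * N * (L.map c).prod - b⁻¹ * N * b = a * Wm ∧
      N * c j = c j * (N - (c j * Θ - Θ * c j)) := by
  have had : IsUnit a.det := (Matrix.isUnit_iff_isUnit_det _).1 ha
  have hbd : IsUnit b.det := (Matrix.isUnit_iff_isUnit_det _).1 hb
  obtain ⟨cP, hcP⟩ : ∃ cP, cP = (L.map c).prod := ⟨_, rfl⟩
  obtain ⟨h, hh⟩ : ∃ h, h = a * b * a⁻¹ * b⁻¹ := ⟨_, rfl⟩
  have H : HInv a a⁻¹ b b⁻¹ h cP :=
    ⟨Matrix.mul_nonsing_inv _ had, Matrix.nonsing_inv_mul _ had, Matrix.mul_nonsing_inv _ hbd,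
      Matrix.nonsing_inv_mul _ hbd, hh, by rw [← hrel, hcP, hh]⟩
  rw [← hcP, ← hh]
  have hN' : ∀ x : ι ⊕ Bool → P002R.Mat r ℂ,
      trace (Θ * (x (Sum.inl j) * c j - c j * x (Sum.inl j))) +
        trace (Wm * (x (Sum.inr false) * a)) =
      trace (N * (DL c (fun j => x (Sum.inl j)) L * h +
      cP * (x (Sum.inr false) * h + a * x (Sum.inr true) * (b * a⁻¹ * b⁻¹) -
        a * b * a⁻¹ * x (Sum.inr false) * b⁻¹ - h * x (Sum.inr true)))) := by
    intro x
    have h1 := hN x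
    rw [D1, ← hh, ← hcP] at h1
    exact h1
  have hu1 : ∀ (s : Bool) (X : P002R.Mat r ℂ) (j : ι),
      (Function.update (0 : ι ⊕ Bool → P002R.Mat r ℂ) (Sum.inr s) X) (Sum.inl j) = 0 := by
    intro s X j
    rw [Function.update_of_ne (by simp), Pi.zero_apply]
  have hu2 : ∀ (s : Bool) (X : P002R.Mat r ℂ) (j : ι),
      (Function.update (0 : ι ⊕ Bool → P002R.Mat r ℂ) (Sum.inl j) X) (Sum.inr s) = 0 := by
    intro s X j
    rw [Function.update_of_ne (by simp), Pi.zero_apply]
  have hu3 : ∀ (X : P002R.Mat r ℂ) (j k : ι), k ≠ j →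
      (Function.update (0 : ι ⊕ Bool → P002R.Mat r ℂ) (Sum.inl j) X) (Sum.inl k) = 0 := by
    intro X j k hk
    rw [Function.update_of_ne (by simpa using hk), Pi.zero_apply]
  have hu4 : ∀ X : P002R.Mat r ℂ,
      (Function.update (0 : ι ⊕ Bool → P002R.Mat r ℂ) (Sum.inr false) X) (Sum.inr true) = 0 := by
    intro X
    rw [Function.update_of_ne (by simp), Pi.zero_apply]
  have hu5 : ∀ X : P002R.Mat r ℂ,
      (Function.update (0 : ι ⊕ Bool → P002R.Mat r ℂ) (Sum.inr true) X) (Sum.inr false) = 0 := by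
    intro X
    rw [Function.update_of_ne (by simp), Pi.zero_apply]
  have hndL : (l' ++ j :: l'').Nodup := hL ▸ hnd
  rw [List.nodup_append, List.nodup_cons] at hndL
  have hjl' : ∀ k ∈ l', k ≠ j := fun k hk => hndL.2.2 k hk j List.mem_cons_self
  have hvar : ∀ (k : ι) (l₁ l₂ : List ι), L = l₁ ++ k :: l₂ → ∀ K : P002R.Mat r ℂ,
      DL c (fun i => (Function.update (0 : ι ⊕ Bool → P002R.Mat r ℂ) (Sum.inl k) K)
          (Sum.inl i)) L = (l₁.map c).prod * (K * c k - c k * K) * (l₂.map c).prod := by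
    intro k l₁ l₂ hl K
    have hnd' : (l₁ ++ k :: l₂).Nodup := hl ▸ hnd
    rw [List.nodup_append, List.nodup_cons] at hnd'
    rw [hl, DL_split c _ l₁ l₂ k (fun i hi => ?_) (fun i hi => ?_), Function.update_self]
    · exact hu3 K k i (hnd'.2.2 i hi k List.mem_cons_self)
    · refine hu3 K k i ?_
      rintro rfl
      exact hnd'.2.1.1 hi
  have hc1 := pre_ind c N l' (by
    intro l₁ k l₂ hl hcom
    obtain ⟨X, hX⟩ : ∃ X, X = (l₁.map c).prod := ⟨_, rfl⟩
    obtain ⟨Z, hZ⟩ : ∃ Z, Z = ((l₂ ++ j :: l'').map c).prod := ⟨_, rfl⟩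
    rw [← hX] at hcom
    have hkj : k ≠ j := hjl' k (by rw [hl]; simp)
    have hLk : L = l₁ ++ k :: (l₂ ++ j :: l'') := by rw [hL, hl]; simp
    have h1 : ∀ K, trace ((0 : P002R.Mat r ℂ) * K) =
        trace ((c k * (Z * h * N * X) - (Z * h * N * X) * c k) * K) := by
      intro K
      have h2 := hN' (Function.update 0 (Sum.inl k) K)
      rw [hvar k _ _ hLk K, hu2, hu2, hu3 K k j hkj.symm, ← hX, ← hZ] at h2
      simp only [Matrix.zero_mul, Matrix.mul_zero, add_zero, trace_zero, sub_self] at h2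
      rw [← tr_comm, Matrix.zero_mul, trace_zero, h2]
      simp only [Matrix.mul_assoc]
    have h2 := eq_of_trace_eq h1
    have hcyc := cyc_one (X := X) (a := c k) (Y := Z * h) (by
      rw [← H.rel, hcP, hLk, hX, hZ]
      simp only [List.map_append, List.map_cons, List.prod_append, List.prod_cons,
        Matrix.mul_assoc])
    refine comm_of_inv hcyc.1 ?_
    rw [show Z * h * X * N = Z * h * N * X by rw [Matrix.mul_assoc, ← hcom.eq, Matrix.mul_assoc,
      Matrix.mul_assoc, Matrix.mul_assoc], ← h2])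
  have Eb := rankB_Eb (N := N) H (fun X => by
    have h2 := hN' (Function.update 0 (Sum.inr true) X)
    rw [Function.update_self, hu5, hu1,
      DL_zero_fun c L _ (fun j => hu1 true X j)] at h2
    simp only [Matrix.zero_mul, Matrix.mul_zero, sub_zero, zero_add, trace_zero, add_zero] at h2
    exact h2.symm)
  have Ea := rankB_Ea (N := N) (Wm := Wm) H (fun X => by
    have h2 := hN' (Function.update 0 (Sum.inr false) X)
    rw [Function.update_self, hu4, hu1,
      DL_zero_fun c L _ (fun j => hu1 false X j)] at h2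
    simp only [Matrix.zero_mul, Matrix.mul_zero, sub_zero, zero_add, trace_zero,
      add_zero] at h2 ⊢
    exact h2)
  refine ⟨?_, Ea, ?_⟩
  · show N * (b * a⁻¹ * b⁻¹) = b * a⁻¹ * b⁻¹ * N
    have h1 : b * a⁻¹ * b⁻¹ * N = b * (a⁻¹ * (b⁻¹ * N)) := by simp only [Matrix.mul_assoc]
    rw [h1, Eb]
    simp only [Matrix.mul_assoc]
  · obtain ⟨X, hX⟩ : ∃ X, X = (l'.map c).prod := ⟨_, rfl⟩
    obtain ⟨Z, hZ⟩ : ∃ Z, Z = (l''.map c).prod := ⟨_, rfl⟩
    have hcom : Commute N X := hX ▸ hc1.1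
    have h1 : ∀ K, trace ((c j * Θ - Θ * c j) * K) =
        trace ((c j * (Z * h * N * X) - (Z * h * N * X) * c j) * K) := by
      intro K
      have h2 := hN' (Function.update 0 (Sum.inl j) K)
      rw [hvar j _ _ hL K, hu2, hu2, Function.update_self, ← hX, ← hZ] at h2
      simp only [Matrix.zero_mul, Matrix.mul_zero, add_zero, trace_zero, sub_self] at h2
      have h3 := tr_comm Θ 1 1 (c j) K
      simp only [Matrix.one_mul, Matrix.mul_one] at h3
      rw [← tr_comm, ← h3, h2]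
      simp only [Matrix.mul_assoc]
    have h2 := eq_of_trace_eq h1
    have hcyc := cyc_one (X := X) (a := c j) (Y := Z * h) (by
      rw [← H.rel, hcP, hL, hX, hZ]
      simp only [List.map_append, List.map_cons, List.prod_append, List.prod_cons,
        Matrix.mul_assoc])
    obtain ⟨V, hV⟩ : ∃ V, V = Z * h * X := ⟨_, rfl⟩
    rw [← hV] at hcyc
    have h3 : Z * h * N * X = V * N := by
      rw [hV, Matrix.mul_assoc _ X N, ← hcom.eq, ← Matrix.mul_assoc]
    rw [h3] at h2
    rw [h2]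
    calc N * c j = c j * (V * N * c j) := by
          rw [← Matrix.mul_assoc, ← Matrix.mul_assoc, hcyc.1, Matrix.one_mul]
      _ = c j * (N - (c j * (V * N) - V * N * c j)) := by
          rw [← Matrix.mul_assoc (c j) V N, hcyc.1, Matrix.one_mul, sub_sub_cancel]

end Vale.Agent.P002R
end

section

/-!
# Endomorphisms with equal ranks of partial products are conjugate
-/

namespace Vale.Agent.P002L

open Module

section lin

variable {K : Type} [Field K]

/-- Relative complements of subspaces. -/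
theorem exists_relCompl {V : Type} [AddCommGroup V] [Module K V] (a b : Submodule K V)
    (h : a ≤ b) : ∃ c : Submodule K V, c ≤ b ∧ a ⊓ c = ⊥ ∧ a ⊔ c = b := by
  obtain ⟨q, hq⟩ := Submodule.exists_isCompl a
  refine ⟨q ⊓ b, inf_le_right, ?_, ?_⟩
  · rw [← inf_assoc, hq.inf_eq_bot, bot_inf_eq]
  · rw [← sup_inf_assoc_of_le q h, hq.sup_eq_top, top_inf_eq]

theorem finrank_ker_inf_le {V W : Type} [AddCommGroup V] [Module K V] [FiniteDimensional K V]
    [AddCommGroup W] [Module K W] [FiniteDimensional K W] (N : End K V) (N' : End K W)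
    (T : LinearMap.range N ≃ₗ[K] LinearMap.range N')
    (hT : ∀ v : LinearMap.range N, (T ⟨N v, LinearMap.mem_range_self N v⟩ : W) = N' (T v)) :
    finrank K ↥(LinearMap.ker N ⊓ LinearMap.range N) ≤
      finrank K ↥(LinearMap.ker N' ⊓ LinearMap.range N') := by
  have hmem : ∀ v : ↥(LinearMap.ker N ⊓ LinearMap.range N),
      ((T.toLinearMap.comp (Submodule.inclusion inf_le_right)) v : W) ∈
        LinearMap.ker N' ⊓ LinearMap.range N' := by
    intro v
    refine ⟨LinearMap.mem_ker.2 ?_, Subtype.property _⟩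
    have h1 := hT (Submodule.inclusion inf_le_right v)
    have h2 : N ((Submodule.inclusion (inf_le_right : LinearMap.ker N ⊓ LinearMap.range N ≤
        LinearMap.range N) v : LinearMap.range N) : V) = 0 := LinearMap.mem_ker.1 v.2.1
    have h3 : (⟨N ((Submodule.inclusion (inf_le_right : LinearMap.ker N ⊓ LinearMap.range N ≤
        LinearMap.range N) v : LinearMap.range N) : V), LinearMap.mem_range_self N _⟩ :
        LinearMap.range N) = 0 := Subtype.ext h2
    rw [h3, map_zero] at h1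
    exact h1.symm
  refine LinearMap.finrank_le_finrank_of_injective
    (f := LinearMap.codRestrict (LinearMap.ker N' ⊓ LinearMap.range N')
      ((LinearMap.range N').subtype.comp
        (T.toLinearMap.comp (Submodule.inclusion inf_le_right))) hmem) ?_
  intro a b hab
  have h1 := congrArg Subtype.val hab
  have h2 : T (Submodule.inclusion inf_le_right a) = T (Submodule.inclusion inf_le_right b) :=
    Subtype.ext h1
  exact Submodule.inclusion_injective _ (T.injective h2)

/-- Extension of an isomorphism from the image. -/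
theorem extend_equiv {V W : Type} [AddCommGroup V] [Module K V] [FiniteDimensional K V]
    [AddCommGroup W] [Module K W] [FiniteDimensional K W] (N : End K V) (N' : End K W)
    (hd : finrank K V = finrank K W) (T : LinearMap.range N ≃ₗ[K] LinearMap.range N')
    (hT : ∀ v : LinearMap.range N, (T ⟨N v, LinearMap.mem_range_self N v⟩ : W) = N' (T v)) :
    ∃ F : V ≃ₗ[K] W, ∀ v, F (N v) = N' (F v) := by
  obtain ⟨C, hC1, hC2, hC3⟩ := exists_relCompl (LinearMap.ker N ⊓ LinearMap.range N)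
    (LinearMap.ker N) inf_le_left
  obtain ⟨C', hC1', hC2', hC3'⟩ := exists_relCompl (LinearMap.ker N' ⊓ LinearMap.range N')
    (LinearMap.ker N') inf_le_left
  have hrange : finrank K (LinearMap.range N) = finrank K (LinearMap.range N') := T.finrank_eq
  have hker : finrank K (LinearMap.ker N) = finrank K (LinearMap.ker N') := by
    have h1 := LinearMap.finrank_range_add_finrank_ker N
    have h2 := LinearMap.finrank_range_add_finrank_ker N'
    omega
  have hTs : ∀ w : LinearMap.range N',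
      (T.symm ⟨N' w, LinearMap.mem_range_self N' w⟩ : V) = N (T.symm w) := by
    intro w
    have h1 := hT (T.symm w)
    rw [T.apply_symm_apply] at h1
    have h2 : T ⟨N (T.symm w), LinearMap.mem_range_self N _⟩ =
        ⟨N' w, LinearMap.mem_range_self N' w⟩ := Subtype.ext h1
    rw [← h2, T.symm_apply_apply]
  have hinf : finrank K ↥(LinearMap.ker N ⊓ LinearMap.range N) =
      finrank K ↥(LinearMap.ker N' ⊓ LinearMap.range N') :=
    le_antisymm (finrank_ker_inf_le N N' T hT) (finrank_ker_inf_le N' N T.symm hTs)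
  have hCC : finrank K C = finrank K C' := by
    have h1 := Submodule.finrank_sup_add_finrank_inf_eq (LinearMap.ker N ⊓ LinearMap.range N) C
    have h2 := Submodule.finrank_sup_add_finrank_inf_eq (LinearMap.ker N' ⊓ LinearMap.range N') C'
    rw [hC3, hC2, finrank_bot] at h1
    rw [hC3', hC2', finrank_bot] at h2
    omega
  obtain ⟨e⟩ := FiniteDimensional.nonempty_linearEquiv_of_finrank_eq hCC
  -- sections
  obtain ⟨S, hS⟩ := LinearMap.exists_rightInverse_of_surjective N'.rangeRestrict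
    N'.range_rangeRestrict
  have hS' : ∀ w : LinearMap.range N', N' (S w) = w := by
    intro w
    have h1 := LinearMap.congr_fun hS w
    exact congrArg Subtype.val h1
  -- the part with values in the kernel
  obtain ⟨κR, hκR⟩ : ∃ κR : V →ₗ[K] LinearMap.ker N', ∀ v : LinearMap.range N,
      (κR v : W) = T v - S (T ⟨N v, LinearMap.mem_range_self N v⟩) := by
    obtain ⟨g, hg⟩ : ∃ g : LinearMap.range N →ₗ[K] LinearMap.ker N', ∀ v : LinearMap.range N,
        (g v : W) = T v - S (T ⟨N v, LinearMap.mem_range_self N v⟩) := by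
      refine ⟨LinearMap.codRestrict (LinearMap.ker N')
        ((LinearMap.range N').subtype.comp T.toLinearMap - S.comp (T.toLinearMap.comp
          (N.rangeRestrict.comp (LinearMap.range N).subtype))) fun v => ?_, fun v => rfl⟩
      rw [LinearMap.mem_ker]
      change N' ((T v : W) - S (T ⟨N v, LinearMap.mem_range_self N v⟩)) = 0
      rw [map_sub, hS', hT, sub_self]
    obtain ⟨g', hg'⟩ := g.exists_extend
    refine ⟨g', fun v => ?_⟩
    rw [← hg, ← hg']
    rfl
  have hCR : C ⊓ LinearMap.range N = ⊥ := by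
    rw [eq_bot_iff]
    rintro v ⟨h1, h2⟩
    have h3 : v ∈ (LinearMap.ker N ⊓ LinearMap.range N) ⊓ C := ⟨⟨hC1 h1, h2⟩, h1⟩
    rwa [hC2] at h3
  have hCR' : C' ⊓ LinearMap.range N' = ⊥ := by
    rw [eq_bot_iff]
    rintro v ⟨h1, h2⟩
    have h3 : v ∈ (LinearMap.ker N' ⊓ LinearMap.range N') ⊓ C' := ⟨⟨hC1' h1, h2⟩, h1⟩
    rwa [hC2'] at h3
  obtain ⟨π, hπ⟩ := LinearMap.exists_leftInverse_of_injective
    ((LinearMap.range N).mkQ.comp C.subtype) (by
      rw [LinearMap.ker_eq_bot']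
      intro c hc
      rw [LinearMap.comp_apply, Submodule.mkQ_apply, Submodule.Quotient.mk_eq_zero] at hc
      have h1 : (c : V) ∈ C ⊓ LinearMap.range N := ⟨c.2, hc⟩
      rw [hCR, Submodule.mem_bot] at h1
      exact Subtype.ext h1)
  obtain ⟨eK, heK⟩ : ∃ eK : C →ₗ[K] LinearMap.ker N', ∀ c, (eK c : W) = e c :=
    ⟨(Submodule.inclusion hC1').comp e.toLinearMap, fun c => rfl⟩
  obtain ⟨κ, hκ⟩ : ∃ κ : V →ₗ[K] LinearMap.ker N', κ =
    κR + (eK - κR.comp C.subtype).comp (π.comp (LinearMap.range N).mkQ) := ⟨_, rfl⟩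
  have hκ1 : ∀ v : LinearMap.range N,
      (κ v : W) = T v - S (T ⟨N v, LinearMap.mem_range_self N v⟩) := by
    intro v
    rw [hκ, LinearMap.add_apply, LinearMap.comp_apply, LinearMap.comp_apply, Submodule.mkQ_apply,
      (Submodule.Quotient.mk_eq_zero _).2 v.2, map_zero, map_zero, add_zero, hκR]
  have hκ2 : ∀ c : C, (κ c : W) = e c := by
    intro c
    have h1 : π ((LinearMap.range N).mkQ c) = c := LinearMap.congr_fun hπ c
    rw [hκ, LinearMap.add_apply, LinearMap.comp_apply, LinearMap.comp_apply, h1,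
      LinearMap.sub_apply, LinearMap.comp_apply, Submodule.subtype_apply, add_sub_cancel, heK]
  obtain ⟨F, hF⟩ : ∃ F : V →ₗ[K] W, F = S.comp (T.toLinearMap.comp N.rangeRestrict) +
    (LinearMap.ker N').subtype.comp κ := ⟨_, rfl⟩
  have hFv : ∀ v, F v = S (T ⟨N v, LinearMap.mem_range_self N v⟩) + κ v := fun v => by
    rw [hF]
    rfl
  have hFR : ∀ v : LinearMap.range N, F v = T v := by
    intro v
    rw [hFv, hκ1]
    abel
  have hNF : ∀ v, N' (F v) = T ⟨N v, LinearMap.mem_range_self N v⟩ := by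
    intro v
    rw [hFv, map_add, hS', LinearMap.mem_ker.1 (κ v).2, add_zero]
  have hFN : ∀ v, F (N v) = N' (F v) := by
    intro v
    rw [hNF, ← hFR]
  have hinj : Function.Injective F := by
    rw [← LinearMap.ker_eq_bot, LinearMap.ker_eq_bot']
    intro v hv
    have h1 : N v = 0 := by
      have h2 := hNF v
      rw [hv, map_zero] at h2
      have h3 : T ⟨N v, LinearMap.mem_range_self N v⟩ = 0 := Subtype.ext h2.symm
      have h4 := T.injective (h3.trans (map_zero T).symm)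
      exact congrArg Subtype.val h4
    have h5 : v ∈ (LinearMap.ker N ⊓ LinearMap.range N) ⊔ C := by
      rw [hC3]
      exact LinearMap.mem_ker.2 h1
    obtain ⟨a, ha, c, hc, rfl⟩ := Submodule.mem_sup.1 h5
    have hTa : F a = T ⟨a, ha.2⟩ := hFR ⟨a, ha.2⟩
    have hTc : F c = e ⟨c, hc⟩ := by
      rw [hFv, hκ2 ⟨c, hc⟩]
      have h6 : (⟨N c, LinearMap.mem_range_self N c⟩ : LinearMap.range N) = 0 :=
        Subtype.ext (LinearMap.mem_ker.1 (hC1 hc))
      rw [h6, map_zero, map_zero, zero_add]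
    have h7 : (e ⟨c, hc⟩ : W) ∈ C' ⊓ LinearMap.range N' := by
      refine ⟨(e ⟨c, hc⟩).2, ?_⟩
      have h8 : (e ⟨c, hc⟩ : W) = -(T ⟨a, ha.2⟩ : W) := by
        rw [← hTa, ← hTc, eq_neg_iff_add_eq_zero, add_comm, ← map_add, hv]
      rw [h8]
      exact Submodule.neg_mem _ (T ⟨a, ha.2⟩).2
    rw [hCR', Submodule.mem_bot] at h7
    have h9 : (⟨c, hc⟩ : C) = 0 := e.injective (by rw [map_zero]; exact Subtype.ext h7)
    have hc0 : c = 0 := congrArg Subtype.val h9
    rw [hc0, add_zero] at hv ⊢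
    rw [hTa] at hv
    have h10 : (⟨a, ha.2⟩ : LinearMap.range N) = 0 :=
      T.injective (by rw [map_zero]; exact Subtype.ext hv)
    exact congrArg Subtype.val h10
  refine ⟨LinearMap.linearEquivOfInjective F hinj hd, fun v => ?_⟩
  exact hFN v

/-- The partial products. -/
noncomputable def pp {V : Type} [AddCommGroup V] [Module K V] (a : End K V) (ξ : ℕ → K) (j : ℕ) :
    End K V := ((List.range j).map fun i => a - ξ i • (1 : End K V)).prod

theorem pp_zero {V : Type} [AddCommGroup V] [Module K V] (a : End K V) (ξ : ℕ → K) :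
    pp a ξ 0 = 1 := rfl

theorem pp_succ {V : Type} [AddCommGroup V] [Module K V] (a : End K V) (ξ : ℕ → K) (j : ℕ) :
    pp a ξ (j + 1) = pp a ξ j * (a - ξ j • (1 : End K V)) := by
  rw [pp, List.range_succ, List.map_append, List.prod_append, List.map_singleton,
    List.prod_singleton, pp]

theorem pp_succ' {V : Type} [AddCommGroup V] [Module K V] (a : End K V) (ξ : ℕ → K) (j : ℕ) :
    pp a ξ (j + 1) = (a - ξ 0 • (1 : End K V)) * pp a (fun i => ξ (i + 1)) j := by
  rw [pp, List.range_succ_eq_map, List.map_cons, List.prod_cons, List.map_map, pp]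
  rfl

theorem commute_pp {V : Type} [AddCommGroup V] [Module K V] (a : End K V) (ξ : ℕ → K) (c : K)
    (j : ℕ) : Commute (a - c • (1 : End K V)) (pp a ξ j) := by
  induction j with
  | zero => exact Commute.one_right _
  | succ j ih =>
    rw [pp_succ]
    refine ih.mul_right ?_
    have h1 : Commute a (a - ξ j • (1 : End K V)) :=
      (Commute.refl a).sub_right ((Commute.one_right a).smul_right _)
    exact h1.sub_left ((Commute.one_left _).smul_left _)

theorem exists_equiv_of_rank : ∀ (s : ℕ) (ξ : ℕ → K) (V W : Type) [AddCommGroup V] [Module K V]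
    [FiniteDimensional K V] [AddCommGroup W] [Module K W] [FiniteDimensional K W]
    (a : End K V) (b : End K W), pp a ξ s = 0 → pp b ξ s = 0 →
    (∀ j ≤ s, finrank K (LinearMap.range (pp a ξ j)) = finrank K (LinearMap.range (pp b ξ j))) →
    ∃ T : V ≃ₗ[K] W, ∀ v, T (a v) = b (T v) := by
  intro s
  induction s with
  | zero =>
    intro ξ V W _ _ _ _ _ _ a b ha hb _
    rw [pp_zero] at ha hb
    have hV : ∀ v : V, v = 0 := fun v => by
      have := LinearMap.congr_fun ha v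
      exact this
    have hW : ∀ v : W, v = 0 := fun v => by
      have := LinearMap.congr_fun hb v
      exact this
    refine ⟨{ toFun := fun _ => 0, map_add' := fun _ _ => (add_zero _).symm,
              map_smul' := fun c _ => (smul_zero _).symm, invFun := fun _ => 0,
              left_inv := fun v => (hV v).symm, right_inv := fun v => (hW v).symm }, fun v => ?_⟩
    exact (hW _).symm
  | succ s ih =>
    intro ξ V W _ _ _ _ _ _ a b ha hb hr
    obtain ⟨N, hN⟩ : ∃ N, N = a - ξ 0 • (1 : End K V) := ⟨_, rfl⟩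
    obtain ⟨N', hN'⟩ : ∃ N', N' = b - ξ 0 • (1 : End K W) := ⟨_, rfl⟩
    have key : ∀ {V : Type} [AddCommGroup V] [Module K V] [FiniteDimensional K V] (a N : End K V)
        (_ : N = a - ξ 0 • (1 : End K V)), ∃ a' : End K (LinearMap.range N),
        (∀ v, (a' v : V) = a v) ∧ (pp a ξ (s + 1) = 0 → pp a' (fun i => ξ (i + 1)) s = 0) ∧
        ∀ j, finrank K (LinearMap.range (pp a' (fun i => ξ (i + 1)) j)) =
          finrank K (LinearMap.range (pp a ξ (j + 1))) := by
      intro V _ _ _ a N hN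
      have hNa : ∀ v, N (a v) = a (N v) := by
        intro v
        rw [hN]
        simp only [LinearMap.sub_apply, LinearMap.smul_apply, Module.End.one_apply, map_sub,
          map_smul]
      have hst : ∀ v ∈ LinearMap.range N, a v ∈ LinearMap.range N := by
        rintro _ ⟨v, rfl⟩
        exact ⟨a v, hNa v⟩
      obtain ⟨a', ha'⟩ : ∃ a' : End K (LinearMap.range N), ∀ v, (a' v : V) = a v :=
        ⟨a.restrict hst, fun v => rfl⟩
      have hpp : ∀ (j : ℕ) (v : LinearMap.range N), (pp a' (fun i => ξ (i + 1)) j v : V) =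
          pp a (fun i => ξ (i + 1)) j v := by
        intro j
        induction j with
        | zero => intro v; rfl
        | succ j ihj =>
          intro v
          rw [pp_succ, pp_succ, Module.End.mul_apply, Module.End.mul_apply, ihj]
          congr 1
          simp only [LinearMap.sub_apply, LinearMap.smul_apply, Module.End.one_apply,
            Submodule.coe_sub, Submodule.coe_smul, ha']
      have hpp' : ∀ (j : ℕ) (v : V), pp a (fun i => ξ (i + 1)) j (N v) = pp a ξ (j + 1) v := by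
        intro j v
        rw [pp_succ', ← hN, Module.End.mul_apply]
        have h1 := (commute_pp a (fun i => ξ (i + 1)) (ξ 0) j).eq
        rw [← hN] at h1
        exact (LinearMap.congr_fun h1 v).symm
      refine ⟨a', ha', fun h0 => ?_, fun j => ?_⟩
      · ext ⟨_, v, rfl⟩
        rw [hpp]
        simp only
        rw [hpp', h0]
        rfl
      · have h1 : (LinearMap.range (pp a' (fun i => ξ (i + 1)) j)).map
            (LinearMap.range N).subtype = LinearMap.range (pp a ξ (j + 1)) := by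
          ext w
          constructor
          · rintro ⟨_, ⟨⟨_, v, rfl⟩, rfl⟩, rfl⟩
            refine ⟨v, ?_⟩
            rw [Submodule.subtype_apply, hpp, ← hpp']
          · rintro ⟨v, rfl⟩
            refine ⟨_, ⟨⟨N v, v, rfl⟩, rfl⟩, ?_⟩
            rw [Submodule.subtype_apply, hpp, ← hpp']
        rw [← h1, Submodule.finrank_map_subtype_eq]
    obtain ⟨a', ha1, ha2, ha3⟩ := key a N hN
    obtain ⟨b', hb1, hb2, hb3⟩ := key b N' hN'
    obtain ⟨T, hT⟩ := ih (fun i => ξ (i + 1)) _ _ a' b' (ha2 ha) (hb2 hb) (fun j hj => by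
      rw [ha3, hb3]
      exact hr (j + 1) (Nat.succ_le_succ hj))
    have hd : finrank K V = finrank K W := by
      have h1 := hr 0 (Nat.zero_le _)
      rw [pp_zero, pp_zero] at h1
      have h2 : ∀ {V : Type} [AddCommGroup V] [Module K V] [FiniteDimensional K V],
          finrank K (LinearMap.range (1 : End K V)) = finrank K V := by
        intro V _ _ _
        have h3 : LinearMap.range (1 : End K V) = ⊤ := LinearMap.range_id
        rw [h3, finrank_top]
      rwa [h2, h2] at h1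
    have hNv : ∀ v, N v = a v - ξ 0 • v := fun v => by rw [hN]; rfl
    have hNv' : ∀ v, N' v = b v - ξ 0 • v := fun v => by rw [hN']; rfl
    obtain ⟨F, hF⟩ := extend_equiv N N' hd T (fun v => by
      have h1 : (⟨N v, LinearMap.mem_range_self N v⟩ : LinearMap.range N) = a' v - ξ 0 • v := by
        apply Subtype.ext
        rw [Submodule.coe_sub, Submodule.coe_smul, ha1]
        exact hNv v
      rw [h1, map_sub, map_smul, hT, Submodule.coe_sub, Submodule.coe_smul, hb1, hNv'])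
    refine ⟨F, fun v => ?_⟩
    have h1 := hF v
    rw [hNv, hNv', map_sub, map_smul] at h1
    exact sub_left_injective h1

end lin

open Matrix Vale.Agent.P002R

theorem pp_toLin {r : ℕ} (a : Mat r ℂ) (ξ : ℕ → ℂ) (j : ℕ) :
    pp (Matrix.toLin' a) ξ j =
      Matrix.toLin' ((List.range j).map fun i => a - ξ i • (1 : Mat r ℂ)).prod := by
  induction j with
  | zero => rw [pp_zero, List.range_zero, List.map_nil, List.prod_nil, Matrix.toLin'_one]; rfl
  | succ j ih =>
    rw [pp_succ, ih, List.range_succ, List.map_append, List.prod_append, List.map_singleton,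
      List.prod_singleton, Matrix.toLin'_mul, map_sub, map_smul, Matrix.toLin'_one]
    rfl

/-- Matrices with equal ranks of the partial products are conjugate. -/
theorem conj_of_rank {r : ℕ} (a b : (Mat r ℂ)ˣ) (ξ : ℕ → ℂ) (s : ℕ)
    (ha : ((List.range s).map fun i => (a : Mat r ℂ) - ξ i • (1 : Mat r ℂ)).prod = 0)
    (hb : ((List.range s).map fun i => (b : Mat r ℂ) - ξ i • (1 : Mat r ℂ)).prod = 0)
    (h : ∀ j ≤ s, ((List.range j).map fun i => (a : Mat r ℂ) - ξ i • (1 : Mat r ℂ)).prod.rank =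
      ((List.range j).map fun i => (b : Mat r ℂ) - ξ i • (1 : Mat r ℂ)).prod.rank) :
    IsConj a b := by
  obtain ⟨T, hT⟩ := exists_equiv_of_rank s ξ (Fin r → ℂ) (Fin r → ℂ)
    (Matrix.toLin' (a : Mat r ℂ)) (Matrix.toLin' (b : Mat r ℂ))
    (by rw [pp_toLin, ha, map_zero]) (by rw [pp_toLin, hb, map_zero]) (fun j hj => by
      rw [pp_toLin, pp_toLin]
      exact h j hj)
  obtain ⟨P, hP⟩ : ∃ P : Mat r ℂ, P = LinearMap.toMatrix' T.toLinearMap := ⟨_, rfl⟩
  obtain ⟨Q, hQ⟩ : ∃ Q : Mat r ℂ, Q = LinearMap.toMatrix' T.symm.toLinearMap := ⟨_, rfl⟩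
  have h1 : P * Q = 1 := by
    rw [hP, hQ, ← LinearMap.toMatrix'_comp]
    have h2 : T.toLinearMap.comp T.symm.toLinearMap = LinearMap.id := by
      ext1 v
      simp
    rw [h2, LinearMap.toMatrix'_id]
  have h2 : Q * P = 1 := mul_eq_one_comm.1 h1
  have h3 : P * (a : Mat r ℂ) = (b : Mat r ℂ) * P := by
    apply Matrix.toLin'.injective
    rw [Matrix.toLin'_mul, Matrix.toLin'_mul, hP, Matrix.toLin'_toMatrix']
    exact LinearMap.ext fun v => hT v
  rw [isConj_iff]
  refine ⟨⟨P, Q, h1, h2⟩, ?_⟩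
  apply Units.ext
  rw [Units.val_mul, Units.val_mul]
  change P * (a : Mat r ℂ) * Q = b
  rw [h3, mul_assoc, h1, mul_one]

end Vale.Agent.P002L
end
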