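import Mathlib
import Vale.Agent.P002.Bd3.B2
import Vale.Agent.P002.Bd3.B3
import Vale.Agent.P002.Bd3.B1

set_option linter.all false

@[reducible] def Vale.Agent.P002Fast.coeU9 {M : Type*} [Monoid M] (u : Mˣ) : CoeT Mˣ u M := ⟨Units.val u⟩
attribute [local instance] Vale.Agent.P002Fast.coeU9

section

/-!
# Density of integral representations without boundary conditions (free fundamental group)

If the curve has at least one puncture, its fundamental group is free, and the semisimple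
representations into `SL_r(ℤ)` are Zariski dense in the representation variety.
-/

namespace Vale.Agent.P002R.Statement

open Matrix NumberField

variable {g n m r : ℕ}

/-- Specialization of a family of matrices over `ℤ[T]`. -/
noncomputable def spec {T A : Type} [CommRing A] (t : T → A) :
    SpecialLinearGroup (Fin r) (MvPolynomial T ℤ) →* SpecialLinearGroup (Fin r) A :=
  SpecialLinearGroup.map (MvPolynomial.eval₂Hom (Int.castRingHom A) t)

/-- Renaming the parameters of a family. -/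
noncomputable def renameSL {T T' : Type} (f : T → T') :
    SpecialLinearGroup (Fin r) (MvPolynomial T ℤ) →*
      SpecialLinearGroup (Fin r) (MvPolynomial T' ℤ) :=
  SpecialLinearGroup.map (MvPolynomial.rename f : MvPolynomial T ℤ →ₐ[ℤ] _).toRingHom

theorem spec_rename {T T' A : Type} [CommRing A] (f : T → T') (t : T' → A)
    (Φ : SpecialLinearGroup (Fin r) (MvPolynomial T ℤ)) :
    spec t (renameSL f Φ) = spec (t ∘ f) Φ := by
  apply Subtype.ext
  ext i j
  change MvPolynomial.eval₂ (Int.castRingHom A) t (MvPolynomial.rename f (Φ.1 i j)) =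
    MvPolynomial.eval₂ (Int.castRingHom A) (t ∘ f) (Φ.1 i j)
  rw [MvPolynomial.eval₂_rename]

/-- The matrix `A` is a value of a family over `ℤ[T]` that is `1` at the origin. -/
def Reach (A : SpecialLinearGroup (Fin r) ℂ) : Prop :=
  ∃ (T : Type) (Φ : SpecialLinearGroup (Fin r) (MvPolynomial T ℤ)) (t : T → ℂ),
    spec t Φ = A ∧ spec (0 : T → ℂ) Φ = 1

theorem Reach.mul {A B : SpecialLinearGroup (Fin r) ℂ} (hA : Reach A) (hB : Reach B) :
    Reach (A * B) := by
  obtain ⟨T, Φ, t, h1, h2⟩ := hA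
  obtain ⟨T', Φ', t', h1', h2'⟩ := hB
  refine ⟨T ⊕ T', renameSL Sum.inl Φ * renameSL Sum.inr Φ', Sum.elim t t', ?_, ?_⟩
  · rw [map_mul, spec_rename, spec_rename, Sum.elim_comp_inl, Sum.elim_comp_inr, h1, h1']
  · rw [map_mul, spec_rename, spec_rename]
    have e1 : (0 : T ⊕ T' → ℂ) ∘ Sum.inl = 0 := rfl
    have e2 : (0 : T ⊕ T' → ℂ) ∘ Sum.inr = 0 := rfl
    rw [e1, e2, h2, h2', one_mul]

theorem Reach.transvection {i j : Fin r} (hij : i ≠ j) (c : ℂ) :
    Reach (SpecialLinearGroup.transvection hij c) := by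
  refine ⟨Unit, SpecialLinearGroup.transvection hij (MvPolynomial.X ()), fun _ => c, ?_, ?_⟩
  · apply Subtype.ext
    ext a b
    change MvPolynomial.eval₂ (Int.castRingHom ℂ) (fun _ => c)
      (Matrix.transvection i j (MvPolynomial.X () : MvPolynomial Unit ℤ) a b) =
      Matrix.transvection i j c a b
    simp only [Matrix.transvection, Matrix.add_apply, Matrix.one_apply, Matrix.single_apply]
    split_ifs <;> simp
  · apply Subtype.ext
    ext a b
    change MvPolynomial.eval₂ (Int.castRingHom ℂ) (0 : Unit → ℂ)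
      (Matrix.transvection i j (MvPolynomial.X () : MvPolynomial Unit ℤ) a b) =
      (1 : Matrix (Fin r) (Fin r) ℂ) a b
    simp only [Matrix.transvection, Matrix.add_apply, Matrix.one_apply, Matrix.single_apply]
    split_ifs <;> simp

theorem Reach.one : Reach (1 : SpecialLinearGroup (Fin r) ℂ) :=
  ⟨Empty, 1, 0, map_one _, map_one _⟩

theorem Reach.diag2n {i j : Fin r} (hij : i ≠ j) {c : ℂ} (hc : c ≠ 0) :
    Reach (SpecialLinearGroup.diag2n hij c hc) := by
  have h : SpecialLinearGroup.diag2n hij c hc =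
      SpecialLinearGroup.transvection hij (c - 1) * (SpecialLinearGroup.transvection hij.symm 1 *
        (SpecialLinearGroup.transvection hij (c⁻¹ - 1) *
          SpecialLinearGroup.transvection hij.symm (-c))) := by
    apply Subtype.ext
    have := Vale.Agent.P002.whitehead hij c hc (1 : Matrix (Fin r) (Fin r) ℂ)
    rw [Matrix.mul_one, Matrix.mul_one] at this
    exact this
  rw [h]
  exact (transvection hij _).mul ((transvection hij.symm _).mul ((transvection hij _).mul
    (transvection hij.symm _)))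

theorem reach_all (A : SpecialLinearGroup (Fin r) ℂ) : Reach A := by
  by_cases hr : 2 ≤ r
  · have : Nontrivial (Fin r) := Fin.nontrivial_iff_two_le.2 hr
    exact SpecialLinearGroup.diagonal_transvection_induction' Reach A
      (fun i j hij c hc => Reach.diag2n hij hc) (fun i j hij a => Reach.transvection hij a)
      (fun _ _ => Reach.mul)
  · have h1 : A = 1 := by
      have hr' : r = 0 ∨ r = 1 := by omega
      rcases hr' with rfl | rfl
      · exact Subsingleton.elim _ _
      · apply Subtype.ext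
        ext i j
        have h2 := A.2
        rw [Matrix.det_fin_one] at h2
        rw [Subsingleton.elim i 0, Subsingleton.elim j 0]
        exact h2
    rw [h1]
    exact Reach.one

/-- Any two tuples are members of a common family with integer coefficients. -/
theorem exists_family {ι : Type} (X X₀ : ι → SpecialLinearGroup (Fin r) ℂ) :
    ∃ (T : Type) (Φ : ι → SpecialLinearGroup (Fin r) (MvPolynomial T ℤ)) (t t₀ : T → ℂ),
      (∀ k, spec t (Φ k) = X k) ∧ ∀ k, spec t₀ (Φ k) = X₀ k := by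
  choose T Φ t h1 h2 using fun k => reach_all (X k)
  choose T' Φ' t' h1' h2' using fun k => reach_all (X₀ k)
  refine ⟨(Σ k, T k) ⊕ (Σ k, T' k), fun k => renameSL (fun x => Sum.inl ⟨k, x⟩) (Φ k) *
    renameSL (fun x => Sum.inr ⟨k, x⟩) (Φ' k), Sum.elim (fun x => t x.1 x.2) 0,
    Sum.elim 0 (fun x => t' x.1 x.2), fun k => ?_, fun k => ?_⟩
  · rw [map_mul, spec_rename, spec_rename]
    exact (congrArg₂ (· * ·) (h1 k) (h2' k)).trans (mul_one _)
  · rw [map_mul, spec_rename, spec_rename]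
    exact (congrArg₂ (· * ·) (h2 k) (h1' k)).trans (one_mul _)

/-- A polynomial which vanishes at all integer points is zero. -/
theorem eq_zero_of_int {T : Type} (P : MvPolynomial T ℂ)
    (h : ∀ t : T → ℤ, MvPolynomial.eval (fun i => (t i : ℂ)) P = 0) : P = 0 := by
  refine MvPolynomial.funext_set (fun _ => Set.range ((↑) : ℤ → ℂ))
    (fun _ => Set.infinite_range_of_injective Int.cast_injective) ?_
  intro x hx
  have h1 : ∀ i, ∃ a : ℤ, (a : ℂ) = x i := fun i => hx i (Set.mem_univ i)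
  choose a ha using h1
  have h2 : (fun i => (a i : ℂ)) = x := funext ha
  rw [map_zero, ← h2]
  exact h a

/-! ### The last boundary loop is a word in the other generators -/

section

variable {A B : Type} [CommRing A] [CommRing B]

end

/-! ### Two or more free generators: irreducibility -/

/-- A polynomial condition that implies generation of the full matrix algebra, and which holds
at a given generating tuple. -/
theorem exists_generating_poly_at {ι : Type} (B : ι → Matrix (Fin r) (Fin r) ℂ)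
    (hB : Algebra.adjoin ℂ (Set.range B) = ⊤) :
    ∃ h : MvPolynomial (ι × Fin r × Fin r) ℂ,
      MvPolynomial.eval (fun p => B p.1 p.2.1 p.2.2) h ≠ 0 ∧
      ∀ A : ι → Matrix (Fin r) (Fin r) ℂ,
      MvPolynomial.eval (fun p => A p.1 p.2.1 p.2.2) h ≠ 0 →
        Algebra.adjoin ℂ (Set.range A) = ⊤ := by
  have hspan : Submodule.span ℂ (Set.range (FreeMonoid.lift B)) = ⊤ := by
    have h1 : Submodule.span ℂ (Submonoid.closure (Set.range B) :
        Set (Matrix (Fin r) (Fin r) ℂ)) = ⊤ := by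
      rw [← Algebra.adjoin_eq_span, hB, Algebra.top_toSubmodule]
    rw [← h1]
    congr 1
    rw [← FreeMonoid.mrange_lift]
    rfl
  obtain ⟨κ, a, _, hsp, hli⟩ := exists_linearIndependent' ℂ (FreeMonoid.lift B)
  rw [hspan] at hsp
  let b : Module.Basis κ ℂ (Matrix (Fin r) (Fin r) ℂ) := Module.Basis.mk hli hsp.ge
  let e : κ ≃ Fin r × Fin r := b.indexEquiv (Matrix.stdBasis ℂ (Fin r) (Fin r))
  let w : Fin r × Fin r → FreeMonoid ι := a ∘ e.symm
  have hw : LinearIndependent ℂ (fun k => FreeMonoid.lift B (w k)) :=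
    hli.comp e.symm e.symm.injective
  let G : ι → Matrix (Fin r) (Fin r) (MvPolynomial (ι × Fin r × Fin r) ℂ) :=
    fun i => Matrix.of fun a b => MvPolynomial.X (i, a, b)
  let Mk : Matrix (Fin r × Fin r) (Fin r × Fin r) (MvPolynomial (ι × Fin r × Fin r) ℂ) :=
    Matrix.of fun k p => (FreeMonoid.lift G (w k)) p.1 p.2
  have hev : ∀ A : ι → Matrix (Fin r) (Fin r) ℂ,
      MvPolynomial.eval (fun p => A p.1 p.2.1 p.2.2) Mk.det =
        (Matrix.of fun k p : Fin r × Fin r => (FreeMonoid.lift A (w k)) p.1 p.2).det := by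
    intro A
    rw [RingHom.map_det]
    congr 1
    ext k p
    have h1 : ∀ u : FreeMonoid ι,
        (MvPolynomial.eval (fun p : ι × Fin r × Fin r => A p.1 p.2.1 p.2.2)).mapMatrix
          (FreeMonoid.lift G u) = FreeMonoid.lift A u := by
      intro u
      induction u using FreeMonoid.inductionOn' with
      | one => simp
      | of_mul x xs ih =>
        rw [map_mul, map_mul, map_mul, ih]
        congr 1
        rw [FreeMonoid.lift_eval_of, FreeMonoid.lift_eval_of]
        ext i j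
        simp [G]
    have h2 := congrFun (congrFun (h1 (w k)) p.1) p.2
    exact h2
  refine ⟨Mk.det, ?_, ?_⟩
  · intro h0
    have h1 := hev B
    rw [h0] at h1
    obtain ⟨v, hv, hv'⟩ := Matrix.exists_vecMul_eq_zero_iff.mpr h1.symm
    apply hv
    have h2 : ∑ k, v k • FreeMonoid.lift B (w k) = 0 := by
      ext i j
      have h3 := congrFun hv' (i, j)
      rw [Matrix.sum_apply]
      simpa [Matrix.vecMul, dotProduct] using h3
    have h3 := (Fintype.linearIndependent_iff.mp hw) v h2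
    ext k
    exact h3 k
  · intro A hA
    rw [hev A] at hA
    have hli' : LinearIndependent ℂ (fun k => FreeMonoid.lift A (w k)) := by
      rw [Fintype.linearIndependent_iff]
      intro v hv k
      by_contra hk
      apply hA
      apply Matrix.exists_vecMul_eq_zero_iff.mp
      refine ⟨v, fun h => hk (congrFun h k), ?_⟩
      ext p
      have h3 := congrFun (congrFun hv p.1) p.2
      rw [Matrix.sum_apply] at h3
      simpa [Matrix.vecMul, dotProduct] using h3
    have hsp' : Submodule.span ℂ (Set.range fun k => FreeMonoid.lift A (w k)) = ⊤ := by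
      apply hli'.span_eq_top_of_card_eq_finrank'
      rw [Module.finrank_matrix]
      simp
    have h4 : Submodule.span ℂ (Set.range fun k => FreeMonoid.lift A (w k)) ≤
        Subalgebra.toSubmodule (Algebra.adjoin ℂ (Set.range A)) := by
      rw [Submodule.span_le]
      rintro _ ⟨k, rfl⟩
      have h5 : FreeMonoid.lift A (w k) ∈ Submonoid.closure (Set.range A) := by
        rw [← FreeMonoid.mrange_lift]
        exact ⟨w k, rfl⟩
      change FreeMonoid.lift A (w k) ∈ Algebra.adjoin ℂ (Set.range A)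
      exact (Submonoid.closure_le
        (S := (Algebra.adjoin ℂ (Set.range A)).toSubsemiring.toSubmonoid)).mpr
        Algebra.subset_adjoin h5
    rw [hsp'] at h4
    rw [eq_top_iff]
    intro M _
    exact h4 (Submodule.mem_top (x := M))

/-- Every invertible matrix is a scalar multiple of a matrix of determinant `1`. -/
theorem exists_scale (hr : 0 < r) (M : Matrix (Fin r) (Fin r) ℂ) (hM : M.det ≠ 0) :
    ∃ (c : ℂ) (Q : SpecialLinearGroup (Fin r) ℂ), c ≠ 0 ∧
      (Q : Matrix (Fin r) (Fin r) ℂ) = c • M := by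
  obtain ⟨c, hc⟩ := IsAlgClosed.exists_pow_nat_eq (M.det⁻¹) hr
  have hQ : (c • M).det = 1 := by
    rw [Matrix.det_smul, Fintype.card_fin, hc, inv_mul_cancel₀ hM]
  refine ⟨c, ⟨_, hQ⟩, ?_, rfl⟩
  rintro rfl
  rw [zero_pow hr.ne', eq_comm, inv_eq_zero] at hc
  exact hM hc

/-- A tuple that generates the full matrix algebra is irreducible. -/
theorem semisimple_of_adjoin {ι : Type} (A : ι → Matrix (Fin r) (Fin r) ℂ)
    (hA : Algebra.adjoin ℂ (Set.range A) = ⊤) (W : Submodule ℂ (Fin r → ℂ))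
    (hW : ∀ k, ∀ v ∈ W, A k *ᵥ v ∈ W) : W = ⊥ ∨ W = ⊤ := by
  obtain ⟨S, hS⟩ : ∃ S : Subalgebra ℂ (Matrix (Fin r) (Fin r) ℂ), ∀ M, M ∈ S ↔
      ∀ v ∈ W, M *ᵥ v ∈ W :=
    ⟨{ carrier := {M | ∀ v ∈ W, M *ᵥ v ∈ W}
       mul_mem' := fun {a b} ha hb v hv => by
        rw [← Matrix.mulVec_mulVec]
        exact ha _ (hb v hv)
       add_mem' := fun {a b} ha hb v hv => by
        rw [Matrix.add_mulVec]
        exact W.add_mem (ha v hv) (hb v hv)
       algebraMap_mem' := fun c v hv => by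
        rw [Algebra.algebraMap_eq_smul_one, Matrix.smul_mulVec, Matrix.one_mulVec]
        exact W.smul_mem c hv }, fun M => Iff.rfl⟩
  have h1 : S = ⊤ := by
    rw [eq_top_iff, ← hA, Algebra.adjoin_le_iff]
    rintro _ ⟨k, rfl⟩
    exact (hS _).2 (hW k)
  have h2 : ∀ (M : Matrix (Fin r) (Fin r) ℂ), ∀ v ∈ W, M *ᵥ v ∈ W := fun M =>
    (hS M).1 (h1 ▸ Algebra.mem_top)
  rw [or_iff_not_imp_left]
  intro h3
  obtain ⟨v, hv, hv0⟩ := (Submodule.ne_bot_iff W).1 h3
  obtain ⟨i, hi⟩ := Function.ne_iff.1 hv0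
  rw [eq_top_iff]
  intro u _
  have h4 := h2 (Matrix.of fun a b => if b = i then u a * (v i)⁻¹ else 0) v hv
  convert h4 using 1
  ext a
  simp only [Matrix.mulVec, dotProduct, Matrix.of_apply, ite_mul, zero_mul, Finset.sum_ite_eq',
    Finset.mem_univ, if_true]
  rw [mul_assoc, inv_mul_cancel₀ hi, mul_one]

/-! ### One free generator: separable characteristic polynomial -/

end Vale.Agent.P002R.Statement
end

section

/-!
# Free groups without boundary conditions; Burnside's theorem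
-/

namespace Vale.Agent.P002R

open Matrix

/-- Burnside's theorem. -/
theorem burnside_top {r : ℕ} {G : Type*} [Group G] (x : G →* (Mat r ℂ)ˣ) (hss : SS x)
    (hirr : ∀ M : Mat r ℂ, (∀ w, Commute M (x w : Mat r ℂ)) → ∃ c : ℂ, M = c • (1 : Mat r ℂ)) :
    Algebra.adjoin ℂ (Set.range fun w => (x w : Mat r ℂ)) = ⊤ := by
  obtain ⟨A, hA⟩ : ∃ A, A = Algebra.adjoin ℂ (Set.range fun w => (x w : Mat r ℂ)) := ⟨_, rfl⟩
  rw [← hA]
  let act : A →+* Module.End ℂ (Fin r → ℂ) :=
    ((Matrix.toLinAlgEquiv' (R := ℂ) (n := Fin r)).toAlgHom.toRingHom).comp A.subtype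
  let _ : Module A (Fin r → ℂ) := Module.compHom _ act
  have hact : ∀ (a : A) (v : Fin r → ℂ), a • v = (a : Mat r ℂ) *ᵥ v := fun a v => rfl
  have hxA : ∀ w, (x w : Mat r ℂ) ∈ A := fun w => by
    rw [hA]
    exact Algebra.subset_adjoin ⟨w, rfl⟩
  have hsemi : IsSemisimpleModule A (Fin r → ℂ) := by
    rw [isSemisimpleModule_iff]
    refine ⟨fun N => ?_⟩
    obtain ⟨W, hW⟩ : ∃ W : Submodule ℂ (Fin r → ℂ), ∀ v, v ∈ W ↔ v ∈ N :=
      ⟨{ carrier := {v | v ∈ N}
         add_mem' := fun ha hb => N.add_mem ha hb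
         zero_mem' := N.zero_mem
         smul_mem' := fun c v hv => by
          have h1 : ((algebraMap ℂ A c : A) : Mat r ℂ) *ᵥ v ∈ N :=
            N.smul_mem (algebraMap ℂ A c) hv
          have h2 : ((algebraMap ℂ A c : A) : Mat r ℂ) *ᵥ v = c • v := by
            change algebraMap ℂ (Mat r ℂ) c *ᵥ v = _
            rw [Algebra.algebraMap_eq_smul_one, Matrix.smul_mulVec, Matrix.one_mulVec]
          rw [h2] at h1
          exact h1 }, fun v => Iff.rfl⟩
    obtain ⟨W', h1, h2⟩ := hss W (fun w v hv => by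
      rw [hW] at hv ⊢
      exact N.smul_mem (⟨_, hxA w⟩ : A) hv)
    have h3 : ∀ a ∈ A, ∀ v ∈ W', a *ᵥ v ∈ W' := by
      intro a ha
      rw [hA] at ha
      induction ha using Algebra.adjoin_induction with
      | mem y hy =>
        obtain ⟨w, rfl⟩ := hy
        exact h1 w
      | algebraMap c =>
        intro v hv
        rw [Algebra.algebraMap_eq_smul_one, Matrix.smul_mulVec, Matrix.one_mulVec]
        exact W'.smul_mem c hv
      | add y z _ _ hy hz =>
        intro v hv
        rw [Matrix.add_mulVec]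
        exact W'.add_mem (hy v hv) (hz v hv)
      | mul y z _ _ hy hz =>
        intro v hv
        rw [← Matrix.mulVec_mulVec]
        exact hy _ (hz v hv)
    refine ⟨{ carrier := {v | v ∈ W'}
              add_mem' := fun ha hb => W'.add_mem ha hb
              zero_mem' := W'.zero_mem
              smul_mem' := fun a v hv => ?_ }, ?_⟩
    · exact h3 _ a.2 v hv
    · rw [isCompl_iff, disjoint_iff, codisjoint_iff] at h2 ⊢
      constructor
      · rw [eq_bot_iff]
        intro v hv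
        rw [Submodule.mem_inf] at hv
        have : v ∈ W ⊓ W' := ⟨(hW v).2 hv.1, hv.2⟩
        rw [h2.1, Submodule.mem_bot] at this
        rw [Submodule.mem_bot]
        exact this
      · rw [eq_top_iff]
        intro v _
        have : v ∈ W ⊔ W' := by
          rw [h2.2]
          exact Submodule.mem_top
        obtain ⟨a, ha, b, hb, rfl⟩ := Submodule.mem_sup.1 this
        exact Submodule.add_mem_sup ((hW a).1 ha) hb
  have hend : ∀ f : Module.End A (Fin r → ℂ), ∃ c : ℂ, ∀ v, f v = c • v := by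
    intro f
    obtain ⟨f', hf'⟩ : ∃ f' : (Fin r → ℂ) →ₗ[ℂ] (Fin r → ℂ), ∀ v, f' v = f v :=
      ⟨{ toFun := f
         map_add' := f.map_add
         map_smul' := fun c v => by
          have h1 : f (((algebraMap ℂ A c : A) : Mat r ℂ) *ᵥ v) =
              ((algebraMap ℂ A c : A) : Mat r ℂ) *ᵥ f v := f.map_smul (algebraMap ℂ A c) v
          have h2 : ∀ u : Fin r → ℂ, ((algebraMap ℂ A c : A) : Mat r ℂ) *ᵥ u = c • u := by
            intro u
            change algebraMap ℂ (Mat r ℂ) c *ᵥ u = _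
            rw [Algebra.algebraMap_eq_smul_one, Matrix.smul_mulVec, Matrix.one_mulVec]
          rw [h2, h2] at h1
          exact h1 }, fun v => rfl⟩
    obtain ⟨c, hc⟩ := hirr (LinearMap.toMatrix' f') (fun w => by
      have h1 : ∀ v, f' ((x w : Mat r ℂ) *ᵥ v) = (x w : Mat r ℂ) *ᵥ f' v := by
        intro v
        rw [hf', hf']
        exact f.map_smul (⟨_, hxA w⟩ : A) v
      apply (Matrix.toLin' (R := ℂ)).injective
      rw [Matrix.toLin'_mul, Matrix.toLin'_mul, Matrix.toLin'_toMatrix']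
      exact LinearMap.ext fun v => h1 v)
    refine ⟨c, fun v => ?_⟩
    rw [← hf', ← Matrix.toLin'_toMatrix' f', hc, Matrix.toLin'_apply, Matrix.smul_mulVec,
      Matrix.one_mulVec]
  rw [eq_top_iff]
  intro T _
  classical
  obtain ⟨F, hF⟩ : ∃ F : Module.End (Module.End A (Fin r → ℂ)) (Fin r → ℂ),
      ∀ v, F v = T *ᵥ v :=
    ⟨{ toFun := fun v => T *ᵥ v
       map_add' := fun u v => Matrix.mulVec_add _ _ _
       map_smul' := fun f v => by
        obtain ⟨c, hc⟩ := hend f
        change T *ᵥ (f v) = f (T *ᵥ v)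
        rw [hc, hc, Matrix.mulVec_smul] }, fun v => rfl⟩
  obtain ⟨a, ha⟩ := jacobson_density F (Finset.univ.image fun i : Fin r => Pi.single i (1 : ℂ))
  have h1 : T = (a : Mat r ℂ) := by
    ext i j
    have h2 : F (Pi.single j 1) = (a : Mat r ℂ) *ᵥ Pi.single j 1 :=
      ha (Pi.single j 1) (Finset.mem_image_of_mem _ (Finset.mem_univ j))
    rw [hF, Matrix.mulVec_single_one, Matrix.mulVec_single_one] at h2
    exact congrFun h2 i
  rw [h1]
  exact a.2

theorem evalG_eq_eval {κ : Type*} {r : ℕ} (x : FreeGroup κ →* (Mat r ℂ)ˣ)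
    (f : MvPolynomial (κ × Fin r × Fin r) ℂ) :
    evalG x f = MvPolynomial.eval (fun p => (x (FreeGroup.of p.1) : Mat r ℂ) p.2.1 p.2.2) f := by
  rw [evalG_eqn, MvPolynomial.aeval_eq_eval]

/-- The algebra generated by a group of matrices is generated by the generators of the group. -/
theorem adjoin_gen_eq_top {κ : Type*} {r : ℕ} (x : FreeGroup κ →* (Mat r ℂ)ˣ)
    (h : Algebra.adjoin ℂ (Set.range fun w => (x w : Mat r ℂ)) = ⊤) :
    Algebra.adjoin ℂ (Set.range fun k => (x (FreeGroup.of k) : Mat r ℂ)) = ⊤ := by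
  rw [eq_top_iff, ← h, Algebra.adjoin_le_iff]
  rintro _ ⟨w, rfl⟩
  obtain ⟨A, hA⟩ : ∃ A, A = Algebra.adjoin ℂ
    (Set.range fun k => (x (FreeGroup.of k) : Mat r ℂ)) := ⟨_, rfl⟩
  rw [← hA]
  have hinv : ∀ u : (Mat r ℂ)ˣ, (u : Mat r ℂ) ∈ A → ((u⁻¹ : (Mat r ℂ)ˣ) : Mat r ℂ) ∈ A := by
    intro u hu
    obtain ⟨T, hT⟩ : ∃ T : A →ₗ[ℂ] A, ∀ a : A, ((T a : A) : Mat r ℂ) = (u : Mat r ℂ) * a :=
      ⟨LinearMap.mulLeft ℂ (⟨u, hu⟩ : A), fun a => rfl⟩
    have hinj : Function.Injective T := by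
      intro a b hab
      have h1 := congrArg (fun c : A => ((u⁻¹ : (Mat r ℂ)ˣ) : Mat r ℂ) * (c : Mat r ℂ)) hab
      simp only [hT, ← mul_assoc, Units.inv_mul, one_mul] at h1
      exact Subtype.ext h1
    obtain ⟨b, hb⟩ := (LinearMap.injective_iff_surjective.1 hinj) 1
    have h1 : (u : Mat r ℂ) * (b : Mat r ℂ) = 1 := by
      rw [← hT, hb]
      rfl
    have h2 : ((u⁻¹ : (Mat r ℂ)ˣ) : Mat r ℂ) = b := by
      rw [← mul_one ((u⁻¹ : (Mat r ℂ)ˣ) : Mat r ℂ), ← h1, ← mul_assoc, Units.inv_mul, one_mul]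
    rw [h2]
    exact b.2
  change (x w : Mat r ℂ) ∈ A
  induction w using FreeGroup.induction_on with
  | C1 =>
    rw [map_one]
    exact A.one_mem
  | of k =>
    rw [hA]
    exact Algebra.subset_adjoin ⟨k, rfl⟩
  | inv_of k hk =>
    rw [map_inv]
    exact hinv _ hk
  | mul a b ha hb =>
    rw [map_mul]
    exact A.mul_mem ha hb

theorem free_irrDense {N : ℕ} {R : Type*} [CommRing R] (φ : R →+* ℂ) (E : Subgroup ℂˣ)
    (r : ℕ) (hr : 0 < r) : IrrDense (∅ : Set (FreeGroup (Fin N ⊕ Empty))) φ E r := by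
  intro C _ x hx hirr f hf
  have htop := adjoin_gen_eq_top x (burnside_top x hx.2.2 hirr)
  obtain ⟨D, hD0, hD⟩ := Statement.exists_generating_poly_at
    (fun k => (x (FreeGroup.of k) : Mat r ℂ)) htop
  -- the polynomials in the variables of `Fin N`
  obtain ⟨e, he⟩ : ∃ e : (Fin N ⊕ Empty) × Fin r × Fin r ≃ Fin N × Fin r × Fin r,
      ∀ (k : Fin N) (p : Fin r × Fin r), e (Sum.inl k, p) = (k, p) :=
    ⟨Equiv.prodCongr (Equiv.sumEmpty _ _) (Equiv.refl _), fun k p => rfl⟩
  have hprod : MvPolynomial.rename e (D * f) = 0 := by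
    apply Vale.Agent.P002.multi_dense
    intro c Z
    rw [MvPolynomial.eval_rename]
    -- the representation
    obtain ⟨y, hy⟩ : ∃ y : FreeGroup (Fin N ⊕ Empty) →* (Mat r ℂ)ˣ, ∀ k : Fin N,
        y (FreeGroup.of (Sum.inl k)) = scalarU (c k) * slU (Int.castRingHom ℂ) (Z k) :=
      ⟨FreeGroup.lift (Sum.elim (fun k => scalarU (c k) * slU (Int.castRingHom ℂ) (Z k))
        fun k => k.elim), fun k => FreeGroup.lift_apply_of⟩
    have h1 : ∀ p : (Fin N ⊕ Empty) × Fin r × Fin r,
        ((fun p : Fin N × Fin r × Fin r => (c p.1 : ℂ) * (((Z p.1).1 p.2.1 p.2.2 : ℤ) : ℂ)) ∘ e) p =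
        (y (FreeGroup.of p.1) : Mat r ℂ) p.2.1 p.2.2 := by
      rintro ⟨k | k, p⟩
      · change _ = (y (FreeGroup.of (Sum.inl k)) : Mat r ℂ) p.1 p.2
        rw [hy, Function.comp_apply, he]
        change (c k : ℂ) * (((Z k).1 p.1 p.2 : ℤ) : ℂ) =
          (algebraMap ℂ (Mat r ℂ) (c k : ℂ) * ((Z k).1.map (Int.castRingHom ℂ))) p.1 p.2
        rw [Algebra.algebraMap_eq_smul_one, Matrix.smul_mul, Matrix.one_mul, Matrix.smul_apply,
          smul_eq_mul]
        rfl
      · exact k.elim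
    rw [funext h1, map_mul, mul_eq_zero, or_iff_not_imp_left]
    intro h2
    have h3 := hD (fun k => (y (FreeGroup.of k) : Mat r ℂ)) h2
    have h4 : Algebra.adjoin ℂ (Set.range fun w => (y w : Mat r ℂ)) = ⊤ := by
      rw [eq_top_iff, ← h3]
      apply Algebra.adjoin_mono
      rintro _ ⟨k, rfl⟩
      exact ⟨FreeGroup.of k, rfl⟩
    rw [← evalG_eq_eval]
    refine hf y ⟨⟨⟨fun w hw => absurd hw (Set.notMem_empty w), fun j => j.elim, ?_⟩, ?_⟩, h4⟩
    · intro W hW
      rcases Statement.semisimple_of_adjoin _ h3 W (fun k => hW _) with h | h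
      · refine ⟨⊤, fun k v _ => Submodule.mem_top, ?_⟩
        rw [h]
        exact isCompl_bot_top
      · refine ⟨⊥, fun k v hv => ?_, ?_⟩
        · rw [Submodule.mem_bot] at hv ⊢
          rw [hv, Matrix.mulVec_zero]
        · rw [h]
          exact isCompl_top_bot
    · rintro (k | k)
      · refine ⟨c k, SpecialLinearGroup.map (Int.castRingHom R) (Z k), ?_⟩
        rw [hy]
        congr 1
        apply Units.ext
        change (Z k).1.map (Int.castRingHom ℂ) =
          ((Z k).1.map (Int.castRingHom R)).map φ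
        ext i j
        simp
      · exact k.elim
  have hzero : D * f = 0 := by
    have := MvPolynomial.rename_injective (R := ℂ) _ e.injective
    exact this (by rw [hprod, map_zero])
  have hD' : D ≠ 0 := by
    rintro rfl
    rw [map_zero] at hD0
    exact hD0 rfl
  rw [(mul_eq_zero.1 hzero).resolve_left hD', map_zero]

end Vale.Agent.P002R
end

section

/-!
# Irreducible representations of products are tensor products
-/

namespace Vale.Agent.P002R

open Matrix

variable {r : ℕ}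

theorem adjoin_top_of_irr {G : Type*} [Group G] (x : G →* (Mat r ℂ)ˣ) (hss : SS x)
    (hirr : ∀ M : Mat r ℂ, (∀ w, Commute M (x w : Mat r ℂ)) → ∃ c : ℂ, M = c • (1 : Mat r ℂ)) :
    Algebra.adjoin ℂ (Set.range fun w => (x w : Mat r ℂ)) = ⊤ :=
  burnside_top x hss hirr

theorem exists_min_inv {G : Type*} [Group G] (hr : 0 < r) (y : G →* (Mat r ℂ)ˣ) :
    ∃ W : Submodule ℂ (Fin r → ℂ), W ≠ ⊥ ∧ (∀ a, ∀ v ∈ W, (y a : Mat r ℂ) *ᵥ v ∈ W) ∧
      ∀ W' ≤ W, W' ≠ ⊥ → (∀ a, ∀ v ∈ W', (y a : Mat r ℂ) *ᵥ v ∈ W') → W' = W := by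
  obtain ⟨S, hS⟩ : ∃ S : Set (Submodule ℂ (Fin r → ℂ)), S = {W | W ≠ ⊥ ∧
    ∀ a, ∀ v ∈ W, (y a : Mat r ℂ) *ᵥ v ∈ W} := ⟨_, rfl⟩
  have hne : S.Nonempty := by
    refine ⟨⊤, ?_⟩
    rw [hS]
    have : Nonempty (Fin r) := ⟨⟨0, hr⟩⟩
    exact ⟨top_ne_bot, fun _ _ _ => Submodule.mem_top⟩
  obtain ⟨W, hW, hmin⟩ := (wellFounded_lt (α := Submodule ℂ (Fin r → ℂ))).has_min S hne
  rw [hS] at hW
  refine ⟨W, hW.1, hW.2, fun W' hle h0 hinv => ?_⟩
  rcases eq_or_lt_of_le hle with h | h
  · exact h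
  · refine absurd h (hmin W' ?_)
    rw [hS]
    exact ⟨h0, hinv⟩

/-- The matrices of a representation in a basis. -/
theorem rep_matrix {G : Type*} [Group G] {U : Type*} [AddCommGroup U] [Module ℂ U] {n : ℕ}
    (b : Module.Basis (Fin n) ℂ U) (τ : G →* Module.End ℂ U) :
    ∃ z : G →* (Mat n ℂ)ˣ, ∀ a i, τ a (b i) = ∑ l, (z a : Mat n ℂ) l i • b l := by
  refine ⟨((LinearMap.toMatrixAlgEquiv b).toAlgHom.toRingHom.toMonoidHom.comp τ).toHomUnits,
    fun a i => ?_⟩
  have h1 : (((((LinearMap.toMatrixAlgEquiv b).toAlgHom.toRingHom.toMonoidHom.comp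
      τ).toHomUnits a : (Mat n ℂ)ˣ) : Mat n ℂ)) = LinearMap.toMatrix b b (τ a) := rfl
  rw [h1]
  conv_lhs => rw [← b.sum_repr (τ a (b i))]
  refine Finset.sum_congr rfl fun l _ => ?_
  rw [LinearMap.toMatrix_apply]

theorem eq_bot_or_top_of_adjoin {ι : Type*} (A : ι → Mat r ℂ)
    (hA : Algebra.adjoin ℂ (Set.range A) = ⊤) (W : Submodule ℂ (Fin r → ℂ))
    (hW : ∀ k, ∀ v ∈ W, A k *ᵥ v ∈ W) : W = ⊥ ∨ W = ⊤ := by
  obtain ⟨S, hS⟩ : ∃ S : Subalgebra ℂ (Mat r ℂ), ∀ M, M ∈ S ↔ ∀ v ∈ W, M *ᵥ v ∈ W :=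
    ⟨{ carrier := {M | ∀ v ∈ W, M *ᵥ v ∈ W}
       mul_mem' := fun {a b} ha hb v hv => by
        rw [← Matrix.mulVec_mulVec]
        exact ha _ (hb v hv)
       add_mem' := fun {a b} ha hb v hv => by
        rw [Matrix.add_mulVec]
        exact W.add_mem (ha v hv) (hb v hv)
       algebraMap_mem' := fun c v hv => by
        rw [Algebra.algebraMap_eq_smul_one, Matrix.smul_mulVec, Matrix.one_mulVec]
        exact W.smul_mem c hv }, fun M => Iff.rfl⟩
  have h1 : S = ⊤ := by
    rw [eq_top_iff, ← hA, Algebra.adjoin_le_iff]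
    rintro _ ⟨k, rfl⟩
    exact (hS _).2 (hW k)
  have h2 : ∀ (M : Mat r ℂ), ∀ v ∈ W, M *ᵥ v ∈ W := fun M => (hS M).1 (h1 ▸ Algebra.mem_top)
  rw [or_iff_not_imp_left]
  intro h3
  obtain ⟨v, hv, hv0⟩ := (Submodule.ne_bot_iff W).1 h3
  obtain ⟨i, hi⟩ := Function.ne_iff.1 hv0
  rw [eq_top_iff]
  intro u _
  have h4 := h2 (Matrix.of fun a b => if b = i then u a * (v i)⁻¹ else 0) v hv
  convert h4 using 1
  ext a
  simp only [Matrix.mulVec, dotProduct, Matrix.of_apply, ite_mul, zero_mul, Finset.sum_ite_eq',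
    Finset.mem_univ, if_true]
  rw [mul_assoc, inv_mul_cancel₀ hi, mul_one]

/-- Schur's lemma and Burnside's theorem for a representation without invariant subspaces. -/
theorem adjoin_top_of_simple {G : Type*} [Group G] (hr : 0 < r) (z : G →* (Mat r ℂ)ˣ)
    (h : ∀ N : Submodule ℂ (Fin r → ℂ), (∀ a, ∀ v ∈ N, (z a : Mat r ℂ) *ᵥ v ∈ N) →
      N = ⊥ ∨ N = ⊤) :
    Algebra.adjoin ℂ (Set.range fun w => (z w : Mat r ℂ)) = ⊤ := by
  apply burnside_top
  · intro W hW
    rcases h W hW with h1 | h1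
    · refine ⟨⊤, fun k v _ => Submodule.mem_top, ?_⟩
      rw [h1]
      exact isCompl_bot_top
    · refine ⟨⊥, fun k v hv => ?_, ?_⟩
      · rw [Submodule.mem_bot] at hv ⊢
        rw [hv, Matrix.mulVec_zero]
      · rw [h1]
        exact isCompl_top_bot
  · intro M hM
    have : Nonempty (Fin r) := ⟨⟨0, hr⟩⟩
    obtain ⟨c, hc⟩ := Module.End.exists_eigenvalue (Matrix.toLin' M)
    obtain ⟨v, hv⟩ := hc.exists_hasEigenvector
    refine ⟨c, ?_⟩
    have hv1 : M *ᵥ v = c • v := by
      have := hv.apply_eq_smul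
      rwa [Matrix.toLin'_apply] at this
    obtain ⟨N, hN⟩ : ∃ N : Submodule ℂ (Fin r → ℂ), ∀ u, u ∈ N ↔ M *ᵥ u = c • u :=
      ⟨{ carrier := {u | M *ᵥ u = c • u}
         add_mem' := fun {a b} ha hb => by
          have ha' : M *ᵥ a = c • a := ha
          have hb' : M *ᵥ b = c • b := hb
          change M *ᵥ (a + b) = c • (a + b)
          rw [Matrix.mulVec_add, ha', hb', smul_add]
         zero_mem' := by
          change M *ᵥ 0 = c • 0
          rw [Matrix.mulVec_zero, smul_zero]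
         smul_mem' := fun d a ha => by
          have ha' : M *ᵥ a = c • a := ha
          change M *ᵥ (d • a) = c • (d • a)
          rw [Matrix.mulVec_smul, ha', smul_comm] }, fun u => Iff.rfl⟩
    have hinv : ∀ a, ∀ v ∈ N, (z a : Mat r ℂ) *ᵥ v ∈ N := by
      intro a u hu
      rw [hN] at hu ⊢
      rw [Matrix.mulVec_mulVec, (hM a).eq, ← Matrix.mulVec_mulVec, hu, Matrix.mulVec_smul]
    have htop : N = ⊤ := by
      rcases h N hinv with h1 | h1
      · exfalso
        have : v ∈ N := (hN v).2 hv1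
        rw [h1, Submodule.mem_bot] at this
        exact hv.2 this
      · exact h1
    apply (Matrix.toLin' (R := ℂ)).injective
    refine LinearMap.ext fun u => ?_
    have h2 : u ∈ N := by
      rw [htop]
      exact Submodule.mem_top
    rw [hN] at h2
    rw [Matrix.toLin'_apply, Matrix.toLin'_apply, h2, Matrix.smul_mulVec, Matrix.one_mulVec]

/-- An irreducible subrepresentation, in coordinates. -/
theorem exists_simple_sub {G : Type*} [Group G] (hr : 0 < r) (y : G →* (Mat r ℂ)ˣ) :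
    ∃ (n : ℕ) (ρ : G →* (Mat n ℂ)ˣ) (T₀ : Matrix (Fin r) (Fin n) ℂ), 0 < n ∧
      (∀ a, T₀ * (ρ a : Mat n ℂ) = (y a : Mat r ℂ) * T₀) ∧ T₀ ≠ 0 ∧
      Algebra.adjoin ℂ (Set.range fun w => (ρ w : Mat n ℂ)) = ⊤ := by
  obtain ⟨W, hW0, hW, hmin⟩ := exists_min_inv hr y
  obtain ⟨n, hn⟩ : ∃ n, n = Module.finrank ℂ W := ⟨_, rfl⟩
  have hn0 : 0 < n := by
    rw [hn, Nat.pos_iff_ne_zero]
    intro h
    exact hW0 (Submodule.finrank_eq_zero.1 h)
  obtain ⟨b⟩ : Nonempty (Module.Basis (Fin n) ℂ W) := by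
    rw [hn]
    exact ⟨Module.finBasis ℂ W⟩
  obtain ⟨τ, hτ⟩ : ∃ τ : G →* Module.End ℂ W, ∀ a (w : W),
      ((τ a w : W) : Fin r → ℂ) = (y a : Mat r ℂ) *ᵥ (w : Fin r → ℂ) :=
    ⟨{ toFun := fun a => (Matrix.mulVecLin (y a : Mat r ℂ)).restrict (hW a)
       map_one' := by
        refine LinearMap.ext fun w => Subtype.ext ?_
        change (y 1 : Mat r ℂ) *ᵥ (w : Fin r → ℂ) = w
        rw [map_one, Units.val_one, Matrix.one_mulVec]
       map_mul' := fun a a' => by
        refine LinearMap.ext fun w => Subtype.ext ?_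
        change (y (a * a') : Mat r ℂ) *ᵥ (w : Fin r → ℂ) =
          (y a : Mat r ℂ) *ᵥ ((y a' : Mat r ℂ) *ᵥ (w : Fin r → ℂ))
        rw [map_mul, Units.val_mul, Matrix.mulVec_mulVec] }, fun a w => rfl⟩
  obtain ⟨ρ, hρ⟩ := rep_matrix b τ
  obtain ⟨T₀, hT₀⟩ : ∃ T₀ : Matrix (Fin r) (Fin n) ℂ, T₀ = Matrix.of fun x j =>
      (b j : Fin r → ℂ) x := ⟨_, rfl⟩
  have hmv : ∀ c : Fin n → ℂ, T₀ *ᵥ c = ((∑ j, c j • b j : W) : Fin r → ℂ) := by
    intro c
    ext x
    rw [hT₀, Matrix.mulVec, dotProduct]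
    simp only [Matrix.of_apply, Submodule.coe_sum, Submodule.coe_smul, Finset.sum_apply,
      Pi.smul_apply, smul_eq_mul]
    exact Finset.sum_congr rfl fun j _ => mul_comm _ _
  have hinj : ∀ c : Fin n → ℂ, T₀ *ᵥ c = 0 → c = 0 := by
    intro c hc
    rw [hmv] at hc
    have h1 : (∑ j, c j • b j : W) = 0 := Subtype.ext hc
    funext j
    exact (Fintype.linearIndependent_iff.1 b.linearIndependent) c h1 j
  have hcomm : ∀ a, T₀ * (ρ a : Mat n ℂ) = (y a : Mat r ℂ) * T₀ := by
    intro a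
    ext x j
    have h1 := congrArg (fun w : W => (w : Fin r → ℂ) x) (hρ a j)
    simp only [hτ] at h1
    have h2 : ((y a : Mat r ℂ) * T₀) x j = ((y a : Mat r ℂ) *ᵥ (b j : Fin r → ℂ)) x := by
      rw [hT₀, Matrix.mul_apply, Matrix.mulVec, dotProduct]
      rfl
    rw [h2, h1, Matrix.mul_apply, hT₀]
    simp only [Matrix.of_apply, Submodule.coe_sum, Submodule.coe_smul, Finset.sum_apply,
      Pi.smul_apply, smul_eq_mul]
    exact Finset.sum_congr rfl fun j _ => mul_comm _ _
  refine ⟨n, ρ, T₀, hn0, hcomm, ?_, ?_⟩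
  · intro h0
    have h1 := hinj (fun _ => 1) (by rw [h0, Matrix.zero_mulVec])
    exact one_ne_zero (congrFun h1 ⟨0, hn0⟩)
  · apply adjoin_top_of_simple hn0
    intro N hN
    obtain ⟨N', hN'⟩ : ∃ N' : Submodule ℂ (Fin r → ℂ), N' = N.map (Matrix.mulVecLin T₀) :=
      ⟨_, rfl⟩
    have hle : N' ≤ W := by
      rw [hN']
      rintro _ ⟨c, _, rfl⟩
      rw [Matrix.mulVecLin_apply, hmv]
      exact Subtype.mem _
    have hinv' : ∀ a, ∀ v ∈ N', (y a : Mat r ℂ) *ᵥ v ∈ N' := by
      intro a v hv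
      rw [hN'] at hv ⊢
      obtain ⟨c, hc, rfl⟩ := hv
      refine ⟨(ρ a : Mat n ℂ) *ᵥ c, hN a c hc, ?_⟩
      rw [Matrix.mulVecLin_apply, Matrix.mulVecLin_apply, Matrix.mulVec_mulVec,
        Matrix.mulVec_mulVec, hcomm]
    have hinj' : Function.Injective (Matrix.mulVecLin T₀) := by
      rw [injective_iff_map_eq_zero]
      exact hinj
    by_cases h0 : N' = ⊥
    · left
      rw [eq_bot_iff]
      intro c hc
      have h1 : Matrix.mulVecLin T₀ c ∈ N' := by
        rw [hN']
        exact ⟨c, hc, rfl⟩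
      rw [h0, Submodule.mem_bot] at h1
      rw [Submodule.mem_bot]
      exact hinj c h1
    · right
      have h1 := hmin N' hle h0 hinv'
      apply Submodule.eq_top_of_finrank_eq
      rw [Module.finrank_fin_fun]
      refine Eq.trans ?_ hn.symm
      rw [← h1, hN']
      exact (Submodule.equivMapOfInjective _ hinj' N).finrank_eq

/-- An irreducible representation of a product of two groups is a tensor product. -/
theorem tensor_decomp {G₁ G₂ : Type*} [Group G₁] [Group G₂] (hr : 0 < r)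
    (y₁ : G₁ →* (Mat r ℂ)ˣ) (y₂ : G₂ →* (Mat r ℂ)ˣ) (hcomm : ∀ a b, Commute (y₁ a) (y₂ b))
    (htop : Algebra.adjoin ℂ ((Set.range fun w => (y₁ w : Mat r ℂ)) ∪
      Set.range fun w => (y₂ w : Mat r ℂ)) = ⊤) :
    ∃ (r₁ r₂ : ℕ) (e : Fin r₁ × Fin r₂ ≃ Fin r) (P : (Mat r ℂ)ˣ)
      (z₁ : G₁ →* (Mat r₁ ℂ)ˣ) (z₂ : G₂ →* (Mat r₂ ℂ)ˣ), 0 < r₁ ∧ 0 < r₂ ∧
      Algebra.adjoin ℂ (Set.range fun w => (z₁ w : Mat r₁ ℂ)) = ⊤ ∧
      Algebra.adjoin ℂ (Set.range fun w => (z₂ w : Mat r₂ ℂ)) = ⊤ ∧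
      (∀ a, (y₁ a : Mat r ℂ) = (P : Mat r ℂ) *
        Matrix.reindex e e (Matrix.kroneckerMap (· * ·) (z₁ a : Mat r₁ ℂ) (1 : Mat r₂ ℂ)) *
          ((P⁻¹ : (Mat r ℂ)ˣ) : Mat r ℂ)) ∧
      ∀ b, (y₂ b : Mat r ℂ) = (P : Mat r ℂ) *
        Matrix.reindex e e (Matrix.kroneckerMap (· * ·) (1 : Mat r₁ ℂ) (z₂ b : Mat r₂ ℂ)) *
          ((P⁻¹ : (Mat r ℂ)ˣ) : Mat r ℂ) := by
  obtain ⟨r₁, z₁, T₀, hr₁, hT₀, hT₀0, hz₁⟩ := exists_simple_sub hr y₁
  -- the space of intertwiners
  obtain ⟨U, hU⟩ : ∃ U : Submodule ℂ (Matrix (Fin r) (Fin r₁) ℂ), ∀ T, T ∈ U ↔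
      ∀ a, T * (z₁ a : Mat r₁ ℂ) = (y₁ a : Mat r ℂ) * T :=
    ⟨{ carrier := {T | ∀ a, T * (z₁ a : Mat r₁ ℂ) = (y₁ a : Mat r ℂ) * T}
       add_mem' := fun {S T} hS hT a => by
        rw [Matrix.add_mul, Matrix.mul_add, hS a, hT a]
       zero_mem' := fun a => by rw [Matrix.zero_mul, Matrix.mul_zero]
       smul_mem' := fun c T hT a => by
        rw [Matrix.smul_mul, Matrix.mul_smul, hT a] }, fun T => Iff.rfl⟩
  obtain ⟨r₂, hr₂⟩ : ∃ r₂, r₂ = Module.finrank ℂ U := ⟨_, rfl⟩
  have hr₂0 : 0 < r₂ := by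
    rw [hr₂, Nat.pos_iff_ne_zero]
    intro h
    have h1 := Submodule.finrank_eq_zero.1 h
    have h2 : T₀ ∈ U := (hU T₀).2 hT₀
    rw [h1, Submodule.mem_bot] at h2
    exact hT₀0 h2
  obtain ⟨b⟩ : Nonempty (Module.Basis (Fin r₂) ℂ U) := by
    rw [hr₂]
    exact ⟨Module.finBasis ℂ U⟩
  have hbU : ∀ i a, (b i : Matrix (Fin r) (Fin r₁) ℂ) * (z₁ a : Mat r₁ ℂ) =
      (y₁ a : Mat r ℂ) * (b i : Matrix (Fin r) (Fin r₁) ℂ) := fun i => (hU _).1 (b i).2
  -- the action of the second group on the intertwiners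
  have hyU : ∀ c, ∀ T ∈ U, (y₂ c : Mat r ℂ) * T ∈ U := by
    intro c T hT
    rw [hU] at hT ⊢
    intro a
    have h1 : (y₁ a : Mat r ℂ) * (y₂ c : Mat r ℂ) = (y₂ c : Mat r ℂ) * (y₁ a : Mat r ℂ) :=
      congrArg Units.val (hcomm a c).eq
    rw [Matrix.mul_assoc, hT a, ← Matrix.mul_assoc, ← Matrix.mul_assoc, h1]
  obtain ⟨τ, hτ⟩ : ∃ τ : G₂ →* Module.End ℂ U, ∀ c (T : U),
      ((τ c T : U) : Matrix (Fin r) (Fin r₁) ℂ) =
        (y₂ c : Mat r ℂ) * (T : Matrix (Fin r) (Fin r₁) ℂ) :=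
    ⟨{ toFun := fun c =>
        { toFun := fun T => ⟨(y₂ c : Mat r ℂ) * (T : Matrix (Fin r) (Fin r₁) ℂ), hyU c T T.2⟩
          map_add' := fun S T => Subtype.ext (Matrix.mul_add _ _ _)
          map_smul' := fun d T => Subtype.ext (Matrix.mul_smul _ _ _) }
       map_one' := by
        refine LinearMap.ext fun T => Subtype.ext ?_
        change (y₂ 1 : Mat r ℂ) * (T : Matrix (Fin r) (Fin r₁) ℂ) = T
        rw [map_one, Units.val_one, Matrix.one_mul]
       map_mul' := fun c c' => by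
        refine LinearMap.ext fun T => Subtype.ext ?_
        change (y₂ (c * c') : Mat r ℂ) * (T : Matrix (Fin r) (Fin r₁) ℂ) =
          (y₂ c : Mat r ℂ) * ((y₂ c' : Mat r ℂ) * (T : Matrix (Fin r) (Fin r₁) ℂ))
        rw [map_mul, Units.val_mul, Matrix.mul_assoc] }, fun c T => rfl⟩
  obtain ⟨z₂, hz₂⟩ := rep_matrix b τ
  -- the basis
  obtain ⟨v, hv⟩ : ∃ v : Fin r₁ × Fin r₂ → (Fin r → ℂ), ∀ p x, v p x =
      (b p.2 : Matrix (Fin r) (Fin r₁) ℂ) x p.1 := ⟨fun p x => _, fun _ _ => rfl⟩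
  have hy₁ : ∀ a p, (y₁ a : Mat r ℂ) *ᵥ v p = ∑ k, (z₁ a : Mat r₁ ℂ) k p.1 • v (k, p.2) := by
    intro a p
    ext x
    have h1 := congrFun (congrFun (hbU p.2 a) x) p.1
    rw [Matrix.mul_apply, Matrix.mul_apply] at h1
    rw [Matrix.mulVec, dotProduct, Finset.sum_apply]
    simp only [hv, Pi.smul_apply, smul_eq_mul]
    rw [← h1]
    exact Finset.sum_congr rfl fun k _ => mul_comm _ _
  have hy₂ : ∀ c p, (y₂ c : Mat r ℂ) *ᵥ v p = ∑ l, (z₂ c : Mat r₂ ℂ) l p.2 • v (p.1, l) := by
    intro c p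
    ext x
    have h1 := congrArg (fun T : U => (T : Matrix (Fin r) (Fin r₁) ℂ) x p.1) (hz₂ c p.2)
    simp only [hτ] at h1
    rw [Matrix.mulVec, dotProduct, Finset.sum_apply]
    simp only [hv, Pi.smul_apply, smul_eq_mul]
    rw [Matrix.mul_apply] at h1
    rw [h1]
    simp only [Submodule.coe_sum, Submodule.coe_smul, Matrix.sum_apply, Matrix.smul_apply,
      smul_eq_mul]
  have hint : ∀ B : Mat r₁ ℂ, ∃ B' : Mat r ℂ, ∀ i,
      (b i : Matrix (Fin r) (Fin r₁) ℂ) * B = B' * (b i : Matrix (Fin r) (Fin r₁) ℂ) := by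
    intro B
    have hB : B ∈ Algebra.adjoin ℂ (Set.range fun w => (z₁ w : Mat r₁ ℂ)) := by
      rw [hz₁]
      exact Algebra.mem_top
    induction hB using Algebra.adjoin_induction with
    | mem B hB =>
      obtain ⟨a, rfl⟩ := hB
      exact ⟨_, fun i => hbU i a⟩
    | algebraMap c =>
      refine ⟨c • 1, fun i => ?_⟩
      rw [Algebra.algebraMap_eq_smul_one, Matrix.mul_smul, Matrix.mul_one, Matrix.smul_mul,
        Matrix.one_mul]
    | add B C _ _ hB hC =>
      obtain ⟨B', hB'⟩ := hB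
      obtain ⟨C', hC'⟩ := hC
      exact ⟨B' + C', fun i => by rw [Matrix.mul_add, Matrix.add_mul, hB', hC']⟩
    | mul B C _ _ hB hC =>
      obtain ⟨B', hB'⟩ := hB
      obtain ⟨C', hC'⟩ := hC
      exact ⟨B' * C', fun i => by
        rw [← Matrix.mul_assoc, hB', Matrix.mul_assoc, hC', Matrix.mul_assoc]⟩
  have hli : LinearIndependent ℂ v := by
    rw [Fintype.linearIndependent_iff]
    intro c hc
    have h1 : ∑ i, (b i : Matrix (Fin r) (Fin r₁) ℂ) *ᵥ (fun k => c (k, i)) = 0 := by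
      rw [← hc, Fintype.sum_prod_type_right]
      refine Finset.sum_congr rfl fun i _ => ?_
      ext x
      rw [Matrix.mulVec, dotProduct, Finset.sum_apply]
      simp only [hv, Pi.smul_apply, smul_eq_mul]
      exact Finset.sum_congr rfl fun k _ => mul_comm _ _
    have h2 : ∀ (k j : Fin r₁) (x : Fin r),
        ∑ i, c (k, i) * (b i : Matrix (Fin r) (Fin r₁) ℂ) x j = 0 := by
      intro k j x
      obtain ⟨B', hB'⟩ := hint (Matrix.of fun a a' => if a = j ∧ a' = k then 1 else 0)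
      have h3 : ∑ i, (b i : Matrix (Fin r) (Fin r₁) ℂ) *ᵥ
          ((Matrix.of fun a a' => if a = j ∧ a' = k then (1 : ℂ) else 0) *ᵥ
            (fun k => c (k, i))) = 0 := by
        have h4 : B' *ᵥ (∑ i, (b i : Matrix (Fin r) (Fin r₁) ℂ) *ᵥ (fun k => c (k, i))) = 0 := by
          rw [h1, Matrix.mulVec_zero]
        rw [Matrix.mulVec_sum] at h4
        rw [← h4]
        refine Finset.sum_congr rfl fun i _ => ?_
        rw [Matrix.mulVec_mulVec, Matrix.mulVec_mulVec, hB']
      have h5 := congrFun h3 x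
      rw [Finset.sum_apply] at h5
      rw [← Pi.zero_apply (M := fun _ : Fin r => ℂ) x, ← h5]
      refine Finset.sum_congr rfl fun i _ => ?_
      rw [Matrix.mulVec, dotProduct, Finset.sum_eq_single j]
      · rw [mul_comm]
        congr 1
        rw [Matrix.mulVec, dotProduct, Finset.sum_eq_single k]
        · simp
        · intro a _ ha
          simp [ha]
        · simp
      · intro a _ ha
        have : ((Matrix.of fun a a' => if a = j ∧ a' = k then (1 : ℂ) else 0) *ᵥ
            (fun k => c (k, i))) a = 0 := by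
          rw [Matrix.mulVec, dotProduct]
          exact Finset.sum_eq_zero fun a' _ => by simp [ha]
        rw [this, mul_zero]
      · simp
    rintro ⟨k, i⟩
    have h3 : ∑ i, c (k, i) • b i = 0 := by
      apply Subtype.ext
      ext x j
      rw [Submodule.coe_sum, Matrix.sum_apply]
      simp only [Submodule.coe_smul, Matrix.smul_apply, smul_eq_mul]
      exact h2 k j x
    exact (Fintype.linearIndependent_iff.1 b.linearIndependent) (fun i => c (k, i)) h3 i
  have hspan : Submodule.span ℂ (Set.range v) = ⊤ := by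
    have hA : Algebra.adjoin ℂ (Set.range (Sum.elim (fun w => (y₁ w : Mat r ℂ))
        fun w => (y₂ w : Mat r ℂ))) = ⊤ := by
      rw [Set.Sum.elim_range]
      exact htop
    have hinvS : ∀ k : G₁ ⊕ G₂, ∀ u ∈ Submodule.span ℂ (Set.range v),
        (Sum.elim (fun w => (y₁ w : Mat r ℂ)) (fun w => (y₂ w : Mat r ℂ)) k) *ᵥ u ∈
          Submodule.span ℂ (Set.range v) := by
      have key : ∀ M : Mat r ℂ, (∀ p, M *ᵥ v p ∈ Submodule.span ℂ (Set.range v)) →
          ∀ u ∈ Submodule.span ℂ (Set.range v), M *ᵥ u ∈ Submodule.span ℂ (Set.range v) := by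
        intro M hM u hu
        induction hu using Submodule.span_induction with
        | mem u hu =>
          obtain ⟨p, rfl⟩ := hu
          exact hM p
        | zero =>
          rw [Matrix.mulVec_zero]
          exact Submodule.zero_mem _
        | add u w _ _ hu hw =>
          rw [Matrix.mulVec_add]
          exact Submodule.add_mem _ hu hw
        | smul c u _ hu =>
          rw [Matrix.mulVec_smul]
          exact Submodule.smul_mem _ _ hu
      rintro (a | c)
      · apply key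
        intro p
        rw [Sum.elim_inl, hy₁]
        exact Submodule.sum_mem _ fun k _ => Submodule.smul_mem _ _
          (Submodule.subset_span ⟨_, rfl⟩)
      · apply key
        intro p
        rw [Sum.elim_inr, hy₂]
        exact Submodule.sum_mem _ fun k _ => Submodule.smul_mem _ _
          (Submodule.subset_span ⟨_, rfl⟩)
    rcases eq_bot_or_top_of_adjoin _ hA (Submodule.span ℂ (Set.range v)) hinvS with h | h
    · exfalso
      have h1 : v (⟨0, hr₁⟩, ⟨0, hr₂0⟩) ∈ Submodule.span ℂ (Set.range v) :=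
        Submodule.subset_span ⟨_, rfl⟩
      rw [h, Submodule.mem_bot] at h1
      exact hli.ne_zero _ h1
    · exact h
  obtain ⟨bV⟩ : Nonempty (Module.Basis (Fin r₁ × Fin r₂) ℂ (Fin r → ℂ)) :=
    ⟨Module.Basis.mk hli hspan.ge⟩
  obtain ⟨e⟩ : Nonempty (Fin r₁ × Fin r₂ ≃ Fin r) := ⟨bV.indexEquiv (Pi.basisFun ℂ (Fin r))⟩
  obtain ⟨P₀, hP₀⟩ : ∃ P₀ : Mat r ℂ, ∀ x i, P₀ x i = v (e.symm i) x :=
    ⟨Matrix.of fun x i => v (e.symm i) x, fun _ _ => rfl⟩
  have hdet : P₀.det ≠ 0 := by
    intro h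
    obtain ⟨w, hw, hw'⟩ := Matrix.exists_mulVec_eq_zero_iff.2 h
    apply hw
    have h1 : ∑ p, w (e p) • v p = 0 := by
      rw [← hw']
      ext x
      rw [Matrix.mulVec, dotProduct, Finset.sum_apply, ← e.sum_comp]
      refine Finset.sum_congr rfl fun p _ => ?_
      rw [hP₀, e.symm_apply_apply, Pi.smul_apply, smul_eq_mul, mul_comm]
    funext i
    have := (Fintype.linearIndependent_iff.1 hli) (fun p => w (e p)) h1 (e.symm i)
    rwa [e.apply_symm_apply] at this
  obtain ⟨P, hP⟩ : ∃ P : (Mat r ℂ)ˣ, (P : Mat r ℂ) = P₀ :=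
    (Matrix.isUnit_iff_isUnit_det P₀).2 (isUnit_iff_ne_zero.2 hdet)
  have h₁ : ∀ a, (y₁ a : Mat r ℂ) * (P : Mat r ℂ) = (P : Mat r ℂ) *
      Matrix.reindex e e (Matrix.kroneckerMap (· * ·) (z₁ a : Mat r₁ ℂ) (1 : Mat r₂ ℂ)) := by
    intro a
    ext x i
    have e1 : ((y₁ a : Mat r ℂ) * (P : Mat r ℂ)) x i =
        ((y₁ a : Mat r ℂ) *ᵥ v (e.symm i)) x := by
      rw [Matrix.mul_apply, Matrix.mulVec, dotProduct, hP]
      simp only [hP₀]
    rw [e1, hy₁, Matrix.mul_apply, ← e.sum_comp, Fintype.sum_prod_type, Finset.sum_apply]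
    refine Finset.sum_congr rfl fun k _ => ?_
    rw [Finset.sum_eq_single (e.symm i).2]
    · rw [hP, hP₀, e.symm_apply_apply, Matrix.reindex_apply, Matrix.submatrix_apply,
        e.symm_apply_apply, Matrix.kroneckerMap_apply, Matrix.one_apply_eq, mul_one,
        Pi.smul_apply, smul_eq_mul, mul_comm]
    · intro l _ hl
      rw [Matrix.reindex_apply, Matrix.submatrix_apply, e.symm_apply_apply,
        Matrix.kroneckerMap_apply, Matrix.one_apply_ne hl, mul_zero, mul_zero]
    · simp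
  have h₂ : ∀ c, (y₂ c : Mat r ℂ) * (P : Mat r ℂ) = (P : Mat r ℂ) *
      Matrix.reindex e e (Matrix.kroneckerMap (· * ·) (1 : Mat r₁ ℂ) (z₂ c : Mat r₂ ℂ)) := by
    intro c
    ext x i
    have e1 : ((y₂ c : Mat r ℂ) * (P : Mat r ℂ)) x i =
        ((y₂ c : Mat r ℂ) *ᵥ v (e.symm i)) x := by
      rw [Matrix.mul_apply, Matrix.mulVec, dotProduct, hP]
      simp only [hP₀]
    rw [e1, hy₂, Matrix.mul_apply, ← e.sum_comp, Fintype.sum_prod_type_right, Finset.sum_apply]
    refine Finset.sum_congr rfl fun l _ => ?_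
    rw [Finset.sum_eq_single (e.symm i).1]
    · rw [hP, hP₀, e.symm_apply_apply, Matrix.reindex_apply, Matrix.submatrix_apply,
        e.symm_apply_apply, Matrix.kroneckerMap_apply, Matrix.one_apply_eq, one_mul,
        Pi.smul_apply, smul_eq_mul, mul_comm]
    · intro k _ hk
      rw [Matrix.reindex_apply, Matrix.submatrix_apply, e.symm_apply_apply,
        Matrix.kroneckerMap_apply, Matrix.one_apply_ne hk, zero_mul, mul_zero]
    · simp
  have h₁' : ∀ a, (y₁ a : Mat r ℂ) = (P : Mat r ℂ) *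
      Matrix.reindex e e (Matrix.kroneckerMap (· * ·) (z₁ a : Mat r₁ ℂ) (1 : Mat r₂ ℂ)) *
        ((P⁻¹ : (Mat r ℂ)ˣ) : Mat r ℂ) := by
    intro a
    rw [← h₁, Matrix.mul_assoc, Units.mul_inv, Matrix.mul_one]
  have h₂' : ∀ c, (y₂ c : Mat r ℂ) = (P : Mat r ℂ) *
      Matrix.reindex e e (Matrix.kroneckerMap (· * ·) (1 : Mat r₁ ℂ) (z₂ c : Mat r₂ ℂ)) *
        ((P⁻¹ : (Mat r ℂ)ˣ) : Mat r ℂ) := by
    intro a
    rw [← h₂, Matrix.mul_assoc, Units.mul_inv, Matrix.mul_one]
  refine ⟨r₁, r₂, e, P, z₁, z₂, hr₁, hr₂0, hz₁, ?_, h₁', h₂'⟩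
  -- the blocks
  obtain ⟨A, hA⟩ : ∃ A, A = Algebra.adjoin ℂ (Set.range fun w => (z₂ w : Mat r₂ ℂ)) := ⟨_, rfl⟩
  rw [← hA]
  obtain ⟨blk, hblk⟩ : ∃ blk : Mat r ℂ → Fin r₁ → Fin r₁ → Mat r₂ ℂ, ∀ X j k l l',
      blk X j k l l' =
        (((P⁻¹ : (Mat r ℂ)ˣ) : Mat r ℂ) * X * (P : Mat r ℂ)) (e (j, l)) (e (k, l')) :=
    ⟨fun X j k => Matrix.of fun l l' => _, fun _ _ _ _ _ => rfl⟩
  have hmul : ∀ X Y j k, blk (X * Y) j k = ∑ m, blk X j m * blk Y m k := by
    intro X Y j k
    ext l l'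
    have e1 : ((P⁻¹ : (Mat r ℂ)ˣ) : Mat r ℂ) * (X * Y) * (P : Mat r ℂ) =
        (((P⁻¹ : (Mat r ℂ)ˣ) : Mat r ℂ) * X * (P : Mat r ℂ)) *
          (((P⁻¹ : (Mat r ℂ)ˣ) : Mat r ℂ) * Y * (P : Mat r ℂ)) := by
      simp only [Matrix.mul_assoc]
      rw [← Matrix.mul_assoc (P : Mat r ℂ) ((P⁻¹ : (Mat r ℂ)ˣ) : Mat r ℂ), Units.mul_inv,
        Matrix.one_mul]
    rw [hblk, e1, Matrix.mul_apply, ← e.sum_comp, Fintype.sum_prod_type, Matrix.sum_apply]
    refine Finset.sum_congr rfl fun m _ => ?_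
    rw [Matrix.mul_apply]
    simp only [hblk]
  obtain ⟨S, hS⟩ : ∃ S : Subalgebra ℂ (Mat r ℂ), ∀ X, X ∈ S ↔ ∀ j k, blk X j k ∈ A :=
    ⟨{ carrier := {X | ∀ j k, blk X j k ∈ A}
       mul_mem' := fun {X Y} hX hY j k => by
        rw [hmul]
        exact A.sum_mem fun m _ => A.mul_mem (hX j m) (hY m k)
       add_mem' := fun {X Y} hX hY j k => by
        have e1 : blk (X + Y) j k = blk X j k + blk Y j k := by
          ext l l'
          rw [Matrix.add_apply, hblk, hblk, hblk, Matrix.mul_add, Matrix.add_mul,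
            Matrix.add_apply]
        rw [e1]
        exact A.add_mem (hX j k) (hY j k)
       algebraMap_mem' := fun c j k => by
        have e1 : blk (algebraMap ℂ (Mat r ℂ) c) j k =
            (if j = k then c else 0) • (1 : Mat r₂ ℂ) := by
          ext l l'
          rw [hblk, Algebra.algebraMap_eq_smul_one, Matrix.mul_smul, Matrix.mul_one,
            Matrix.smul_mul, Units.inv_mul, Matrix.smul_apply, Matrix.smul_apply,
            Matrix.one_apply, Matrix.one_apply]
          by_cases hjk : j = k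
          · by_cases hl : l = l'
            · simp [hjk, hl]
            · simp [hjk, hl]
          · simp [hjk]
        rw [e1]
        exact A.smul_mem A.one_mem _ }, fun X => Iff.rfl⟩
  have hblkK : ∀ (K : Matrix (Fin r₁ × Fin r₂) (Fin r₁ × Fin r₂) ℂ) j k l l',
      blk ((P : Mat r ℂ) * Matrix.reindex e e K * ((P⁻¹ : (Mat r ℂ)ˣ) : Mat r ℂ)) j k l l' =
        K (j, l) (k, l') := by
    intro K j k l l'
    rw [hblk]
    have e1 : ((P⁻¹ : (Mat r ℂ)ˣ) : Mat r ℂ) * ((P : Mat r ℂ) * Matrix.reindex e e K *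
        ((P⁻¹ : (Mat r ℂ)ˣ) : Mat r ℂ)) * (P : Mat r ℂ) = Matrix.reindex e e K := by
      simp only [Matrix.mul_assoc]
      rw [Units.inv_mul, Matrix.mul_one, ← Matrix.mul_assoc, Units.inv_mul, Matrix.one_mul]
    rw [e1, Matrix.reindex_apply, Matrix.submatrix_apply, e.symm_apply_apply,
      e.symm_apply_apply]
  have hStop : S = ⊤ := by
    rw [eq_top_iff, ← htop, Algebra.adjoin_le_iff]
    rintro _ (⟨a, rfl⟩ | ⟨c, rfl⟩)
    · rw [SetLike.mem_coe, hS]
      intro j k
      have e1 : blk (y₁ a : Mat r ℂ) j k = (z₁ a : Mat r₁ ℂ) j k • (1 : Mat r₂ ℂ) := by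
        ext l l'
        rw [h₁', hblkK, Matrix.kroneckerMap_apply, Matrix.smul_apply, smul_eq_mul]
      rw [e1]
      exact A.smul_mem A.one_mem _
    · rw [SetLike.mem_coe, hS]
      intro j k
      have e1 : blk (y₂ c : Mat r ℂ) j k =
          (1 : Mat r₁ ℂ) j k • (z₂ c : Mat r₂ ℂ) := by
        ext l l'
        rw [h₂', hblkK, Matrix.kroneckerMap_apply, Matrix.smul_apply, smul_eq_mul]
      rw [e1]
      refine A.smul_mem ?_ _
      rw [hA]
      exact Algebra.subset_adjoin ⟨c, rfl⟩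
  rw [eq_top_iff]
  intro M _
  have h3 : (P : Mat r ℂ) * Matrix.reindex e e (Matrix.kroneckerMap (· * ·) (1 : Mat r₁ ℂ) M) *
      ((P⁻¹ : (Mat r ℂ)ˣ) : Mat r ℂ) ∈ S := by
    rw [hStop]
    exact Algebra.mem_top
  rw [hS] at h3
  have h4 := h3 ⟨0, hr₁⟩ ⟨0, hr₁⟩
  convert h4 using 1
  ext l l'
  rw [hblkK, Matrix.kroneckerMap_apply, Matrix.one_apply_eq, one_mul]

end Vale.Agent.P002R
end

section

/-! The eigenvalues of a matrix with algebraically independent entries. -/

namespace Vale.Agent.P002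

open Matrix

/-- Elementary symmetric functions of the eigenvalues as polynomials in the entries. -/
noncomputable def eE (r : ℕ) (i : Fin r) : MvPolynomial (Fin r × Fin r) ℤ :=
  (-1) ^ ((i : ℕ) + 1) * (Matrix.charpoly.univ ℤ (Fin r)).coeff (r - ((i : ℕ) + 1))

lemma aeval_eE {r : ℕ} {S : Type*} [CommRing S] (M : Matrix (Fin r) (Fin r) S) (f : Fin r → S)
    (h : M.charpoly = ∏ i, (Polynomial.X - Polynomial.C (f i))) (i : Fin r) :
    MvPolynomial.aeval (fun p : Fin r × Fin r => M p.1 p.2) (eE r i) =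
      MvPolynomial.aeval f (MvPolynomial.esymm (Fin r) ℤ ((i : ℕ) + 1)) := by
  rw [MvPolynomial.aeval_esymm_eq_multiset_esymm, eE, map_mul, map_pow, map_neg, map_one]
  have h1 : MvPolynomial.aeval (fun p : Fin r × Fin r => M p.1 p.2)
      ((Matrix.charpoly.univ ℤ (Fin r)).coeff (r - ((i : ℕ) + 1))) =
      M.charpoly.coeff (r - ((i : ℕ) + 1)) := by
    have := Matrix.charpoly.univ_coeff_eval₂Hom (Fin r) (Int.castRingHom S)
      (fun p : Fin r × Fin r => M p.1 p.2) (r - ((i : ℕ) + 1))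
    rw [show (Matrix.of (Function.curry fun p : Fin r × Fin r => M p.1 p.2)) = M from rfl] at this
    rw [← this]
    rfl
  have hi := i.2
  have hcard : Multiset.card (Finset.univ.val.map f) = r := by simp
  have h2 : M.charpoly.coeff (r - ((i : ℕ) + 1)) =
      (-1) ^ ((i : ℕ) + 1) * (Finset.univ.val.map f).esymm ((i : ℕ) + 1) := by
    have h3 : M.charpoly = ((Finset.univ.val.map f).map
        (fun t => Polynomial.X - Polynomial.C t)).prod := by
      rw [h, Multiset.map_map]; rfl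
    rw [h3, Multiset.prod_X_sub_C_coeff _ (by rw [hcard]; omega), hcard,
      show r - (r - ((i : ℕ) + 1)) = (i : ℕ) + 1 by omega]
  rw [h1, h2, ← mul_assoc, ← mul_pow]
  simp

lemma aeval_key {r : ℕ} {S : Type*} [CommRing S] (M : Matrix (Fin r) (Fin r) S) (f : Fin r → S)
    (hM : M.charpoly = ∏ i, (Polynomial.X - Polynomial.C (f i)))
    (q : MvPolynomial (Fin r) ℤ) :
    MvPolynomial.aeval (fun p : Fin r × Fin r => M p.1 p.2) (MvPolynomial.aeval (eE r) q) =
      MvPolynomial.aeval f (MvPolynomial.aeval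
        (fun i : Fin r => MvPolynomial.esymm (Fin r) ℤ ((i : ℕ) + 1)) q) := by
  have h1 := DFunLike.congr_fun (MvPolynomial.comp_aeval (R := ℤ) (eE r)
    (MvPolynomial.aeval (fun p : Fin r × Fin r => M p.1 p.2))) q
  have h2 := DFunLike.congr_fun (MvPolynomial.comp_aeval (R := ℤ)
    (fun i : Fin r => MvPolynomial.esymm (Fin r) ℤ ((i : ℕ) + 1)) (MvPolynomial.aeval f)) q
  simp only [AlgHom.comp_apply] at h1 h2
  rw [h1, h2]
  congr 2
  funext i
  exact aeval_eE M f hM i

/-- The eigenvalues are algebraically independent. -/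
theorem algebraicIndependent_eigen {r : ℕ} {K : Type*} [CommRing K] [IsDomain K]
    (X : Matrix (Fin r) (Fin r) K)
    (hX : AlgebraicIndependent ℤ fun p : Fin r × Fin r => X p.1 p.2) (l : Fin r → K)
    (hl : X.charpoly = ∏ i, (Polynomial.X - Polynomial.C (l i))) :
    AlgebraicIndependent ℤ l := by
  classical
  rw [algebraicIndependent_iff]
  intro p hp
  by_contra hp0
  set p' : MvPolynomial (Fin r) ℤ := ∏ σ : Equiv.Perm (Fin r), MvPolynomial.rename σ p with hp'
  have hsym : p'.IsSymmetric := by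
    intro e
    rw [hp', map_prod]
    simp only [MvPolynomial.rename_rename]
    exact Fintype.prod_equiv (Equiv.mulLeft e) _ _ (fun σ => rfl)
  have hne : p' ≠ 0 := by
    rw [hp', Finset.prod_ne_zero_iff]
    intro σ _ h
    apply hp0
    apply MvPolynomial.rename_injective σ σ.injective
    rw [h, map_zero]
  have hz : MvPolynomial.aeval l p' = 0 := by
    rw [hp', map_prod]
    apply Finset.prod_eq_zero (Finset.mem_univ 1)
    simpa using hp
  obtain ⟨q, hq⟩ := MvPolynomial.esymmAlgHom_fin_surjective (R := ℤ) (le_refl r) ⟨p', hsym⟩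
  have hq' : MvPolynomial.aeval
      (fun i : Fin r => MvPolynomial.esymm (Fin r) ℤ ((i : ℕ) + 1)) q = p' := by
    rw [← MvPolynomial.esymmAlgHom_apply, hq]
  have h1 := aeval_key X l hl q
  rw [hq', hz] at h1
  have h2 : MvPolynomial.aeval (eE r) q = 0 := by
    rw [algebraicIndependent_iff] at hX
    exact hX _ h1
  have h3 := aeval_key (Matrix.diagonal (MvPolynomial.X : Fin r → MvPolynomial (Fin r) ℤ))
    MvPolynomial.X (Matrix.charpoly_diagonal _) q
  rw [h2, map_zero, hq'] at h3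
  apply hne
  rw [h3]
  clear_value p'
  clear hq hq' hz hp' hsym h3 hne
  induction p' using MvPolynomial.induction_on with
  | C a => simp
  | add p q hp hq => rw [map_add, ← hp, ← hq]
  | mul_X p i hp => rw [map_mul, ← hp, MvPolynomial.aeval_X]

/-- TASK A -/
theorem exists_diag {r : ℕ} {K : Type*} [Field K] [IsAlgClosed K] [CharZero K] (X : Mat r K)
    (hX : AlgebraicIndependent ℤ fun p : Fin r × Fin r => X p.1 p.2) :
    ∃ (P : (Mat r K)ˣ) (l : Fin r → K),
      X = (P : Mat r K) * diagonal l * ((P⁻¹ : (Mat r K)ˣ) : Mat r K) ∧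
        AlgebraicIndependent ℤ l := by
  classical
  obtain ⟨l, hl⟩ : ∃ l : Fin r → K, X.charpoly = ∏ i, (Polynomial.X - Polynomial.C (l i)) := by
    have hs : X.charpoly.Splits := IsAlgClosed.splits _
    have h1 := hs.eq_prod_roots_of_monic (Matrix.charpoly_monic X)
    have hcard : Multiset.card X.charpoly.roots = r := by
      rw [← hs.natDegree_eq_card_roots, Matrix.charpoly_natDegree_eq_dim, Fintype.card_fin]
    obtain ⟨L, hL⟩ : ∃ L : List K, (L : Multiset K) = X.charpoly.roots := ⟨_, Multiset.coe_toList _⟩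
    have hLlen : L.length = r := by rw [← hcard, ← hL]; rfl
    subst hLlen
    refine ⟨L.get, ?_⟩
    rw [h1, ← hL, Multiset.map_coe, Multiset.prod_coe]
    rw [← List.prod_ofFn]
    congr 1
    have h2 : L = List.ofFn L.get := (List.ofFn_get L).symm
    conv_lhs => rw [h2, List.map_ofFn]
    rfl
  have hind := algebraicIndependent_eigen X hX l hl
  have hinj : Function.Injective l := hind.injective
  have hev : ∀ i, ∃ v : Fin r → K, v ≠ 0 ∧ X *ᵥ v = l i • v := by
    intro i
    have hdet : (Matrix.scalar (Fin r) (l i) - X).det = 0 := by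
      rw [← Matrix.eval_charpoly, hl, Polynomial.eval_prod]
      apply Finset.prod_eq_zero (Finset.mem_univ i)
      simp
    obtain ⟨v, hv, hv2⟩ := Matrix.exists_mulVec_eq_zero_iff.mpr hdet
    refine ⟨v, hv, ?_⟩
    rw [Matrix.sub_mulVec, sub_eq_zero] at hv2
    rw [← hv2]
    simp
  choose v hv hXv using hev
  have hlin : LinearIndependent K v := by
    apply Module.End.eigenvectors_linearIndependent' (Matrix.toLin' X) l hinj v
    intro i
    refine ⟨?_, hv i⟩
    rw [Module.End.mem_eigenspace_iff, Matrix.toLin'_apply, hXv]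
  set P : Mat r K := Matrix.of (fun i j => v j i) with hP
  have hPu : IsUnit P := by
    rw [← Matrix.linearIndependent_cols_iff_isUnit]
    exact hlin
  obtain ⟨u, hu⟩ := hPu
  refine ⟨u, l, ?_, hind⟩
  have hXP : X * P = P * diagonal l := by
    ext i j
    have := congrFun (hXv j) i
    rw [Matrix.mul_diagonal]
    simp only [hP, Matrix.of_apply]
    rw [Matrix.mul_apply]
    simp only [Matrix.mulVec, dotProduct, Pi.smul_apply, smul_eq_mul] at this
    rw [mul_comm, ← this]
    rfl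
  rw [hu, ← hXP, ← hu, mul_assoc, Units.mul_inv, mul_one]

end Vale.Agent.P002
end

section

/-!
# P002 TASK D: generic matrices
-/

namespace Vale.Agent.P002

open Matrix

variable {g r : ℕ}

/-- TASK D (4): genericity lifts. -/
theorem generic_lift {S T : Type*} [CommRing S] [CommRing T] (θ : S →+* T) (C : Mat r S)
    (hC : AlgebraicIndependent ℤ fun p : Fin r × Fin r => (C.map θ) p.1 p.2) :
    AlgebraicIndependent ℤ fun p : Fin r × Fin r => C p.1 p.2 :=
  AlgebraicIndependent.of_comp θ.toIntAlgHom hC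

end Vale.Agent.P002
end

section

/-!
# Groups all of whose representations have commuting generators
-/

namespace Vale.Agent.P002R

open Matrix

variable {κ ι : Type} {r : ℕ}

/-- If the generators commute in every representation, the irreducible representations are
integral up to scalars. -/
theorem abel_irrDense_aux {R : Type*} [CommRing R] (φ : R →+* ℂ) (E : Subgroup ℂˣ)
    (Rel : Set (FreeGroup (κ ⊕ ι))) (hr : 0 < r)
    (hab : ∀ x : FreeGroup (κ ⊕ ι) →* (Mat r ℂ)ˣ, (∀ w ∈ Rel, x w = 1) →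
      ∀ k l, Commute (x (FreeGroup.of k)) (x (FreeGroup.of l))) : IrrDense Rel φ E r := by
  intro C _ x hx hirr f hf
  apply hf
  refine ⟨⟨hx, fun k => ?_⟩, burnside_top x hx.2.2 hirr⟩
  have hcomm : ∀ w, Commute (x (FreeGroup.of k)) (x w) := by
    intro w
    induction w using FreeGroup.induction_on with
    | C1 =>
      rw [map_one]
      exact Commute.one_right _
    | of l => exact hab x hx.1 k l
    | inv_of l hl =>
      rw [map_inv]
      exact hl.inv_right
    | mul a b ha hb =>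
      rw [map_mul]
      exact ha.mul_right hb
  obtain ⟨c, hc⟩ := hirr (x (FreeGroup.of k) : Mat r ℂ) (fun w => by
    exact congrArg Units.val (hcomm w).eq)
  have hc0 : c ≠ 0 := by
    rintro rfl
    rw [zero_smul] at hc
    have h1 : (x (FreeGroup.of k) : Mat r ℂ) * ((x (FreeGroup.of k))⁻¹ : (Mat r ℂ)ˣ) = 1 :=
      Units.mul_inv _
    rw [hc, Matrix.zero_mul] at h1
    have h2 := congrFun (congrFun h1 ⟨0, hr⟩) ⟨0, hr⟩
    rw [Matrix.zero_apply, Matrix.one_apply_eq] at h2
    exact zero_ne_one h2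
  refine ⟨Units.mk0 c hc0, 1, ?_⟩
  rw [map_one, mul_one]
  apply Units.ext
  rw [hc]
  change c • (1 : Mat r ℂ) = algebraMap ℂ (Mat r ℂ) c
  rw [Algebra.algebraMap_eq_smul_one]

theorem abel_irrDense {R : Type*} [CommRing R] (φ : R →+* ℂ) (E : Subgroup ℂˣ)
    (Rel : Set (FreeGroup (κ ⊕ ι)))
    (hab : ∀ (r' : ℕ) (x : FreeGroup (κ ⊕ ι) →* (Mat r' ℂ)ˣ), (∀ w ∈ Rel, x w = 1) →
      ∀ k l, Commute (x (FreeGroup.of k)) (x (FreeGroup.of l))) (r : ℕ) (hr : 0 < r) :
    IrrDense Rel φ E r :=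
  abel_irrDense_aux φ E Rel hr (hab r)

/-- The commutation of the generators for a surface group `π₁` with `χ ≥ 0`: the sphere with at
most two punctures and the torus. -/
theorem surface_comm {g n : ℕ} (hgn : (g = 0 ∧ n ≤ 2) ∨ (g = 1 ∧ n = 0)) (r' : ℕ)
    (x : FreeGroup ((Fin g × Bool) ⊕ Fin n) →* (Mat r' ℂ)ˣ)
    (hx : ∀ w ∈ ({relatorU g n} : Set (FreeGroup ((Fin g × Bool) ⊕ Fin n))), x w = 1) :
    ∀ k l, Commute (x (FreeGroup.of k)) (x (FreeGroup.of l)) := by
  have h0 := hx _ (Set.mem_singleton _)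
  rw [relatorU_eqn] at h0
  rcases hgn with ⟨rfl, hn⟩ | ⟨rfl, rfl⟩
  · interval_cases n
    · rintro (k | k)
      · exact k.1.elim0
      · exact k.elim0
    · rintro (k | k) (l | l)
      · exact k.1.elim0
      · exact k.1.elim0
      · exact l.1.elim0
      · rw [Subsingleton.elim k l]
    · have h1 : x (FreeGroup.of (Sum.inr 0)) * x (FreeGroup.of (Sum.inr 1)) = 1 := by
        simpa using h0
      have h2 : Commute (x (FreeGroup.of (Sum.inr 0))) (x (FreeGroup.of (Sum.inr 1))) := by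
        rw [eq_inv_of_mul_eq_one_left h1]
        exact (Commute.refl _).inv_left
      rintro (k | k) (l | l)
      · exact k.1.elim0
      · exact k.1.elim0
      · exact l.1.elim0
      · fin_cases k <;> fin_cases l
        · exact Commute.refl _
        · exact h2
        · exact h2.symm
        · exact Commute.refl _
  · have h1 : x (FreeGroup.of (Sum.inl (0, false))) * x (FreeGroup.of (Sum.inl (0, true))) *
        (x (FreeGroup.of (Sum.inl (0, false))))⁻¹ * (x (FreeGroup.of (Sum.inl (0, true))))⁻¹ =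
          1 := by
      simpa using h0
    have h2 : Commute (x (FreeGroup.of (Sum.inl (0, false))))
        (x (FreeGroup.of (Sum.inl (0, true)))) := by
      have h3 := mul_inv_eq_one.1 h1
      rw [mul_inv_eq_iff_eq_mul] at h3
      exact h3
    rintro (⟨k, b⟩ | k) (⟨l, b'⟩ | l)
    · rw [Subsingleton.elim k 0, Subsingleton.elim l 0]
      cases b <;> cases b'
      · exact Commute.refl _
      · exact h2
      · exact h2.symm
      · exact Commute.refl _
    · exact l.elim0
    · exact k.elim0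
    · exact k.elim0

end Vale.Agent.P002R
end

section

/-!
# Density of integral pairs of rectangular matrices
-/

namespace Vale.Agent.P002G

open Matrix
open Vale.Agent.P002R (UpT LoT upT_one loT_one)

variable {n m p : ℕ} {S R : Type*} [CommRing S] [CommRing R]

/-- New first column. -/
def colC (x0 : Fin m → S) (x : Matrix (Fin m) (Fin p) S) : Matrix (Fin m) (Fin (p + 1)) S :=
  Matrix.of fun i => Fin.cons (x0 i) (x i)

/-- New first row. -/
def rowC (y0 : Fin m → S) (Y : Matrix (Fin p) (Fin m) S) : Matrix (Fin (p + 1)) (Fin m) S :=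
  Matrix.of (Fin.cons y0 Y)

theorem colC_mul_rowC (x0 y0 : Fin m → S) (x : Matrix (Fin m) (Fin p) S)
    (Y : Matrix (Fin p) (Fin m) S) : colC x0 x * rowC y0 Y = vecMulVec x0 y0 + x * Y := by
  ext i j
  rw [Matrix.mul_apply, Fin.sum_univ_succ, Matrix.add_apply, vecMulVec_apply, Matrix.mul_apply]
  rfl

theorem rowC_mul_colC_submatrix (x0 y0 : Fin m → S) (x : Matrix (Fin m) (Fin p) S)
    (Y : Matrix (Fin p) (Fin m) S) :
    (1 + rowC y0 Y * colC x0 x).submatrix Fin.succ Fin.succ = 1 + Y * x := by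
  ext i j
  rw [Matrix.submatrix_apply, Matrix.add_apply, Matrix.add_apply, Matrix.mul_apply,
    Matrix.mul_apply, Matrix.one_apply, Matrix.one_apply]
  simp only [Fin.succ_inj]
  rfl

omit [CommRing S] in
theorem colC_eta (x : Matrix (Fin m) (Fin (p + 1)) S) :
    colC (fun i => x i 0) (Matrix.of fun i j => x i j.succ) = x := by
  ext i j
  refine Fin.cases ?_ (fun j => ?_) j <;> rfl

omit [CommRing S] in
theorem rowC_eta (Y : Matrix (Fin (p + 1)) (Fin m) S) :
    rowC (Y 0) (Matrix.of fun i j => Y i.succ j) = Y := by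
  ext i j
  refine Fin.cases ?_ (fun i => ?_) i <;> rfl

theorem polyMap_colC {V : Type*} [AddCommGroup V] [Module ℂ V] {f : V → Fin m → ℂ}
    {g : V → Matrix (Fin m) (Fin p) ℂ} (hf : PolyMap f) (hg : PolyMap g) :
    PolyMap fun v => colC (f v) (g v) := by
  apply polyMap_matrix
  intro i j
  refine Fin.cases ?_ (fun j => ?_) j
  · exact hf.coord i
  · exact hg.entry i j

theorem polyMap_rowC {V : Type*} [AddCommGroup V] [Module ℂ V] {f : V → Fin m → ℂ}
    {g : V → Matrix (Fin p) (Fin m) ℂ} (hf : PolyMap f) (hg : PolyMap g) :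
    PolyMap fun v => rowC (f v) (g v) := by
  apply polyMap_matrix
  intro i j
  refine Fin.cases ?_ (fun i => ?_) i
  · exact hf.coord j
  · exact hg.entry i j

theorem vecMulVec_mul' (s μ : Fin m → S) (A : Matrix (Fin m) (Fin m) S) :
    vecMulVec s μ * A = vecMulVec s (μ ᵥ* A) := by
  ext i j
  rw [Matrix.mul_apply, vecMulVec_apply, vecMul, dotProduct, Finset.mul_sum]
  refine Finset.sum_congr rfl fun k _ => ?_
  rw [vecMulVec_apply]
  ring

theorem mul_vecMulVec' (s μ : Fin m → S) (A : Matrix (Fin m) (Fin m) S) :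
    A * vecMulVec s μ = vecMulVec (A *ᵥ s) μ := by
  ext i j
  rw [Matrix.mul_apply, vecMulVec_apply, mulVec, dotProduct, Finset.sum_mul]
  refine Finset.sum_congr rfl fun k _ => ?_
  rw [vecMulVec_apply]
  ring

/-- The integral pairs. -/
def GoodPair (D : R) (x : Matrix (Fin m) (Fin p) R) (Y : Matrix (Fin p) (Fin m) R) : Prop :=
  (∀ i j, D ∣ Y i j) ∧ InC (1 + Y * x) ∧ ∃ V, InC V ∧ V * (1 + x * Y) = 1

/-- Density of the integral pairs. -/
theorem pairs_dense (φ : R →+* ℂ) (u : Rˣ) (hu : ∀ k : ℕ, 0 < k → φ u ^ k ≠ 1) (D : R)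
    (hD : ∃ M : ℕ, 0 < M ∧ D ∣ (u : R) ^ M - 1) {m : ℕ} : ∀ {p : ℕ}
    (F : Matrix (Fin m) (Fin p) ℂ × Matrix (Fin p) (Fin m) ℂ → ℂ) (_ : IsPoly F)
    (_ : ∀ (x : Matrix (Fin m) (Fin p) R) (Y : Matrix (Fin p) (Fin m) R), GoodPair D x Y →
      F (x.map φ, Y.map φ) = 0)
    (x : Matrix (Fin m) (Fin p) ℂ) (Y : Matrix (Fin p) (Fin m) ℂ), F (x, Y) = 0 := by
  intro p
  induction p with
  | zero =>
    intro F _ h x Y
    have h1 := h (Matrix.of fun i j => j.elim0) (Matrix.of fun i j => i.elim0)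
      ⟨fun i => i.elim0, ⟨1, 1, upT_one, fun i => i.elim0, loT_one, fun i => i.elim0,
        Matrix.ext fun i => i.elim0⟩, 1, inC_one, by
          rw [one_mul]
          ext i j
          rw [Matrix.add_apply, Matrix.mul_apply, Finset.univ_eq_empty, Finset.sum_empty,
            add_zero]⟩
    convert h1 using 3
    · ext i j; exact j.elim0
    · ext i j; exact i.elim0
  | succ p ih =>
    intro F hF h x Y
    rw [← colC_eta x, ← rowC_eta Y]
    obtain ⟨x0, hx0⟩ : ∃ x0 : Fin m → ℂ, x0 = fun i => x i 0 := ⟨_, rfl⟩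
    obtain ⟨y0, hy0⟩ : ∃ y0 : Fin m → ℂ, y0 = Y 0 := ⟨_, rfl⟩
    rw [← hx0, ← hy0]
    have hlin1 : PolyMap fun z : Matrix (Fin m) (Fin p) ℂ × Matrix (Fin p) (Fin m) ℂ => z.1 :=
      polyMap_linear (LinearMap.fst ℂ (Matrix (Fin m) (Fin p) ℂ) (Matrix (Fin p) (Fin m) ℂ))
    have hlin2 : PolyMap fun z : Matrix (Fin m) (Fin p) ℂ × Matrix (Fin p) (Fin m) ℂ => z.2 :=
      polyMap_linear (LinearMap.snd ℂ (Matrix (Fin m) (Fin p) ℂ) (Matrix (Fin p) (Fin m) ℂ))
    apply ih (fun z => F (colC x0 z.1, rowC y0 z.2))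
      (((polyMap_colC (polyMap_const x0) hlin1).prodMk
        (polyMap_rowC (polyMap_const y0) hlin2)).comp hF)
    intro a B hab
    obtain ⟨hBD, hH, V, hV, hVK⟩ := hab
    obtain ⟨U, L, hU, hU1, hL, hL1, rfl⟩ := hV
    have hUu := (Matrix.isUnit_iff_isUnit_det _).1 (isUnit_of_upT hU hU1)
    have hLu := (Matrix.isUnit_iff_isUnit_det _).1 (isUnit_of_loT hL hL1)
    -- the linear change of coordinates
    have hm1 : PolyMap fun z : (Fin m → ℂ) × (Fin m → ℂ) => (L⁻¹).map φ *ᵥ z.1 :=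
      polyMap_linear ((Matrix.mulVecLin ((L⁻¹).map φ)).comp (LinearMap.fst ℂ (Fin m → ℂ) (Fin m → ℂ)))
    have hm2 : PolyMap fun z : (Fin m → ℂ) × (Fin m → ℂ) => z.2 ᵥ* (U⁻¹).map φ :=
      polyMap_linear ((Matrix.vecMulLinear ((U⁻¹).map φ)).comp
        (LinearMap.snd ℂ (Fin m → ℂ) (Fin m → ℂ)))
    have key := refl_dense φ u hu D hD
      (fun z => F (colC ((L⁻¹).map φ *ᵥ z.1) (a.map φ), rowC (z.2 ᵥ* (U⁻¹).map φ) (B.map φ)))
      (((polyMap_colC hm1 (polyMap_const _)).prodMk (polyMap_rowC hm2 (polyMap_const _))).comp hF)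
      ?_ (L.map φ *ᵥ x0) (y0 ᵥ* U.map φ)
    · beta_reduce at key
      rw [Matrix.mulVec_mulVec, Matrix.vecMul_vecMul, ← Matrix.map_mul, ← Matrix.map_mul,
        Matrix.nonsing_inv_mul _ hLu, Matrix.mul_nonsing_inv _ hUu, Matrix.map_one φ (map_zero φ)
          (map_one φ), Matrix.one_mulVec,
        Matrix.vecMul_one] at key
      exact key
    · rintro s μ hμ ⟨t, ht, hts⟩
      have h1 := h (colC (L⁻¹ *ᵥ s) a) (rowC (μ ᵥ* U⁻¹) B) ?_
      · convert h1 using 3
        · ext i j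
          refine Fin.cases ?_ (fun j => ?_) j
          · exact (RingHom.map_mulVec φ (L⁻¹) s i).symm
          · rfl
        · ext i j
          refine Fin.cases ?_ (fun i => ?_) i
          · exact (RingHom.map_vecMul φ (U⁻¹) μ j).symm
          · rfl
      · -- the new inverse
        have hK : (U * (1 + vecMulVec t μ) * L) *
            (1 + colC (L⁻¹ *ᵥ s) a * rowC (μ ᵥ* U⁻¹) B) = 1 := by
          have h2 : L⁻¹ * U⁻¹ = 1 + a * B := by
            rw [← Matrix.mul_inv_rev]
            exact Matrix.inv_eq_right_inv hVK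
          rw [colC_mul_rowC, add_comm (vecMulVec _ _), ← add_assoc, ← h2, ← vecMulVec_mul',
            ← mul_vecMulVec']
          have h3 : L * (L⁻¹ * U⁻¹ + L⁻¹ * vecMulVec s μ * U⁻¹) =
              (1 + vecMulVec s μ) * U⁻¹ := by
            rw [Matrix.mul_add, ← Matrix.mul_assoc, ← Matrix.mul_assoc, ← Matrix.mul_assoc,
              Matrix.mul_nonsing_inv _ hLu, Matrix.one_mul, Matrix.one_mul, Matrix.add_mul,
              Matrix.one_mul]
          rw [Matrix.mul_assoc, h3, Matrix.mul_assoc, ← Matrix.mul_assoc (1 + vecMulVec t μ), hts,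
            Matrix.one_mul, Matrix.mul_nonsing_inv _ hUu]
        refine ⟨?_, ?_, _, (ht.mul_up hU hU1).mul_low hL hL1, hK⟩
        · intro i j
          refine Fin.cases ?_ (fun i => ?_) i
          · change D ∣ (μ ᵥ* U⁻¹) j
            rw [vecMul, dotProduct]
            exact Finset.dvd_sum fun k _ => (hμ k).mul_right _
          · exact hBD i j
        · apply InC.bord
          · rw [rowC_mul_colC_submatrix]
            exact hH
          · rw [Matrix.isUnit_iff_isUnit_det, Matrix.det_one_add_mul_comm,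
              ← Matrix.isUnit_iff_isUnit_det]
            exact IsUnit.of_mul_eq_one_right _ hK

end Vale.Agent.P002G
end

section

/-!
# Curve groups with free punctures and prescribed classes: elimination of one free generator
-/

namespace Vale.Agent.P002R.Orb

open Matrix NumberField

/-! ### One curve -/

section curve

variable {g n : ℕ} {P : Fin n → Prop} {o : Option (Fin n)}

/-- The free generators: the handles and the free punctures other than `o`. -/
abbrev KO (g : ℕ) {n : ℕ} (P : Fin n → Prop) (o : Option (Fin n)) :=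
  (Fin g × Bool) ⊕ {j : Fin n // ¬ P j ∧ o ≠ some j}

/-- The generators with prescribed classes. -/
abbrev IO {n : ℕ} (P : Fin n → Prop) := {j : Fin n // P j}

open Classical in
/-- The generator of a puncture. -/
noncomputable def gO (g : ℕ) {n : ℕ} (P : Fin n → Prop) (o : Option (Fin n)) (j : Fin n) :
    FreeGroup (KO g P o ⊕ IO P) :=
  if h : P j then FreeGroup.of (Sum.inr ⟨j, h⟩) else
    if h' : o ≠ some j then FreeGroup.of (Sum.inl (Sum.inr ⟨j, h, h'⟩)) else 1

/-- The product of the commutators. -/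
def hO (g : ℕ) {n : ℕ} (P : Fin n → Prop) (o : Option (Fin n)) : FreeGroup (KO g P o ⊕ IO P) :=
  (List.ofFn fun l : Fin g => (FreeGroup.of (Sum.inl (Sum.inl (l, false))) *
    FreeGroup.of (Sum.inl (Sum.inl (l, true))) *
    (FreeGroup.of (Sum.inl (Sum.inl (l, false))))⁻¹ *
    (FreeGroup.of (Sum.inl (Sum.inl (l, true))))⁻¹ : FreeGroup (KO g P o ⊕ IO P))).prod

/-- The surface word. -/
noncomputable def tO (g : ℕ) {n : ℕ} (P : Fin n → Prop) (o : Option (Fin n)) :
    FreeGroup (KO g P o ⊕ IO P) :=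
  hO g P o * (List.ofFn fun j => gO g P o j).prod

/-- The relator, if there is no free puncture. -/
def RelO (g : ℕ) {n : ℕ} (P : Fin n → Prop) (o : Option (Fin n)) :
    Set (FreeGroup (KO g P o ⊕ IO P)) := {w | o = none ∧ w = tO g P o}

open Classical in
/-- The generators as words. -/
noncomputable def wO (g : ℕ) {n : ℕ} (P : Fin n → Prop) (o : Option (Fin n)) :
    (Fin g × Bool) ⊕ Fin n → FreeGroup (KO g P o ⊕ IO P)
  | Sum.inl p => FreeGroup.of (Sum.inl (Sum.inl p))
  | Sum.inr j => if o = some j then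
      ((List.ofFn fun j => gO g P o j).take j).prod⁻¹ * (hO g P o)⁻¹ *
        ((List.ofFn fun j => gO g P o j).drop (j + 1)).prod⁻¹
      else gO g P o j

/-- The generators are a part of the given generators. -/
def bO (g : ℕ) {n : ℕ} (P : Fin n → Prop) (o : Option (Fin n)) :
    KO g P o ⊕ IO P → (Fin g × Bool) ⊕ Fin n
  | Sum.inl (Sum.inl p) => Sum.inl p
  | Sum.inl (Sum.inr j) => Sum.inr j.1
  | Sum.inr j => Sum.inr j.1

/-- The surface relation. -/
def SRel {H : Type*} [Group H] (c : (Fin g × Bool) ⊕ Fin n → H) : Prop :=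
  (List.ofFn fun l : Fin g => c (Sum.inl (l, false)) * c (Sum.inl (l, true)) *
    (c (Sum.inl (l, false)))⁻¹ * (c (Sum.inl (l, true)))⁻¹).prod *
      (List.ofFn fun j : Fin n => c (Sum.inr j)).prod = 1

theorem prod_split {H : Type*} [Group H] (c c' : Fin n → H) (j₀ : Fin n)
    (h : ∀ j, j ≠ j₀ → c j = c' j) : (List.ofFn c).prod =
      ((List.ofFn c').take j₀).prod * (c j₀ * ((List.ofFn c').drop (j₀ + 1)).prod) := by
  have h1 : (List.ofFn c').take j₀ = (List.ofFn c).take j₀ := by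
    apply List.ext_getElem
    · simp
    · intro i hi hi'
      simp only [List.getElem_take, List.getElem_ofFn]
      refine (h _ fun h0 => ?_).symm
      have h2 := congrArg Fin.val h0
      simp only [List.length_take, List.length_ofFn] at hi h2
      omega
  have h2 : (List.ofFn c').drop (j₀ + 1) = (List.ofFn c).drop (j₀ + 1) := by
    apply List.ext_getElem
    · simp
    · intro i hi hi'
      simp only [List.getElem_drop, List.getElem_ofFn]
      refine (h _ fun h0 => ?_).symm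
      have h2 := congrArg Fin.val h0
      simp only at h2
      omega
  rw [h1, h2]
  have h3 : (j₀ : ℕ) < (List.ofFn c).length := by
    rw [List.length_ofFn]
    exact j₀.2
  have h4 := List.take_append_drop (j₀ : ℕ) (List.ofFn c)
  rw [List.drop_eq_getElem_cons h3] at h4
  have h5 := congrArg List.prod h4
  rw [List.prod_append, List.prod_cons, List.getElem_ofFn] at h5
  exact h5.symm

theorem map_hO {H : Type*} [Group H] (y : FreeGroup (KO g P o ⊕ IO P) →* H) :
    y (hO g P o) = (List.ofFn fun l : Fin g => y (wO g P o (Sum.inl (l, false))) *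
      y (wO g P o (Sum.inl (l, true))) * (y (wO g P o (Sum.inl (l, false))))⁻¹ *
        (y (wO g P o (Sum.inl (l, true))))⁻¹).prod := by
  unfold hO wO
  rw [map_list_prod, List.map_ofFn]
  congr 2
  funext l
  simp only [Function.comp, map_mul, map_inv]

theorem wO_inr_of_ne {j : Fin n} (h : o ≠ some j) : wO g P o (Sum.inr j) = gO g P o j := by
  simp only [wO]
  rw [if_neg h]

theorem wO_inr_self (j : Fin n) : wO g P (some j) (Sum.inr j) =
    ((List.ofFn fun j' => gO g P (some j) j').take j).prod⁻¹ * (hO g P (some j))⁻¹ *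
      ((List.ofFn fun j' => gO g P (some j) j').drop (j + 1)).prod⁻¹ := by
  simp only [wO, if_true]

/-- The words satisfy the surface relation. -/
theorem srel_word {H : Type*} [Group H] (y : FreeGroup (KO g P o ⊕ IO P) →* H)
    (hy : ∀ w ∈ RelO g P o, y w = 1) : SRel fun p => y (wO g P o p) := by
  unfold SRel
  rw [← map_hO]
  rcases o with _ | j₀
  · have h1 := hy _ ⟨rfl, rfl⟩
    rw [tO, map_mul, map_list_prod, List.map_ofFn] at h1
    have h2 : (fun j : Fin n => y (wO g P none (Sum.inr j))) = y ∘ fun j => gO g P none j := by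
      funext j
      rw [wO_inr_of_ne (by simp)]
      rfl
    rw [h2]
    exact h1
  · rw [prod_split _ (y ∘ fun j => gO g P (some j₀) j) j₀ fun j hj => by
      simp only [Function.comp]
      rw [wO_inr_of_ne fun h => hj (Option.some.inj h).symm]]
    dsimp only
    rw [wO_inr_self, ← List.map_ofFn, ← List.map_take, ← List.map_drop, ← map_list_prod, ← map_list_prod,
      ← map_mul, ← map_mul, ← map_mul]
    have h3 : hO g P (some j₀) * (((List.ofFn fun j => gO g P (some j₀) j).take j₀).prod *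
        (((List.ofFn fun j => gO g P (some j₀) j).take j₀).prod⁻¹ * (hO g P (some j₀))⁻¹ *
        ((List.ofFn fun j => gO g P (some j₀) j).drop (j₀ + 1)).prod⁻¹ *
        ((List.ofFn fun j => gO g P (some j₀) j).drop (j₀ + 1)).prod)) = 1 := by
      group
    rw [h3, map_one]

/-- The given tuple in terms of words. -/
theorem gO_comp {H : Type*} [Group H] (c : (Fin g × Bool) ⊕ Fin n → H)
    (y : FreeGroup (KO g P o ⊕ IO P) →* H) (hy : ∀ p, y (FreeGroup.of p) = c (bO g P o p))
    {j : Fin n} (h : o ≠ some j) : y (gO g P o j) = c (Sum.inr j) := by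
  unfold gO
  split_ifs with h1
  · rw [hy]; rfl
  · rw [hy]; rfl

theorem word_comp {H : Type*} [Group H] (c : (Fin g × Bool) ⊕ Fin n → H) (hc : SRel c)
    (y : FreeGroup (KO g P o ⊕ IO P) →* H) (hy : ∀ p, y (FreeGroup.of p) = c (bO g P o p)) :
    (∀ w ∈ RelO g P o, y w = 1) ∧ ∀ p, y (wO g P o p) = c p := by
  have hh : y (hO g P o) = (List.ofFn fun l : Fin g => c (Sum.inl (l, false)) *
      c (Sum.inl (l, true)) * (c (Sum.inl (l, false)))⁻¹ * (c (Sum.inl (l, true)))⁻¹).prod := by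
    rw [map_hO]
    simp only [wO, hy]
    rfl
  unfold SRel at hc
  rw [← hh] at hc
  constructor
  · rintro w ⟨rfl, rfl⟩
    rw [tO, map_mul, map_list_prod, List.map_ofFn]
    have h2 : (y ∘ fun j => gO g P none j) = fun j : Fin n => c (Sum.inr j) := by
      funext j
      exact gO_comp c y hy (by simp)
    rw [h2]
    exact hc
  · rintro (p | j)
    · exact hy _
    · by_cases h : o = some j
      · subst h
        rw [prod_split _ (y ∘ fun j' => gO g P (some j) j') j fun j' hj' => by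
          simp only [Function.comp]
          rw [gO_comp c y hy fun h => hj' (Option.some.inj h).symm]] at hc
        rw [← List.map_ofFn, ← List.map_take, ← List.map_drop, ← map_list_prod,
          ← map_list_prod] at hc
        rw [wO_inr_self, map_mul, map_mul, map_inv, map_inv, map_inv]
        have h3 : ∀ a b d e : H, a * (b * (d * e)) = 1 → b⁻¹ * a⁻¹ * e⁻¹ = d := by
          intro a b d e h
          have : a = (b * (d * e))⁻¹ := eq_inv_of_mul_eq_one_left h
          rw [this]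
          group
        exact h3 _ _ _ _ hc
      · rw [wO_inr_of_ne h]
        exact gO_comp c y hy h

theorem wO_bO (ho : ∀ j, o = some j → ¬ P j) (p : KO g P o ⊕ IO P) :
    wO g P o (bO g P o p) = FreeGroup.of p := by
  rcases p with (p | j) | j
  · rfl
  · simp only [bO]
    rw [wO_inr_of_ne j.2.2, gO, dif_neg j.2.1, dif_pos j.2.2]
  · simp only [bO]
    rw [wO_inr_of_ne fun h => ho _ h j.2, gO, dif_pos j.2]

theorem RelO_charOK (hn : o = none → ∀ j, P j) : CharOK (RelO g P o) := by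
  rintro w ⟨ho, rfl⟩ A _ χ hχ
  rw [tO, map_mul, map_hO]
  have h1 : χ (List.ofFn fun j => gO g P o j).prod = 1 := by
    rw [map_list_prod, List.map_ofFn]
    have : (χ ∘ fun j => gO g P o j) = fun _ : Fin n => (1 : A) := by
      funext j
      simp only [Function.comp, gO]
      rw [dif_pos (hn ho j)]
      exact hχ _
    rw [this]
    simp
  rw [h1, mul_one]
  simp

end curve

end Vale.Agent.P002R.Orb
end

section

/-!
# P002: duality, the rational family
-/

namespace Vale.Agent.P002R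

open Matrix

section formulas

variable {G H : Type*} [DivisionCommMonoid G] [DivisionCommMonoid H] {n : ℕ}

/-- The determinants of the reflections. -/
def qeG (e : ℕ) (z : G) (q : Fin (n + e) → G) (j : ℕ) : G :=
  if h : j < e then z⁻¹ * q (Fin.natAdd n ⟨j, h⟩) else 1

/-- The determinants of the reflections, reversed. -/
def kaG (e : ℕ) (z : G) (q : Fin (n + e) → G) (k : ℕ) : G :=
  if k < e then qeG e z q (e - 1 - k) else 1

/-- The diagonals of the reflections. -/
def pG0 (e : ℕ) (z : G) (q : Fin (n + e) → G) (i₀ : Fin n) (b : ℕ → Fin n → G) (k : ℕ)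
    (i : Fin n) : G :=
  if i = i₀ then (kaG e z q k)⁻¹ * ∏ j ∈ Finset.univ.erase i₀, (b k j)⁻¹ else b k i

/-- The diagonals of the reflections, the last one is determined by the others. -/
def pG (e : ℕ) (z : G) (q : Fin (n + e) → G) (i₀ : Fin n) (W : Fin n → G) (b : ℕ → Fin n → G)
    (k : ℕ) (i : Fin n) : G :=
  if k + 1 < e then pG0 e z q i₀ b k i else if k + 1 = e then
    z⁻¹ * q (Fin.castAdd e i) * (W i)⁻¹ * ∏ l ∈ Finset.range (e - 1), (pG0 e z q i₀ b l i)⁻¹
  else 1

theorem qeG_map (f : G →* H) (hf : ∀ g, f g⁻¹ = (f g)⁻¹) (e : ℕ) (z : G) (q : Fin (n + e) → G)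
    (j : ℕ) : f (qeG e z q j) = qeG e (f z) (fun i => f (q i)) j := by
  unfold qeG
  split_ifs
  · rw [map_mul, hf]
  · exact map_one f

theorem kaG_map (f : G →* H) (hf : ∀ g, f g⁻¹ = (f g)⁻¹) (e : ℕ) (z : G) (q : Fin (n + e) → G)
    (j : ℕ) : f (kaG e z q j) = kaG e (f z) (fun i => f (q i)) j := by
  unfold kaG
  split_ifs
  · exact qeG_map f hf e z q _
  · exact map_one f

theorem pG0_map (f : G →* H) (hf : ∀ g, f g⁻¹ = (f g)⁻¹) (e : ℕ) (z : G) (q : Fin (n + e) → G)
    (i₀ : Fin n) (b : ℕ → Fin n → G) (k : ℕ) (i : Fin n) :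
    f (pG0 e z q i₀ b k i) = pG0 e (f z) (fun i => f (q i)) i₀ (fun k i => f (b k i)) k i := by
  unfold pG0
  split_ifs
  · rw [map_mul, hf, kaG_map f hf, map_prod]
    simp only [hf]
  · rfl

theorem pG_map (f : G →* H) (hf : ∀ g, f g⁻¹ = (f g)⁻¹) (e : ℕ) (z : G) (q : Fin (n + e) → G)
    (i₀ : Fin n) (W : Fin n → G) (b : ℕ → Fin n → G) (k : ℕ) (i : Fin n) :
    f (pG e z q i₀ W b k i) =
      pG e (f z) (fun i => f (q i)) i₀ (fun i => f (W i)) (fun k i => f (b k i)) k i := by
  unfold pG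
  split_ifs
  · exact pG0_map f hf e z q i₀ b k i
  · rw [map_mul, map_mul, map_mul, map_prod]
    simp only [hf, pG0_map f hf]
  · exact map_one f

end formulas

section group

variable {G : Type*} [CommGroup G] {n : ℕ}

theorem prod_qeG (e : ℕ) (z : G) (q : Fin (n + e) → G) :
    ∏ j ∈ Finset.range e, qeG e z q j = z⁻¹ ^ e * ∏ j : Fin e, q (Fin.natAdd n j) := by
  rw [← Fin.prod_univ_eq_prod_range]
  have h1 : ∀ j : Fin e, qeG e z q j = z⁻¹ * q (Fin.natAdd n j) := by
    intro j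
    rw [qeG, dif_pos j.2]
  simp only [h1]
  rw [Finset.prod_mul_distrib, Finset.prod_const, Finset.card_univ, Fintype.card_fin]

theorem prod_kaG (e : ℕ) (z : G) (q : Fin (n + e) → G) :
    ∏ k ∈ Finset.range e, kaG e z q k = z⁻¹ ^ e * ∏ j : Fin e, q (Fin.natAdd n j) := by
  rw [← prod_qeG, ← Finset.prod_range_reflect]
  refine Finset.prod_congr rfl fun k hk => ?_
  rw [Finset.mem_range] at hk
  rw [kaG, if_pos (by omega)]
  congr 1
  omega

theorem prod_pG0 (e : ℕ) (z : G) (q : Fin (n + e) → G) (i₀ : Fin n) (b : ℕ → Fin n → G)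
    (k : ℕ) : ∏ i, pG0 e z q i₀ b k i = (kaG e z q k)⁻¹ := by
  rw [← Finset.mul_prod_erase _ _ (Finset.mem_univ i₀)]
  have h1 : ∏ i ∈ Finset.univ.erase i₀, pG0 e z q i₀ b k i =
      ∏ i ∈ Finset.univ.erase i₀, b k i := by
    refine Finset.prod_congr rfl fun i hi => ?_
    rw [pG0, if_neg (Finset.ne_of_mem_erase hi)]
  rw [h1, pG0, if_pos rfl, mul_assoc, ← Finset.prod_mul_distrib]
  simp

/-- The diagonals. -/
theorem prod_pG_left (e : ℕ) (he : 0 < e) (z : G) (q : Fin (n + e) → G) (i₀ : Fin n)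
    (W : Fin n → G) (b : ℕ → Fin n → G) (i : Fin n) :
    z * (W i * ∏ k ∈ Finset.range e, pG e z q i₀ W b k i) = q (Fin.castAdd e i) := by
  obtain ⟨e', rfl⟩ : ∃ e', e = e' + 1 := ⟨e - 1, by omega⟩
  rw [Finset.prod_range_succ]
  have h1 : ∏ k ∈ Finset.range e', pG (e' + 1) z q i₀ W b k i =
      ∏ k ∈ Finset.range e', pG0 (e' + 1) z q i₀ b k i := by
    refine Finset.prod_congr rfl fun k hk => ?_
    rw [Finset.mem_range] at hk
    rw [pG, if_pos (by omega)]
  rw [h1, pG, if_neg (by omega), if_pos rfl, Nat.add_sub_cancel, Finset.prod_inv_distrib]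
  obtain ⟨P, hP⟩ : ∃ P, P = ∏ k ∈ Finset.range e', pG0 (e' + 1) z q i₀ b k i := ⟨_, rfl⟩
  rw [← hP]
  calc z * (W i * (P * (z⁻¹ * q (Fin.castAdd (e' + 1) i) * (W i)⁻¹ * P⁻¹)))
      = (z * z⁻¹) * (W i * (W i)⁻¹) * (P * P⁻¹) * q (Fin.castAdd (e' + 1) i) := by
        simp only [mul_assoc, mul_comm, mul_left_comm]
    _ = _ := by simp

theorem kaG_mul_prod (e : ℕ) (z : G) (q : Fin (n + e) → G) (i₀ : Fin n)
    (W : Fin n → G) (b : ℕ → Fin n → G) (hq : ∏ i, q i = z ^ (n + e) * ∏ i, W i) (k : ℕ) :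
    kaG e z q k * ∏ i, pG e z q i₀ W b k i = 1 := by
  rcases lt_trichotomy (k + 1) e with h | h | h
  · have h1 : ∀ i, pG e z q i₀ W b k i = pG0 e z q i₀ b k i := fun i => by rw [pG, if_pos h]
    simp only [h1]
    rw [prod_pG0, mul_inv_cancel]
  · subst h
    have h2 : ∀ i : Fin n, pG (k + 1) z q i₀ W b k i =
        z⁻¹ * q (Fin.castAdd (k + 1) i) * (W i)⁻¹ *
          ∏ l ∈ Finset.range k, (pG0 (k + 1) z q i₀ b l i)⁻¹ := fun i => by
      rw [pG, if_neg (lt_irrefl _), if_pos rfl, Nat.add_sub_cancel]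
    simp only [h2]
    rw [Finset.prod_mul_distrib, Finset.prod_mul_distrib, Finset.prod_mul_distrib,
      Finset.prod_comm]
    simp only [Finset.prod_inv_distrib, prod_pG0, inv_inv]
    have h3 := prod_kaG (k + 1) z q
    rw [Finset.prod_range_succ] at h3
    rw [Fin.prod_univ_add] at hq
    rw [Finset.prod_const, Finset.card_univ, Fintype.card_fin]
    obtain ⟨K, hK⟩ : ∃ K, K = ∏ x ∈ Finset.range k, kaG (k + 1) z q x := ⟨_, rfl⟩
    obtain ⟨Q1, hQ1⟩ : ∃ Q1, Q1 = ∏ i : Fin n, q (Fin.castAdd (k + 1) i) := ⟨_, rfl⟩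
    obtain ⟨Q2, hQ2⟩ : ∃ Q2, Q2 = ∏ i : Fin (k + 1), q (Fin.natAdd n i) := ⟨_, rfl⟩
    obtain ⟨P, hP⟩ : ∃ P, P = ∏ i : Fin n, W i := ⟨_, rfl⟩
    rw [← hK, ← hQ2] at h3
    rw [← hQ1, ← hQ2, ← hP] at hq
    rw [← hK, ← hQ1, ← hP, ← inv_pow]
    calc kaG (k + 1) z q k * (z⁻¹ ^ n * Q1 * P⁻¹ * K)
        = (K * kaG (k + 1) z q k) * z⁻¹ ^ n * Q1 * P⁻¹ := by
          simp only [mul_assoc, mul_comm, mul_left_comm]
      _ = (Q1 * Q2) * (z⁻¹ ^ (n + (k + 1))) * P⁻¹ := by
          rw [h3, pow_add z⁻¹ n]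
          simp only [mul_assoc, mul_comm, mul_left_comm]
      _ = _ := by
          rw [hq, inv_pow]
          calc z ^ (n + (k + 1)) * P * (z ^ (n + (k + 1)))⁻¹ * P⁻¹
              = (z ^ (n + (k + 1)) * (z ^ (n + (k + 1)))⁻¹) * (P * P⁻¹) := by
                simp only [mul_assoc, mul_comm, mul_left_comm]
            _ = 1 := by simp
  · have h1 : ∀ i, pG e z q i₀ W b k i = 1 := fun i => by
      rw [pG, if_neg (by omega), if_neg (by omega)]
    simp only [h1]
    rw [kaG, if_neg (by omega)]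
    simp

end group

end Vale.Agent.P002R
end

section

/-!
# P002, genus 0, one regular class: steps
-/

namespace Vale.Agent.P002L

open Matrix Vale.Agent.P002R

section general

variable {S T : Type*} [CommRing S] [CommRing T] {r : ℕ}

theorem swap_conj_apply (a b : Fin r) (v : Mat r S) (i j : Fin r) :
    ((pm (Equiv.swap a b) : Mat r S) * v * (pm (Equiv.swap a b) : Mat r S)) i j =
      v (Equiv.swap a b i) (Equiv.swap a b j) := by
  rw [mul_pm]
  conv_lhs => rw [← Equiv.swap_apply_self a b i]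
  rw [pm_mul]

theorem swap_lt {a b : Fin r} (hab : (b : ℕ) = a + 1) {i j : Fin r} (h : j < i) :
    Equiv.swap a b j < Equiv.swap a b i ∨ (i = b ∧ j = a) := by
  rw [Equiv.swap_apply_def, Equiv.swap_apply_def]
  rw [Fin.lt_def] at h
  split_ifs <;> simp only [Fin.lt_def, Fin.ext_iff] at * <;> omega

theorem pm_swap_sq (a b : Fin r) :
    (pm (Equiv.swap a b) : Mat r S) * pm (Equiv.swap a b) = 1 := by
  rw [pm_mul_pm, Equiv.swap_mul_self, pm_one]

theorem uu_swap {a b : Fin r} (hab : (b : ℕ) = a + 1) {v : Mat r S} (hv : UU v)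
    (h0 : v a b = 0) : UU ((pm (Equiv.swap a b) : Mat r S) * v * (pm (Equiv.swap a b) : Mat r S)) := by
  refine ⟨fun i j hij => ?_, fun i => ?_⟩
  · rw [swap_conj_apply]
    rcases swap_lt hab hij with h | ⟨rfl, rfl⟩
    · exact hv.1 _ _ h
    · rw [Equiv.swap_apply_right, Equiv.swap_apply_left, h0]
  · rw [swap_conj_apply, hv.2]

/-- The new right factor after the letter `xx a b z * pm (swap a b)`. -/
def pushV (a b : Fin r) (z : S) (v : Mat r S) : Mat r S :=
  (pm (Equiv.swap a b) : Mat r S) * (xx a b (-(v a b + z)) * v * xx a b z) * pm (Equiv.swap a b)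

theorem pushV_map (a b : Fin r) (z : S) (v : Mat r S) (f : S →+* T) :
    (pushV a b z v).map f = pushV a b (f z) (v.map f) := by
  rw [pushV, pushV, Matrix.map_mul, Matrix.map_mul, Matrix.map_mul, Matrix.map_mul, pm_map,
    xx_map, xx_map, map_neg, map_add, map_apply]

theorem uu_pushV {a b : Fin r} (hab : (b : ℕ) = a + 1) {v : Mat r S} (hv : UU v) (z : S) :
    UU (pushV a b z v) := by
  have hlt : a < b := by rw [Fin.lt_def]; omega
  refine uu_swap hab (((uu_xx hlt _).mul hv).mul (uu_xx hlt _)) ?_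
  rw [mul_xx_apply, if_pos rfl, xx_mul_apply, if_pos rfl, xx_mul_apply, if_pos rfl, hv.2 b,
    hv.1 b a hlt, hv.2 a]
  ring

theorem push_eq {a b : Fin r} (hab : (b : ℕ) = a + 1) (z : S) (v : Mat r S) :
    v * (xx a b z * pm (Equiv.swap a b)) =
      xx a b (v a b + z) * pm (Equiv.swap a b) * pushV a b z v := by
  have hne : a ≠ b := fun h => by rw [h] at hab; omega
  rw [pushV]
  have h1 : xx a b (v a b + z) * pm (Equiv.swap a b) *
      ((pm (Equiv.swap a b) : Mat r S) * (xx a b (-(v a b + z)) * v * xx a b z) *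
        pm (Equiv.swap a b)) = xx a b (v a b + z) * (pm (Equiv.swap a b) * pm (Equiv.swap a b)) *
        (xx a b (-(v a b + z)) * v * xx a b z) * pm (Equiv.swap a b) := by
    simp only [mul_assoc]
  rw [h1, pm_swap_sq, mul_one]
  have h2 : xx a b (v a b + z) * (xx a b (-(v a b + z)) * v * xx a b z) *
      (pm (Equiv.swap a b) : Mat r S) =
      (xx a b (v a b + z) * xx a b (-(v a b + z))) * v * (xx a b z * pm (Equiv.swap a b)) := by
    simp only [mul_assoc]
  rw [h2, xx_mul_xx hne, add_neg_cancel, xx_zero, one_mul]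

theorem Kup.xx_mul {κ : Fin r → ℕ} {l : ℕ → S} {M : Mat r S} (hM : Kup κ l M) {a b : Fin r}
    (h : κ a < κ b) (z : S) : Kup κ l (xx a b z * M) := by
  have hne : a ≠ b := fun h' => by rw [h'] at h; exact lt_irrefl _ h
  refine ⟨fun i => ?_, fun i j hij hκ => ?_⟩
  · rw [xx_mul_apply, hM.1]
    split_ifs with h1
    · rw [h1, hM.2 b a hne.symm (not_lt.2 h.le), mul_zero, add_zero]
    · rw [add_zero]
  · rw [xx_mul_apply, hM.2 i j hij hκ, zero_add]
    split_ifs with h1
    · subst h1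
      by_cases hbj : b = j
      · rw [← hbj] at hκ
        exact absurd h hκ
      · rw [hM.2 b j hbj (fun h' => hκ (h.trans h')), mul_zero]
    · rfl

theorem Kup.mul_xx {κ : Fin r → ℕ} {l : ℕ → S} {M : Mat r S} (hM : Kup κ l M) {a b : Fin r}
    (h : κ a < κ b) (z : S) : Kup κ l (M * xx a b z) := by
  have hne : a ≠ b := fun h' => by rw [h'] at h; exact lt_irrefl _ h
  refine ⟨fun i => ?_, fun i j hij hκ => ?_⟩
  · rw [mul_xx_apply, hM.1]
    split_ifs with h1
    · rw [h1, hM.2 b a hne.symm (not_lt.2 h.le), zero_mul, add_zero]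
    · rw [add_zero]
  · rw [mul_xx_apply, hM.2 i j hij hκ, zero_add]
    split_ifs with h1
    · subst h1
      by_cases hia : i = a
      · rw [hia] at hκ
        exact absurd h hκ
      · rw [hM.2 i a hia (fun h' => hκ (h'.trans h)), zero_mul]
    · rfl

theorem Kup.swap {κ : Fin r → ℕ} {l : ℕ → S} {M : Mat r S} (hM : Kup κ l M) (a b : Fin r) :
    Kup (κ ∘ Equiv.swap a b) l
      ((pm (Equiv.swap a b) : Mat r S) * M * (pm (Equiv.swap a b) : Mat r S)) := by
  refine ⟨fun i => ?_, fun i j hij hκ => ?_⟩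
  · rw [swap_conj_apply, hM.1]
    rfl
  · rw [swap_conj_apply]
    exact hM.2 _ _ (fun h => hij ((Equiv.swap a b).injective h)) hκ

theorem Kup.map {κ : Fin r → ℕ} {l : ℕ → S} {M : Mat r S} (hM : Kup κ l M) (f : S →+* T) :
    Kup κ (fun j => f (l j)) (M.map f) :=
  ⟨fun i => by rw [map_apply, hM.1], fun i j h h' => by rw [map_apply, hM.2 i j h h', map_zero]⟩

end general

variable {R A : Type} [CommRing R] [CommRing A] {φ : R →+* ℂ} {ι : R →+* A} {ψ : A →+* ℂ} {r : ℕ}

/-- One step: from the state `(w, v₀)` to `(w', v₀')` through an element of the family `F`; the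
units on the edges may be lifted arbitrarily. -/
def Step (ι : R →+* A) (ψ : A →+* ℂ) (w : Equiv.Perm (Fin r)) (v₀ : Mat r ℂ) (F : Mat r A → Prop)
    (w' : Equiv.Perm (Fin r)) (v₀' : Mat r ℂ) : Prop :=
  ∃ (J : Type) (_ : Fintype J) (s t : J → Fin r) (y : J → ℂˣ) (ε : Fin r → Rˣ),
    ∀ v : Mat r A, UU v → v.map ψ = v₀ → ∀ z : J → Aˣ, (∀ j, ψ (z j) = y j) →
      ∃ g, F g ∧ ∃ b v' : Mat r A, UpT b ∧
        (∀ i, b i i = ι (ε i) * ((∏ j, z j ^ eb (s j) (t j) i : Aˣ) : A)) ∧
        UU v' ∧ v'.map ψ = v₀' ∧ (pm w : Mat r A) * v * g = b * pm w' * v'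

theorem Step.mono {w w' : Equiv.Perm (Fin r)} {v₀ v₀' : Mat r ℂ} {F F' : Mat r A → Prop}
    (h : Step ι ψ w v₀ F w' v₀') (hF : ∀ g, F g → F' g) : Step ι ψ w v₀ F' w' v₀' := by
  obtain ⟨J, hJ, s, t, y, ε, h⟩ := h
  refine ⟨J, hJ, s, t, y, ε, fun v hv hv0 z hz => ?_⟩
  obtain ⟨g, hg, h'⟩ := h v hv hv0 z hz
  exact ⟨g, hF g hg, h'⟩

theorem Step.comp {w w' w'' : Equiv.Perm (Fin r)} {v₀ v₀' v₀'' : Mat r ℂ} {F F' : Mat r A → Prop}
    (h : Step ι ψ w v₀ F w' v₀') (h' : Step ι ψ w' v₀' F' w'' v₀'') :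
    Step ι ψ w v₀ (fun g => ∃ g₁ g₂, F g₁ ∧ F' g₂ ∧ g = g₁ * g₂) w'' v₀'' := by
  obtain ⟨J, hJ, s, t, y, ε, h⟩ := h
  obtain ⟨J', hJ', s', t', y', ε', h'⟩ := h'
  refine ⟨J ⊕ J', inferInstance, Sum.elim s s', Sum.elim t t', Sum.elim y y',
    fun i => ε i * ε' i, fun v hv hv0 z hz => ?_⟩
  obtain ⟨g, hg, b, v', hb, hbd, hv', hv0', he⟩ := h v hv hv0 (fun j => z (Sum.inl j)) fun j =>
    hz (Sum.inl j)
  obtain ⟨g', hg', b', v'', hb', hbd', hv'', hv0'', he'⟩ := h' v' hv' hv0'
    (fun j => z (Sum.inr j)) fun j => hz (Sum.inr j)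
  refine ⟨g * g', ⟨g, g', hg, hg', rfl⟩, b * b', v'', hb.mul hb', fun i => ?_, hv'', hv0'', ?_⟩
  · rw [hb.mul_diag hb', hbd, hbd', Fintype.prod_sum_type]
    simp only [Sum.elim_inl, Sum.elim_inr, Units.val_mul, map_mul]
    ring
  · rw [← mul_assoc, he, mul_assoc b, mul_assoc b, he']
    simp only [mul_assoc]

end Vale.Agent.P002L
end

section

/-!
# P002, genus 0, one regular class: lifting of flows on graphs
-/

namespace Vale.Agent.P002L

open Matrix Vale.Agent.P002R

/-- Contraction of the edge from `q` to `p`. -/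
def ctr {r : ℕ} (p q a : Fin r) : Fin r := if a = q then p else a

theorem ctr_at {r : ℕ} {p q : Fin r} (hpq : p ≠ q) (a : Fin r) :
    (if p = ctr p q a then (1 : ℤ) else 0) = (if p = a then 1 else 0) + if q = a then 1 else 0 := by
  unfold ctr
  by_cases h : a = q
  · subst h
    rw [if_pos rfl, if_pos rfl, if_neg hpq, if_pos rfl, zero_add]
  · rw [if_neg h, if_neg (Ne.symm h), add_zero]

theorem ctr_off {r : ℕ} {p q : Fin r} (hpq : p ≠ q) (a : Fin r) :
    (if q = ctr p q a then (1 : ℤ) else 0) = 0 := by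
  unfold ctr
  by_cases h : a = q
  · rw [if_pos h, if_neg hpq.symm]
  · rw [if_neg h, if_neg (Ne.symm h)]

theorem ctr_ne {r : ℕ} {p q v : Fin r} (hp : v ≠ p) (hq : v ≠ q) (a : Fin r) :
    (if v = ctr p q a then (1 : ℤ) else 0) = if v = a then 1 else 0 := by
  unfold ctr
  by_cases h : a = q
  · subst h
    rw [if_pos rfl, if_neg hp, if_neg hq]
  · rw [if_neg h]

theorem eb_ctr_at {r : ℕ} {p q : Fin r} (hpq : p ≠ q) (a b : Fin r) :
    eb (ctr p q a) (ctr p q b) p = eb a b p + eb a b q := by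
  unfold eb
  rw [ctr_at hpq, ctr_at hpq]
  ring

theorem eb_ctr_off {r : ℕ} {p q : Fin r} (hpq : p ≠ q) (a b : Fin r) :
    eb (ctr p q a) (ctr p q b) q = 0 := by
  unfold eb
  rw [ctr_off hpq, ctr_off hpq, sub_zero]

theorem eb_ctr_ne {r : ℕ} {p q v : Fin r} (hp : v ≠ p) (hq : v ≠ q) (a b : Fin r) :
    eb (ctr p q a) (ctr p q b) v = eb a b v := by
  unfold eb
  rw [ctr_ne hp hq, ctr_ne hp hq]

theorem eb_self {r : ℕ} (a v : Fin r) : eb a a v = 0 := sub_self _

theorem eb_left {r : ℕ} {a b : Fin r} (h : a ≠ b) : eb a b a = 1 := by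
  unfold eb
  rw [if_pos rfl, if_neg h, sub_zero]

theorem eb_right {r : ℕ} {a b : Fin r} (h : a ≠ b) : eb a b b = -1 := by
  unfold eb
  rw [if_neg h.symm, if_pos rfl, zero_sub]

theorem eb_ne {r : ℕ} {a b v : Fin r} (ha : v ≠ a) (hb : v ≠ b) : eb a b v = 0 := by
  unfold eb
  rw [if_neg ha, if_neg hb, sub_zero]

/-- Lifting of flows on graphs. -/
theorem graph_lift {G₁ G₂ G₃ : Type*} [CommGroup G₁] [CommGroup G₂] [CommGroup G₃] (ι : G₁ →* G₂)
    (ψ : G₂ →* G₃) (hψ : Function.Surjective ψ) (hι : Function.Injective (ψ.comp ι)) {r n : ℕ}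
    (s t : Fin n → Fin r) (τ : Fin r → G₁) (y : Fin n → G₃)
    (h : ∀ v, ∏ j, y j ^ eb (s j) (t j) v = ψ (ι (τ v))) :
    ∃ z : Fin n → G₂, (∀ j, ψ (z j) = y j) ∧ ∀ v, ∏ j, z j ^ eb (s j) (t j) v = ι (τ v) := by
  induction n generalizing τ with
  | zero =>
    refine ⟨fun j => j.elim0, fun j => j.elim0, fun v => ?_⟩
    have h1 := h v
    rw [Finset.univ_eq_empty, Finset.prod_empty] at h1 ⊢
    have h2 : τ v = 1 := hι (by
      rw [MonoidHom.comp_apply, ← h1, map_one])
    rw [h2, map_one]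
  | succ n ih =>
    obtain ⟨p, hp⟩ : ∃ p, p = s (Fin.last n) := ⟨_, rfl⟩
    obtain ⟨q, hq⟩ : ∃ q, q = t (Fin.last n) := ⟨_, rfl⟩
    simp only [Fin.prod_univ_castSucc, ← hp, ← hq] at h ⊢
    by_cases hpq : p = q
    · subst hpq
      obtain ⟨z, hz1, hz2⟩ := ih (fun j => s j.castSucc) (fun j => t j.castSucc) τ
        (fun j => y j.castSucc) (fun v => by
          have h1 := h v
          rw [eb_self, zpow_zero, mul_one] at h1
          exact h1)
      obtain ⟨w, hw⟩ := hψ (y (Fin.last n))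
      refine ⟨Fin.snoc z w, fun j => ?_, fun v => ?_⟩
      · refine Fin.lastCases ?_ (fun j => ?_) j
        · rw [Fin.snoc_last, hw]
        · rw [Fin.snoc_castSucc, hz1]
      · rw [eb_self, zpow_zero, mul_one, ← hz2 v]
        refine Finset.prod_congr rfl fun j _ => ?_
        rw [Fin.snoc_castSucc]
    · obtain ⟨z, hz1, hz2⟩ := ih (fun j => ctr p q (s j.castSucc)) (fun j => ctr p q (t j.castSucc))
        (fun v => if v = p then τ p * τ q else if v = q then 1 else τ v)
        (fun j => y j.castSucc) (fun v => by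
          by_cases hvp : v = p
          · subst hvp
            have h1 := h v
            have h2 := h q
            rw [eb_left hpq, zpow_one] at h1
            rw [eb_right hpq, _root_.zpow_neg_one] at h2
            rw [if_pos rfl, map_mul, map_mul, ← h1, ← h2]
            simp only [eb_ctr_at hpq, _root_.zpow_add]
            rw [Finset.prod_mul_distrib]
            rw [mul_mul_mul_comm, mul_inv_cancel, mul_one]
          · by_cases hvq : v = q
            · subst hvq
              rw [if_neg hvp, if_pos rfl, map_one, map_one]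
              refine Finset.prod_eq_one fun j _ => ?_
              rw [eb_ctr_off hpq, zpow_zero]
            · rw [if_neg hvp, if_neg hvq, ← h v, eb_ne hvp hvq, zpow_zero, mul_one]
              refine Finset.prod_congr rfl fun j _ => ?_
              rw [eb_ctr_ne hvp hvq])
      obtain ⟨w, hw⟩ : ∃ w : G₂, w = ι (τ p) /
        ∏ j : Fin n, z j ^ eb (s j.castSucc) (t j.castSucc) p := ⟨_, rfl⟩
      have hprod : ∀ v, (∏ j : Fin n, (Fin.snoc z w : Fin (n + 1) → G₂) j.castSucc ^
          eb (s j.castSucc) (t j.castSucc) v) =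
          ∏ j : Fin n, z j ^ eb (s j.castSucc) (t j.castSucc) v := by
        intro v
        refine Finset.prod_congr rfl fun j _ => ?_
        rw [Fin.snoc_castSucc]
      refine ⟨Fin.snoc z w, fun j => ?_, fun v => ?_⟩
      · refine Fin.lastCases ?_ (fun j => ?_) j
        · rw [Fin.snoc_last, hw, map_div, map_prod]
          have h1 := h p
          rw [eb_left hpq, zpow_one] at h1
          rw [← h1, div_eq_iff_eq_mul, mul_comm]
          congr 1
          refine Finset.prod_congr rfl fun j _ => ?_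
          rw [map_zpow, hz1]
        · rw [Fin.snoc_castSucc, hz1]
      · rw [hprod, Fin.snoc_last]
        by_cases hvp : v = p
        · subst hvp
          rw [eb_left hpq, zpow_one, hw, mul_div_cancel]
        · by_cases hvq : v = q
          · subst hvq
            have h1 := hz2 p
            rw [if_pos rfl, map_mul] at h1
            simp only [eb_ctr_at hpq, _root_.zpow_add] at h1
            rw [Finset.prod_mul_distrib] at h1
            rw [eb_right hpq, _root_.zpow_neg_one, hw, inv_div, ← mul_div_assoc, div_eq_iff_eq_mul,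
              mul_comm, h1, mul_comm]
          · have h1 := hz2 v
            rw [if_neg hvp, if_neg hvq] at h1
            rw [eb_ne hvp hvq, zpow_zero, mul_one, ← h1]
            refine Finset.prod_congr rfl fun j _ => ?_
            rw [eb_ctr_ne hvp hvq]

end Vale.Agent.P002L
end

section

/-!
# P002B, T13b (hedge): from scalar commutants to irreducible representations, core
-/

namespace Vale.Agent.P002B.S2B

open Matrix Vale.Agent.P002

/-- The complement of a hypersurface is dense. -/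
theorem exists_near_eval_ne {σ : Type*} [Finite σ] (h : MvPolynomial σ ℂ) (hh : h ≠ 0)
    (x : σ → ℂ) (U : Set (σ → ℂ)) (hU : U ∈ nhds x) : ∃ y ∈ U, MvPolynomial.eval y h ≠ 0 := by
  obtain ⟨p, hp⟩ : ∃ p : σ → ℂ, MvPolynomial.eval p h ≠ 0 := by
    by_contra hcon
    push Not at hcon
    exact hh (MvPolynomial.funext fun q => by rw [hcon q, map_zero])
  let P : Polynomial ℂ := MvPolynomial.aeval
    (fun i => Polynomial.C (x i) + Polynomial.X * Polynomial.C (p i - x i)) h
  have hP : ∀ t : ℂ, P.eval t = MvPolynomial.eval (x + t • (p - x)) h := by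
    intro t
    have h1 := congrArg (fun F => F h) (MvPolynomial.comp_aeval
      (fun i => Polynomial.C (x i) + Polynomial.X * Polynomial.C (p i - x i))
      (Polynomial.aeval t : Polynomial ℂ →ₐ[ℂ] ℂ))
    simp only [AlgHom.coe_comp, Function.comp_apply] at h1
    have h2 : P.eval t = (Polynomial.aeval t : Polynomial ℂ →ₐ[ℂ] ℂ) P := by
      rw [Polynomial.coe_aeval_eq_eval]
    rw [h2]
    refine h1.trans ?_
    rw [MvPolynomial.aeval_eq_eval]
    congr 2
    funext i
    simp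
  have hP0 : P ≠ 0 := by
    intro h0
    have h1 := hP 1
    rw [h0, Polynomial.eval_zero] at h1
    simp only [one_smul, add_sub_cancel] at h1
    exact hp h1.symm
  have hfin : {t : ℂ | P.eval t = 0}.Finite := by
    refine (P.roots.toFinset.finite_toSet).subset ?_
    intro t ht
    simp only [Finset.mem_coe, Multiset.mem_toFinset, Polynomial.mem_roots hP0,
      Polynomial.IsRoot]
    exact ht
  have hcont : Continuous fun t : ℂ => x + t • (p - x) := by
    fun_prop
  have hV : (fun t : ℂ => x + t • (p - x)) ⁻¹' U ∈ nhds (0 : ℂ) := by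
    apply hcont.continuousAt.preimage_mem_nhds
    simpa using hU
  have hdense := hfin.countable.dense_compl ℂ
  obtain ⟨t, ht1, ht2⟩ := hdense.inter_nhds_nonempty hV
  refine ⟨_, ht2, ?_⟩
  rw [← hP]
  exact ht1

/-- Generating pairs are dense. -/
theorem generating_dense {d : ℕ} (A B : Mat d ℂ) (U : Set (Mat d ℂ × Mat d ℂ))
    (hU : U ∈ nhds (A, B)) : ∃ p ∈ U, Algebra.adjoin ℂ ({p.1, p.2} : Set (Mat d ℂ)) = ⊤ := by
  obtain ⟨h, hh, hgen⟩ := exists_generating_poly (r := d) (g := 2) le_rfl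
  let toP : (Fin 2 × Fin d × Fin d → ℂ) → Mat d ℂ × Mat d ℂ := fun y =>
    (Matrix.of fun i j => y (0, i, j), Matrix.of fun i j => y (1, i, j))
  have hcont : Continuous toP := by
    refine Continuous.prodMk ?_ ?_
    · exact continuous_pi fun i => continuous_pi fun j => continuous_apply (0, i, j)
    · exact continuous_pi fun i => continuous_pi fun j => continuous_apply (1, i, j)
  let x : Fin 2 × Fin d × Fin d → ℂ := fun p => if p.1 = 0 then A p.2.1 p.2.2 else B p.2.1 p.2.2
  have hx : toP x = (A, B) := by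
    refine Prod.ext ?_ ?_
    · ext i j; simp [toP, x]
    · ext i j; simp [toP, x]
  have hpre : toP ⁻¹' U ∈ nhds x := by
    apply hcont.continuousAt.preimage_mem_nhds
    rw [hx]
    exact hU
  obtain ⟨y, hyU, hy⟩ := exists_near_eval_ne h hh x _ hpre
  refine ⟨toP y, hyU, ?_⟩
  have h1 := hgen (fun k => Matrix.of fun i j => y (k, i, j)) (by simpa using hy)
  rw [← h1]
  congr 1
  ext M
  simp only [Set.mem_insert_iff, Set.mem_singleton_iff, Set.mem_range, toP]
  constructor
  · rintro (rfl | rfl)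
    · exact ⟨0, rfl⟩
    · exact ⟨1, rfl⟩
  · rintro ⟨k, rfl⟩
    fin_cases k
    · exact Or.inl rfl
    · exact Or.inr rfl

theorem continuousAt_matrix_inv {d : ℕ} {A : Mat d ℂ} (hA : IsUnit A) :
    ContinuousAt (fun X : Mat d ℂ => X⁻¹) A := by
  have h1 : (fun X : Mat d ℂ => X⁻¹) = fun X : Mat d ℂ => (det X)⁻¹ • adjugate X := by
    funext X
    rw [Matrix.inv_def, Ring.inverse_eq_inv']
  rw [h1]
  have h2 : det A ≠ 0 := isUnit_iff_ne_zero.1 ((Matrix.isUnit_iff_isUnit_det A).1 hA)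
  exact ((continuous_id.matrix_det).continuousAt.inv₀ h2).smul
    (continuous_id.matrix_adjugate).continuousAt

theorem units_mem_nhds {κ : Type*} [Finite κ] {d : ℕ} {Y : κ → Mat d ℂ}
    (hY : ∀ k, IsUnit (Y k)) : {Y : κ → Mat d ℂ | ∀ k, IsUnit (Y k)} ∈ nhds Y := by
  have : {Y : κ → Mat d ℂ | ∀ k, IsUnit (Y k)} = ⋂ k, {Y : κ → Mat d ℂ | (Y k).det ≠ 0} := by
    ext Y
    simp only [Set.mem_ofPred_eq, Set.mem_iInter]
    exact forall_congr' fun k => by rw [Matrix.isUnit_iff_isUnit_det, isUnit_iff_ne_zero]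
  rw [this]
  refine (isOpen_iInter_of_finite fun k => ?_).mem_nhds ?_
  · exact isOpen_ne.preimage (Continuous.matrix_det (continuous_apply k))
  · simp only [Set.mem_iInter, Set.mem_ofPred_eq]
    intro k
    rw [← isUnit_iff_ne_zero, ← Matrix.isUnit_iff_isUnit_det]
    exact hY k

theorem star2_core {g d : ℕ} (z : ℂ) (X : Fin (g + 2) × Bool → Mat d ℂ)
    (hX : ∀ k, IsUnit (X k)) (hrel : relT X = z • (1 : Mat d ℂ))
    (hc : ∀ N : Mat d ℂ, Commute N (X (1, false)) → Commute N (X (1, true)) →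
      ∃ c : ℂ, N = c • (1 : Mat d ℂ))
    (O : Set (Fin (g + 2) × Bool → Mat d ℂ)) (hO : O ∈ nhds X) :
    ∃ X' ∈ O, (∀ k, IsUnit (X' k)) ∧ relT X' = z • (1 : Mat d ℂ) ∧
      Algebra.adjoin ℂ (Set.range X') = ⊤ := by
  classical
  let glue : (Mat d ℂ × Mat d ℂ) × (Fin (g + 1) × Bool → Mat d ℂ) →
      (Fin (g + 2) × Bool → Mat d ℂ) :=
    fun p k => Fin.cases (if k.2 then p.1.2 else p.1.1) (fun i => p.2 (i, k.2)) k.1
  have g0 : ∀ p, glue p (0, false) = p.1.1 := fun p => rfl
  have g1 : ∀ p, glue p (0, true) = p.1.2 := fun p => rfl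
  have gs : ∀ p i b, glue p (Fin.succ i, b) = p.2 (i, b) := fun p i b => rfl
  have hcont : Continuous glue := by
    refine continuous_pi fun k => ?_
    obtain ⟨i, b⟩ := k
    induction i using Fin.cases with
    | zero =>
      cases b with
      | false => simp only [g0]; exact continuous_fst.fst
      | true => simp only [g1]; exact continuous_fst.snd
    | succ i =>
      simp only [gs]
      exact (continuous_apply (i, b)).comp continuous_snd
  obtain ⟨P0, hP0⟩ : ∃ P0 : Mat d ℂ × Mat d ℂ, P0 = (X (0, false), X (0, true)) := ⟨_, rfl⟩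
  obtain ⟨X1, hX1⟩ : ∃ X1 : Fin (g + 1) × Bool → Mat d ℂ, X1 = fun k => X (k.1.succ, k.2) :=
    ⟨_, rfl⟩
  have hglue : glue (P0, X1) = X := by
    funext k
    obtain ⟨i, b⟩ := k
    induction i using Fin.cases with
    | zero =>
      cases b with
      | false => rw [g0, hP0]
      | true => rw [g1, hP0]
    | succ i => rw [gs, hX1]
  have hpre : glue ⁻¹' O ∈ nhds (P0, X1) := by
    apply hcont.continuousAt.preimage_mem_nhds
    rw [hglue]
    exact hO
  obtain ⟨U0, hU0, U1, hU1, hsub⟩ := mem_nhds_prod_iff.1 hpre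
  have hX1u : ∀ k, IsUnit (X1 k) := fun k => by rw [hX1]; exact hX _
  obtain ⟨V, hV, hVopen⟩ := open_relT X1 hX1u (fun N hN => hc N
      (by have := hN (0, false); rw [hX1] at this; exact this)
      (by have := hN (0, true); rw [hX1] at this; exact this))
    (U1 ∩ {Y | ∀ k, IsUnit (Y k)}) (Filter.inter_mem hU1 (units_mem_nhds hX1u))
  have hA0 : IsUnit P0.1 := by rw [hP0]; exact hX _
  have hB0 : IsUnit P0.2 := by rw [hP0]; exact hX _
  let M : Mat d ℂ × Mat d ℂ → Mat d ℂ := fun p => (cm p.1 p.2)⁻¹ * (z • (1 : Mat d ℂ))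
  have hinv : ∀ {A B : Mat d ℂ}, IsUnit A → IsUnit B → (cm A B)⁻¹ * cm A B = 1 :=
    fun hA hB => Matrix.nonsing_inv_mul _ ((Matrix.isUnit_iff_isUnit_det _).1 (isUnit_cm hA hB))
  have hM0 : M P0 = relT X1 := by
    have h1 := relT_succ X
    rw [hrel] at h1
    have h2 : cm P0.1 P0.2 * relT X1 = z • (1 : Mat d ℂ) := by
      rw [h1, hP0, hX1]
    show (cm P0.1 P0.2)⁻¹ * (z • (1 : Mat d ℂ)) = relT X1
    rw [← h2, ← Matrix.mul_assoc, hinv hA0 hB0, Matrix.one_mul]
  have hcm : ContinuousAt (fun p : Mat d ℂ × Mat d ℂ => cm p.1 p.2) P0 := by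
    unfold cm
    have hf : ContinuousAt (fun p : Mat d ℂ × Mat d ℂ => p.1) P0 := continuous_fst.continuousAt
    have hs : ContinuousAt (fun p : Mat d ℂ × Mat d ℂ => p.2) P0 := continuous_snd.continuousAt
    have hfi : ContinuousAt (fun p : Mat d ℂ × Mat d ℂ => (p.1)⁻¹) P0 :=
      ContinuousAt.comp (f := fun p : Mat d ℂ × Mat d ℂ => p.1) (continuousAt_matrix_inv hA0) hf
    have hsi : ContinuousAt (fun p : Mat d ℂ × Mat d ℂ => (p.2)⁻¹) P0 :=
      ContinuousAt.comp (f := fun p : Mat d ℂ × Mat d ℂ => p.2) (continuousAt_matrix_inv hB0) hs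
    exact ((hf.mul hs).mul hfi).mul hsi
  have hMc : ContinuousAt M P0 := by
    have h1 : ContinuousAt (fun p : Mat d ℂ × Mat d ℂ => (cm p.1 p.2)⁻¹) P0 :=
      ContinuousAt.comp (f := fun p : Mat d ℂ × Mat d ℂ => cm p.1 p.2)
        (continuousAt_matrix_inv (isUnit_cm hA0 hB0)) hcm
    exact h1.mul continuousAt_const
  have hMV : M ⁻¹' V ∈ nhds P0 := by
    apply hMc.preimage_mem_nhds
    rw [hM0]
    exact hV
  have hun : {p : Mat d ℂ × Mat d ℂ | IsUnit p.1 ∧ IsUnit p.2} ∈ nhds P0 := by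
    have : {p : Mat d ℂ × Mat d ℂ | IsUnit p.1 ∧ IsUnit p.2} =
        {p : Mat d ℂ × Mat d ℂ | p.1.det ≠ 0} ∩ {p : Mat d ℂ × Mat d ℂ | p.2.det ≠ 0} := by
      ext p
      simp only [Set.mem_ofPred_eq, Set.mem_inter_iff, Matrix.isUnit_iff_isUnit_det,
        isUnit_iff_ne_zero]
    rw [this]
    refine (IsOpen.inter ?_ ?_).mem_nhds ⟨?_, ?_⟩
    · exact isOpen_ne.preimage (Continuous.matrix_det continuous_fst)
    · exact isOpen_ne.preimage (Continuous.matrix_det continuous_snd)
    · exact isUnit_iff_ne_zero.1 ((Matrix.isUnit_iff_isUnit_det _).1 hA0)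
    · exact isUnit_iff_ne_zero.1 ((Matrix.isUnit_iff_isUnit_det _).1 hB0)
  obtain ⟨p, ⟨⟨hpU, hpV⟩, hpA, hpB⟩, hgen⟩ := generating_dense P0.1 P0.2 ((U0 ∩ M ⁻¹' V) ∩
    {p : Mat d ℂ × Mat d ℂ | IsUnit p.1 ∧ IsUnit p.2})
    (Filter.inter_mem (Filter.inter_mem hU0 hMV) hun)
  have hzd : z ^ d = 1 := by
    have h1 := det_relT hX
    rw [hrel, det_smul, det_one, mul_one, Fintype.card_fin] at h1
    exact h1
  have hdet : (M p).det = 1 := by
    show ((cm p.1 p.2)⁻¹ * (z • (1 : Mat d ℂ))).det = 1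
    rw [det_mul, det_smul, det_one, mul_one, Fintype.card_fin, hzd, mul_one, det_nonsing_inv,
      det_cm hpA hpB, Ring.inverse_one]
  obtain ⟨X1', ⟨hX1'U, hX1'u⟩, hrel'⟩ := hVopen (M p) hpV hdet
  refine ⟨glue (p, X1'), hsub ⟨hpU, hX1'U⟩, ?_, ?_, ?_⟩
  · rintro ⟨i, b⟩
    induction i using Fin.cases with
    | zero =>
      cases b with
      | false => rw [g0]; exact hpA
      | true => rw [g1]; exact hpB
    | succ i => rw [gs]; exact hX1'u _
  · rw [relT_succ]
    simp only [g0, g1, gs]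
    have h1 : (fun k : Fin (g + 1) × Bool => X1' (k.1, k.2)) = X1' := rfl
    rw [h1, hrel']
    show cm p.1 p.2 * ((cm p.1 p.2)⁻¹ * (z • (1 : Mat d ℂ))) = _
    rw [← Matrix.mul_assoc, Matrix.mul_nonsing_inv _
      ((Matrix.isUnit_iff_isUnit_det _).1 (isUnit_cm hpA hpB)), Matrix.one_mul]
  · rw [eq_top_iff, ← hgen]
    apply Algebra.adjoin_mono
    rintro N (rfl | hN)
    · exact ⟨(0, false), g0 _⟩
    · rw [Set.mem_singleton_iff] at hN
      rw [hN]
      exact ⟨(0, true), g1 _⟩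

end Vale.Agent.P002B.S2B
end
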