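import Mathlib
import Vale.Agent.P002.Bd3.B2
import Vale.Agent.P002.Bd3.B1
import Vale.Agent.P002.Bd3.B9
import Vale.Agent.P002.Bd3.B7
import Vale.Agent.P002.Bd3.B4
import Vale.Agent.P002.Bd3.B8

set_option linter.all false

@[reducible] def Vale.Agent.P002Fast.coeU10 {M : Type*} [Monoid M] (u : Mˣ) : CoeT Mˣ u M := ⟨Units.val u⟩
attribute [local instance] Vale.Agent.P002Fast.coeU10

section

/-!
# Rational dependence of characteristic polynomials, Krylov systems and cell coordinates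
-/

namespace Vale.Agent.P002G

open Matrix Polynomial

variable {V W : Type*} [AddCommGroup V] [Module ℂ V] [AddCommGroup W] [Module ℂ W]

section mats

variable {n : Type*} [Fintype n] {d : V → ℂ}

end mats

/-- Families of polynomials with rational coefficients. -/
def RatC (d : V → ℂ) (f : V → ℂ[X]) : Prop := ∀ i, IsRat d fun x => (f x).coeff i

section ratC

variable {d : V → ℂ}

theorem RatC.mul (hd : IsPoly d) {f g : V → ℂ[X]} (hf : RatC d f) (hg : RatC d g) :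
    RatC d fun x => f x * g x := fun i => by
  simp only [Polynomial.coeff_mul]
  exact IsRat.sum hd _ fun p _ => (hf p.1).mul (hg p.2)

theorem ratC_const (p : ℂ[X]) : RatC d fun _ => p := fun _ => (isPoly_const _).isRat

theorem RatC.prod (hd : IsPoly d) {ι : Type*} (s : Finset ι) {f : ι → V → ℂ[X]}
    (hf : ∀ i ∈ s, RatC d (f i)) : RatC d fun x => ∏ i ∈ s, f i x := by
  classical
  induction s using Finset.induction_on with
  | empty => simpa using ratC_const (V := V) (d := d) 1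
  | insert i s hi ih =>
    simp only [Finset.prod_insert hi]
    exact RatC.mul hd (hf i (Finset.mem_insert_self i s))
      (ih fun j hj => hf j (Finset.mem_insert_of_mem hj))

variable {n : ℕ}

end ratC

end Vale.Agent.P002G
end

section

/-!
# Linear algebra of one eigenvalue, irreducibility of orbits
-/

namespace Vale.Agent.P002G

open Matrix
open Vale.Agent.P002R (UpT LoT upT_one loT_one)

variable {n m p : ℕ} {S R : Type*} [CommRing S] [CommRing R]

/-- The orbit is irreducible. -/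
theorem orbit_irred (J : Matrix (Fin n) (Fin n) ℂ) (F E : Matrix (Fin n) (Fin n) ℂ → ℂ)
    (hF : IsPoly F) (hE : IsPoly E) (d : Matrix (Fin n) (Fin n) ℂ → ℂ) (hd : IsPoly d)
    (g1 : Matrix (Fin n) (Fin n) ℂ) (hg1 : d g1 ≠ 0) (hEJ : E J ≠ 0)
    (h : ∀ g : Matrix (Fin n) (Fin n) ℂ, IsUnit g → d g ≠ 0 → E (g * J * g⁻¹) ≠ 0 →
      F (g * J * g⁻¹) = 0)
    (g : Matrix (Fin n) (Fin n) ℂ) (hg : IsUnit g) : F (g * J * g⁻¹) = 0 := by
  have hid : PolyMap fun g : Matrix (Fin n) (Fin n) ℂ => g := polyMap_linear LinearMap.id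
  have hD : IsPoly fun g : Matrix (Fin n) (Fin n) ℂ => g.det := isPoly_det hid
  have hψ : RatMap (fun g : Matrix (Fin n) (Fin n) ℂ => g.det)
      fun g : Matrix (Fin n) (Fin n) ℂ => g * J * g⁻¹ :=
    IsRat.matrix_mul hD (IsRat.matrix_mul hD hid.ratMap (polyMap_const J).ratMap) (ratMap_inv hid)
  obtain ⟨M, G, hG, hGF⟩ := hψ.comp hD hF
  obtain ⟨M', G', hG', hGE⟩ := hψ.comp hD hE
  have h1 := ((hG.mul hD).mul hG').eq_zero_of_mul hd (fun x => by
    by_cases hx : x.det = 0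
    · rw [hx]; ring
    by_cases hdx : d x = 0
    · rw [hdx]; ring
    by_cases hEx : E (x * J * x⁻¹) = 0
    · have := hGE x hx
      beta_reduce at this
      rw [this, hEx]; ring
    · have h2 := h x ((Matrix.isUnit_iff_isUnit_det _).2 (isUnit_iff_ne_zero.2 hx)) hdx hEx
      have := hGF x hx
      beta_reduce at this
      rw [this, h2]; ring) g1 hg1
  have h2 := (hG.mul hD).eq_zero_of_mul hG' h1 1 (by
    have := hGE 1 (by
      change (1 : Matrix (Fin n) (Fin n) ℂ).det ≠ 0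
      rw [Matrix.det_one]; exact one_ne_zero)
    beta_reduce at this
    rw [Matrix.det_one, one_pow, one_mul, one_mul, inv_one, mul_one] at this
    rw [this]
    exact hEJ) g
  have hx : g.det ≠ 0 := isUnit_iff_ne_zero.1 ((Matrix.isUnit_iff_isUnit_det _).1 hg)
  have h3 := hGF g hx
  beta_reduce at h2 h3
  rw [h3] at h2
  have h4 := (mul_eq_zero.1 h2).resolve_right hx
  exact (mul_eq_zero.1 h4).resolve_left (pow_ne_zero M hx)

/-- Factorisation of linear maps. -/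
theorem exists_comp_of_ker_le {V V' V'' : Type*} [AddCommGroup V] [Module ℂ V] [AddCommGroup V']
    [Module ℂ V'] [AddCommGroup V''] [Module ℂ V''] (f : V →ₗ[ℂ] V') (g : V →ₗ[ℂ] V'')
    (h : LinearMap.ker f ≤ LinearMap.ker g) : ∃ s : V' →ₗ[ℂ] V'', s.comp f = g := by
  obtain ⟨s, hs⟩ := LinearMap.exists_extend
    (((LinearMap.ker f).liftQ g h).comp f.quotKerEquivRange.symm.toLinearMap)
  refine ⟨s, LinearMap.ext fun v => ?_⟩
  have h1 := LinearMap.congr_fun hs ⟨f v, LinearMap.mem_range_self f v⟩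
  rw [LinearMap.comp_apply, LinearMap.comp_apply] at h1
  rw [LinearMap.comp_apply]
  refine h1.trans ?_
  have h2 : f.quotKerEquivRange.symm ⟨f v, LinearMap.mem_range_self f v⟩ =
      (LinearMap.ker f).mkQ v := by
    rw [LinearEquiv.symm_apply_eq]
    rfl
  change ((LinearMap.ker f).liftQ g h) (f.quotKerEquivRange.symm ⟨f v, _⟩) = g v
  rw [h2]
  rfl

/-- Extension of isomorphisms of subspaces. -/
theorem exists_equiv_comp {K V : Type*} [AddCommGroup K] [Module ℂ K] [AddCommGroup V]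
    [Module ℂ V] [FiniteDimensional ℂ V] (f g : K →ₗ[ℂ] V) (hf : Function.Injective f)
    (hg : Function.Injective g) : ∃ t : V ≃ₗ[ℂ] V, ∀ x, t (f x) = g x := by
  obtain ⟨C0, hC0⟩ := exists_isCompl (LinearMap.range f)
  obtain ⟨C1, hC1⟩ := exists_isCompl (LinearMap.range g)
  have h1 : Module.finrank ℂ C0 = Module.finrank ℂ C1 := by
    have h2 := Submodule.finrank_add_eq_of_isCompl hC0
    have h3 := Submodule.finrank_add_eq_of_isCompl hC1
    have h4 := LinearMap.finrank_range_of_inj hf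
    have h5 := LinearMap.finrank_range_of_inj hg
    omega
  have e : C0 ≃ₗ[ℂ] C1 := LinearEquiv.ofFinrankEq _ _ h1
  refine ⟨(Submodule.prodEquivOfIsCompl _ _ hC0).symm.trans
    ((((LinearEquiv.ofInjective f hf).symm.trans (LinearEquiv.ofInjective g hg)).prodCongr e).trans
      (Submodule.prodEquivOfIsCompl _ _ hC1)), fun x => ?_⟩
  have h6 : (Submodule.prodEquivOfIsCompl _ _ hC0).symm (f x) =
      (LinearEquiv.ofInjective f hf x, 0) := by
    rw [LinearEquiv.symm_apply_eq, Submodule.coe_prodEquivOfIsCompl']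
    simp
  rw [LinearEquiv.trans_apply, LinearEquiv.trans_apply, h6]
  simp

/-- Conjugacy of block matrices. -/
theorem conj_of_inj (W0 : Matrix (Fin m) (Fin m) ℂ) (Y0 Y : Matrix (Fin p) (Fin m) ℂ)
    (h0 : ∀ v, (W0 - 1) *ᵥ v = 0 → Y0 *ᵥ v = 0 → v = 0)
    (h1 : ∀ v, (W0 - 1) *ᵥ v = 0 → Y *ᵥ v = 0 → v = 0) :
    ∃ g : Matrix (Fin (m + p)) (Fin (m + p)) ℂ, IsUnit g ∧
      g * blk W0 0 Y0 1 = blk W0 0 Y 1 * g := by
  obtain ⟨K, hK⟩ : ∃ K, K = LinearMap.ker (W0 - 1).mulVecLin := ⟨_, rfl⟩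
  have hKm : ∀ v, v ∈ K ↔ (W0 - 1) *ᵥ v = 0 := fun v => by
    rw [hK, LinearMap.mem_ker, Matrix.mulVecLin_apply]
  have hinj : ∀ Y : Matrix (Fin p) (Fin m) ℂ, (∀ v, (W0 - 1) *ᵥ v = 0 → Y *ᵥ v = 0 → v = 0) →
      Function.Injective (Y.mulVecLin.domRestrict K) := by
    intro Y h
    rw [injective_iff_map_eq_zero]
    rintro ⟨v, hv⟩ hv'
    rw [LinearMap.domRestrict_apply, Matrix.mulVecLin_apply] at hv'
    exact Subtype.ext (h v ((hKm v).1 hv) hv')
  obtain ⟨t, ht⟩ := exists_equiv_comp _ _ (hinj Y0 h0) (hinj Y h1)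
  obtain ⟨T, hT⟩ : ∃ T : Matrix (Fin p) (Fin p) ℂ, T = LinearMap.toMatrix' t.toLinearMap :=
    ⟨_, rfl⟩
  have hTv : ∀ v, T *ᵥ v = t v := fun v => by
    rw [hT, ← Matrix.mulVecLin_apply, ← Matrix.toLin'_apply', Matrix.toLin'_toMatrix']
    rfl
  have hTu : IsUnit T := by
    have h2 : LinearMap.toMatrix' t.symm.toLinearMap * T = 1 := by
      rw [hT, ← LinearMap.toMatrix'_comp, ← LinearMap.toMatrix'_one]
      congr 1
      ext v
      simp
    exact IsUnit.of_mul_eq_one_right _ h2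
  obtain ⟨s, hs⟩ := exists_comp_of_ker_le (W0 - 1).mulVecLin (Y - T * Y0).mulVecLin (by
    intro v hv
    rw [← hK] at hv
    rw [LinearMap.mem_ker, Matrix.mulVecLin_apply, Matrix.sub_mulVec, ← Matrix.mulVec_mulVec, hTv]
    have h2 := ht ⟨v, hv⟩
    rw [LinearMap.domRestrict_apply, LinearMap.domRestrict_apply, Matrix.mulVecLin_apply,
      Matrix.mulVecLin_apply] at h2
    rw [h2, sub_self])
  obtain ⟨s', hs'⟩ : ∃ s' : Matrix (Fin p) (Fin m) ℂ, s' = LinearMap.toMatrix' s := ⟨_, rfl⟩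
  have hsv : ∀ v, s' *ᵥ v = s v := fun v => by
    rw [hs', ← Matrix.mulVecLin_apply, ← Matrix.toLin'_apply', Matrix.toLin'_toMatrix']
  have h3 : s' * (W0 - 1) = Y - T * Y0 := by
    apply Matrix.ext_of_mulVec_single
    intro i
    rw [← Matrix.mulVec_mulVec, hsv]
    exact LinearMap.congr_fun hs _
  refine ⟨blk 1 0 s' T, ?_, ?_⟩
  · have hTd := (Matrix.isUnit_iff_isUnit_det _).1 hTu
    apply IsUnit.of_mul_eq_one (blk 1 0 (-(T⁻¹ * s')) T⁻¹)
    rw [blk_mul]
    simp only [Matrix.mul_zero, Matrix.zero_mul, add_zero, zero_add, Matrix.mul_one,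
      Matrix.mul_neg, neg_zero]
    rw [← Matrix.mul_assoc, Matrix.mul_nonsing_inv _ hTd, Matrix.one_mul, add_neg_cancel, blk_one]
  · rw [blk_mul, blk_mul]
    simp only [Matrix.mul_zero, Matrix.zero_mul, add_zero, zero_add, Matrix.mul_one,
      Matrix.one_mul]
    congr 1
    rw [Matrix.mul_sub, Matrix.mul_one, sub_eq_sub_iff_add_eq_add] at h3
    exact h3

/-- Adapted bases. -/
theorem adapted (A : Matrix (Fin (m + p)) (Fin (m + p)) ℂ)
    (hA : Module.finrank ℂ (LinearMap.ker A.mulVecLin) = p) :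
    ∃ (g : Matrix (Fin (m + p)) (Fin (m + p)) ℂ) (W : Matrix (Fin m) (Fin m) ℂ)
      (Y : Matrix (Fin p) (Fin m) ℂ), IsUnit g ∧ A * g = g * blk W 0 Y 0 ∧
      ∀ v, W *ᵥ v = 0 → Y *ᵥ v = 0 → v = 0 := by
  obtain ⟨C, hC⟩ := exists_isCompl (LinearMap.ker A.mulVecLin)
  have hCm : Module.finrank ℂ C = m := by
    have h2 := Submodule.finrank_add_eq_of_isCompl hC
    rw [hA, Module.finrank_fin_fun] at h2
    omega
  obtain ⟨bK, -⟩ : ∃ bK : Module.Basis (Fin p) ℂ (LinearMap.ker A.mulVecLin), True :=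
    ⟨Module.finBasisOfFinrankEq _ _ hA, trivial⟩
  obtain ⟨bC, -⟩ : ∃ bC : Module.Basis (Fin m) ℂ C, True :=
    ⟨Module.finBasisOfFinrankEq _ _ hCm, trivial⟩
  obtain ⟨b, hb⟩ : ∃ b : Module.Basis (Fin (m + p)) ℂ (Fin (m + p) → ℂ),
      b = ((bC.prod bK).map (Submodule.prodEquivOfIsCompl _ _ hC.symm)).reindex finSumFinEquiv :=
    ⟨_, rfl⟩
  have hb1 : ∀ j, b (Fin.castAdd p j) = bC j := fun j => by
    rw [hb]
    simp
  have hb2 : ∀ j, b (Fin.natAdd m j) = bK j := fun j => by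
    rw [hb]
    simp
  obtain ⟨g, hg⟩ : ∃ g : Matrix (Fin (m + p)) (Fin (m + p)) ℂ, g = Matrix.of fun i j => b j i :=
    ⟨_, rfl⟩
  have hgv : ∀ v, g *ᵥ v = ∑ j, v j • b j := by
    intro v
    ext i
    rw [Matrix.mulVec, dotProduct, Finset.sum_apply]
    refine Finset.sum_congr rfl fun j _ => ?_
    rw [hg, Matrix.of_apply, Pi.smul_apply, smul_eq_mul, mul_comm]
  have hgu : IsUnit g := by
    rw [Matrix.isUnit_iff_isUnit_det]
    have h2 : g = (Pi.basisFun ℂ (Fin (m + p))).toMatrix b := by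
      rw [hg]
      ext i j
      rw [Module.Basis.toMatrix_apply, Pi.basisFun_repr, Matrix.of_apply]
    rw [h2]
    have h3 := (Pi.basisFun ℂ (Fin (m + p))).toMatrix_mul_toMatrix_flip b
    exact (Matrix.isUnit_iff_isUnit_det _).1 (IsUnit.of_mul_eq_one _ h3)
  have hgd := (Matrix.isUnit_iff_isUnit_det _).1 hgu
  obtain ⟨B, hB⟩ : ∃ B, B = g⁻¹ * (A * g) := ⟨_, rfl⟩
  have hAg : A * g = g * B := by
    rw [hB, ← Matrix.mul_assoc, Matrix.mul_nonsing_inv _ hgd, Matrix.one_mul]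
  have hB0 : ∀ i j, B i (Fin.natAdd m j) = 0 := by
    intro i j
    have h2 : (A * g) *ᵥ Pi.single (Fin.natAdd m j) 1 = 0 := by
      rw [← Matrix.mulVec_mulVec, hgv]
      have h3 : ∑ k, (Pi.single (Fin.natAdd m j) 1 : Fin (m + p) → ℂ) k • b k =
          b (Fin.natAdd m j) := by
        rw [Finset.sum_eq_single (Fin.natAdd m j)]
        · rw [Pi.single_eq_same, one_smul]
        · intro k _ hk
          rw [Pi.single_eq_of_ne hk, zero_smul]
        · intro h
          exact absurd (Finset.mem_univ _) h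
      rw [h3, hb2]
      have h4 := (bK j).2
      rw [LinearMap.mem_ker, Matrix.mulVecLin_apply] at h4
      exact h4
    have h5 : B *ᵥ Pi.single (Fin.natAdd m j) 1 = 0 := by
      rw [hB, ← Matrix.mulVec_mulVec, h2, Matrix.mulVec_zero]
    have h6 := congrFun h5 i
    rwa [Matrix.mulVec_single_one] at h6
  have hBb : B = blk (Matrix.of fun i j => B (Fin.castAdd p i) (Fin.castAdd p j)) 0
      (Matrix.of fun i j => B (Fin.natAdd m i) (Fin.castAdd p j)) 0 := by
    ext i j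
    refine Fin.addCases (fun i => ?_) (fun i => ?_) i <;>
      refine Fin.addCases (fun j => ?_) (fun j => ?_) j
    · rw [blk_apply₁₁]; rfl
    · rw [blk_apply₁₂]; exact hB0 _ _
    · rw [blk_apply₂₁]; rfl
    · rw [blk_apply₂₂]; exact hB0 _ _
  refine ⟨g, _, _, hgu, by rw [hAg]; exact congrArg (g * ·) hBb, fun v hv1 hv2 => ?_⟩
  -- injectivity
  obtain ⟨w, hw⟩ : ∃ w : Fin (m + p) → ℂ, w = Fin.append v 0 := ⟨_, rfl⟩
  have h1 : B *ᵥ w = 0 := by
    ext i
    rw [Matrix.mulVec, dotProduct, Fin.sum_univ_add]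
    have h2 : ∑ j : Fin p, B i (Fin.natAdd m j) * w (Fin.natAdd m j) = 0 :=
      Finset.sum_eq_zero fun j _ => by rw [hB0, zero_mul]
    rw [h2, add_zero]
    have h3 : ∀ j : Fin m, w (Fin.castAdd p j) = v j := fun j => by
      rw [hw, Fin.append_left]
    simp only [h3]
    refine Fin.addCases (fun i => ?_) (fun i => ?_) i
    · exact congrFun hv1 i
    · exact congrFun hv2 i
  have h2 : g *ᵥ w ∈ LinearMap.ker A.mulVecLin := by
    rw [LinearMap.mem_ker, Matrix.mulVecLin_apply, Matrix.mulVec_mulVec, hAg,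
      ← Matrix.mulVec_mulVec, h1, Matrix.mulVec_zero]
  have h3 : g *ᵥ w ∈ C := by
    rw [hgv, Fin.sum_univ_add]
    apply C.add_mem
    · apply C.sum_mem
      intro j _
      rw [hb1]
      exact C.smul_mem _ (bC j).2
    · have h4 : ∀ j : Fin p, w (Fin.natAdd m j) = 0 := fun j => by
        rw [hw, Fin.append_right]
        rfl
      simp only [h4, zero_smul, Finset.sum_const_zero]
      exact C.zero_mem
  have h4 : g *ᵥ w = 0 := by
    have := Submodule.disjoint_def.1 hC.disjoint _ h2 h3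
    exact this
  have h5 : w = 0 := by
    have : g⁻¹ *ᵥ (g *ᵥ w) = 0 := by rw [h4, Matrix.mulVec_zero]
    rwa [Matrix.mulVec_mulVec, Matrix.nonsing_inv_mul _ hgd, Matrix.one_mulVec] at this
  ext i
  have := congrFun h5 (Fin.castAdd p i)
  rw [hw, Fin.append_left] at this
  exact this

end Vale.Agent.P002G
end

section

/-!
# The chart of one eigenvalue
-/

namespace Vale.Agent.P002G

open Matrix
open Vale.Agent.P002R (UpT LoT upT_one loT_one)

variable {n m p : ℕ} {S R : Type*} [CommRing S] [CommRing R]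

/-- The chart. -/
def chZ (e : S) (W : Matrix (Fin m) (Fin m) S) (x : Matrix (Fin m) (Fin p) S)
    (Y : Matrix (Fin p) (Fin m) S) : Matrix (Fin (m + p)) (Fin (m + p)) S :=
  e • (blk 1 (-x) 0 1 * blk W 0 Y 1 * blk 1 x 0 1)

theorem chZ_eq (e : S) (W : Matrix (Fin m) (Fin m) S) (x : Matrix (Fin m) (Fin p) S)
    (Y : Matrix (Fin p) (Fin m) S) :
    chZ e W x Y = e • blk (W - x * Y) ((W - x * Y) * x - x) Y (1 + Y * x) := by
  rw [chZ, blk_mul, blk_mul]
  simp only [Matrix.mul_zero, Matrix.zero_mul, add_zero, zero_add, Matrix.mul_one, Matrix.one_mul,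
    Matrix.neg_mul, sub_eq_add_neg]
  rw [add_comm (Y * x) 1]

theorem upT_one_blk (B : Matrix (Fin m) (Fin p) S) : UpT (blk 1 B 0 1) :=
  upT_blk B upT_one upT_one

theorem one_blk_diag (B : Matrix (Fin m) (Fin p) S) (i : Fin (m + p)) :
    blk (1 : Matrix (Fin m) (Fin m) S) B 0 (1 : Matrix (Fin p) (Fin p) S) i i = 1 := by
  refine Fin.addCases (fun i => ?_) (fun i => ?_) i
  · rw [blk_apply₁₁, Matrix.one_apply_eq]
  · rw [blk_apply₂₂, Matrix.one_apply_eq]

theorem chZ_inC {e : S} (he : IsUnit e) {U L : Matrix (Fin m) (Fin m) S} (hU : UpT U)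
    (hU1 : ∀ i, U i i = 1) (hL : LoT L) (hL1 : ∀ i, IsUnit (L i i)) (D : S)
    (hWD : ∀ i j, j < i → D ∣ (U * L) i j) {x : Matrix (Fin m) (Fin p) S}
    {Y : Matrix (Fin p) (Fin m) S} (h : GoodPair D x Y) :
    InC (chZ e (U * L) (L⁻¹ * x) (Y * L)) ∧
      ∀ i j, j < i → D ∣ chZ e (U * L) (L⁻¹ * x) (Y * L) i j := by
  obtain ⟨hYD, hH, M, hM, hMK⟩ := h
  have hLu := (Matrix.isUnit_iff_isUnit_det _).1 (isUnit_of_loT hL hL1)
  obtain ⟨H, hHe⟩ : ∃ H, H = 1 + Y * x := ⟨_, rfl⟩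
  have hHu : IsUnit H := hHe ▸ hH.isUnit
  have hHd := (Matrix.isUnit_iff_isUnit_det _).1 hHu
  have hYx : Y * L * (L⁻¹ * x) = Y * x := by
    rw [Matrix.mul_assoc, ← Matrix.mul_assoc L, Matrix.mul_nonsing_inv _ hLu, Matrix.one_mul]
  have hYLD : ∀ i j, D ∣ (Y * L) i j := by
    intro i j
    rw [Matrix.mul_apply]
    exact Finset.dvd_sum fun k _ => (hYD i k).mul_right _
  have hmulD : ∀ {a b c : ℕ} (A : Matrix (Fin a) (Fin b) S) (B : Matrix (Fin b) (Fin c) S),
      (∀ i j, D ∣ B i j) → ∀ i j, D ∣ (A * B) i j := by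
    intro a b c A B hB i j
    rw [Matrix.mul_apply]
    exact Finset.dvd_sum fun k _ => (hB k j).mul_left _
  constructor
  · rw [chZ_eq, hYx, ← hHe]
    apply InC.smul _ he
    -- the inverse of `1 + x Y`
    have h1 : M + x * (H⁻¹ * Y) = 1 := by
      have h2 : (M + x * (H⁻¹ * Y)) * (1 + x * Y) = 1 * (1 + x * Y) := by
        rw [Matrix.add_mul, hMK, Matrix.mul_assoc, Matrix.mul_assoc]
        have h3 : Y * (1 + x * Y) = H * Y := by
          rw [hHe, Matrix.mul_add, Matrix.add_mul, Matrix.mul_one, Matrix.one_mul,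
            Matrix.mul_assoc]
        rw [h3, ← Matrix.mul_assoc H⁻¹, Matrix.nonsing_inv_mul _ hHd, Matrix.one_mul,
          Matrix.one_mul]
      have h4 : IsUnit (1 + x * Y) := IsUnit.of_mul_eq_one_right _ hMK
      exact h4.mul_right_cancel h2
    obtain ⟨x', hx'⟩ : ∃ x', x' = L⁻¹ * x := ⟨_, rfl⟩
    have hLx : L * x' = x := by
      rw [hx', ← Matrix.mul_assoc, Matrix.mul_nonsing_inv _ hLu, Matrix.one_mul]
    rw [← hx']
    have h5 : blk (U * L - x' * (Y * L)) ((U * L - x' * (Y * L)) * x' - x') (Y * L) H =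
        blk 1 (U * x * H⁻¹ - x') 0 1 * blk (U * M * L) 0 (Y * L) H := by
      rw [blk_mul]
      simp only [Matrix.mul_zero, Matrix.zero_mul, zero_add, Matrix.one_mul]
      congr 1
      · rw [Matrix.sub_mul, ← add_sub_assoc]
        congr 1
        rw [Matrix.mul_assoc U M L, Matrix.mul_assoc (U * x), Matrix.mul_assoc U x,
          ← Matrix.mul_add]
        congr 1
        rw [← Matrix.mul_assoc H⁻¹, ← Matrix.mul_assoc x, ← Matrix.add_mul, h1, Matrix.one_mul]
      · rw [Matrix.sub_mul, Matrix.sub_mul, Matrix.mul_assoc (U * x), Matrix.nonsing_inv_mul _ hHd,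
          Matrix.mul_one, Matrix.mul_assoc U L x', hLx, sub_sub]
        congr 1
        rw [hHe, Matrix.mul_add, Matrix.mul_one, Matrix.mul_assoc x', Matrix.mul_assoc Y, hLx,
          add_comm]
    rw [h5]
    exact (InC.blk ((hM.mul_up hU hU1).mul_low hL hL1) (hHe ▸ hH) _).mul_up (upT_one_blk _)
      (one_blk_diag _)
  · rw [chZ_eq, hYx]
    intro i j hij
    rw [Matrix.smul_apply, smul_eq_mul]
    apply Dvd.dvd.mul_left
    revert hij
    refine Fin.addCases (fun i => ?_) (fun i => ?_) i <;>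
      refine Fin.addCases (fun j => ?_) (fun j => ?_) j
    · intro hij
      rw [blk_apply₁₁, Matrix.sub_apply]
      refine dvd_sub (hWD i j ?_) (hmulD _ _ hYLD i j)
      rwa [Fin.lt_def, Fin.val_castAdd, Fin.val_castAdd] at hij
    · intro hij
      exfalso
      rw [Fin.lt_def, Fin.val_natAdd, Fin.val_castAdd] at hij
      have := i.2
      omega
    · intro _
      rw [blk_apply₂₁]
      exact hYLD i j
    · intro hij
      rw [blk_apply₂₂, Matrix.add_apply]
      refine dvd_add ?_ ?_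
      · rw [Matrix.one_apply_ne]
        · exact dvd_zero _
        · rintro rfl
          exact lt_irrefl _ hij
      · rw [Matrix.mul_apply]
        exact Finset.dvd_sum fun k _ => (hYD i k).mul_right _

theorem blk_map (φ : S →+* R) (A : Matrix (Fin m) (Fin m) S) (B : Matrix (Fin m) (Fin p) S)
    (C : Matrix (Fin p) (Fin m) S) (D : Matrix (Fin p) (Fin p) S) :
    (blk A B C D).map φ = blk (A.map φ) (B.map φ) (C.map φ) (D.map φ) := by
  ext i j
  rw [Matrix.map_apply]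
  refine Fin.addCases (fun i => ?_) (fun i => ?_) i <;>
    refine Fin.addCases (fun j => ?_) (fun j => ?_) j
  · rw [blk_apply₁₁, blk_apply₁₁, Matrix.map_apply]
  · rw [blk_apply₁₂, blk_apply₁₂, Matrix.map_apply]
  · rw [blk_apply₂₁, blk_apply₂₁, Matrix.map_apply]
  · rw [blk_apply₂₂, blk_apply₂₂, Matrix.map_apply]

theorem chZ_map (φ : S →+* R) (e : S) (W : Matrix (Fin m) (Fin m) S)
    (x : Matrix (Fin m) (Fin p) S) (Y : Matrix (Fin p) (Fin m) S) :
    (chZ e W x Y).map φ = chZ (φ e) (W.map φ) (x.map φ) (Y.map φ) := by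
  rw [chZ_eq, chZ_eq]
  ext i j
  rw [Matrix.map_apply, Matrix.smul_apply, Matrix.smul_apply, smul_eq_mul, smul_eq_mul, map_mul,
    ← Matrix.map_apply (f := φ), blk_map, Matrix.map_sub φ (map_sub φ), Matrix.map_sub φ (map_sub φ),
    Matrix.map_mul, Matrix.map_mul, Matrix.map_add φ (map_add φ), Matrix.map_mul,
    Matrix.map_one φ (map_zero φ) (map_one φ), Matrix.map_sub φ (map_sub φ), Matrix.map_mul]

/-! ### Polynomial maps -/

section poly

variable {V W : Type*} [AddCommGroup V] [Module ℂ V] [AddCommGroup W] [Module ℂ W]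

theorem PolyMap.lin {W' : Type*} [AddCommGroup W'] [Module ℂ W'] {f : V → W} (h : PolyMap f)
    (l : W →ₗ[ℂ] W') : PolyMap fun v => l (f v) := fun l' => h (l'.comp l)

theorem PolyMap.add {f g : V → W} (hf : PolyMap f) (hg : PolyMap g) :
    PolyMap fun v => f v + g v := fun l =>
  ((hf l).add (hg l)).congr fun _ => (map_add l _ _).symm

theorem PolyMap.sub {f g : V → W} (hf : PolyMap f) (hg : PolyMap g) :
    PolyMap fun v => f v - g v := fun l =>
  ((hf l).sub (hg l)).congr fun _ => (map_sub l _ _).symm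

theorem PolyMap.const_smul {f : V → W} (hf : PolyMap f) (c : ℂ) : PolyMap fun v => c • f v :=
  fun l => ((isPoly_const c).mul (hf l)).congr fun v => by rw [map_smul, smul_eq_mul]

theorem polyMap_blk {A : V → Matrix (Fin m) (Fin m) ℂ} {B : V → Matrix (Fin m) (Fin p) ℂ}
    {C : V → Matrix (Fin p) (Fin m) ℂ} {D : V → Matrix (Fin p) (Fin p) ℂ} (hA : PolyMap A)
    (hB : PolyMap B) (hC : PolyMap C) (hD : PolyMap D) :
    PolyMap fun v => blk (A v) (B v) (C v) (D v) := by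
  apply polyMap_matrix
  intro i j
  refine Fin.addCases (fun i => ?_) (fun i => ?_) i <;>
    refine Fin.addCases (fun j => ?_) (fun j => ?_) j
  · simp only [blk_apply₁₁]; exact hA.entry i j
  · simp only [blk_apply₁₂]; exact hB.entry i j
  · simp only [blk_apply₂₁]; exact hC.entry i j
  · simp only [blk_apply₂₂]; exact hD.entry i j

theorem polyMap_chZ {A : V → Matrix (Fin m) (Fin m) ℂ} {x : V → Matrix (Fin m) (Fin p) ℂ}
    {Y : V → Matrix (Fin p) (Fin m) ℂ} (hA : PolyMap A) (hx : PolyMap x) (hY : PolyMap Y)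
    (e : ℂ) : PolyMap fun v => chZ e (A v) (x v) (Y v) := by
  have h1 : ∀ v, e • blk (A v - x v * Y v) ((A v - x v * Y v) * x v - x v) (Y v)
      (1 + Y v * x v) = chZ e (A v) (x v) (Y v) := fun v => (chZ_eq _ _ _ _).symm
  have h2 : PolyMap fun v => e • blk (A v - x v * Y v) ((A v - x v * Y v) * x v - x v) (Y v)
      (1 + Y v * x v) := by
    have h3 := hA.sub (IsPoly.matrix_mul hx hY)
    exact (polyMap_blk h3 ((IsPoly.matrix_mul h3 hx).sub hx) hY
      ((polyMap_const 1).add (IsPoly.matrix_mul hY hx))).const_smul e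
  intro l
  exact (h2 l).congr fun v => congrArg l (h1 v)

end poly

/-! ### Determinants, decompositions -/

theorem det_blk (A : Matrix (Fin m) (Fin m) S) (C : Matrix (Fin p) (Fin m) S)
    (D : Matrix (Fin p) (Fin p) S) : (blk A 0 C D).det = A.det * D.det := by
  rw [blk, Matrix.det_submatrix_equiv_self, Matrix.det_fromBlocks_zero₁₂]

theorem det_blk' (A : Matrix (Fin m) (Fin m) S) (B : Matrix (Fin m) (Fin p) S)
    (D : Matrix (Fin p) (Fin p) S) : (blk A B 0 D).det = A.det * D.det := by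
  rw [blk, Matrix.det_submatrix_equiv_self, Matrix.det_fromBlocks_zero₂₁]

omit [CommRing S] in
theorem blk_eta (G : Matrix (Fin (m + p)) (Fin (m + p)) S) :
    G = blk (Matrix.of fun i j => G (Fin.castAdd p i) (Fin.castAdd p j))
      (Matrix.of fun i j => G (Fin.castAdd p i) (Fin.natAdd m j))
      (Matrix.of fun i j => G (Fin.natAdd m i) (Fin.castAdd p j))
      (Matrix.of fun i j => G (Fin.natAdd m i) (Fin.natAdd m j)) := by
  ext i j
  refine Fin.addCases (fun i => ?_) (fun i => ?_) i <;>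
    refine Fin.addCases (fun j => ?_) (fun j => ?_) j
  · rw [blk_apply₁₁]; rfl
  · rw [blk_apply₁₂]; rfl
  · rw [blk_apply₂₁]; rfl
  · rw [blk_apply₂₂]; rfl

/-- Block decomposition. -/
theorem exists_decomp (G : Matrix (Fin (m + p)) (Fin (m + p)) S) (hG : IsUnit G)
    (h : IsUnit (Matrix.of fun i j => G (Fin.natAdd m i) (Fin.natAdd m j) :
      Matrix (Fin p) (Fin p) S).det) :
    ∃ (x : Matrix (Fin m) (Fin p) S) (a : Matrix (Fin m) (Fin m) S)
      (s : Matrix (Fin p) (Fin m) S) (t : Matrix (Fin p) (Fin p) S), IsUnit a ∧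
      G = blk 1 (-x) 0 1 * blk a 0 s t := by
  obtain ⟨t, ht⟩ : ∃ t : Matrix (Fin p) (Fin p) S,
      t = Matrix.of fun i j => G (Fin.natAdd m i) (Fin.natAdd m j) := ⟨_, rfl⟩
  obtain ⟨s, hs⟩ : ∃ s : Matrix (Fin p) (Fin m) S,
      s = Matrix.of fun i j => G (Fin.natAdd m i) (Fin.castAdd p j) := ⟨_, rfl⟩
  obtain ⟨b, hb⟩ : ∃ b : Matrix (Fin m) (Fin p) S,
      b = Matrix.of fun i j => G (Fin.castAdd p i) (Fin.natAdd m j) := ⟨_, rfl⟩
  obtain ⟨c, hc⟩ : ∃ c : Matrix (Fin m) (Fin m) S,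
      c = Matrix.of fun i j => G (Fin.castAdd p i) (Fin.castAdd p j) := ⟨_, rfl⟩
  have hGe : G = blk c b s t := by
    rw [hc, hb, hs, ht]
    exact blk_eta G
  rw [← ht] at h
  have h1 : G = blk 1 (-(-(b * t⁻¹))) 0 1 * blk (c - b * t⁻¹ * s) 0 s t := by
    rw [hGe, blk_mul]
    simp only [Matrix.mul_zero, Matrix.zero_mul, zero_add, Matrix.one_mul, neg_neg]
    congr 1
    · rw [sub_add_cancel]
    · rw [Matrix.mul_assoc, Matrix.nonsing_inv_mul _ h, Matrix.mul_one]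
  refine ⟨_, _, _, _, ?_, h1⟩
  rw [Matrix.isUnit_iff_isUnit_det]
  have h2 := (Matrix.isUnit_iff_isUnit_det _).1 hG
  rw [h1, Matrix.det_mul, det_blk', det_blk, Matrix.det_one, Matrix.det_one, one_mul,
    one_mul] at h2
  exact isUnit_of_mul_isUnit_left h2

theorem conj_chZ (e : S) (W0 : Matrix (Fin m) (Fin m) S) (Y0 : Matrix (Fin p) (Fin m) S)
    (x : Matrix (Fin m) (Fin p) S) (a : Matrix (Fin m) (Fin m) S) (ha : IsUnit a)
    (s : Matrix (Fin p) (Fin m) S) (t : Matrix (Fin p) (Fin p) S) :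
    (blk 1 (-x) 0 1 * blk a 0 s t) * (e • blk W0 0 Y0 1) =
      chZ e (a * W0 * a⁻¹) x ((s * W0 + t * Y0 - s) * a⁻¹) * (blk 1 (-x) 0 1 * blk a 0 s t) := by
  have had := (Matrix.isUnit_iff_isUnit_det _).1 ha
  have h1 : blk (1 : Matrix (Fin m) (Fin m) S) x 0 (1 : Matrix (Fin p) (Fin p) S) *
      blk 1 (-x) 0 1 = 1 := by
    rw [blk_mul]
    simp only [Matrix.mul_zero, Matrix.zero_mul, add_zero, zero_add, Matrix.one_mul,
      Matrix.mul_one, neg_add_cancel]
    exact blk_one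
  have h2 : blk a 0 s t * blk W0 0 Y0 1 =
      blk (a * W0 * a⁻¹) 0 ((s * W0 + t * Y0 - s) * a⁻¹) 1 * blk a 0 s t := by
    rw [blk_mul, blk_mul]
    simp only [Matrix.mul_zero, Matrix.zero_mul, add_zero, zero_add, Matrix.one_mul,
      Matrix.mul_one]
    rw [Matrix.mul_assoc (a * W0), Matrix.mul_assoc _ a⁻¹ a, Matrix.nonsing_inv_mul _ had,
      Matrix.mul_one, Matrix.mul_one, sub_add_cancel]
  rw [chZ, Matrix.mul_smul, Matrix.smul_mul]
  congr 1
  calc blk 1 (-x) 0 1 * blk a 0 s t * blk W0 0 Y0 1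
      = blk 1 (-x) 0 1 * (blk a 0 s t * blk W0 0 Y0 1) := Matrix.mul_assoc _ _ _
    _ = blk 1 (-x) 0 1 * blk (a * W0 * a⁻¹) 0 ((s * W0 + t * Y0 - s) * a⁻¹) 1 * 1 *
        blk a 0 s t := by rw [h2, Matrix.mul_one]; exact (Matrix.mul_assoc _ _ _).symm
    _ = _ := by rw [← h1]; simp only [Matrix.mul_assoc]

end Vale.Agent.P002G
end

section

/-!
# Density of the integral points of an arbitrary conjugacy class
-/

namespace Vale.Agent.P002G

open Matrix
open Vale.Agent.P002R (UpT LoT upT_one loT_one)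

variable {n m p : ℕ} {S R : Type*} [CommRing S] [CommRing R]

/-- A test for the rank. -/
theorem exists_test (A g0 : Matrix (Fin (m + p)) (Fin (m + p)) ℂ) (W' : Matrix (Fin m) (Fin m) ℂ)
    (Y' : Matrix (Fin p) (Fin m) ℂ) (hg0 : IsUnit g0) (hA : A * g0 = g0 * blk W' 0 Y' 0)
    (hinj : ∀ v, W' *ᵥ v = 0 → Y' *ᵥ v = 0 → v = 0) :
    ∃ E : Matrix (Fin (m + p)) (Fin (m + p)) ℂ → ℂ, IsPoly E ∧ E A ≠ 0 ∧
      ∀ (g g' : Matrix (Fin (m + p)) (Fin (m + p)) ℂ) (W : Matrix (Fin m) (Fin m) ℂ)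
        (Y : Matrix (Fin p) (Fin m) ℂ), E (g * blk W 0 Y 0 * g') ≠ 0 →
        ∀ v, W *ᵥ v = 0 → Y *ᵥ v = 0 → v = 0 := by
  have hgd := (Matrix.isUnit_iff_isUnit_det _).1 hg0
  obtain ⟨P, hP⟩ : ∃ P : Matrix (Fin (m + p)) (Fin m) ℂ,
      P = Matrix.of fun i j => if i = Fin.castAdd p j then 1 else 0 := ⟨_, rfl⟩
  obtain ⟨Q, hQ⟩ : ∃ Q : Matrix (Fin m) (Fin (m + p)) ℂ,
      Q = Matrix.of fun i j => if j = Fin.castAdd p i then 1 else 0 := ⟨_, rfl⟩
  have hPm : ∀ B : Matrix (Fin (m + p)) (Fin (m + p)) ℂ, ∀ i j,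
      (B * P) i j = B i (Fin.castAdd p j) := by
    intro B i j
    rw [Matrix.mul_apply, hP]
    simp
  have hBP : ∀ (W : Matrix (Fin m) (Fin m) ℂ) (Y : Matrix (Fin p) (Fin m) ℂ),
      blk W 0 Y 0 * P * Q = blk W 0 Y 0 := by
    intro W Y
    ext i j
    rw [Matrix.mul_apply]
    simp only [hPm]
    refine Fin.addCases (fun j => ?_) (fun j => ?_) j
    · rw [Finset.sum_eq_single j]
      · rw [hQ, Matrix.of_apply, if_pos rfl, mul_one]
      · intro k _ hk
        rw [hQ, Matrix.of_apply, if_neg, mul_zero]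
        exact fun h => hk (Fin.castAdd_injective m p h).symm
      · intro h; exact absurd (Finset.mem_univ _) h
    · rw [Finset.sum_eq_zero]
      · refine Fin.addCases (fun i => ?_) (fun i => ?_) i
        · rw [blk_apply₁₂]; rfl
        · rw [blk_apply₂₂]; rfl
      · intro k _
        rw [hQ, Matrix.of_apply, if_neg, mul_zero]
        intro h
        have := congrArg Fin.val h
        rw [Fin.val_natAdd, Fin.val_castAdd] at this
        have := k.2
        omega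
  have hinj' : ∀ (W : Matrix (Fin m) (Fin m) ℂ) (Y : Matrix (Fin p) (Fin m) ℂ) v,
      (blk W 0 Y 0 * P) *ᵥ v = 0 ↔ W *ᵥ v = 0 ∧ Y *ᵥ v = 0 := by
    intro W Y v
    have h1 : ∀ i, ((blk W 0 Y 0 * P) *ᵥ v) (Fin.castAdd p i) = (W *ᵥ v) i := by
      intro i
      rw [Matrix.mulVec, Matrix.mulVec, dotProduct, dotProduct]
      refine Finset.sum_congr rfl fun j _ => ?_
      rw [hPm, blk_apply₁₁]
    have h2 : ∀ i, ((blk W 0 Y 0 * P) *ᵥ v) (Fin.natAdd m i) = (Y *ᵥ v) i := by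
      intro i
      rw [Matrix.mulVec, Matrix.mulVec, dotProduct, dotProduct]
      refine Finset.sum_congr rfl fun j _ => ?_
      rw [hPm, blk_apply₂₁]
    constructor
    · intro h
      refine ⟨funext fun i => ?_, funext fun i => ?_⟩
      · rw [← h1, h]; rfl
      · rw [← h2, h]; rfl
    · rintro ⟨h3, h4⟩
      ext i
      refine Fin.addCases (fun i => ?_) (fun i => ?_) i
      · rw [h1, h3]; rfl
      · rw [h2, h4]; rfl
  -- a left inverse
  obtain ⟨N, hN⟩ : ∃ N : Matrix (Fin m) (Fin (m + p)) ℂ, N * (blk W' 0 Y' 0 * P) = 1 := by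
    obtain ⟨f, hf⟩ := LinearMap.exists_leftInverse_of_injective
      (blk W' 0 Y' 0 * P).mulVecLin (by
        rw [LinearMap.ker_eq_bot']
        intro v hv
        rw [Matrix.mulVecLin_apply] at hv
        have := (hinj' W' Y' v).1 hv
        exact hinj v this.1 this.2)
    refine ⟨LinearMap.toMatrix' f, ?_⟩
    apply Matrix.ext_of_mulVec_single
    intro i
    rw [← Matrix.mulVec_mulVec, Matrix.one_mulVec]
    have h1 := LinearMap.congr_fun hf (Pi.single i 1)
    rw [LinearMap.comp_apply, Matrix.mulVecLin_apply] at h1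
    conv_rhs => rw [← LinearMap.id_apply (R := ℂ) (Pi.single i 1 : Fin m → ℂ), ← h1]
    rw [← Matrix.toLin'_apply, Matrix.toLin'_toMatrix']
  refine ⟨fun Z => (N * g0⁻¹ * Z * (g0 * P)).det, ?_, ?_, ?_⟩
  · have hid : PolyMap fun g : Matrix (Fin (m + p)) (Fin (m + p)) ℂ => g :=
      polyMap_linear LinearMap.id
    exact isPoly_det (IsPoly.matrix_mul (IsPoly.matrix_mul (polyMap_const _) hid)
      (polyMap_const _))
  · have h1 : N * g0⁻¹ * A * (g0 * P) = 1 := by
      rw [← hN, Matrix.mul_assoc, ← Matrix.mul_assoc A, hA, Matrix.mul_assoc N,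
        Matrix.mul_assoc g0, ← Matrix.mul_assoc g0⁻¹, Matrix.nonsing_inv_mul _ hgd,
        Matrix.one_mul]
    beta_reduce
    rw [h1, Matrix.det_one]
    exact one_ne_zero
  · intro g g' W Y h v hv1 hv2
    have h1 : N * g0⁻¹ * (g * blk W 0 Y 0 * g') * (g0 * P) =
        N * g0⁻¹ * g * (blk W 0 Y 0 * P) * (Q * g' * (g0 * P)) := by
      conv_lhs => rw [← hBP W Y]
      simp only [Matrix.mul_assoc]
    beta_reduce at h
    rw [h1, Matrix.det_mul] at h
    have h2 := left_ne_zero_of_mul h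
    apply Matrix.eq_zero_of_mulVec_eq_zero h2
    rw [← Matrix.mulVec_mulVec, (hinj' W Y v).2 ⟨hv1, hv2⟩, Matrix.mulVec_zero]

/-- Conjugate matrices. -/
def Cj (A B : Matrix (Fin n) (Fin n) ℂ) : Prop :=
  ∃ g : Matrix (Fin n) (Fin n) ℂ, IsUnit g ∧ g * A = B * g

theorem Cj.symm {A B : Matrix (Fin n) (Fin n) ℂ} (h : Cj A B) : Cj B A := by
  obtain ⟨g, hg, h⟩ := h
  have hgd := (Matrix.isUnit_iff_isUnit_det _).1 hg
  refine ⟨g⁻¹, Matrix.isUnit_nonsing_inv_iff.2 hg, ?_⟩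
  calc g⁻¹ * B = g⁻¹ * (B * g) * g⁻¹ := by
        rw [Matrix.mul_assoc, Matrix.mul_assoc, Matrix.mul_nonsing_inv _ hgd, Matrix.mul_one]
    _ = A * g⁻¹ := by rw [← h, ← Matrix.mul_assoc, Matrix.nonsing_inv_mul _ hgd, Matrix.one_mul]

theorem Cj.trans {A B C : Matrix (Fin n) (Fin n) ℂ} (h : Cj A B) (h' : Cj B C) : Cj A C := by
  obtain ⟨g, hg, h⟩ := h
  obtain ⟨g', hg', h'⟩ := h'
  refine ⟨g' * g, hg'.mul hg, ?_⟩
  rw [Matrix.mul_assoc, h, ← Matrix.mul_assoc, h', Matrix.mul_assoc]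

/-- Conjugacy of the values of the chart. -/
theorem cj_chZ (ζ : ℂ) (W0 W : Matrix (Fin m) (Fin m) ℂ) (Y0 Y : Matrix (Fin p) (Fin m) ℂ)
    (x : Matrix (Fin m) (Fin p) ℂ) (hW : Cj W0 W)
    (h0 : ∀ v, (W0 - 1) *ᵥ v = 0 → Y0 *ᵥ v = 0 → v = 0)
    (h1 : ∀ v, (W - 1) *ᵥ v = 0 → Y *ᵥ v = 0 → v = 0) :
    Cj (ζ • blk W0 0 Y0 1) (chZ ζ W x Y) := by
  obtain ⟨a, ha, haW⟩ := hW
  have had := (Matrix.isUnit_iff_isUnit_det _).1 ha
  obtain ⟨g, hg, hgW⟩ := conj_of_inj W0 Y0 (Y * a) h0 (by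
    intro v hv hv'
    have h2 : a *ᵥ v = 0 := by
      apply h1
      · have h3 : (W - 1) * a = a * (W0 - 1) := by
          rw [Matrix.sub_mul, Matrix.mul_sub, ← haW, Matrix.one_mul, Matrix.mul_one]
        rw [Matrix.mulVec_mulVec, h3, ← Matrix.mulVec_mulVec, hv, Matrix.mulVec_zero]
      · rw [Matrix.mulVec_mulVec, hv']
    have h3 : a⁻¹ *ᵥ (a *ᵥ v) = 0 := by rw [h2, Matrix.mulVec_zero]
    rwa [Matrix.mulVec_mulVec, Matrix.nonsing_inv_mul _ had, Matrix.one_mulVec] at h3)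
  -- the matrix `blk 1 (-x) 0 1 * blk a 0 0 1 * g`
  have h2 : IsUnit (blk (1 : Matrix (Fin m) (Fin m) ℂ) (-x) 0 (1 : Matrix (Fin p) (Fin p) ℂ) *
      blk a 0 0 1) := by
    rw [Matrix.isUnit_iff_isUnit_det, Matrix.det_mul, det_blk', det_blk, Matrix.det_one,
      Matrix.det_one]
    simpa using had
  refine ⟨blk 1 (-x) 0 1 * blk a 0 0 1 * g, h2.mul hg, ?_⟩
  have h3 := conj_chZ ζ W0 (Y * a) x a ha (0 : Matrix (Fin p) (Fin m) ℂ)
    (1 : Matrix (Fin p) (Fin p) ℂ)
  rw [Matrix.zero_mul, zero_add, sub_zero, Matrix.one_mul, Matrix.mul_assoc Y,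
    Matrix.mul_nonsing_inv _ had, Matrix.mul_one, haW, Matrix.mul_assoc W,
    Matrix.mul_nonsing_inv _ had, Matrix.mul_one] at h3
  rw [Matrix.mul_assoc, Matrix.mul_smul, hgW, ← Matrix.smul_mul, ← Matrix.mul_assoc, h3,
    Matrix.mul_assoc]

theorem chZ_sub (ζ : ℂ) (W : Matrix (Fin m) (Fin m) ℂ) (Y : Matrix (Fin p) (Fin m) ℂ)
    (x : Matrix (Fin m) (Fin p) ℂ) :
    chZ ζ W x Y - ζ • 1 = (ζ • blk 1 (-x) 0 1) * blk (W - 1) 0 Y 0 * blk 1 x 0 1 := by
  have h1 : blk (1 : Matrix (Fin m) (Fin m) ℂ) (-x) 0 (1 : Matrix (Fin p) (Fin p) ℂ) *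
      blk 1 x 0 1 = 1 := by
    rw [blk_mul]
    simp only [Matrix.mul_zero, Matrix.zero_mul, add_zero, zero_add, Matrix.one_mul,
      Matrix.mul_one, add_neg_cancel]
    exact blk_one
  have h2 : blk W 0 Y 1 = 1 + blk (W - 1) 0 Y 0 := by
    rw [← blk_one]
    ext i j
    rw [Matrix.add_apply]
    refine Fin.addCases (fun i => ?_) (fun i => ?_) i <;>
      refine Fin.addCases (fun j => ?_) (fun j => ?_) j
    · rw [blk_apply₁₁, blk_apply₁₁, blk_apply₁₁, Matrix.sub_apply]; ring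
    · rw [blk_apply₁₂, blk_apply₁₂, blk_apply₁₂]; simp
    · rw [blk_apply₂₁, blk_apply₂₁, blk_apply₂₁]; simp
    · rw [blk_apply₂₂, blk_apply₂₂, blk_apply₂₂]; simp
  rw [chZ, h2, Matrix.mul_add, Matrix.add_mul, Matrix.mul_one, h1, smul_add, Matrix.smul_mul,
    Matrix.smul_mul]
  abel

/-- Eigenvalues. -/
theorem isRoot_iff (A : Matrix (Fin n) (Fin n) ℂ) (z : ℂ) :
    A.charpoly.IsRoot z ↔ (A - z • 1).det = 0 := by
  rw [Polynomial.IsRoot.def, Matrix.eval_charpoly, Matrix.scalar_apply,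
    ← Matrix.smul_one_eq_diagonal, ← neg_sub,
    Matrix.det_neg, mul_eq_zero, or_iff_right (pow_ne_zero _ (neg_ne_zero.2 one_ne_zero))]

/-- **Density of the integral points of a conjugacy class** in the cell, with a modulus. -/
theorem totCell (φ : R →+* ℂ) (u : Rˣ) (hu : ∀ k : ℕ, 0 < k → φ u ^ k ≠ 1) (D : R)
    (hD : ∃ M : ℕ, 0 < M ∧ D ∣ (u : R) ^ M - 1) : ∀ (n : ℕ) (J : Matrix (Fin n) (Fin n) ℂ)
    (_ : IsUnit J) (_ : ∀ z, J.charpoly.IsRoot z → ∃ e : Rˣ, φ e = z)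
    (F : Matrix (Fin n) (Fin n) ℂ → ℂ) (_ : IsPoly F)
    (_ : ∀ Z : Matrix (Fin n) (Fin n) R, InC Z → (∀ i j, j < i → D ∣ Z i j) →
      Cj J (Z.map φ) → F (Z.map φ) = 0)
    (g : Matrix (Fin n) (Fin n) ℂ) (_ : IsUnit g), F (g * J * g⁻¹) = 0 := by
  intro n
  induction n using Nat.strong_induction_on with
  | h n ih =>
  intro J hJu hJ F hF h
  rcases Nat.eq_zero_or_pos n with h0 | h0
  · subst h0
    intro g _
    rw [Subsingleton.elim (g * J * g⁻¹) ((1 : Matrix (Fin 0) (Fin 0) R).map φ)]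
    apply h 1 inC_one (fun i => i.elim0)
    exact ⟨1, isUnit_one, Subsingleton.elim _ _⟩
  -- an eigenvalue
  obtain ⟨ζ, hζ⟩ := IsAlgClosed.exists_root J.charpoly (by
    rw [Matrix.charpoly_degree_eq_dim, Fintype.card_fin]
    exact_mod_cast h0.ne')
  obtain ⟨e, he⟩ := hJ ζ hζ
  have hζ0 : ζ ≠ 0 := by rw [← he]; exact (e.isUnit.map φ).ne_zero
  obtain ⟨p, hp⟩ : ∃ p, Module.finrank ℂ (LinearMap.ker (J - ζ • 1).mulVecLin) = p := ⟨_, rfl⟩
  have hp0 : 0 < p := by
    rw [← hp]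
    apply Module.finrank_pos_iff_exists_ne_zero.2
    obtain ⟨v, hv0, hv⟩ := Matrix.exists_mulVec_eq_zero_iff.2 ((isRoot_iff J ζ).1 hζ)
    exact ⟨⟨v, by rw [LinearMap.mem_ker, Matrix.mulVecLin_apply]; exact hv⟩,
      fun h => hv0 (congrArg Subtype.val h)⟩
  have hpn : p ≤ n := by
    rw [← hp]
    refine (Submodule.finrank_le _).trans ?_
    rw [Module.finrank_fin_fun]
  obtain ⟨m, rfl⟩ : ∃ m, n = m + p := ⟨n - p, by omega⟩
  obtain ⟨g0, W', Y', hg0, hA, hinj⟩ := adapted _ hp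
  have hg0d := (Matrix.isUnit_iff_isUnit_det _).1 hg0
  obtain ⟨E, hE, hEA, hEt⟩ := exists_test _ g0 W' Y' hg0 hA hinj
  obtain ⟨W0, hW0⟩ : ∃ W0, W0 = 1 + ζ⁻¹ • W' := ⟨_, rfl⟩
  obtain ⟨Y0, hY0⟩ : ∃ Y0, Y0 = ζ⁻¹ • Y' := ⟨_, rfl⟩
  have hB0 : ζ • blk W0 0 Y0 1 = ζ • 1 + blk W' 0 Y' 0 := by
    rw [← blk_one, hW0, hY0]
    ext i j
    rw [Matrix.smul_apply, Matrix.add_apply, Matrix.smul_apply]
    refine Fin.addCases (fun i => ?_) (fun i => ?_) i <;>
      refine Fin.addCases (fun j => ?_) (fun j => ?_) j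
    · rw [blk_apply₁₁, blk_apply₁₁, blk_apply₁₁, Matrix.add_apply, Matrix.smul_apply]
      simp only [smul_eq_mul]
      field_simp
    · rw [blk_apply₁₂, blk_apply₁₂, blk_apply₁₂]; simp
    · rw [blk_apply₂₁, blk_apply₂₁, blk_apply₂₁, Matrix.smul_apply]
      simp only [smul_eq_mul]
      field_simp
      simp
    · rw [blk_apply₂₂, blk_apply₂₂, blk_apply₂₂]; simp
  have hJg : J * g0 = g0 * (ζ • blk W0 0 Y0 1) := by
    rw [hB0, Matrix.mul_add, ← hA, Matrix.sub_mul, Matrix.mul_smul, Matrix.smul_mul,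
      Matrix.mul_one, Matrix.one_mul]
    abel
  have hinj0 : ∀ v, (W0 - 1) *ᵥ v = 0 → Y0 *ᵥ v = 0 → v = 0 := by
    intro v hv1 hv2
    rw [hW0, add_sub_cancel_left, Matrix.smul_mulVec] at hv1
    rw [hY0, Matrix.smul_mulVec] at hv2
    exact hinj v ((smul_eq_zero.1 hv1).resolve_left (inv_ne_zero hζ0))
      ((smul_eq_zero.1 hv2).resolve_left (inv_ne_zero hζ0))
  have hcjJ : Cj (ζ • blk W0 0 Y0 1) J := ⟨g0, hg0, hJg.symm⟩
  -- determinants
  have hdet : ∀ z : ℂ, (J - (ζ * z) • 1).det =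
      ζ ^ (m + p) * ((W0 - z • 1).det * ((1 : Matrix (Fin p) (Fin p) ℂ) - z • 1).det) := by
    intro z
    have h1 : (J - (ζ * z) • 1) * g0 = g0 * (ζ • blk (W0 - z • 1) 0 Y0 (1 - z • 1)) := by
      have h2 : ζ • blk (W0 - z • 1) 0 Y0 (1 - z • 1) = ζ • blk W0 0 Y0 1 - (ζ * z) • 1 := by
        rw [← blk_one]
        ext i j
        rw [Matrix.smul_apply, Matrix.sub_apply, Matrix.smul_apply, Matrix.smul_apply]
        refine Fin.addCases (fun i => ?_) (fun i => ?_) i <;>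
          refine Fin.addCases (fun j => ?_) (fun j => ?_) j
        · rw [blk_apply₁₁, blk_apply₁₁, blk_apply₁₁, Matrix.sub_apply, Matrix.smul_apply]
          simp only [smul_eq_mul]
          ring
        · rw [blk_apply₁₂, blk_apply₁₂, blk_apply₁₂]; simp
        · rw [blk_apply₂₁, blk_apply₂₁, blk_apply₂₁]; simp
        · rw [blk_apply₂₂, blk_apply₂₂, blk_apply₂₂, Matrix.sub_apply, Matrix.smul_apply]
          simp only [smul_eq_mul]
          ring
      rw [h2, Matrix.sub_mul, Matrix.mul_sub, hJg, Matrix.smul_mul, Matrix.one_mul,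
        Matrix.mul_smul, Matrix.mul_smul, Matrix.mul_one]
    have h2 := congrArg Matrix.det h1
    rw [Matrix.det_mul, Matrix.det_mul, mul_comm, Matrix.det_smul, Fintype.card_fin,
      det_blk] at h2
    exact mul_left_cancel₀ hg0d.ne_zero h2
  have hW0u : IsUnit W0 := by
    have h1 := hdet 0
    rw [mul_zero, zero_smul, zero_smul, zero_smul, sub_zero, sub_zero, sub_zero, Matrix.det_one,
      mul_one] at h1
    have h2 := ((Matrix.isUnit_iff_isUnit_det _).1 hJu).ne_zero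
    rw [h1] at h2
    rw [Matrix.isUnit_iff_isUnit_det]
    exact isUnit_iff_ne_zero.2 (right_ne_zero_of_mul h2)
  have hW0r : ∀ z, W0.charpoly.IsRoot z → ∃ e : Rˣ, φ e = z := by
    intro z hz
    have h1 := hdet z
    rw [(isRoot_iff W0 z).1 hz, zero_mul, mul_zero] at h1
    obtain ⟨e', he'⟩ := hJ _ ((isRoot_iff J _).2 h1)
    refine ⟨e⁻¹ * e', ?_⟩
    have h2 : φ ((e⁻¹ : Rˣ) : R) * φ (e : R) = 1 := by
      rw [← map_mul, Units.inv_mul, map_one]
    rw [Units.val_mul, map_mul, he', ← he, ← mul_assoc, h2, one_mul]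
  -- the polynomial
  obtain ⟨G, hG⟩ : ∃ G : Matrix (Fin (m + p)) (Fin (m + p)) ℂ → ℂ,
      G = fun Z => E (Z - ζ • 1) * F Z := ⟨_, rfl⟩
  have hE' : IsPoly fun Z : Matrix (Fin (m + p)) (Fin (m + p)) ℂ => E (Z - ζ • 1) :=
    PolyMap.comp ((polyMap_linear LinearMap.id).sub (polyMap_const _)) hE
  have hGp : IsPoly G := by
    rw [hG]
    exact hE'.mul hF
  -- integral `W`
  have step1 : ∀ W : Matrix (Fin m) (Fin m) R, InC W → (∀ i j, j < i → D ∣ W i j) →
      Cj W0 (W.map φ) → ∀ x Y, G (chZ ζ (W.map φ) x Y) = 0 := by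
    intro W hW hWD hWc x Y
    obtain ⟨U, L, hU, hU1, hL, hL1, rfl⟩ := hW
    have hLu := (Matrix.isUnit_iff_isUnit_det _).1 (isUnit_of_loT hL hL1)
    have hlin1 : PolyMap fun z : Matrix (Fin m) (Fin p) ℂ × Matrix (Fin p) (Fin m) ℂ => z.1 :=
      polyMap_linear (LinearMap.fst ℂ (Matrix (Fin m) (Fin p) ℂ) (Matrix (Fin p) (Fin m) ℂ))
    have hlin2 : PolyMap fun z : Matrix (Fin m) (Fin p) ℂ × Matrix (Fin p) (Fin m) ℂ => z.2 :=
      polyMap_linear (LinearMap.snd ℂ (Matrix (Fin m) (Fin p) ℂ) (Matrix (Fin p) (Fin m) ℂ))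
    have key := pairs_dense φ u hu D hD
      (fun z : Matrix (Fin m) (Fin p) ℂ × Matrix (Fin p) (Fin m) ℂ =>
        G (chZ ζ ((U * L).map φ) ((L⁻¹).map φ * z.1) (z.2 * L.map φ)))
      ((polyMap_chZ (polyMap_const _) (IsPoly.matrix_mul (polyMap_const _) hlin1)
        (IsPoly.matrix_mul hlin2 (polyMap_const _)) ζ).comp hGp) ?_ (L.map φ * x)
        (Y * (L⁻¹).map φ)
    · beta_reduce at key
      rw [← Matrix.mul_assoc, Matrix.mul_assoc Y, ← Matrix.map_mul, Matrix.nonsing_inv_mul _ hLu,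
        Matrix.map_one φ (map_zero φ) (map_one φ), Matrix.one_mul, Matrix.mul_one] at key
      exact key
    · intro x' Y' hxY
      obtain ⟨h1, h2⟩ := chZ_inC e.isUnit hU hU1 hL hL1 D hWD hxY
      beta_reduce
      rw [← Matrix.map_mul, ← Matrix.map_mul, ← he, ← chZ_map, hG]
      beta_reduce
      by_cases hEz : E ((chZ (e : R) (U * L) (L⁻¹ * x') (Y' * L)).map φ - ζ • 1) = 0
      · rw [hEz, zero_mul]
      · rw [h _ h1 h2, mul_zero]
        rw [chZ_map, he] at hEz ⊢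
        rw [chZ_sub] at hEz
        exact hcjJ.symm.trans (cj_chZ ζ W0 _ Y0 _ _ hWc hinj0 (hEt _ _ _ _ hEz))
  -- arbitrary `W`
  have step2 : ∀ (x : Matrix (Fin m) (Fin p) ℂ) (Y : Matrix (Fin p) (Fin m) ℂ)
      (a : Matrix (Fin m) (Fin m) ℂ), IsUnit a → G (chZ ζ (a * W0 * a⁻¹) x Y) = 0 := by
    intro x Y
    exact ih m (by omega) W0 hW0u hW0r (fun W => G (chZ ζ W x Y))
      ((polyMap_chZ (polyMap_linear LinearMap.id) (polyMap_const _) (polyMap_const _) ζ).comp hGp)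
      fun W h1 h2 h3 => step1 W h1 h2 h3 x Y
  -- the orbit
  have hlin3 : PolyMap fun g : Matrix (Fin (m + p)) (Fin (m + p)) ℂ => g * g0 :=
    IsPoly.matrix_mul (polyMap_linear LinearMap.id) (polyMap_const _)
  apply orbit_irred J F (fun Z => E (Z - ζ • 1)) hF hE'
    (fun g => (Matrix.of fun i j => (g * g0) (Fin.natAdd m i) (Fin.natAdd m j) :
      Matrix (Fin p) (Fin p) ℂ).det)
    (isPoly_det (polyMap_matrix fun i j => hlin3.entry _ _)) g0⁻¹ ?_ hEA
  · intro g hg hgd hgE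
    obtain ⟨x, a, s, t, ha, hgg⟩ := exists_decomp (g * g0) (hg.mul hg0)
      (isUnit_iff_ne_zero.2 hgd)
    have h1 := conj_chZ ζ W0 Y0 x a ha s t
    rw [← hgg, Matrix.mul_assoc, ← hJg, ← Matrix.mul_assoc, ← Matrix.mul_assoc] at h1
    have h2 := hg0.mul_right_cancel h1
    have hgd' := (Matrix.isUnit_iff_isUnit_det _).1 hg
    have h3 : g * J * g⁻¹ = chZ ζ (a * W0 * a⁻¹) x ((s * W0 + t * Y0 - s) * a⁻¹) := by
      rw [h2, Matrix.mul_assoc, Matrix.mul_nonsing_inv _ hgd', Matrix.mul_one]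
    have h4 := step2 x ((s * W0 + t * Y0 - s) * a⁻¹) a ha
    rw [← h3, hG] at h4
    exact (mul_eq_zero.1 h4).resolve_left hgE
  · beta_reduce
    rw [Matrix.nonsing_inv_mul _ hg0d]
    have h1 : (Matrix.of fun i j => (1 : Matrix (Fin (m + p)) (Fin (m + p)) ℂ) (Fin.natAdd m i)
        (Fin.natAdd m j) : Matrix (Fin p) (Fin p) ℂ) = 1 := by
      ext i j
      rw [Matrix.of_apply, Matrix.one_apply, Matrix.one_apply]
      simp
    rw [h1, Matrix.det_one]
    exact one_ne_zero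

end Vale.Agent.P002G
end

section

/-!
# The density in the coordinates of the cell
-/

namespace Vale.Agent.P002G

open Matrix
open Vale.Agent.P002R (UpT LoT upT_one loT_one)

variable {n : ℕ} {R : Type*} [CommRing R]

/-- Functions of the coordinates that are rational functions of the matrix. -/
def IsQ (f : Matrix (Fin n) (Fin n) ℂ → ℂ) : Prop :=
  ∃ G N : Matrix (Fin n) (Fin n) ℂ → ℂ, IsPoly G ∧ IsPoly N ∧
    ∀ X : Matrix (Fin n) (Fin n) ℂ, (∀ i, X i i ≠ 0) → N (zZ X) ≠ 0 ∧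
      G (zZ X) = N (zZ X) * f X

theorem isQ_const (c : ℂ) : IsQ fun _ : Matrix (Fin n) (Fin n) ℂ => c :=
  ⟨fun _ => c, fun _ => 1, isPoly_const c, isPoly_const 1, fun X _ => ⟨one_ne_zero, by simp⟩⟩

theorem isQ_entry (i j : Fin n) : IsQ fun X : Matrix (Fin n) (Fin n) ℂ => zZ X i j :=
  ⟨fun Z => Z i j, fun _ => 1, (polyMap_linear LinearMap.id).entry i j, isPoly_const 1,
    fun X _ => ⟨one_ne_zero, by simp⟩⟩

theorem IsQ.add {f g : Matrix (Fin n) (Fin n) ℂ → ℂ} (hf : IsQ f) (hg : IsQ g) :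
    IsQ fun X => f X + g X := by
  obtain ⟨G, N, hG, hN, h⟩ := hf
  obtain ⟨G', N', hG', hN', h'⟩ := hg
  refine ⟨fun Z => G Z * N' Z + G' Z * N Z, fun Z => N Z * N' Z, (hG.mul hN').add (hG'.mul hN),
    hN.mul hN', fun X hX => ?_⟩
  obtain ⟨h1, h2⟩ := h X hX
  obtain ⟨h3, h4⟩ := h' X hX
  refine ⟨mul_ne_zero h1 h3, ?_⟩
  beta_reduce
  rw [h2, h4]
  ring

theorem IsQ.mul {f g : Matrix (Fin n) (Fin n) ℂ → ℂ} (hf : IsQ f) (hg : IsQ g) :
    IsQ fun X => f X * g X := by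
  obtain ⟨G, N, hG, hN, h⟩ := hf
  obtain ⟨G', N', hG', hN', h'⟩ := hg
  refine ⟨fun Z => G Z * G' Z, fun Z => N Z * N' Z, hG.mul hG', hN.mul hN', fun X hX => ?_⟩
  obtain ⟨h1, h2⟩ := h X hX
  obtain ⟨h3, h4⟩ := h' X hX
  refine ⟨mul_ne_zero h1 h3, ?_⟩
  beta_reduce
  rw [h2, h4]
  ring

theorem IsQ.sum {ι : Type*} (s : Finset ι) {f : ι → Matrix (Fin n) (Fin n) ℂ → ℂ}
    (hf : ∀ i ∈ s, IsQ (f i)) : IsQ fun X => ∑ i ∈ s, f i X := by
  classical
  induction s using Finset.induction_on with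
  | empty => simpa using isQ_const (n := n) 0
  | insert i s hi ih =>
    have h1 := (hf i (Finset.mem_insert_self i s)).add
      (ih fun j hj => hf j (Finset.mem_insert_of_mem hj))
    have h2 : (fun X => ∑ i ∈ insert i s, f i X) = fun X => f i X + ∑ i ∈ s, f i X :=
      funext fun X => Finset.sum_insert hi
    rw [h2]
    exact h1

theorem IsQ.congr {f g : Matrix (Fin n) (Fin n) ℂ → ℂ} (hf : IsQ f)
    (h : ∀ X : Matrix (Fin n) (Fin n) ℂ, (∀ i, X i i ≠ 0) → f X = g X) : IsQ g := by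
  obtain ⟨G, N, hG, hN, h'⟩ := hf
  exact ⟨G, N, hG, hN, fun X hX => ⟨(h' X hX).1, by rw [(h' X hX).2, h X hX]⟩⟩

theorem IsQ.inv {f : Matrix (Fin n) (Fin n) ℂ → ℂ} (hf : IsQ f)
    (h : ∀ X : Matrix (Fin n) (Fin n) ℂ, (∀ i, X i i ≠ 0) → f X ≠ 0) : IsQ fun X => (f X)⁻¹ := by
  obtain ⟨G, N, hG, hN, h'⟩ := hf
  refine ⟨N, G, hN, hG, fun X hX => ?_⟩
  obtain ⟨h1, h2⟩ := h' X hX
  have h3 := h X hX
  refine ⟨by rw [h2]; exact mul_ne_zero h1 h3, ?_⟩
  rw [h2, mul_assoc, mul_inv_cancel₀ h3, mul_one]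

theorem zZ_apply (X : Matrix (Fin n) (Fin n) ℂ) (i j : Fin n) :
    zZ X i j = ∑ k, (if i = k then 1 else if i < k then X i k else 0) *
      (if j ≤ k then X k j else 0) := rfl

/-- The coordinates are rational functions of the matrix. -/
theorem isQ_coord : ∀ (d : ℕ) (i j : Fin n), n ≤ max (i : ℕ) j + 1 + d →
    IsQ fun X : Matrix (Fin n) (Fin n) ℂ => X i j := by
  intro d
  induction d using Nat.strong_induction_on with
  | h d ih =>
  intro i j hd
  -- entries with larger index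
  have hlarge : ∀ a b : Fin n, max (i : ℕ) j < max (a : ℕ) b →
      IsQ fun X : Matrix (Fin n) (Fin n) ℂ => X a b := by
    intro a b hab
    have ha := a.2
    have hb := b.2
    exact ih (n - (max (a : ℕ) b + 1)) (by omega) a b (by omega)
  have hlow : ∀ a b : Fin n, b ≤ a → max (i : ℕ) j = a →
      IsQ fun X : Matrix (Fin n) (Fin n) ℂ => X a b := by
    intro a b hba hm
    have h1 : IsQ fun X : Matrix (Fin n) (Fin n) ℂ => zZ X a b +
        (-1) * ∑ k ∈ Finset.univ.filter (a < ·), X a k * X k b := by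
      refine (isQ_entry a b).add ((isQ_const (-1)).mul (IsQ.sum _ fun k hk => ?_))
      rw [Finset.mem_filter, Fin.lt_def] at hk
      have hk2 := hk.2
      exact (hlarge a k (by omega)).mul (hlarge k b (by omega))
    refine h1.congr fun X _ => ?_
    rw [zZ_apply, ← Finset.sum_filter_add_sum_filter_not Finset.univ (a < ·)]
    have h2 : ∑ k ∈ Finset.univ.filter (a < ·), (if a = k then 1 else if a < k then X a k else 0) *
        (if b ≤ k then X k b else 0) = ∑ k ∈ Finset.univ.filter (a < ·), X a k * X k b := by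
      refine Finset.sum_congr rfl fun k hk => ?_
      rw [Finset.mem_filter] at hk
      rw [if_neg hk.2.ne, if_pos hk.2, if_pos (hba.trans hk.2.le)]
    have h3 : ∑ k ∈ Finset.univ.filter (fun k => ¬ a < k),
        (if a = k then 1 else if a < k then X a k else 0) * (if b ≤ k then X k b else 0) =
        X a b := by
      rw [Finset.sum_eq_single a]
      · rw [if_pos rfl, if_pos hba, one_mul]
      · intro k hk hka
        rw [Finset.mem_filter] at hk
        rw [if_neg (Ne.symm hka), if_neg hk.2, zero_mul]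
      · intro h
        exfalso
        apply h
        rw [Finset.mem_filter]
        exact ⟨Finset.mem_univ _, lt_irrefl a⟩
    rw [h2, h3]
    ring
  rcases le_or_gt j i with hji | hij
  · exact hlow i j hji (by rw [Fin.le_def] at hji; omega)
  · -- upper entries
    have hjj : IsQ fun X : Matrix (Fin n) (Fin n) ℂ => X j j :=
      hlow j j le_rfl (by rw [Fin.lt_def] at hij; omega)
    have h1 : IsQ fun X : Matrix (Fin n) (Fin n) ℂ => (zZ X i j +
        (-1) * ∑ k ∈ Finset.univ.filter (j < ·), X i k * X k j) * (X j j)⁻¹ := by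
      refine ((isQ_entry i j).add ((isQ_const (-1)).mul (IsQ.sum _ fun k hk => ?_))).mul
        (hjj.inv fun X hX => hX j)
      rw [Finset.mem_filter, Fin.lt_def] at hk
      have hk2 := hk.2
      exact (hlarge i k (by omega)).mul (hlarge k j (by omega))
    refine h1.congr fun X hX => ?_
    rw [zZ_apply, ← Finset.sum_filter_add_sum_filter_not Finset.univ (j < ·)]
    have h2 : ∑ k ∈ Finset.univ.filter (j < ·), (if i = k then 1 else if i < k then X i k else 0) *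
        (if j ≤ k then X k j else 0) = ∑ k ∈ Finset.univ.filter (j < ·), X i k * X k j := by
      refine Finset.sum_congr rfl fun k hk => ?_
      rw [Finset.mem_filter] at hk
      have hik := hij.trans hk.2
      rw [if_neg hik.ne, if_pos hik, if_pos hk.2.le]
    have h3 : ∑ k ∈ Finset.univ.filter (fun k => ¬ j < k),
        (if i = k then 1 else if i < k then X i k else 0) * (if j ≤ k then X k j else 0) =
        X i j * X j j := by
      rw [Finset.sum_eq_single j]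
      · rw [if_neg hij.ne, if_pos hij, if_pos le_rfl]
      · intro k hk hkj
        rw [Finset.mem_filter] at hk
        rw [if_neg (fun h : j ≤ k => hk.2 (lt_of_le_of_ne h (Ne.symm hkj))), mul_zero]
      · intro h
        exfalso
        apply h
        rw [Finset.mem_filter]
        exact ⟨Finset.mem_univ _, lt_irrefl j⟩
    rw [h2, h3]
    have := hX j
    field_simp
    ring

/-- Polynomial functions of the coordinates are rational functions of the matrix. -/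
theorem IsPoly.isQ {F : Matrix (Fin n) (Fin n) ℂ → ℂ} (hF : IsPoly F) : IsQ F := by
  unfold IsPoly polyAlg at hF
  induction hF using Algebra.adjoin_induction with
  | mem f hf =>
    obtain ⟨l, rfl⟩ := hf
    have h1 : IsQ fun X : Matrix (Fin n) (Fin n) ℂ =>
        ∑ i, ∑ j, X i j * l (Matrix.single i j 1) :=
      IsQ.sum _ fun i _ => IsQ.sum _ fun j _ =>
        (isQ_coord (n := n) n i j (by omega)).mul (isQ_const _)
    refine h1.congr fun X _ => ?_
    conv_rhs => rw [Matrix.matrix_eq_sum_single X]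
    rw [map_sum]
    refine Finset.sum_congr rfl fun i _ => ?_
    rw [map_sum]
    refine Finset.sum_congr rfl fun j _ => ?_
    rw [← smul_eq_mul, ← map_smul, Matrix.smul_single, smul_eq_mul, mul_one]
  | algebraMap c => exact isQ_const c
  | add f g _ _ hf hg => exact hf.add hg
  | mul f g _ _ hf hg => exact hf.mul hg

/-- **Density in the coordinates of the cell.** -/
theorem totCoord (φ : R →+* ℂ) (u : Rˣ) (hu : ∀ k : ℕ, 0 < k → φ u ^ k ≠ 1) (D : R)
    (hD : ∃ M : ℕ, 0 < M ∧ D ∣ (u : R) ^ M - 1) {n : ℕ} (J : Matrix (Fin n) (Fin n) ℂ)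
    (hJu : IsUnit J) (hJ : ∀ z, J.charpoly.IsRoot z → ∃ e : Rˣ, φ e = z)
    (F : Matrix (Fin n) (Fin n) ℂ → ℂ) (hF : IsPoly F)
    (h : ∀ X : Matrix (Fin n) (Fin n) R, (∀ i, IsUnit (X i i)) → (∀ i j, j < i → D ∣ X i j) →
      Cj J (zZ (X.map φ)) → F (X.map φ) = 0)
    (X : Matrix (Fin n) (Fin n) ℂ) (hX : ∀ i, X i i ≠ 0) (hJX : Cj J (zZ X)) : F X = 0 := by
  obtain ⟨G, N, hG, hN, hGN⟩ := hF.isQ
  obtain ⟨g, hg, hgX⟩ := hJX
  have hgd := (Matrix.isUnit_iff_isUnit_det _).1 hg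
  have h1 := totCell φ u hu D hD n J hJu hJ G hG (by
    intro Z hZ hZD hZJ
    obtain ⟨U, L, hU, hU1, hL, hL1, rfl⟩ := hZ
    obtain ⟨X, hX⟩ : ∃ X : Matrix (Fin n) (Fin n) R,
        X = Matrix.of fun i j => if i < j then U i j else L i j := ⟨_, rfl⟩
    have hXU : uU X = U := by
      ext i j
      rw [uU, Matrix.of_apply, hX]
      rcases lt_trichotomy i j with h2 | h2 | h2
      · rw [if_neg h2.ne, if_pos h2, Matrix.of_apply, if_pos h2]
      · subst h2
        rw [if_pos rfl, hU1]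
      · rw [if_neg h2.ne', if_neg h2.not_gt, hU i j h2]
    have hXL : lL X = L := by
      ext i j
      rw [lL, Matrix.of_apply, hX]
      by_cases h2 : j ≤ i
      · rw [if_pos h2, Matrix.of_apply, if_neg (not_lt.2 h2)]
      · rw [if_neg h2, hL i j (not_le.1 h2)]
    have hZX : U * L = zZ X := by rw [zZ, hXU, hXL]
    have hXi : ∀ i, X i i = L i i := fun i => by rw [hX, Matrix.of_apply, if_neg (lt_irrefl i)]
    have hXD : ∀ i j, j < i → D ∣ X i j := by
      intro i j hij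
      have hLU : L = U⁻¹ * (U * L) := by
        rw [← Matrix.mul_assoc, Matrix.nonsing_inv_mul _
          ((Matrix.isUnit_iff_isUnit_det _).1 (isUnit_of_upT hU hU1)), Matrix.one_mul]
      -- the columns of `L` below the diagonal
      have key : ∀ (d : ℕ) (i : Fin n), j < i → n ≤ i + 1 + d → D ∣ L i j := by
        intro d
        induction d using Nat.strong_induction_on with
        | h d ih =>
        intro i hij hd
        have h2 := hZD i j hij
        rw [Matrix.mul_apply, ← Finset.add_sum_erase _ _ (Finset.mem_univ i), hU1, one_mul] at h2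
        refine (dvd_add_left (Finset.dvd_sum fun k hk => ?_)).1 h2
        rcases lt_or_gt_of_ne (Finset.ne_of_mem_erase hk) with h3 | h3
        · rw [hU i k h3, zero_mul]
          exact dvd_zero D
        · apply Dvd.dvd.mul_left
          have h4 : (i : ℕ) < k := h3
          have := k.2
          exact ih (n - (k + 1)) (by omega) k (hij.trans h3) (by omega)
      rw [hX, Matrix.of_apply, if_neg hij.not_gt]
      exact key n i hij (by omega)
    have h2 := h X (fun i => by rw [hXi]; exact hL1 i) hXD (by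
      rw [← zZ_map, ← hZX]
      exact hZJ)
    have h3 := (hGN (X.map φ) (fun i => by
      rw [Matrix.map_apply, hXi]
      exact ((hL1 i).map φ).ne_zero)).2
    rw [h2, mul_zero, ← zZ_map, ← hZX] at h3
    exact h3) g hg
  have h2 : g * J * g⁻¹ = zZ X := by
    rw [hgX, Matrix.mul_assoc, Matrix.mul_nonsing_inv _ hgd, Matrix.mul_one]
  rw [h2] at h1
  obtain ⟨h3, h4⟩ := hGN X hX
  rw [h1] at h4
  exact (mul_eq_zero.1 h4.symm).resolve_left h3

end Vale.Agent.P002G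
end

section

/-!
# Lemma B: density of the integral points of the cells with a unimodular Krylov matrix
-/

namespace Vale.Agent.P002G

open Matrix Polynomial
open Vale.Agent.P002 (kry mul_kry kry_mulVec_single)

variable {n : ℕ} {R : Type*} [CommRing R]

/-! ### The other direction -/

end Vale.Agent.P002G
end

section

/-!
# Cyclic vectors of triangular matrices which are congruent to bidiagonal ones
-/

namespace Vale.Agent.P002G

open Matrix Polynomial

variable {n : ℕ} {S : Type*} [CommRing S]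

end Vale.Agent.P002G
end

section

/-!
# The chart in genus one: integrality and rationality
-/

namespace Vale.Agent.P002G

open Matrix Polynomial
open Vale.Agent.P002 (kry mul_kry kry_mulVec_single krylov_comm)
open Vale.Agent.P002R (GenU FU relatorU UpT LoT)

variable {r : ℕ} {S T : Type*} [CommRing S] [CommRing T]

/-! ### Congruences -/

/-! ### Base change -/

/-! ### Rationality -/

section rational

variable {V : Type*} [AddCommGroup V] [Module ℂ V] {d : V → ℂ}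

end rational

end Vale.Agent.P002G
end

section

/-!
# The chart in genus one: density
-/

namespace Vale.Agent.P002G

open Matrix Polynomial
open Vale.Agent.P002 (kry mul_kry kry_mulVec_single krylov_comm)
open Vale.Agent.P002R (GenU FU relatorU UpT LoT)

variable {R : Type*} [CommRing R]

/-- Conjugacy over the complex numbers. -/
def CjC {r : ℕ} (J Z : Matrix (Fin r) (Fin r) ℂ) : Prop :=
  ∃ g : (Matrix (Fin r) (Fin r) ℂ)ˣ, Z = g * J * ((g⁻¹ : (Matrix (Fin r) (Fin r) ℂ)ˣ) :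
    Matrix (Fin r) (Fin r) ℂ)

end Vale.Agent.P002G
end

section

/-!
# Total density, in the forms used by the charts
-/

namespace Vale.Agent.P002G

open Matrix

variable {r : ℕ} {R : Type*} [CommRing R]

theorem cj_of_cjC {J Z : Matrix (Fin r) (Fin r) ℂ} (h : CjC J Z) : Cj J Z := by
  obtain ⟨g, rfl⟩ := h
  exact ⟨g, g.isUnit, by rw [Matrix.mul_assoc, Units.inv_mul, Matrix.mul_one]⟩

theorem cjC_of_cj {J Z : Matrix (Fin r) (Fin r) ℂ} (h : Cj J Z) : CjC J Z := by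
  obtain ⟨g, ⟨g', rfl⟩, h⟩ := h
  exact ⟨g', by rw [h, Matrix.mul_assoc, Units.mul_inv, Matrix.mul_one]⟩

theorem isPoly_eval (F : MvPolynomial (Fin r × Fin r) ℂ) :
    IsPoly fun X : Matrix (Fin r) (Fin r) ℂ =>
      MvPolynomial.eval (fun p : Fin r × Fin r => X p.1 p.2) F := by
  induction F using MvPolynomial.induction_on with
  | C a => simpa using isPoly_const a
  | add p q hp hq => simpa using hp.add hq
  | mul_X p i hp =>
    simpa using hp.mul (PolyMap.entry (ψ := fun X : Matrix (Fin r) (Fin r) ℂ => X)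
      (polyMap_linear LinearMap.id) i.1 i.2)

/-- Total density, genus zero. -/
theorem totD (φ : R →+* ℂ) (u : Rˣ) (hu : ∀ k : ℕ, 0 < k → φ u ^ k ≠ 1)
    (J : Matrix (Fin r) (Fin r) ℂ) (hJu : IsUnit J)
    (hJ : ∀ z, J.charpoly.IsRoot z → ∃ e : Rˣ, φ e = z) : P002R.TotD φ J := fun F h X hX hJX =>
  totCoord φ u hu 1 ⟨1, one_pos, one_dvd _⟩ J hJu hJ _ (isPoly_eval F)
    (fun X h1 _ h3 => h X h1 (cjC_of_cj h3)) X hX (cj_of_cjC hJX)

end Vale.Agent.P002G
end

section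

/-!
# P002, genus 0: the fibrewise density (from Lemma B)
-/

namespace Vale.Agent.P002R

open Matrix

theorem isPoly_entries {m n : ℕ} (F : MvPolynomial (Fin m × Fin n) ℂ) :
    P002G.IsPoly fun X : Matrix (Fin m) (Fin n) ℂ => MvPolynomial.eval (fun p => X p.1 p.2) F := by
  have h1 : P002G.PolyMap fun X : Matrix (Fin m) (Fin n) ℂ => fun p : Fin m × Fin n => X p.1 p.2 :=
    P002G.polyMap_pi fun p => ((P002G.polyMap_linear LinearMap.id).entry p.1 p.2).polyMap
  exact h1.comp (P002G.isPoly_mvPoly F)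

end Vale.Agent.P002R
end

section

/-!
# P002, genus 0, two regular classes: density in the space of parameters of the chart
-/

namespace Vale.Agent.P002R

open Matrix

/-- Density of a product of two sets. -/
theorem dense_sum {σ τ : Type*} {x₀ : σ → ℂ} {t₀ : τ → ℂ} (B : Set (σ → ℂ)) (A : Set (τ → ℂ))
    (hB : ∀ P : MvPolynomial σ ℂ, (∀ x ∈ B, MvPolynomial.eval x P = 0) →
      MvPolynomial.eval x₀ P = 0)
    (hA : ∀ P : MvPolynomial τ ℂ, (∀ t ∈ A, MvPolynomial.eval t P = 0) →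
      MvPolynomial.eval t₀ P = 0) (P : MvPolynomial (σ ⊕ τ) ℂ)
    (hP : ∀ x ∈ B, ∀ t ∈ A, MvPolynomial.eval (Sum.elim x t) P = 0) :
    MvPolynomial.eval (Sum.elim x₀ t₀) P = 0 := by
  have h1 : ∀ t : τ → ℂ, ∃ Q : MvPolynomial σ ℂ, ∀ x, MvPolynomial.eval x Q =
      MvPolynomial.eval (Sum.elim x t) P := by
    intro t
    refine ⟨MvPolynomial.aeval (Sum.elim MvPolynomial.X fun i => MvPolynomial.C (t i)) P,
      fun x => ?_⟩
    rw [← MvPolynomial.coe_aeval_eq_eval, ← MvPolynomial.coe_aeval_eq_eval]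
    change (MvPolynomial.aeval x) ((MvPolynomial.aeval _) P) = (MvPolynomial.aeval _) P
    rw [← AlgHom.comp_apply, MvPolynomial.comp_aeval]
    congr 2
    funext p
    rcases p with p | p
    · simp
    · simp
  have h2 : ∀ x : σ → ℂ, ∃ Q : MvPolynomial τ ℂ, ∀ t, MvPolynomial.eval t Q =
      MvPolynomial.eval (Sum.elim x t) P := by
    intro x
    refine ⟨MvPolynomial.aeval (Sum.elim (fun i => MvPolynomial.C (x i)) MvPolynomial.X) P,
      fun t => ?_⟩
    rw [← MvPolynomial.coe_aeval_eq_eval, ← MvPolynomial.coe_aeval_eq_eval]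
    change (MvPolynomial.aeval t) ((MvPolynomial.aeval _) P) = (MvPolynomial.aeval _) P
    rw [← AlgHom.comp_apply, MvPolynomial.comp_aeval]
    congr 2
    funext p
    rcases p with p | p
    · simp
    · simp
  obtain ⟨Q, hQ⟩ := h2 x₀
  rw [← hQ]
  refine hA Q fun t ht => ?_
  rw [hQ]
  obtain ⟨Q', hQ'⟩ := h1 t
  rw [← hQ']
  refine hB Q' fun x hx => ?_
  rw [hQ']
  exact hP x hx t ht

theorem core_density2 {R : Type*} [CommRing R] (φ : R →+* ℂ) {r m : ℕ}
    (J : Fin m → Mat r ℂ) (hT : ∀ k, TotD φ (J k)) (Jl : Mat r ℂ) (θ : Fin r → Rˣ)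
    (F : MvPolynomial (Fin (m + 1) × Fin r × Fin r) ℂ)
    (hF : ∀ Y : Fin (m + 1) → Mat r R, (∀ k i, IsUnit (Y k i i)) →
      (∀ k : Fin m, CjM (J k) (zZ ((Y k.castSucc).map φ))) →
      CjM Jl (zZ ((Y (Fin.last m)).map φ)) → (∀ i, ∏ l, Y l i i = θ i) →
      MvPolynomial.aeval (fun p => φ (Y p.1 p.2.1 p.2.2)) F = (0 : ℂ))
    (Y : Fin (m + 1) → Mat r ℂ) (hY0 : ∀ k i, Y k i i ≠ 0)
    (hY1 : ∀ k : Fin m, CjM (J k) (zZ (Y k.castSucc)))
    (hY2 : CjM Jl (zZ (Y (Fin.last m)))) (hD : DualD φ Jl (Y (Fin.last m)))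
    (hY4 : ∀ i, ∏ l, Y l i i = φ (θ i)) :
    MvPolynomial.aeval (fun p => Y p.1 p.2.1 p.2.2) F = (0 : ℂ) := by
  obtain ⟨τ, t₀, A, hA, Yt, κ, hκ, hYt, hint⟩ := hD
  obtain ⟨p₁, hp₁⟩ : ∃ p₁ : Fin m × (Fin r × Fin r) → ℂ,
    p₁ = fun p => Y p.1.castSucc p.2.1 p.2.2 := ⟨_, rfl⟩
  obtain ⟨p₀, hp₀⟩ : ∃ p₀ : (Fin m × (Fin r × Fin r)) ⊕ τ → ℂ, p₀ = Sum.elim p₁ t₀ := ⟨_, rfl⟩
  obtain ⟨YS, hYS⟩ : ∃ YS : Fin m → Mat r (ratAt p₀),
    YS = fun k => Matrix.of fun i j => rX p₀ (Sum.inl (k, (i, j))) := ⟨_, rfl⟩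
  have hYSr : ∀ x k i j, rev p₀ x (YS k i j) = x (Sum.inl (k, (i, j))) := by
    intro x k i j
    rw [hYS]
    exact rev_rX p₀ x (Sum.inl (k, (i, j)))
  have hden : ∀ i, rev p₀ p₀ (∏ k, YS k i i) ≠ 0 := by
    intro i
    rw [map_prod, Finset.prod_ne_zero_iff]
    intro k _
    rw [hYSr, hp₀, hp₁]
    exact hY0 _ i
  choose inv hinv using fun i => exists_rinv (∏ k, YS k i i) (hden i)
  obtain ⟨q, hq⟩ : ∃ q : Fin r → ratAt p₀, q = fun i => algebraMap ℂ _ (φ (θ i)) * inv i :=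
    ⟨_, rfl⟩
  have hqr : ∀ x i, rev p₀ x (q i) = φ (θ i) * (∏ k, x (Sum.inl (k, (i, i))))⁻¹ := by
    intro x i
    rw [hq]
    simp only
    rw [map_mul, hinv, map_prod, AlgHom.commutes]
    simp only [hYSr]
    rfl
  have hq0 : ∀ i, rev p₀ p₀ (q i) = Y (Fin.last m) i i := by
    intro i
    rw [hqr, ← hY4 i, Fin.prod_univ_castSucc, hp₀, hp₁]
    simp only [Sum.elim_inl]
    rw [mul_comm (∏ l : Fin m, Y l.castSucc i i), mul_assoc, mul_inv_cancel₀, mul_one]
    rw [Finset.prod_ne_zero_iff]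
    exact fun k _ => hY0 _ i
  obtain ⟨s, hs⟩ : ∃ s : τ ⊕ Fin r → ratAt p₀, s = Sum.elim (fun a => rX p₀ (Sum.inr a)) q :=
    ⟨_, rfl⟩
  have hsr : ∀ x, (fun i => rev p₀ x (s i)) =
      Sum.elim (fun a => x (Sum.inr a)) fun i => rev p₀ x (q i) := by
    intro x
    funext i
    rw [hs]
    rcases i with a | i
    · rfl
    · rfl
  have hs0' : (fun i => rev p₀ p₀ (s i)) =
      Sum.elim t₀ fun i => Y (Fin.last m) i i := by
    rw [hsr]
    funext i
    rcases i with a | i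
    · exact congrFun hp₀ (Sum.inr a)
    · simp only [Sum.elim_inr]
      exact hq0 i
  have hs0 : ∀ i, rev p₀ p₀ (s i) = (Sum.elim t₀ fun i => Y (Fin.last m) i i :
      τ ⊕ Fin r → ℂ) i := fun i => congrFun hs0' i
  choose Yt' hYt' using fun i j => exists_ratComp s hs0 (Yt i j)
  obtain ⟨κ', hκ'⟩ := exists_ratComp s hs0 κ
  -- the function
  obtain ⟨g, hg⟩ : ∃ g : ratAt p₀, g = MvPolynomial.aeval (fun p => (Fin.snoc
    (α := fun _ => Mat r (ratAt p₀)) YS (Matrix.of Yt') : Fin (m + 1) → _) p.1 p.2.1 p.2.2) F :=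
    ⟨_, rfl⟩
  have hgr : ∀ x, rev p₀ x g = MvPolynomial.aeval (fun p => (Fin.snoc
      (α := fun _ => Mat r ℂ) (fun k => Matrix.of fun i j => x (Sum.inl (k, (i, j))))
      (Matrix.of fun i j => rev p₀ x (Yt' i j)) :
        Fin (m + 1) → Mat r ℂ) p.1 p.2.1 p.2.2) F := by
    intro x
    rw [hg, ← AlgHom.comp_apply, MvPolynomial.comp_aeval]
    congr 2
    funext p
    obtain ⟨k, i, j⟩ := p
    refine Fin.lastCases ?_ (fun k => ?_) k
    · simp only [Fin.snoc_last]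
      rfl
    · simp only [Fin.snoc_castSucc]
      exact hYSr x k i j
  -- the dense set
  obtain ⟨B, hBdef⟩ : ∃ B : Set (Fin m × (Fin r × Fin r) → ℂ), B =
    {x | ∃ Yi : Fin m → Mat r R, (∀ k i, IsUnit (Yi k i i)) ∧
      (∀ k, CjM (J k) (zZ ((Yi k).map φ))) ∧ x = fun p => φ (Yi p.1 p.2.1 p.2.2)} := ⟨_, rfl⟩
  have hB : ∀ P : MvPolynomial (Fin m × (Fin r × Fin r)) ℂ,
      (∀ x ∈ B, MvPolynomial.eval x P = 0) → MvPolynomial.eval p₁ P = 0 := by
    intro P hP
    have h1 := dense_pi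
      (fun k => {v | ∃ X : Mat r R, (∀ i, IsUnit (X i i)) ∧ CjM (J k) (zZ (X.map φ)) ∧
        v = fun p => φ (X p.1 p.2)})
      (fun k => {v | ∃ X : Mat r ℂ, (∀ i, X i i ≠ 0) ∧ CjM (J k) (zZ X) ∧
        v = fun p => X p.1 p.2})
      (fun k F hF v hv => by
        obtain ⟨X, hX1, hX2, rfl⟩ := hv
        exact hT k F (fun X' h1 h2 => hF _ ⟨X', h1, h2, rfl⟩) X hX1 hX2) P
      (fun v hv => by
        choose Yi h1 h2 h3 using hv
        apply hP
        rw [hBdef]
        refine ⟨Yi, h1, h2, ?_⟩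
        funext p
        rw [h3 p.1])
      (fun k p => Y k.castSucc p.1 p.2)
      (fun k => ⟨Y k.castSucc, hY0 _, hY1 k, rfl⟩)
    rw [hp₁]
    exact h1
  have hdense : ∀ P : MvPolynomial ((Fin m × (Fin r × Fin r)) ⊕ τ) ℂ,
      (∀ x ∈ {x | ∃ y ∈ B, ∃ t ∈ A, x = Sum.elim y t}, MvPolynomial.eval x P = 0) →
      MvPolynomial.eval p₀ P = 0 := by
    intro P hP
    rw [hp₀]
    exact dense_sum B A hB hA P fun x hx t ht => hP _ ⟨x, hx, t, ht, rfl⟩
  have hfin := ratAt_dense' _ hdense g κ' (by rw [hκ', hs0']; exact hκ) (fun x hx hκx => by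
    obtain ⟨y, hy, t, ht, rfl⟩ := hx
    rw [hBdef] at hy
    obtain ⟨Yi, h1, h2, rfl⟩ := hy
    rw [hκ', hsr] at hκx
    rw [hgr]
    have hu : ∀ i, IsUnit (∏ k, Yi k i i) := fun i => by
      rw [IsUnit.prod_univ_iff]
      exact fun l => h1 l i
    choose w hw using hu
    obtain ⟨qi, hqi⟩ : ∃ qi : Fin r → Rˣ, qi = fun i => θ i * (w i)⁻¹ := ⟨_, rfl⟩
    have hwi : ∀ i, φ (w i) * φ ((w i)⁻¹ : Rˣ) = 1 := fun i => by
      rw [← map_mul, Units.mul_inv, map_one]
    have hqx : ∀ i, rev p₀ (Sum.elim (fun p => φ (Yi p.1 p.2.1 p.2.2)) t) (q i) = φ (qi i) := by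
      intro i
      rw [hqr, hqi]
      simp only [Sum.elim_inl]
      have h3 : (∏ k, φ (Yi k i i)) = φ (w i) := by rw [hw, map_prod]
      rw [h3, Units.val_mul, map_mul]
      congr 1
      exact inv_eq_of_mul_eq_one_right (hwi i)
    have hqx' : (fun i => rev p₀ (Sum.elim (fun p => φ (Yi p.1 p.2.1 p.2.2)) t) (q i)) =
        fun i => φ (qi i : R) := funext hqx
    have hdet : ∏ i, φ (qi i : R) = Jl.det := by
      have h3 : (∏ i, φ (w i)) = ∏ k, (J k).det := by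
        have h4 : ∀ i, φ (w i) = ∏ k, φ (Yi k i i) := fun i => by rw [hw, map_prod]
        simp only [h4]
        rw [Finset.prod_comm]
        refine Finset.prod_congr rfl fun k _ => ?_
        rw [← (h2 k).det, det_zZ]
        rfl
      have h4 : (∏ i, φ (θ i)) = (∏ k, (J k).det) * Jl.det := by
        simp only [← hY4]
        rw [Finset.prod_comm, Fin.prod_univ_castSucc]
        congr 1
        · refine Finset.prod_congr rfl fun k _ => ?_
          rw [← (hY1 k).det, det_zZ]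
        · rw [← hY2.det, det_zZ]
      have h5 : (∏ i, φ (w i)) * ∏ i, φ (qi i : R) = ∏ i, φ (θ i) := by
        rw [← Finset.prod_mul_distrib]
        refine Finset.prod_congr rfl fun i _ => ?_
        rw [hqi]
        simp only
        rw [Units.val_mul, map_mul, mul_left_comm, hwi, mul_one]
      have h6 : (∏ i, φ (w i)) ≠ 0 := by
        rw [Finset.prod_ne_zero_iff]
        exact fun i _ => ((w i).isUnit.map φ).ne_zero
      rw [h4, ← h3] at h5
      exact mul_left_cancel₀ h6 h5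
    rw [hqx'] at hκx
    obtain ⟨X, hX1, hX2, hX3⟩ := hint t ht qi hdet hκx
    have hYx : ∀ i j, rev p₀ (Sum.elim (fun p => φ (Yi p.1 p.2.1 p.2.2)) t) (Yt' i j) =
        φ (X i j) := by
      intro i j
      rw [hYt', hsr, hqx']
      exact hX3 i j
    have h7 := hF (Fin.snoc (α := fun _ => Mat r R) Yi X) (fun k i => by
        refine Fin.lastCases ?_ (fun k => ?_) k
        · rw [Fin.snoc_last, hX1]
          exact (qi i).isUnit
        · rw [Fin.snoc_castSucc]
          exact h1 k i) (fun k => by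
        rw [Fin.snoc_castSucc]
        exact h2 k) (by rw [Fin.snoc_last]; exact hX2) (fun i => by
        rw [Fin.prod_univ_castSucc]
        simp only [Fin.snoc_last, Fin.snoc_castSucc]
        rw [hX1, ← hw i, hqi]
        simp only
        rw [← Units.val_mul, mul_left_comm, mul_inv_cancel, mul_one])
    rw [← h7]
    congr 2
    funext p
    obtain ⟨k, i, j⟩ := p
    refine Fin.lastCases ?_ (fun k => ?_) k
    · simp only [Fin.snoc_last]
      exact hYx i j
    · simp only [Fin.snoc_castSucc]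
      rfl)
  rw [hgr] at hfin
  rw [← hfin]
  congr 2
  funext p
  obtain ⟨k, i, j⟩ := p
  refine Fin.lastCases ?_ (fun k => ?_) k
  · simp only [Fin.snoc_last]
    change Y (Fin.last m) i j = rev p₀ p₀ (Yt' i j)
    rw [hYt', hs0']
    exact (hYt i j).symm
  · simp only [Fin.snoc_castSucc]
    have h8 := congrFun hp₀ (Sum.inl (k, (i, j)))
    have h9 := congrFun hp₁ (k, (i, j))
    exact (h8.trans h9).symm

end Vale.Agent.P002R
end

section

/-!
# P002: duality, the classes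
-/

namespace Vale.Agent.P002R

open Matrix

variable {m p : ℕ}

/-- The dual class `W0` of `J` with respect to the eigenvalue `ζ`. -/
structure DualCls (ζ : ℂ) (J : Mat (m + p) ℂ) (W0 : Mat m ℂ) (Y0 : Matrix (Fin p) (Fin m) ℂ) :
    Prop where
  zeta : ζ ≠ 0
  cj : P002G.Cj (ζ • P002G.blk W0 0 Y0 1) J
  inj : ∀ v, (W0 - 1) *ᵥ v = 0 → Y0 *ᵥ v = 0 → v = 0

theorem exists_dualCls {ζ : ℂ} (hζ0 : ζ ≠ 0) (J : Mat (m + p) ℂ)
    (hp : Module.finrank ℂ (LinearMap.ker (J - ζ • 1).mulVecLin) = p) :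
    ∃ W0 Y0, DualCls ζ J W0 Y0 := by
  obtain ⟨g0, W', Y', hg0, hA, hinj⟩ := P002G.adapted _ hp
  obtain ⟨W0, hW0⟩ : ∃ W0, W0 = 1 + ζ⁻¹ • W' := ⟨_, rfl⟩
  obtain ⟨Y0, hY0⟩ : ∃ Y0, Y0 = ζ⁻¹ • Y' := ⟨_, rfl⟩
  have hB0 : ζ • P002G.blk W0 0 Y0 1 = ζ • 1 + P002G.blk W' 0 Y' 0 := by
    rw [← P002G.blk_one, hW0, hY0]
    ext i j
    rw [Matrix.smul_apply, Matrix.add_apply, Matrix.smul_apply]
    refine Fin.addCases (fun i => ?_) (fun i => ?_) i <;>
      refine Fin.addCases (fun j => ?_) (fun j => ?_) j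
    · rw [P002G.blk_apply₁₁, P002G.blk_apply₁₁, P002G.blk_apply₁₁, Matrix.add_apply, Matrix.smul_apply]
      simp only [smul_eq_mul]
      field_simp
    · rw [P002G.blk_apply₁₂, P002G.blk_apply₁₂, P002G.blk_apply₁₂]; simp
    · rw [P002G.blk_apply₂₁, P002G.blk_apply₂₁, P002G.blk_apply₂₁, Matrix.smul_apply]
      simp only [smul_eq_mul]
      field_simp
      simp
    · rw [P002G.blk_apply₂₂, P002G.blk_apply₂₂, P002G.blk_apply₂₂]; simp
  have hJg : J * g0 = g0 * (ζ • P002G.blk W0 0 Y0 1) := by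
    rw [hB0, Matrix.mul_add, ← hA, Matrix.sub_mul, Matrix.mul_smul, Matrix.smul_mul,
      Matrix.mul_one, Matrix.one_mul]
    abel
  refine ⟨W0, Y0, hζ0, ⟨g0, hg0, hJg.symm⟩, ?_⟩
  intro v hv1 hv2
  rw [hW0, add_sub_cancel_left, Matrix.smul_mulVec] at hv1
  rw [hY0, Matrix.smul_mulVec] at hv2
  exact hinj v ((smul_eq_zero.1 hv1).resolve_left (inv_ne_zero hζ0))
    ((smul_eq_zero.1 hv2).resolve_left (inv_ne_zero hζ0))

theorem DualCls.det_sub {ζ : ℂ} {J : Mat (m + p) ℂ} {W0 : Mat m ℂ} {Y0 : Matrix (Fin p) (Fin m) ℂ}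
    (h : DualCls ζ J W0 Y0) (z : ℂ) : (J - (ζ * z) • 1).det =
      ζ ^ (m + p) * ((W0 - z • 1).det * ((1 : Matrix (Fin p) (Fin p) ℂ) - z • 1).det) := by
  obtain ⟨g0, hg0, hJg⟩ := h.cj
  have hg0d := (Matrix.isUnit_iff_isUnit_det _).1 hg0
  have h1 : (J - (ζ * z) • 1) * g0 = g0 * (ζ • P002G.blk (W0 - z • 1) 0 Y0 (1 - z • 1)) := by
    have h2 : ζ • P002G.blk (W0 - z • 1) 0 Y0 (1 - z • 1) = ζ • P002G.blk W0 0 Y0 1 - (ζ * z) • 1 := by
      rw [← P002G.blk_one]
      ext i j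
      rw [Matrix.smul_apply, Matrix.sub_apply, Matrix.smul_apply, Matrix.smul_apply]
      refine Fin.addCases (fun i => ?_) (fun i => ?_) i <;>
        refine Fin.addCases (fun j => ?_) (fun j => ?_) j
      · rw [P002G.blk_apply₁₁, P002G.blk_apply₁₁, P002G.blk_apply₁₁, Matrix.sub_apply, Matrix.smul_apply]
        simp only [smul_eq_mul]
        ring
      · rw [P002G.blk_apply₁₂, P002G.blk_apply₁₂, P002G.blk_apply₁₂]; simp
      · rw [P002G.blk_apply₂₁, P002G.blk_apply₂₁, P002G.blk_apply₂₁]; simp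
      · rw [P002G.blk_apply₂₂, P002G.blk_apply₂₂, P002G.blk_apply₂₂, Matrix.sub_apply, Matrix.smul_apply]
        simp only [smul_eq_mul]
        ring
    rw [h2, Matrix.sub_mul, Matrix.mul_sub, hJg, Matrix.smul_mul, Matrix.one_mul,
      Matrix.mul_smul, Matrix.mul_one]
  have h2 := congrArg Matrix.det h1
  rw [Matrix.det_mul, Matrix.det_mul, mul_comm, Matrix.det_smul, Fintype.card_fin,
    P002G.det_blk] at h2
  exact mul_left_cancel₀ hg0d.ne_zero h2

theorem DualCls.det_J {ζ : ℂ} {J : Mat (m + p) ℂ} {W0 : Mat m ℂ} {Y0 : Matrix (Fin p) (Fin m) ℂ}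
    (h : DualCls ζ J W0 Y0) : J.det = ζ ^ (m + p) * W0.det := by
  have h1 := h.det_sub 0
  rw [mul_zero, zero_smul, zero_smul, zero_smul, sub_zero, sub_zero, sub_zero, Matrix.det_one,
    mul_one] at h1
  exact h1

theorem DualCls.isUnit {ζ : ℂ} {J : Mat (m + p) ℂ} {W0 : Mat m ℂ} {Y0 : Matrix (Fin p) (Fin m) ℂ}
    (h : DualCls ζ J W0 Y0) (hJ : IsUnit J) : IsUnit W0 := by
  have h2 := ((Matrix.isUnit_iff_isUnit_det _).1 hJ).ne_zero
  rw [h.det_J] at h2
  rw [Matrix.isUnit_iff_isUnit_det]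
  exact isUnit_iff_ne_zero.2 (right_ne_zero_of_mul h2)

theorem DualCls.root {R : Type*} [CommRing R] (φ : R →+* ℂ) {ζ : ℂ} {J : Mat (m + p) ℂ}
    {W0 : Mat m ℂ} {Y0 : Matrix (Fin p) (Fin m) ℂ} (h : DualCls ζ J W0 Y0) {e : Rˣ}
    (he : φ e = ζ) (hJ : ∀ z, J.charpoly.IsRoot z → ∃ e : Rˣ, φ e = z) (z : ℂ)
    (hz : W0.charpoly.IsRoot z) : ∃ e : Rˣ, φ e = z := by
  have h1 := h.det_sub z
  rw [(P002G.isRoot_iff W0 z).1 hz, zero_mul, mul_zero] at h1
  obtain ⟨e', he'⟩ := hJ _ ((P002G.isRoot_iff J _).2 h1)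
  refine ⟨e⁻¹ * e', ?_⟩
  have h2 : φ ((e⁻¹ : Rˣ) : R) * φ (e : R) = 1 := by
    rw [← map_mul, Units.inv_mul, map_one]
  rw [Units.val_mul, map_mul, he', ← he, ← mul_assoc, h2, one_mul]

/-- Every element of the cell in the class of `J` comes from a dual tuple. -/
theorem DualCls.exists_dual {ζ : ℂ} {J : Mat (m + p) ℂ} {W0 : Mat m ℂ}
    {Y0 : Matrix (Fin p) (Fin m) ℂ} (h : DualCls ζ J W0 Y0) (X : Mat (m + p) ℂ)
    (hX : CjM J (zZ X)) : ∃ (Ξ : Matrix (Fin m) (Fin (m + p)) ℂ)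
      (Υ : Matrix (Fin (m + p)) (Fin m) ℂ), X = dX ζ (Υ * Ξ) ∧
      1 + Ξ * (dU (Υ * Ξ) * Υ) = W0 ∧ (∀ v, Υ *ᵥ v = 0 → v = 0) ∧ ∀ w, w ᵥ* Ξ = 0 → w = 0 := by
  obtain ⟨h0, hh0⟩ := hX
  obtain ⟨g0, ⟨g1, rfl⟩, hJg⟩ := h.cj
  obtain ⟨G, hG⟩ : ∃ G : (Mat (m + p) ℂ)ˣ, G = h0 * g1 := ⟨_, rfl⟩
  have hZ : zZ X * G = G * (ζ • P002G.blk W0 0 Y0 1) := by
    rw [hh0, hG, Units.val_mul]
    calc (h0 : Mat (m + p) ℂ) * J * ((h0⁻¹ : (Mat (m + p) ℂ)ˣ) : Mat (m + p) ℂ) *
          ((h0 : Mat (m + p) ℂ) * (g1 : Mat (m + p) ℂ))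
        = (h0 : Mat (m + p) ℂ) * (J * ((((h0⁻¹ : (Mat (m + p) ℂ)ˣ) : Mat (m + p) ℂ) *
          (h0 : Mat (m + p) ℂ)) * (g1 : Mat (m + p) ℂ))) := by
          simp only [Matrix.mul_assoc]
      _ = _ := by rw [Units.inv_mul, Matrix.one_mul, ← hJg, Matrix.mul_assoc]
  obtain ⟨Ξ0, hΞ0⟩ : ∃ Ξ0 : Matrix (Fin m) (Fin (m + p)) ℂ, Ξ0 = Matrix.of fun i =>
    Fin.append (fun j => (1 : Mat m ℂ) i j) (fun _ => 0) := ⟨_, rfl⟩
  obtain ⟨Υ0, hΥ0⟩ : ∃ Υ0 : Matrix (Fin (m + p)) (Fin m) ℂ, Υ0 = Matrix.of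
    (Fin.append (fun i j => (W0 - 1) i j) (fun i j => Y0 i j)) := ⟨_, rfl⟩
  have hb : ζ • P002G.blk W0 0 Y0 1 = ζ • (1 + Υ0 * Ξ0) := by
    congr 1
    ext i j
    rw [Matrix.add_apply, Matrix.mul_apply]
    refine Fin.addCases (fun i => ?_) (fun i => ?_) i <;>
      refine Fin.addCases (fun j => ?_) (fun j => ?_) j
    · rw [P002G.blk_apply₁₁, hΞ0, hΥ0]
      simp only [Matrix.of_apply, Fin.append_left]
      have h1 : ∑ x, (W0 - 1) i x * (1 : Mat m ℂ) x j = (W0 - 1) i j := by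
        rw [← Matrix.mul_apply, Matrix.mul_one]
      rw [h1, Matrix.sub_apply, Matrix.one_apply, Matrix.one_apply]
      simp only [Fin.castAdd_inj]
      ring
    · rw [P002G.blk_apply₁₂, hΞ0, hΥ0]
      simp only [Matrix.of_apply, Fin.append_left, Fin.append_right, mul_zero,
        Finset.sum_const_zero, add_zero, Matrix.zero_apply]
      rw [Matrix.one_apply_ne]
      intro h
      have := congrArg Fin.val h
      simp only [Fin.val_castAdd, Fin.val_natAdd] at this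
      omega
    · rw [P002G.blk_apply₂₁, hΞ0, hΥ0]
      simp only [Matrix.of_apply, Fin.append_left, Fin.append_right]
      have h1 : ∑ x, Y0 i x * (1 : Mat m ℂ) x j = Y0 i j := by
        rw [← Matrix.mul_apply, Matrix.mul_one]
      rw [h1, Matrix.one_apply_ne, zero_add]
      intro h
      have := congrArg Fin.val h
      simp only [Fin.val_castAdd, Fin.val_natAdd] at this
      omega
    · rw [P002G.blk_apply₂₂, hΞ0, hΥ0]
      simp only [Matrix.of_apply, Fin.append_right, mul_zero,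
        Finset.sum_const_zero, add_zero]
      rw [Matrix.one_apply, Matrix.one_apply]
      simp only [Fin.natAdd_inj]
  have hΞΥ : 1 + Ξ0 * Υ0 = W0 := by
    ext i j
    rw [Matrix.add_apply, Matrix.mul_apply, Fin.sum_univ_add, hΞ0, hΥ0]
    simp only [Matrix.of_apply, Fin.append_left, Fin.append_right, zero_mul,
      Finset.sum_const_zero, add_zero]
    rw [← Matrix.mul_apply, Matrix.one_mul, Matrix.sub_apply]
    ring
  obtain ⟨V, hV⟩ : ∃ V : Mat (m + p) ℂ, V = (uU X)⁻¹ := ⟨_, rfl⟩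
  have hUd : IsUnit (uU X).det := by rw [det_uU]; exact isUnit_one
  have hVU : V * uU X = 1 := by rw [hV, Matrix.nonsing_inv_mul _ hUd]
  have hUV : uU X * V = 1 := by rw [hV, Matrix.mul_nonsing_inv _ hUd]
  obtain ⟨Gi, hGi⟩ : ∃ Gi : Mat (m + p) ℂ, Gi = ((G⁻¹ : (Mat (m + p) ℂ)ˣ) : Mat (m + p) ℂ) :=
    ⟨_, rfl⟩
  have hGG : (G : Mat (m + p) ℂ) * Gi = 1 := by rw [hGi, Units.mul_inv]
  have hGG' : Gi * (G : Mat (m + p) ℂ) = 1 := by rw [hGi, Units.inv_mul]
  have hT : V * ((G : Mat (m + p) ℂ) * Υ0) * (Ξ0 * Gi) = ζ⁻¹ • lL X - V := by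
    have h1 : zZ X = ζ • (1 + ((G : Mat (m + p) ℂ) * Υ0) * (Ξ0 * Gi)) := by
      calc zZ X = zZ X * G * Gi := by rw [Matrix.mul_assoc, hGG, Matrix.mul_one]
        _ = (G : Mat (m + p) ℂ) * (ζ • (1 + Υ0 * Ξ0)) * Gi := by rw [hZ, hb]
        _ = _ := by
          rw [Matrix.mul_smul, Matrix.smul_mul, Matrix.mul_add, Matrix.mul_one, Matrix.add_mul,
            hGG]
          simp only [Matrix.mul_assoc]
    have h2 : ζ⁻¹ • zZ X = 1 + ((G : Mat (m + p) ℂ) * Υ0) * (Ξ0 * Gi) := by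
      rw [h1, smul_smul, inv_mul_cancel₀ h.zeta, one_smul]
    have h3 : V * (ζ⁻¹ • zZ X) = ζ⁻¹ • lL X := by
      rw [zZ, Matrix.mul_smul, ← Matrix.mul_assoc, hVU, Matrix.one_mul]
    rw [h2, Matrix.mul_add, Matrix.mul_one] at h3
    rw [Matrix.mul_assoc, ← h3]
    abel
  have hX1 : X = dX ζ (V * ((G : Mat (m + p) ℂ) * Υ0) * (Ξ0 * Gi)) := by
    rw [hT]
    exact eq_dX (mul_inv_cancel₀ h.zeta) X V hVU
  refine ⟨Ξ0 * Gi, V * ((G : Mat (m + p) ℂ) * Υ0), hX1, ?_, ?_, ?_⟩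
  · have h1 : dU (V * ((G : Mat (m + p) ℂ) * Υ0) * (Ξ0 * Gi)) = uU X := by
      rw [← uU_dX ζ, ← hX1]
    rw [h1, ← Matrix.mul_assoc (uU X), hUV, Matrix.one_mul, Matrix.mul_assoc Ξ0,
      ← Matrix.mul_assoc Gi, hGG', Matrix.one_mul, hΞΥ]
  · intro v hv
    have h1 : (uU X * (V * ((G : Mat (m + p) ℂ) * Υ0))) *ᵥ v = 0 := by
      rw [← Matrix.mulVec_mulVec, hv, Matrix.mulVec_zero]
    rw [← Matrix.mul_assoc, hUV, Matrix.one_mul] at h1
    have h2 : (Gi * ((G : Mat (m + p) ℂ) * Υ0)) *ᵥ v = 0 := by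
      rw [← Matrix.mulVec_mulVec, h1, Matrix.mulVec_zero]
    rw [← Matrix.mul_assoc, hGG', Matrix.one_mul] at h2
    apply h.inj
    · funext i
      have h3 := congrFun h2 (Fin.castAdd p i)
      rw [hΥ0, Pi.zero_apply] at h3
      rw [Pi.zero_apply, ← h3]
      simp only [Matrix.mulVec, dotProduct, Matrix.of_apply, Fin.append_left]
    · funext i
      have h3 := congrFun h2 (Fin.natAdd m i)
      rw [hΥ0, Pi.zero_apply] at h3
      rw [Pi.zero_apply, ← h3]
      simp only [Matrix.mulVec, dotProduct, Matrix.of_apply, Fin.append_right]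
  · intro w hw
    have h1 : w ᵥ* (Ξ0 * Gi * (G : Mat (m + p) ℂ)) = 0 := by
      rw [← Matrix.vecMul_vecMul, hw, Matrix.zero_vecMul]
    rw [Matrix.mul_assoc, hGG', Matrix.mul_one] at h1
    funext i
    have h3 := congrFun h1 (Fin.castAdd p i)
    rw [hΞ0] at h3
    simp only [Matrix.vecMul, dotProduct, Matrix.of_apply, Fin.append_left] at h3
    rw [← dotProduct, ← Matrix.vecMul, Matrix.vecMul_one] at h3
    exact h3

/-- The matrix `[1 | x]`. -/
def oneX {S : Type*} [CommRing S] (x : Matrix (Fin m) (Fin p) S) : Matrix (Fin m) (Fin (m + p)) S :=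
  Matrix.of fun i => Fin.append (fun j => (1 : Mat m S) i j) (x i)

theorem oneX_left {S : Type*} [CommRing S] (x : Matrix (Fin m) (Fin p) S) (i j : Fin m) :
    oneX x i (Fin.castAdd p j) = (1 : Mat m S) i j := by
  rw [oneX, Matrix.of_apply, Fin.append_left]

theorem oneX_right {S : Type*} [CommRing S] (x : Matrix (Fin m) (Fin p) S) (i : Fin m)
    (j : Fin p) : oneX x i (Fin.natAdd m j) = x i j := by
  rw [oneX, Matrix.of_apply, Fin.append_right]

theorem DualCls.cj_oneX {ζ : ℂ} {J : Mat (m + p) ℂ} {W0 : Mat m ℂ}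
    {Y0 : Matrix (Fin p) (Fin m) ℂ} (h : DualCls ζ J W0 Y0) (x : Matrix (Fin m) (Fin p) ℂ)
    (Υ : Matrix (Fin (m + p)) (Fin m) ℂ) (hΥ : ∀ v, Υ *ᵥ v = 0 → v = 0)
    (hW : P002G.Cj W0 (1 + oneX x * (dU (Υ * oneX x) * Υ))) :
    CjM J (zZ (dX ζ (Υ * oneX x))) := by
  obtain ⟨U, hU⟩ : ∃ U, U = dU (Υ * oneX x) := ⟨_, rfl⟩
  obtain ⟨V, hV⟩ : ∃ V, V = 1 - upS (Υ * oneX x) := ⟨_, rfl⟩
  have hVU : V * U = 1 := by rw [hU, hV, mul_dU]
  obtain ⟨Υ', hΥ'⟩ : ∃ Υ', Υ' = U * Υ := ⟨_, rfl⟩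
  rw [← hU, ← hΥ'] at hW
  obtain ⟨Y, hY⟩ : ∃ Y : Matrix (Fin p) (Fin m) ℂ, Y = Matrix.of fun i j => Υ' (Fin.natAdd m i) j :=
    ⟨_, rfl⟩
  obtain ⟨A, hA⟩ : ∃ A : Matrix (Fin m) (Fin m) ℂ, A = Matrix.of fun i j =>
    Υ' (Fin.castAdd p i) j := ⟨_, rfl⟩
  have h1 : oneX x * Υ' = A + x * Y := by
    ext i j
    rw [Matrix.mul_apply, Fin.sum_univ_add, Matrix.add_apply, Matrix.mul_apply]
    simp only [oneX_left, oneX_right]
    congr 1
    · have h2 : ∀ a : Fin m, Υ' (Fin.castAdd p a) j = A a j := fun a => by rw [hA]; rfl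
      simp only [h2]
      rw [← Matrix.mul_apply, Matrix.one_mul]
    · exact Finset.sum_congr rfl fun a _ => by rw [hY]; rfl
  have h2 : zZ (dX ζ (Υ * oneX x)) = P002G.chZ ζ (1 + oneX x * Υ') x Y := by
    rw [zZ_dX, P002G.chZ_eq, ← hU, ← Matrix.mul_assoc, ← hΥ', h1]
    have h3 : 1 + (A + x * Y) - x * Y = 1 + A := by abel
    rw [h3]
    congr 1
    ext i j
    rw [Matrix.add_apply, Matrix.mul_apply]
    refine Fin.addCases (fun i => ?_) (fun i => ?_) i <;>
      refine Fin.addCases (fun j => ?_) (fun j => ?_) j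
    · rw [P002G.blk_apply₁₁]
      simp only [oneX_left]
      have h4 : ∑ a, Υ' (Fin.castAdd p i) a * (1 : Mat m ℂ) a j = A i j := by
        have h5 : ∀ a : Fin m, Υ' (Fin.castAdd p i) a = A i a := fun a => by rw [hA]; rfl
        simp only [h5]
        rw [← Matrix.mul_apply, Matrix.mul_one]
      rw [h4, Matrix.add_apply, Matrix.one_apply, Matrix.one_apply]
      simp only [Fin.castAdd_inj]
    · rw [P002G.blk_apply₁₂]
      simp only [oneX_right]
      have h4 : ∑ a, Υ' (Fin.castAdd p i) a * x a j = (A * x) i j := by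
        rw [Matrix.mul_apply]
        exact Finset.sum_congr rfl fun a _ => by rw [hA]; rfl
      rw [h4, Matrix.one_apply_ne, zero_add, Matrix.add_mul, Matrix.one_mul]
      · rw [Matrix.sub_apply, Matrix.add_apply]
        ring
      · intro h
        have := congrArg Fin.val h
        simp only [Fin.val_castAdd, Fin.val_natAdd] at this
        omega
    · rw [P002G.blk_apply₂₁]
      simp only [oneX_left]
      have h4 : ∑ a, Υ' (Fin.natAdd m i) a * (1 : Mat m ℂ) a j = Y i j := by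
        have h5 : ∀ a : Fin m, Υ' (Fin.natAdd m i) a = Y i a := fun a => by rw [hY]; rfl
        simp only [h5]
        rw [← Matrix.mul_apply, Matrix.mul_one]
      rw [h4, Matrix.one_apply_ne, zero_add]
      intro h
      have := congrArg Fin.val h
      simp only [Fin.val_castAdd, Fin.val_natAdd] at this
      omega
    · rw [P002G.blk_apply₂₂]
      simp only [oneX_right]
      have h4 : ∑ a, Υ' (Fin.natAdd m i) a * x a j = (Y * x) i j := by
        rw [Matrix.mul_apply]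
        exact Finset.sum_congr rfl fun a _ => by rw [hY]; rfl
      rw [h4, Matrix.add_apply, Matrix.one_apply, Matrix.one_apply]
      simp only [Fin.natAdd_inj]
  rw [h2]
  have h3 := P002G.cj_chZ ζ W0 (1 + oneX x * Υ') Y0 Y x hW h.inj (by
    intro v hv1 hv2
    rw [add_sub_cancel_left, h1, Matrix.add_mulVec, ← Matrix.mulVec_mulVec, hv2,
      Matrix.mulVec_zero, add_zero] at hv1
    have h4 : Υ' *ᵥ v = 0 := by
      funext i
      refine Fin.addCases (fun i => ?_) (fun i => ?_) i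
      · have h5 := congrFun hv1 i
        rw [hA] at h5
        exact h5
      · have h5 := congrFun hv2 i
        rw [hY] at h5
        exact h5
    apply hΥ
    have h5 : V *ᵥ (Υ' *ᵥ v) = 0 := by rw [h4, Matrix.mulVec_zero]
    rw [hΥ', Matrix.mulVec_mulVec, ← Matrix.mul_assoc, hVU, Matrix.one_mul] at h5
    exact h5)
  exact P002G.cjC_of_cj (h.cj.symm.trans h3)

/-- Gauge invariance. -/
theorem prod_gauge {r : ℕ} {S : Type*} [CommRing S] (Ξ : Matrix (Fin m) (Fin r) S)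
    (Υ : Matrix (Fin r) (Fin m) S) (g g' : Mat m S) (h : g' * g = 1) :
    (Υ * g') * (g * Ξ) = Υ * Ξ := by
  rw [Matrix.mul_assoc, ← Matrix.mul_assoc g', h, Matrix.one_mul]

theorem DualCls.cj_dX {ζ : ℂ} {J : Mat (m + p) ℂ} {W0 : Mat m ℂ}
    {Y0 : Matrix (Fin p) (Fin m) ℂ} (h : DualCls ζ J W0 Y0) (Ξ : Matrix (Fin m) (Fin (m + p)) ℂ)
    (Υ : Matrix (Fin (m + p)) (Fin m) ℂ) (hΥ : ∀ v, Υ *ᵥ v = 0 → v = 0)
    (hB : IsUnit (Matrix.of fun i j => Ξ i (Fin.castAdd p j) : Mat m ℂ).det)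
    (hW : P002G.Cj W0 (1 + Ξ * (dU (Υ * Ξ) * Υ))) :
    CjM J (zZ (dX ζ (Υ * Ξ))) := by
  obtain ⟨B, hBd⟩ : ∃ B : Mat m ℂ, B = Matrix.of fun i j => Ξ i (Fin.castAdd p j) := ⟨_, rfl⟩
  rw [← hBd] at hB
  have hBB : B⁻¹ * B = 1 := Matrix.nonsing_inv_mul _ hB
  have hBB' : B * B⁻¹ = 1 := Matrix.mul_nonsing_inv _ hB
  obtain ⟨x, hx⟩ : ∃ x : Matrix (Fin m) (Fin p) ℂ, x = Matrix.of fun i j =>
    (B⁻¹ * Ξ) i (Fin.natAdd m j) := ⟨_, rfl⟩
  have h1 : B⁻¹ * Ξ = oneX x := by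
    ext i j
    refine Fin.addCases (fun j => ?_) (fun j => ?_) j
    · rw [oneX_left, ← hBB, Matrix.mul_apply, Matrix.mul_apply]
      exact Finset.sum_congr rfl fun a _ => by rw [hBd]; rfl
    · rw [oneX_right, hx]
      rfl
  have h2 : (Υ * B) * oneX x = Υ * Ξ := by
    rw [← h1]
    exact prod_gauge Ξ Υ B⁻¹ B hBB'
  have h3 := h.cj_oneX x (Υ * B) (fun v hv => by
    have h4 : B *ᵥ v = 0 := hΥ _ (by rw [Matrix.mulVec_mulVec]; exact hv)
    have h5 : (B⁻¹ * B) *ᵥ v = 0 := by rw [← Matrix.mulVec_mulVec, h4, Matrix.mulVec_zero]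
    rwa [hBB, Matrix.one_mulVec] at h5) (by
    refine hW.trans ⟨B⁻¹, Matrix.isUnit_nonsing_inv_iff.2 ((Matrix.isUnit_iff_isUnit_det _).2 hB), ?_⟩
    rw [h2, ← h1, Matrix.mul_add, Matrix.mul_one, Matrix.add_mul, Matrix.one_mul]
    congr 1
    calc B⁻¹ * (Ξ * (dU (Υ * Ξ) * Υ)) = B⁻¹ * (Ξ * (dU (Υ * Ξ) * Υ)) * (B * B⁻¹) := by
          rw [hBB', Matrix.mul_one]
      _ = _ := by simp only [Matrix.mul_assoc])
  rw [h2] at h3
  exact h3

end Vale.Agent.P002R
end

section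

/-!
# P002: duality, the chart of the dual tuples
-/

namespace Vale.Agent.P002R

open Matrix

variable {n : ℕ} {S T : Type*} [CommRing S] [CommRing T]

/-- The parameters of the chart. -/
structure DIn (n : ℕ) (S : Type*) where
  z : S
  W : Mat n S
  v : ℕ → Fin n → S
  vi : ℕ → Fin n → S
  p : ℕ → Fin n → S
  dv : ℕ → S
  ka : ℕ → S

namespace DIn

/-- The rows of the reflections in the cell. -/
def y (I : DIn n S) (k : ℕ) (i : Fin n) : S := (I.p k i - 1) * I.vi k i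

/-- The elements of the cell. -/
def Y (I : DIn n S) : ℕ → Mat n S
  | 0 => I.W
  | k + 1 => dX 1 (vecMulVec (I.v k) (I.y k))

theorem Y_zero (I : DIn n S) : I.Y 0 = I.W := rfl

theorem Y_succ (I : DIn n S) (k : ℕ) : I.Y (k + 1) = dX 1 (vecMulVec (I.v k) (I.y k)) := rfl

/-- The vectors of the reflections. -/
def xi (I : DIn n S) (k : ℕ) : Fin n → S :=
  I.dv k • ((Lc I.Y (k + 1)).adjugate *ᵥ (uU (I.Y (k + 1)) *ᵥ I.v k))

/-- The covectors of the reflections. -/
def w (I : DIn n S) (k : ℕ) : Fin n → S := -(I.ka k) • (I.y k ᵥ* Lc I.Y (k + 1))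

/-- The matrix of the vectors. -/
def Xi (I : DIn n S) (e : ℕ) : Matrix (Fin n) (Fin (n + e)) S :=
  oneX (Matrix.of fun i (j : Fin e) => I.xi (e - 1 - j) i)

/-- The matrix of the covectors. -/
def Up (I : DIn n S) (e : ℕ) : Matrix (Fin (n + e)) (Fin n) S :=
  Matrix.of (Fin.append (fun i => (Lc I.Y (e + 1) - (Uc I.Y (e + 1)).adjugate) i)
    fun j : Fin e => I.w (e - 1 - j))

/-- The element of the cell. -/
def out (I : DIn n S) (e : ℕ) : Mat (n + e) S := dX I.z (I.Up e * I.Xi e)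

/-- The relations between the parameters. -/
structure Ok (I : DIn n S) : Prop where
  v : ∀ k i, I.v k i * I.vi k i = 1
  dv : ∀ k, I.dv k * (Lc I.Y (k + 1)).det = 1
  ka : ∀ k, I.ka k * ∏ i, I.p k i = 1

/-- Change of rings. -/
def map (φ : S →+* T) (I : DIn n S) : DIn n T where
  z := φ I.z
  W := I.W.map φ
  v := fun k i => φ (I.v k i)
  vi := fun k i => φ (I.vi k i)
  p := fun k i => φ (I.p k i)
  dv := fun k => φ (I.dv k)
  ka := fun k => φ (I.ka k)

theorem y_map (φ : S →+* T) (I : DIn n S) (k : ℕ) (i : Fin n) :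
    (I.map φ).y k i = φ (I.y k i) := by
  rw [y, y, map_mul, map_sub, map_one]
  rfl

theorem Y_map (φ : S →+* T) (I : DIn n S) (k : ℕ) : (I.map φ).Y k = (I.Y k).map φ := by
  cases k with
  | zero => rfl
  | succ k =>
    rw [Y_succ, Y_succ, dX_map, map_one]
    congr 1
    ext i j
    rw [Matrix.map_apply, vecMulVec_apply, vecMulVec_apply, y_map, map_mul]
    rfl

theorem Y_map' (φ : S →+* T) (I : DIn n S) : (I.map φ).Y = fun k => (I.Y k).map φ :=
  funext fun k => Y_map φ I k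

theorem Lc_map' (φ : S →+* T) (I : DIn n S) (k : ℕ) :
    Lc (I.map φ).Y k = (Lc I.Y k).map φ := by rw [Y_map', ← Lc_map]

theorem Uc_map' (φ : S →+* T) (I : DIn n S) (k : ℕ) :
    Uc (I.map φ).Y k = (Uc I.Y k).map φ := by rw [Y_map', ← Uc_map]

theorem map_mulVec' (φ : S →+* T) {a b : ℕ} (M : Matrix (Fin a) (Fin b) S) (x : Fin b → S) :
    (fun i => φ ((M *ᵥ x) i)) = M.map φ *ᵥ fun i => φ (x i) := by
  funext i
  exact RingHom.map_mulVec φ M x i

theorem map_vecMul' (φ : S →+* T) {a b : ℕ} (M : Matrix (Fin a) (Fin b) S) (x : Fin a → S) :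
    (fun i => φ ((x ᵥ* M) i)) = (fun i => φ (x i)) ᵥ* M.map φ := by
  funext i
  exact RingHom.map_vecMul φ M x i

theorem xi_map (φ : S →+* T) (I : DIn n S) (k : ℕ) :
    (I.map φ).xi k = fun i => φ (I.xi k i) := by
  have h1 : (fun i => φ (I.xi k i)) = φ (I.dv k) • fun i =>
      φ (((Lc I.Y (k + 1)).adjugate *ᵥ (uU (I.Y (k + 1)) *ᵥ I.v k)) i) := by
    funext i
    rw [xi, Pi.smul_apply, Pi.smul_apply, smul_eq_mul, smul_eq_mul, map_mul]
  rw [h1, map_mulVec', map_mulVec', adjugate_map, uU_map, xi, Lc_map', Y_map]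
  rfl

theorem w_map (φ : S →+* T) (I : DIn n S) (k : ℕ) :
    (I.map φ).w k = fun i => φ (I.w k i) := by
  have h1 : (fun i => φ (I.w k i)) = -φ (I.ka k) • fun i =>
      φ ((I.y k ᵥ* Lc I.Y (k + 1)) i) := by
    funext i
    rw [w, Pi.smul_apply, Pi.smul_apply, smul_eq_mul, smul_eq_mul, map_mul, map_neg]
  rw [h1, map_vecMul', w, Lc_map']
  have h2 : (fun i => φ (I.y k i)) = (I.map φ).y k := funext fun i => (y_map φ I k i).symm
  rw [h2]
  rfl

theorem Xi_map (φ : S →+* T) (I : DIn n S) (e : ℕ) : (I.map φ).Xi e = (I.Xi e).map φ := by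
  ext i j
  rw [Matrix.map_apply, Xi, Xi]
  refine Fin.addCases (fun j => ?_) (fun j => ?_) j
  · rw [oneX_left, oneX_left, Matrix.one_apply, Matrix.one_apply]
    split_ifs
    · exact (map_one φ).symm
    · exact (map_zero φ).symm
  · rw [oneX_right, oneX_right, Matrix.of_apply, Matrix.of_apply, xi_map]

theorem Up_map (φ : S →+* T) (I : DIn n S) (e : ℕ) : (I.map φ).Up e = (I.Up e).map φ := by
  ext i j
  rw [Matrix.map_apply, Up, Up, Matrix.of_apply, Matrix.of_apply]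
  refine Fin.addCases (fun i => ?_) (fun i => ?_) i
  · rw [Fin.append_left, Fin.append_left, Lc_map', Uc_map', ← adjugate_map, Matrix.sub_apply,
      Matrix.sub_apply, map_sub]
    rfl
  · rw [Fin.append_right, Fin.append_right, w_map]

theorem out_map (φ : S →+* T) (I : DIn n S) (e : ℕ) : (I.map φ).out e = (I.out e).map φ := by
  rw [out, out, dX_map, Matrix.map_mul, Up_map, Xi_map]
  rfl

theorem ok_map (φ : S →+* T) {I : DIn n S} (h : I.Ok) : (I.map φ).Ok := by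
  refine ⟨fun k i => ?_, fun k => ?_, fun k => ?_⟩
  · have h1 := congrArg φ (h.v k i)
    rw [map_mul, map_one] at h1
    exact h1
  · have h1 := congrArg φ (h.dv k)
    rw [map_mul, map_one, RingHom.map_det] at h1
    rw [Lc_map']
    exact h1
  · have h1 := congrArg φ (h.ka k)
    rw [map_mul, map_one, map_prod] at h1
    exact h1

/-! ### The identities -/

theorem Y_diag {I : DIn n S} (h : I.Ok) (k : ℕ) (i : Fin n) : I.Y (k + 1) i i = I.p k i := by
  rw [Y_succ, dX_diag, vecMulVec_apply, y, one_mul]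
  have h1 := h.v k i
  calc 1 + I.v k i * ((I.p k i - 1) * I.vi k i) = 1 + (I.p k i - 1) * (I.v k i * I.vi k i) := by
        ring
    _ = _ := by rw [h1]; ring

/-- The vector of the reflection in the cell. -/
def v' (I : DIn n S) (k : ℕ) : Fin n → S := uU (I.Y (k + 1)) *ᵥ I.v k

theorem zZ_Y (I : DIn n S) (k : ℕ) :
    zZ (I.Y (k + 1)) = 1 + vecMulVec (I.v' k) (I.y k) := by
  rw [Y_succ, zZ_dX, one_smul, v', Y_succ, uU_dX, Matrix.mul_vecMulVec]

theorem y_v' {I : DIn n S} (h : I.Ok) (k : ℕ) : 1 + I.y k ⬝ᵥ I.v' k = ∏ i, I.p k i := by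
  have h1 := prod_refl (Matrix.of fun (_ : Fin 1) i => I.y k i)
    (Matrix.of fun i (_ : Fin 1) => I.v k i)
  have h2 : (Matrix.of fun i (_ : Fin 1) => I.v k i) * (Matrix.of fun (_ : Fin 1) i => I.y k i) =
      vecMulVec (I.v k) (I.y k) := by
    ext i j
    rw [Matrix.mul_apply, Fin.sum_univ_one, vecMulVec_apply]
    rfl
  have h3 := congrFun (congrFun h1 0) 0
  rw [h2, Matrix.add_apply, Matrix.one_apply_eq, Matrix.mul_apply] at h3
  have h4 : ∑ j, (Matrix.of fun (_ : Fin 1) i => I.y k i) 0 j *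
      (dU (vecMulVec (I.v k) (I.y k)) * (Matrix.of fun i (_ : Fin 1) => I.v k i)) j 0 =
      I.y k ⬝ᵥ I.v' k := by
    rw [dotProduct, v', Y_succ, uU_dX]
    rfl
  rw [h4] at h3
  rw [← h3]
  have h5 : ∀ l : List (Mat 1 S), l.prod 0 0 = (l.map fun M => M 0 0).prod := by
    intro l
    induction l with
    | nil => simp
    | cons a l ih =>
      rw [List.prod_cons, List.map_cons, List.prod_cons, Matrix.mul_apply, Fin.sum_univ_one, ih]
  rw [h5, List.map_ofFn, List.prod_ofFn]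
  refine Finset.prod_congr rfl fun i _ => ?_
  simp only [Function.comp_apply, Matrix.add_apply, Matrix.one_apply_eq, vecMulVec_apply,
    Matrix.of_apply]
  have h6 := h.v k i
  rw [y]
  calc 1 + (I.p k i - 1) * I.vi k i * I.v k i = 1 + (I.p k i - 1) * (I.v k i * I.vi k i) := by
        ring
    _ = _ := by rw [h6]; ring

theorem Lc_xi {I : DIn n S} (h : I.Ok) (k : ℕ) : Lc I.Y (k + 1) *ᵥ I.xi k = I.v' k := by
  rw [xi, Matrix.mulVec_smul, Matrix.mulVec_mulVec, Matrix.mul_adjugate, Matrix.smul_mulVec,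
    Matrix.one_mulVec, smul_smul, h.dv, one_smul, v']

/-- The reflections in the chain. -/
def R (I : DIn n S) (k : ℕ) : Mat n S := 1 + vecMulVec (I.xi k) (I.w k)

theorem R_rel {I : DIn n S} (h : I.Ok) (k : ℕ) :
    zZ (I.Y (k + 1)) * Lc I.Y (k + 1) * I.R k = Lc I.Y (k + 1) := by
  have h1 : Lc I.Y (k + 1) * I.R k = (1 - I.ka k • vecMulVec (I.v' k) (I.y k)) *
      Lc I.Y (k + 1) := by
    rw [R, Matrix.mul_add, Matrix.mul_one, Matrix.mul_vecMulVec, Lc_xi h, w, Matrix.sub_mul,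
      Matrix.one_mul, Matrix.smul_mul, Matrix.vecMulVec_mul, Matrix.vecMulVec_smul, neg_smul,
      ← sub_eq_add_neg]
  rw [Matrix.mul_assoc, h1, ← Matrix.mul_assoc, zZ_Y]
  have h2 : vecMulVec (I.v' k) (I.y k) * vecMulVec (I.v' k) (I.y k) =
      (I.y k ⬝ᵥ I.v' k) • vecMulVec (I.v' k) (I.y k) := by
    rw [Matrix.vecMulVec_mul_vecMulVec, Matrix.vecMulVec_smul]
  have h3 : (1 + vecMulVec (I.v' k) (I.y k)) * (1 - I.ka k • vecMulVec (I.v' k) (I.y k)) =
      1 + (1 - I.ka k * (1 + I.y k ⬝ᵥ I.v' k)) • vecMulVec (I.v' k) (I.y k) := by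
    rw [Matrix.mul_sub, Matrix.mul_one, Matrix.add_mul, Matrix.one_mul, Matrix.mul_smul, h2]
    module
  rw [h3, y_v' h, h.ka, sub_self, zero_smul, add_zero, Matrix.one_mul]

theorem chain_rel {I : DIn n S} (h : I.Ok) (k : ℕ) :
    Uc I.Y (k + 2) * Lc I.Y (k + 2) * I.R k = Uc I.Y (k + 1) * Lc I.Y (k + 1) := by
  rw [Uc_succ I.Y (k + 1), Lc_succ I.Y (k + 1)]
  calc Uc I.Y (k + 1) * uU (I.Y (k + 1)) * (lL (I.Y (k + 1)) * Lc I.Y (k + 1)) * I.R k
      = Uc I.Y (k + 1) * (zZ (I.Y (k + 1)) * Lc I.Y (k + 1) * I.R k) := by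
        rw [zZ]
        simp only [Matrix.mul_assoc]
    _ = _ := by rw [R_rel h]

theorem chain_prod {I : DIn n S} (h : I.Ok) (e : ℕ) :
    Uc I.Y (e + 1) * Lc I.Y (e + 1) * (List.ofFn fun j : Fin e => I.R (e - 1 - j)).prod =
      zZ I.W := by
  induction e with
  | zero =>
    rw [List.ofFn_zero, List.prod_nil, Matrix.mul_one, Uc_succ, Lc_succ, Uc_zero, Lc_zero,
      Matrix.one_mul, Matrix.mul_one, Y_zero, zZ]
  | succ e ih =>
    rw [List.ofFn_succ, List.prod_cons, ← Matrix.mul_assoc]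
    have h1 : e + 1 - 1 - ((0 : Fin (e + 1)) : ℕ) = e := by simp
    rw [h1, chain_rel h, ← ih]
    congr 2
    refine congrArg List.ofFn (funext fun j => ?_)
    congr 1
    simp only [Fin.val_succ]
    omega

theorem first_prod (I : DIn n S) (e : ℕ) :
    1 + (1 : Mat n S) * (dU ((Lc I.Y (e + 1) - (Uc I.Y (e + 1)).adjugate) * 1) *
      (Lc I.Y (e + 1) - (Uc I.Y (e + 1)).adjugate)) = Uc I.Y (e + 1) * Lc I.Y (e + 1) := by
  obtain ⟨X, hX1, hX2, -⟩ := exists_coord (Uc I.Y (e + 1)) (Lc I.Y (e + 1)) (upT_Uc _ _)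
    (Uc_diag _ _) (loT_Lc _ _)
  have hV : (Uc I.Y (e + 1)).adjugate * uU X = 1 := by
    rw [hX1, Matrix.adjugate_mul, det_Uc, one_smul]
  have hV' : Uc I.Y (e + 1) * (Uc I.Y (e + 1)).adjugate = 1 := by
    rw [Matrix.mul_adjugate, det_Uc, one_smul]
  have h1 := eq_dX (one_mul (1 : S)) X _ hV
  rw [one_smul, hX2] at h1
  have h2 : dU (Lc I.Y (e + 1) - (Uc I.Y (e + 1)).adjugate) = Uc I.Y (e + 1) := by
    rw [← uU_dX 1, ← h1, hX1]
  rw [Matrix.mul_one, h2, Matrix.one_mul, Matrix.mul_sub, hV']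
  abel

theorem Up_left (I : DIn n S) (e : ℕ) (i : Fin n) : I.Up e (Fin.castAdd e i) =
    (Lc I.Y (e + 1) - (Uc I.Y (e + 1)).adjugate) i := by
  funext a
  rw [Up, Matrix.of_apply, Fin.append_left]

theorem Up_right (I : DIn n S) (e : ℕ) (j : Fin e) : I.Up e (Fin.natAdd n j) =
    I.w (e - 1 - j) := by
  funext a
  rw [Up, Matrix.of_apply, Fin.append_right]

theorem total_prod {I : DIn n S} (h : I.Ok) (e : ℕ) :
    1 + I.Xi e * (dU (I.Up e * I.Xi e) * I.Up e) = zZ I.W := by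
  rw [← prod_refl, ← chain_prod h e, ← first_prod, ← prod_refl]
  have h1 : (fun i => 1 + vecMulVec (fun a => I.Xi e a i) (I.Up e i)) = Fin.append
      (fun i : Fin n => 1 + vecMulVec (fun a => (1 : Mat n S) a i)
        ((Lc I.Y (e + 1) - (Uc I.Y (e + 1)).adjugate) i)) fun j : Fin e => I.R (e - 1 - j) := by
    funext i
    refine Fin.addCases (fun i => ?_) (fun i => ?_) i
    · rw [Fin.append_left, Up_left]
      congr 2
      funext a
      rw [Xi, oneX_left]
    · rw [Fin.append_right, Up_right, R]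
      congr 2
      funext a
      rw [Xi, oneX_right]
      rfl
  rw [h1, List.ofFn_fin_append, List.prod_append]

theorem out_left {I : DIn n S} (h : I.Ok) (e : ℕ) (i : Fin n) :
    I.out e (Fin.castAdd e i) (Fin.castAdd e i) = I.z * (I.W i i *
      ∏ k ∈ Finset.range e, I.p k i) := by
  rw [out, dX_diag, Matrix.mul_apply]
  have h1 : ∑ j, I.Up e (Fin.castAdd e i) j * I.Xi e j (Fin.castAdd e i) =
      (Lc I.Y (e + 1) - (Uc I.Y (e + 1)).adjugate) i i := by
    have h2 : ∀ j, I.Xi e j (Fin.castAdd e i) = (1 : Mat n S) j i := fun j => by rw [Xi, oneX_left]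
    simp only [h2]
    rw [← Matrix.mul_apply, Matrix.mul_one, Up, Matrix.of_apply, Fin.append_left]
  rw [h1, Matrix.sub_apply]
  have h3 : (Uc I.Y (e + 1)).adjugate i i = 1 := by
    refine (inv_upT (upT_Uc I.Y (e + 1)) (Uc_diag _ _) ?_).2 i
    rw [Matrix.adjugate_mul, det_Uc, one_smul]
  rw [h3, Lc_diag, Finset.prod_range_succ']
  have h4 : ∏ k ∈ Finset.range e, I.Y (k + 1) i i = ∏ k ∈ Finset.range e, I.p k i :=
    Finset.prod_congr rfl fun k _ => Y_diag h k i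
  rw [h4, Y_zero]
  ring

theorem out_right {I : DIn n S} (h : I.Ok) (e : ℕ) (j : Fin e) :
    I.out e (Fin.natAdd n j) (Fin.natAdd n j) = I.z * I.ka (e - 1 - j) := by
  rw [out, dX_diag, Matrix.mul_apply]
  obtain ⟨k, hk⟩ : ∃ k, k = e - 1 - (j : ℕ) := ⟨_, rfl⟩
  have h1 : ∑ a, I.Up e (Fin.natAdd n j) a * I.Xi e a (Fin.natAdd n j) = I.w k ⬝ᵥ I.xi k := by
    rw [dotProduct]
    refine Finset.sum_congr rfl fun a _ => ?_
    rw [Xi, oneX_right, Up, Matrix.of_apply, Fin.append_right, Matrix.of_apply, hk]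
  have h2 : I.w k ⬝ᵥ I.xi k = -(I.ka k) * (I.y k ⬝ᵥ I.v' k) := by
    rw [w, smul_dotProduct, ← Matrix.dotProduct_mulVec, Lc_xi h, smul_eq_mul]
  have h3 := y_v' h k
  have h4 := h.ka k
  rw [h1, h2, ← hk]
  congr 1
  calc 1 + -I.ka k * (I.y k ⬝ᵥ I.v' k) = 1 + I.ka k - I.ka k * (1 + I.y k ⬝ᵥ I.v' k) := by ring
    _ = _ := by rw [h3, h4]; ring

end DIn

end Vale.Agent.P002R
end

section

/-!
# P002: duality, the parameters of a dual tuple in generic position
-/

namespace Vale.Agent.P002R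

open Matrix

variable {n e : ℕ}

/-- The first reflections, for the standard basis. -/
theorem take_first (x : Matrix (Fin n) (Fin e) ℂ) (Υ : Matrix (Fin (n + e)) (Fin n) ℂ) :
    ((List.ofFn (dR (oneX x) Υ)).take n).prod =
      zZ (dX 1 (Matrix.of fun i j => Υ (Fin.castAdd e i) j)) := by
  obtain ⟨A, hA⟩ : ∃ A : Mat n ℂ, A = Matrix.of fun i j => Υ (Fin.castAdd e i) j := ⟨_, rfl⟩
  have h1 : List.ofFn (dR (oneX x) Υ) = List.ofFn (fun i : Fin n => dR (oneX x) Υ (Fin.castAdd e i))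
      ++ List.ofFn (fun j : Fin e => dR (oneX x) Υ (Fin.natAdd n j)) := by
    rw [← List.ofFn_fin_append]
    congr 1
    funext i
    refine Fin.addCases (fun i => ?_) (fun i => ?_) i
    · rw [Fin.append_left]
    · rw [Fin.append_right]
  rw [h1, List.take_left' (List.length_ofFn)]
  have h2 : (fun i : Fin n => dR (oneX x) Υ (Fin.castAdd e i)) = fun i : Fin n =>
      1 + vecMulVec (fun a => (1 : Mat n ℂ) a i) (A i) := by
    funext i
    rw [dR]
    congr 2
    · funext a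
      rw [oneX_left]
    · rw [hA]
      rfl
  rw [h2, prod_refl, Matrix.mul_one, Matrix.one_mul, ← hA, zZ_dX, one_smul]

theorem take_succ_prod {r : ℕ} (f : Fin r → Mat n ℂ) (k : Fin r) :
    ((List.ofFn f).take (k + 1)).prod = ((List.ofFn f).take k).prod * f k := by
  rw [List.prod_take_succ _ _ (by rw [List.length_ofFn]; exact k.2)]
  congr 1
  rw [List.getElem_ofFn]

/-- One step of the chain. -/
theorem dual_step (X X' : Mat n ℂ) (ξ υ : Fin n → ℂ) (hX : ∀ i, X i i ≠ 0)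
    (hX' : ∀ i, X' i i ≠ 0) (hκ : 1 + υ ⬝ᵥ ξ ≠ 0) (h : zZ X' = zZ X * (1 + vecMulVec ξ υ))
    (hv : ∀ i, (lL X' *ᵥ ξ) i ≠ 0) :
    ∃ (v y : Fin n → ℂ), (∀ i, v i ≠ 0) ∧
      lL (dX 1 (vecMulVec v y)) * lL X' = lL X ∧ uU X' * uU (dX 1 (vecMulVec v y)) = uU X ∧
      uU (dX 1 (vecMulVec v y)) *ᵥ v = lL X' *ᵥ ξ ∧
      -(1 + υ ⬝ᵥ ξ) • (y ᵥ* lL X') = υ ∧ (∀ i, 1 + v i * y i ≠ 0) ∧
      (1 + υ ⬝ᵥ ξ) * ∏ i, (1 + v i * y i) = 1 := by
  have hLd : IsUnit (lL X).det := by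
    rw [det_lL, isUnit_iff_ne_zero, Finset.prod_ne_zero_iff]
    exact fun i _ => hX i
  have hLd' : IsUnit (lL X').det := by
    rw [det_lL, isUnit_iff_ne_zero, Finset.prod_ne_zero_iff]
    exact fun i _ => hX' i
  have hUd' : IsUnit (uU X').det := by rw [det_uU]; exact isUnit_one
  obtain ⟨κ, hκd⟩ : ∃ κ, κ = 1 + υ ⬝ᵥ ξ := ⟨_, rfl⟩
  rw [← hκd] at hκ
  obtain ⟨Ui, hUi⟩ : ∃ Ui, Ui = (uU X')⁻¹ := ⟨_, rfl⟩
  obtain ⟨Li, hLi⟩ : ∃ Li, Li = (lL X')⁻¹ := ⟨_, rfl⟩
  have hUU : uU X' * Ui = 1 := by rw [hUi, Matrix.mul_nonsing_inv _ hUd']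
  have hUU' : Ui * uU X' = 1 := by rw [hUi, Matrix.nonsing_inv_mul _ hUd']
  have hLL : lL X' * Li = 1 := by rw [hLi, Matrix.mul_nonsing_inv _ hLd']
  have hLL' : Li * lL X' = 1 := by rw [hLi, Matrix.nonsing_inv_mul _ hLd']
  obtain ⟨hUi1, hUi2⟩ := inv_upT (upT_uU X') (uU_diag X') hUU'
  have hLi1 : LoT Li := by
    rw [hLi]
    exact (loT_lL X').inv fun i => by rw [lL_diag]; exact hX' i
  obtain ⟨Y, hY1, hY2, -⟩ := exists_coord (Ui * uU X) (lL X * Li) (hUi1.mul (upT_uU X))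
    (fun i => by rw [hUi1.mul_diag (upT_uU X), hUi2, uU_diag, one_mul]) ((loT_lL X).mul hLi1)
  -- the reflection
  have hR : (1 + vecMulVec ξ υ) * (1 - κ⁻¹ • vecMulVec ξ υ) = 1 := by
    have h2 : vecMulVec ξ υ * vecMulVec ξ υ = (υ ⬝ᵥ ξ) • vecMulVec ξ υ := by
      rw [Matrix.vecMulVec_mul_vecMulVec, Matrix.vecMulVec_smul]
    have h3 : υ ⬝ᵥ ξ = κ - 1 := by rw [hκd]; ring
    rw [Matrix.mul_sub, Matrix.mul_one, Matrix.add_mul, Matrix.one_mul, Matrix.mul_smul, h2, h3]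
    have h4 : (1 : ℂ) - (κ⁻¹ + κ⁻¹ * (κ - 1)) = 0 := by field_simp; ring
    have h5 : 1 + vecMulVec ξ υ - (κ⁻¹ • vecMulVec ξ υ + κ⁻¹ • (κ - 1) • vecMulVec ξ υ) =
        1 + ((1 : ℂ) - (κ⁻¹ + κ⁻¹ * (κ - 1))) • vecMulVec ξ υ := by module
    rw [h5, h4, zero_smul, add_zero]
  have hZX : zZ X = uU X' * lL X' * (1 - κ⁻¹ • vecMulVec ξ υ) := by
    have h2 : zZ X' * (1 - κ⁻¹ • vecMulVec ξ υ) = zZ X := by
      rw [h, Matrix.mul_assoc, hR, Matrix.mul_one]
    rw [← h2, zZ]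
  obtain ⟨v', hv'⟩ : ∃ v', v' = lL X' *ᵥ ξ := ⟨_, rfl⟩
  obtain ⟨y, hy⟩ : ∃ y : Fin n → ℂ, y = -κ⁻¹ • (υ ᵥ* Li) := ⟨_, rfl⟩
  have hZY : zZ Y = 1 + vecMulVec v' y := by
    rw [zZ, hY1, hY2]
    calc Ui * uU X * (lL X * Li) = Ui * zZ X * Li := by
          rw [zZ]; simp only [Matrix.mul_assoc]
      _ = (Ui * uU X') * (lL X' * (1 - κ⁻¹ • vecMulVec ξ υ)) * Li := by
          rw [hZX]; simp only [Matrix.mul_assoc]
      _ = _ := by
          rw [hUU', Matrix.one_mul, Matrix.mul_sub, Matrix.mul_one, Matrix.sub_mul, hLL,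
            Matrix.mul_smul, Matrix.mul_vecMulVec, Matrix.smul_mul, Matrix.vecMulVec_mul, hy, hv',
            Matrix.vecMulVec_smul, neg_smul, ← sub_eq_add_neg]
  obtain ⟨V, hV⟩ : ∃ V, V = (uU Y)⁻¹ := ⟨_, rfl⟩
  have hVU : V * uU Y = 1 := by
    rw [hV, Matrix.nonsing_inv_mul _ (by rw [det_uU]; exact isUnit_one)]
  have hVU' : uU Y * V = 1 := by
    rw [hV, Matrix.mul_nonsing_inv _ (by rw [det_uU]; exact isUnit_one)]
  obtain ⟨v, hvd⟩ : ∃ v, v = V *ᵥ v' := ⟨_, rfl⟩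
  have hYd : Y = dX 1 (vecMulVec v y) := by
    have h2 := eq_dX (one_mul (1 : ℂ)) Y V hVU
    have h3 : (1 : ℂ) • lL Y - V = vecMulVec v y := by
      rw [hvd, ← Matrix.mul_vecMulVec]
      have h4 : vecMulVec v' y = zZ Y - 1 := by rw [hZY, add_sub_cancel_left]
      rw [h4, Matrix.mul_sub, Matrix.mul_one, zZ, ← Matrix.mul_assoc, hVU, Matrix.one_mul, one_smul]
    rw [h3] at h2
    exact h2
  have hUv : uU Y *ᵥ v = v' := by rw [hvd, Matrix.mulVec_mulVec, hVU', Matrix.one_mulVec]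
  have hv0 : ∀ i, v i ≠ 0 := by
    intro i hi
    have h2 := dV_eq (Matrix.of fun (_ : Fin 1) i => y i) (Matrix.of fun i (_ : Fin 1) => v i)
    have h3 : (Matrix.of fun i (_ : Fin 1) => v i) * (Matrix.of fun (_ : Fin 1) i => y i) =
        vecMulVec v y := by
      ext i j
      rw [Matrix.mul_apply, Fin.sum_univ_one, vecMulVec_apply]
      rfl
    rw [h3] at h2
    have h4 := congrFun (congrFun h2 i) 0
    have h5 : (dU (vecMulVec v y) * (Matrix.of fun i (_ : Fin 1) => v i)) i 0 = v' i := by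
      rw [← hUv, hYd, uU_dX]
      rfl
    have h6 : upS (vecMulVec v y) i = 0 := by
      funext j
      rw [upS_apply, vecMulVec_apply, hi, zero_mul, ite_self]
      rfl
    have h7 : (upS (vecMulVec v y) * (dU (vecMulVec v y) *
        (Matrix.of fun i (_ : Fin 1) => v i))) i 0 = 0 := by
      rw [Matrix.mul_apply, h6]
      simp
    rw [h5, Matrix.add_apply, h7, add_zero, Matrix.of_apply, hi] at h4
    exact hv i (by rw [← hv']; exact h4)
  have hYdiag : ∀ i, Y i i = 1 + v i * y i := fun i => by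
    rw [hYd, dX_diag, vecMulVec_apply, one_mul]
  have hYne : ∀ i, Y i i ≠ 0 := by
    intro i
    have h2 : lL Y i i = lL X i i * Li i i := by
      rw [hY2, (loT_lL X).mul_diag hLi1]
    rw [lL_diag, lL_diag] at h2
    rw [h2]
    refine mul_ne_zero (hX i) ?_
    rw [hLi, (loT_lL X').inv_diag (fun i => by rw [lL_diag]; exact hX' i), lL_diag]
    exact inv_ne_zero (hX' i)
  refine ⟨v, y, hv0, ?_, ?_, ?_, ?_, fun i => ?_, ?_⟩
  · rw [← hYd, hY2, Matrix.mul_assoc, hLL', Matrix.mul_one]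
  · rw [← hYd, hY1, ← Matrix.mul_assoc, hUU, Matrix.one_mul]
  · rw [← hYd, hUv, hv']
  · rw [← hκd, hy, Matrix.smul_vecMul, Matrix.vecMul_vecMul, hLL', Matrix.vecMul_one, smul_smul]
    have h2 : -κ * -κ⁻¹ = 1 := by field_simp
    rw [h2, one_smul]
  · rw [← hYdiag]
    exact hYne i
  · have h2 : (zZ Y).det = ∏ i, (1 + v i * y i) := by
      rw [det_zZ]
      exact Finset.prod_congr rfl fun i _ => hYdiag i
    have h3 := congrArg Matrix.det hR
    rw [Matrix.det_mul, Matrix.det_one] at h3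
    have h4 : (1 + vecMulVec ξ υ).det = κ := by
      rw [Matrix.vecMulVec_eq Unit, Matrix.det_one_add_replicateCol_mul_replicateRow, hκd]
    have h5 : (zZ Y).det = (1 - κ⁻¹ • vecMulVec ξ υ).det := by
      have h6 : zZ Y = lL X' * (1 - κ⁻¹ • vecMulVec ξ υ) * Li := by
        rw [hZY, Matrix.mul_sub, Matrix.mul_one, Matrix.sub_mul, hLL,
            Matrix.mul_smul, Matrix.mul_vecMulVec, Matrix.smul_mul, Matrix.vecMulVec_mul, hy, hv',
            Matrix.vecMulVec_smul, neg_smul, ← sub_eq_add_neg]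
      have h7 : (lL X').det * Li.det = 1 := by rw [← Matrix.det_mul, hLL, Matrix.det_one]
      rw [h6, Matrix.det_mul, Matrix.det_mul, mul_comm (lL X').det, mul_assoc, h7, mul_one]
    rw [h4] at h3
    rw [← h2, h5, ← hκd]
    exact h3

end Vale.Agent.P002R
end

section

/-!
# P002: duality, every dual tuple in generic position is in the chart
-/

namespace Vale.Agent.P002R

open Matrix

variable {n e : ℕ}

theorem exists_params_aux (ζ : ℂ) (x : Matrix (Fin n) (Fin e) ℂ)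
    (Υ : Matrix (Fin (n + e)) (Fin n) ℂ) (X : ℕ → Mat n ℂ)
    (hX0 : X 0 = dX 1 (Matrix.of fun i j => Υ (Fin.castAdd e i) j))
    (hXd : ∀ l ≤ e, ∀ i, X l i i ≠ 0)
    (hκ : ∀ l : Fin e, 1 + Υ (Fin.natAdd n l) ⬝ᵥ (fun a => x a l) ≠ 0)
    (hX : ∀ l : Fin e, zZ (X (l + 1)) = zZ (X l) *
      (1 + vecMulVec (fun a => x a l) (Υ (Fin.natAdd n l))))
    (hv : ∀ l : Fin e, ∀ i, (lL (X (l + 1)) *ᵥ fun a => x a l) i ≠ 0) :
    ∃ I : DIn n ℂ, I.z = ζ ∧ I.Ok ∧ I.Xi e = oneX x ∧ I.Up e = Υ ∧ (∀ i, I.W i i ≠ 0) ∧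
      (∀ k i, I.v k i ≠ 0) ∧ (∀ k i, I.p k i ≠ 0) ∧ (∀ k, e ≤ k → I.v k = 1) ∧
      (∀ k, e ≤ k → I.p k = 1) ∧ (∀ k, e ≤ k → I.ka k = 1) ∧
      (∀ k i, I.vi k i = (I.v k i)⁻¹) ∧ ∀ k, I.dv k = ((Lc I.Y (k + 1)).det)⁻¹ := by
  have hstep := fun l : Fin e => dual_step (X l) (X (l + 1)) (fun a => x a l)
    (Υ (Fin.natAdd n l)) (hXd l l.2.le) (hXd (l + 1) l.2) (hκ l) (hX l) (hv l)
  choose v y h1 h2 h3 h4 h5 h6 h7 using hstep
  obtain ⟨vv, hvv⟩ : ∃ vv : ℕ → Fin n → ℂ, vv = fun k => if h : k < e then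
    v ⟨e - 1 - k, by omega⟩ else 1 := ⟨_, rfl⟩
  obtain ⟨pp, hpp⟩ : ∃ pp : ℕ → Fin n → ℂ, pp = fun k => if h : k < e then
    (fun i => 1 + v ⟨e - 1 - k, by omega⟩ i * y ⟨e - 1 - k, by omega⟩ i) else 1 := ⟨_, rfl⟩
  obtain ⟨kk, hkk⟩ : ∃ kk : ℕ → ℂ, kk = fun k => if h : k < e then
    1 + Υ (Fin.natAdd n ⟨e - 1 - k, by omega⟩) ⬝ᵥ (fun a => x a ⟨e - 1 - k, by omega⟩) else 1 :=
    ⟨_, rfl⟩
  obtain ⟨I0, hI0⟩ : ∃ I0 : DIn n ℂ, I0 = ⟨ζ, X e, vv, fun k i => (vv k i)⁻¹, pp, fun _ => 0, kk⟩ :=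
    ⟨_, rfl⟩
  obtain ⟨I, hI⟩ : ∃ I : DIn n ℂ, I = ⟨ζ, X e, vv, fun k i => (vv k i)⁻¹, pp,
    fun k => ((Lc I0.Y (k + 1)).det)⁻¹, kk⟩ := ⟨_, rfl⟩
  have hIz : I.z = ζ := by rw [hI]
  have hIW : I.W = X e := by rw [hI]
  have hIv : I.v = vv := by rw [hI]
  have hIvi : I.vi = fun k i => (vv k i)⁻¹ := by rw [hI]
  have hIp : I.p = pp := by rw [hI]
  have hIka : I.ka = kk := by rw [hI]
  have hYY : I.Y = I0.Y := by
    funext k
    cases k with
    | zero => rw [DIn.Y_zero, DIn.Y_zero, hI, hI0]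
    | succ k =>
      rw [DIn.Y_succ, DIn.Y_succ, hI, hI0]
      rfl
  have hIdv : I.dv = fun k => ((Lc I.Y (k + 1)).det)⁻¹ := by rw [hYY, hI]
  have hvv0 : ∀ k i, vv k i ≠ 0 := by
    intro k i
    rw [hvv]
    simp only
    split_ifs
    · exact h1 _ i
    · exact one_ne_zero
  have hpp0 : ∀ k i, pp k i ≠ 0 := by
    intro k i
    rw [hpp]
    simp only
    split_ifs
    · exact h6 _ i
    · exact one_ne_zero
  have hyI : ∀ k (hk : k < e), I.y k = y ⟨e - 1 - k, by omega⟩ := by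
    intro k hk
    funext i
    rw [DIn.y, hIp, hIvi, hpp, hvv]
    simp only [dif_pos hk]
    have := h1 ⟨e - 1 - k, by omega⟩ i
    field_simp
    ring
  have hyI' : ∀ k, e ≤ k → I.y k = 0 := by
    intro k hk
    funext i
    rw [DIn.y, hIp, hpp]
    simp only [dif_neg (not_lt.2 hk)]
    rw [Pi.one_apply, sub_self, zero_mul, Pi.zero_apply]
  have hvI : ∀ k (hk : k < e), I.v k = v ⟨e - 1 - k, by omega⟩ := by
    intro k hk
    rw [hIv, hvv]
    simp only [dif_pos hk]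
  have hYI : ∀ k (hk : k < e), I.Y (k + 1) = dX 1 (vecMulVec (v ⟨e - 1 - k, by omega⟩)
      (y ⟨e - 1 - k, by omega⟩)) := by
    intro k hk
    rw [DIn.Y_succ, hyI k hk, hvI k hk]
  have hchain : ∀ k ≤ e, Lc I.Y (k + 1) = lL (X (e - k)) ∧ Uc I.Y (k + 1) = uU (X (e - k)) := by
    intro k
    induction k with
    | zero =>
      intro _
      rw [Lc_succ, Uc_succ, Lc_zero, Uc_zero, Matrix.mul_one, Matrix.one_mul, DIn.Y_zero, hIW]
      exact ⟨rfl, rfl⟩
    | succ k ih =>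
      intro hk
      obtain ⟨ih1, ih2⟩ := ih (by omega)
      have h8 : e - (k + 1) = e - 1 - k := by omega
      have h9 : e - k = e - 1 - k + 1 := by omega
      rw [Lc_succ, Uc_succ, ih1, ih2, hYI k (by omega), h8, h9]
      exact ⟨h2 ⟨e - 1 - k, by omega⟩, h3 ⟨e - 1 - k, by omega⟩⟩
  have hYd : ∀ k i, I.Y (k + 1) i i = pp k i := by
    intro k i
    rw [DIn.Y_succ, dX_diag, vecMulVec_apply, one_mul, DIn.y, hIp, hIvi, hIv]
    have := hvv0 k i
    simp only
    field_simp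
    ring
  have hdet : ∀ k, (Lc I.Y (k + 1)).det ≠ 0 := by
    intro k
    rw [det_Lc, Finset.prod_ne_zero_iff]
    intro i _
    rw [Finset.prod_ne_zero_iff]
    intro l _
    cases l with
    | zero => rw [DIn.Y_zero, hIW]; exact hXd e le_rfl i
    | succ l => rw [hYd]; exact hpp0 l i
  have hOk : I.Ok := by
    refine ⟨fun k i => ?_, fun k => ?_, fun k => ?_⟩
    · rw [hIv, hIvi]
      exact mul_inv_cancel₀ (hvv0 k i)
    · rw [hIdv]
      exact inv_mul_cancel₀ (hdet k)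
    · rw [hIka, hIp, hkk, hpp]
      simp only
      split_ifs with hk
      · exact h7 _
      · simp
  have hxi : ∀ k (hk : k < e), I.xi k = fun a => x a ⟨e - 1 - k, by omega⟩ := by
    intro k hk
    have h8 : e - k = e - 1 - k + 1 := by omega
    have h9 := DIn.Lc_xi hOk k
    rw [DIn.v', hvI k hk, hYI k hk, h4, ← h8, ← (hchain k hk.le).1] at h9
    have h10 : IsUnit (Lc I.Y (k + 1)).det := isUnit_iff_ne_zero.2 (hdet k)
    have h11 := congrArg (fun u => (Lc I.Y (k + 1))⁻¹ *ᵥ u) h9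
    rw [Matrix.mulVec_mulVec, Matrix.mulVec_mulVec, Matrix.nonsing_inv_mul _ h10,
      Matrix.one_mulVec, Matrix.one_mulVec] at h11
    exact h11
  have hw : ∀ k (hk : k < e), I.w k = Υ (Fin.natAdd n ⟨e - 1 - k, by omega⟩) := by
    intro k hk
    have h8 : e - k = e - 1 - k + 1 := by omega
    rw [DIn.w, hyI k hk, (hchain k hk.le).1, h8]
    have h9 : I.ka k = 1 + Υ (Fin.natAdd n ⟨e - 1 - k, by omega⟩) ⬝ᵥ
        (fun a => x a ⟨e - 1 - k, by omega⟩) := by
      rw [hIka, hkk]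
      simp only [dif_pos hk]
    rw [h9]
    exact h5 ⟨e - 1 - k, by omega⟩
  refine ⟨I, hIz, hOk, ?_, ?_, ?_, ?_, ?_, ?_, ?_, ?_, ?_, ?_⟩
  · rw [DIn.Xi]
    congr 1
    ext i j
    rw [Matrix.of_apply, hxi (e - 1 - j) (by have := j.2; omega)]
    simp only
    congr 1
    ext
    simp only
    have := j.2
    omega
  · funext i
    refine Fin.addCases (fun i => ?_) (fun j => ?_) i
    · rw [DIn.Up_left, (hchain e le_rfl).1, (hchain e le_rfl).2, Nat.sub_self, hX0, lL_dX, uU_dX]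
      obtain ⟨A, hA⟩ : ∃ A : Mat n ℂ, A = Matrix.of fun i j => Υ (Fin.castAdd e i) j := ⟨_, rfl⟩
      rw [← hA, one_smul]
      have h8 : (dU A).adjugate = 1 - upS A := by
        have h9 : (dU A).det = 1 := by
          have h10 := congrArg Matrix.det (dU_mul A)
          rw [Matrix.det_mul, det_one_sub_upS, mul_one, Matrix.det_one] at h10
          exact h10
        have h11 : (dU A).adjugate * dU A = 1 := by rw [Matrix.adjugate_mul, h9, one_smul]
        calc (dU A).adjugate = (dU A).adjugate * (dU A * (1 - upS A)) := by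
              rw [dU_mul, Matrix.mul_one]
          _ = _ := by rw [← Matrix.mul_assoc, h11, Matrix.one_mul]
      have h12 : 1 + lL A - (1 - upS A) = A := by
        have := upS_add_lL A
        calc 1 + lL A - (1 - upS A) = upS A + lL A := by abel
          _ = A := this
      rw [h8, h12, hA]
      rfl
    · rw [DIn.Up_right, hw (e - 1 - j) (by have := j.2; omega)]
      congr 2
      ext
      simp only
      have := j.2
      omega
  · rw [hIW]
    exact hXd e le_rfl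
  · rw [hIv]
    exact hvv0
  · rw [hIp]
    exact hpp0
  · intro k hk
    rw [hIv, hvv]
    simp only [dif_neg (not_lt.2 hk)]
  · intro k hk
    rw [hIp, hpp]
    simp only [dif_neg (not_lt.2 hk)]
  · intro k hk
    rw [hIka, hkk]
    simp only [dif_neg (not_lt.2 hk)]
  · intro k i
    rw [hIvi, hIv]
  · intro k
    rw [hIdv]

/-- Every dual tuple in generic position with first vectors the standard basis is in the chart. -/
theorem exists_params (ζ : ℂ) (x : Matrix (Fin n) (Fin e) ℂ)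
    (Υ : Matrix (Fin (n + e)) (Fin n) ℂ)
    (hκ : ∀ i, 1 + Υ i ⬝ᵥ (fun a => oneX x a i) ≠ 0)
    (hcell : ∀ l : Fin e, ∃ X : Mat n ℂ, (∀ i, X i i ≠ 0) ∧
      zZ X = ((List.ofFn (dR (oneX x) Υ)).take (n + l + 1)).prod ∧
      ∀ i, (lL X *ᵥ fun a => x a l) i ≠ 0) :
    ∃ I : DIn n ℂ, I.z = ζ ∧ I.Ok ∧ I.Xi e = oneX x ∧ I.Up e = Υ ∧ (∀ i, I.W i i ≠ 0) ∧
      (∀ k i, I.v k i ≠ 0) ∧ (∀ k i, I.p k i ≠ 0) ∧ (∀ k, e ≤ k → I.v k = 1) ∧
      (∀ k, e ≤ k → I.p k = 1) ∧ (∀ k, e ≤ k → I.ka k = 1) ∧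
      (∀ k i, I.vi k i = (I.v k i)⁻¹) ∧ ∀ k, I.dv k = ((Lc I.Y (k + 1)).det)⁻¹ := by
  choose X h1 h2 h3 using hcell
  obtain ⟨A, hA⟩ : ∃ A : Mat n ℂ, A = Matrix.of fun i j => Υ (Fin.castAdd e i) j := ⟨_, rfl⟩
  obtain ⟨XX, hXX⟩ : ∃ XX : ℕ → Mat n ℂ, XX = fun l => if h : 1 ≤ l ∧ l ≤ e then
    X ⟨l - 1, by omega⟩ else dX 1 A := ⟨_, rfl⟩
  have hXX0 : XX 0 = dX 1 A := by
    rw [hXX]
    simp only
    rw [dif_neg (by omega)]
  have hXXs : ∀ l : Fin e, XX (l + 1) = X l := by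
    intro l
    rw [hXX]
    simp only
    rw [dif_pos ⟨by omega, l.2⟩]
    congr 1
  have hP : ∀ l ≤ e, zZ (XX l) = ((List.ofFn (dR (oneX x) Υ)).take (n + l)).prod := by
    intro l hl
    rcases Nat.eq_zero_or_pos l with h4 | h4
    · rw [h4, hXX0, add_zero, take_first, hA]
    · obtain ⟨l', rfl⟩ : ∃ l', l = l' + 1 := ⟨l - 1, by omega⟩
      have h5 := hXXs ⟨l', hl⟩
      simp only at h5
      rw [h5, h2]
      rfl
  refine exists_params_aux ζ x Υ XX (by rw [hXX0, hA]) ?_ ?_ ?_ ?_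
  · intro l hl i
    rcases Nat.eq_zero_or_pos l with h4 | h4
    · rw [h4, hXX0, dX_diag, one_mul, hA]
      have h5 := hκ (Fin.castAdd e i)
      have h6 : Υ (Fin.castAdd e i) ⬝ᵥ (fun a => oneX x a (Fin.castAdd e i)) =
          Υ (Fin.castAdd e i) i := by
        simp only [oneX_left, dotProduct]
        rw [Finset.sum_eq_single i]
        · rw [Matrix.one_apply_eq, mul_one]
        · intro b _ hb
          rw [Matrix.one_apply_ne hb, mul_zero]
        · intro h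
          exact absurd (Finset.mem_univ i) h
      rw [h6] at h5
      exact h5
    · obtain ⟨l', rfl⟩ : ∃ l', l = l' + 1 := ⟨l - 1, by omega⟩
      have h5 := hXXs ⟨l', hl⟩
      simp only at h5
      rw [h5]
      exact h1 _ i
  · intro l
    have h5 := hκ (Fin.natAdd n l)
    simp only [oneX_right] at h5
    exact h5
  · intro l
    rw [hP (l + 1) l.2, hP l l.2.le]
    have h6 := take_succ_prod (dR (oneX x) Υ) (Fin.natAdd n l)
    simp only [Fin.val_natAdd] at h6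
    rw [← add_assoc, h6]
    congr 1
    rw [dR]
    simp only [oneX_right]
  · intro l i
    rw [hXXs]
    exact h3 l i

end Vale.Agent.P002R
end

section

/-!
# P002: duality, rational charts
-/

namespace Vale.Agent.P002R

open Matrix

variable {n e : ℕ}

/-- The index of the parameters. -/
abbrev DTau (n : ℕ) : Type := (Fin n × Fin n) ⊕ ((ℕ × Fin n) ⊕ (ℕ × Fin n))

/-- The complex parameters at a point. -/
noncomputable def DPt (e : ℕ) (ζ : ℂ) (i₀ : Fin n) (x : DTau n ⊕ Fin (n + e) → ℂ)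
    (dv : ℕ → ℂ) : DIn n ℂ where
  z := ζ
  W := Matrix.of fun i j => x (Sum.inl (Sum.inl (i, j)))
  v := fun k i => if k < e then x (Sum.inl (Sum.inr (Sum.inl (k, i)))) else 1
  vi := fun k i => (if k < e then x (Sum.inl (Sum.inr (Sum.inl (k, i)))) else 1)⁻¹
  p := pG e ζ (fun i => x (Sum.inr i)) i₀ (fun i => x (Sum.inl (Sum.inl (i, i))))
    fun k i => x (Sum.inl (Sum.inr (Sum.inr (k, i))))
  dv := dv
  ka := kaG e ζ fun i => x (Sum.inr i)

theorem DIn.Y_congr {S : Type*} [CommRing S] {I I' : DIn n S} (h1 : I.W = I'.W) (h2 : I.v = I'.v)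
    (h3 : I.vi = I'.vi) (h4 : I.p = I'.p) : I.Y = I'.Y := by
  funext k
  cases k with
  | zero => exact h1
  | succ k =>
    rw [DIn.Y_succ, DIn.Y_succ, h2]
    have : I.y k = I'.y k := by
      funext i
      rw [DIn.y, DIn.y, h3, h4]
    rw [this]

theorem DIn.ext' {S : Type*} {I I' : DIn n S} (h0 : I.z = I'.z) (h1 : I.W = I'.W)
    (h2 : I.v = I'.v) (h3 : I.vi = I'.vi) (h4 : I.p = I'.p) (h5 : I.dv = I'.dv)
    (h6 : I.ka = I'.ka) : I = I' := by
  cases I
  cases I'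
  simp only at h0 h1 h2 h3 h4 h5 h6
  rw [h0, h1, h2, h3, h4, h5, h6]

/-- The family over the ring of rational functions. -/
theorem exists_family_dual (e : ℕ) (ζ : ℂ) (hζ : ζ ≠ 0) (i₀ : Fin n)
    (x₀ : DTau n ⊕ Fin (n + e) → ℂ) (hW : ∀ i, x₀ (Sum.inl (Sum.inl (i, i))) ≠ 0)
    (hv : ∀ k i, x₀ (Sum.inl (Sum.inr (Sum.inl (k, i)))) ≠ 0)
    (hb : ∀ k i, x₀ (Sum.inl (Sum.inr (Sum.inr (k, i)))) ≠ 0)
    (hq : ∀ i, x₀ (Sum.inr i) ≠ 0)
    (hdet : ∀ k, (Lc (DPt e ζ i₀ x₀ 0).Y (k + 1)).det ≠ 0) :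
    ∃ I : DIn n (ratAt x₀), ∀ x, I.map (rev x₀ x).toRingHom =
      DPt e ζ i₀ x fun k => ((Lc (DPt e ζ i₀ x 0).Y (k + 1)).det)⁻¹ := by
  have hmul : ∀ f g : (DTau n ⊕ Fin (n + e) → ℂ) → ℂ, f ∈ ratAt x₀ → g ∈ ratAt x₀ →
      (fun x => f x * g x) ∈ ratAt x₀ := fun f g hf hg => (ratAt x₀).mul_mem hf hg
  have hconst : ∀ c : ℂ, (fun _ => c) ∈ ratAt x₀ := fun c => (ratAt x₀).algebraMap_mem c
  have hinv : ∀ f : (DTau n ⊕ Fin (n + e) → ℂ) → ℂ, f ∈ ratAt x₀ → f x₀ ≠ 0 →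
      (fun x => (f x)⁻¹) ∈ ratAt x₀ := by
    intro f hf h0
    obtain ⟨h, hh⟩ := exists_rinv (⟨f, hf⟩ : ratAt x₀) h0
    have h1 : (fun x => (f x)⁻¹) = h.1 := by
      funext x
      exact (hh x).symm
    rw [h1]
    exact h.2
  have hcoord : ∀ i, (fun x : DTau n ⊕ Fin (n + e) → ℂ => x i) ∈ ratAt x₀ := fun i => (rX x₀ i).2
  have hprod : ∀ {ι : Type} (s : Finset ι) (f : ι → (DTau n ⊕ Fin (n + e) → ℂ) → ℂ),
      (∀ i, f i ∈ ratAt x₀) → (fun x => ∏ i ∈ s, f i x) ∈ ratAt x₀ := by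
    intro ι s f hf
    have h1 : (fun x => ∏ i ∈ s, f i x) = ∏ i ∈ s, f i := by
      funext x
      rw [Finset.prod_apply]
    rw [h1]
    exact Subalgebra.prod_mem _ fun i _ => hf i
  have hqe : ∀ k, (fun x : DTau n ⊕ Fin (n + e) → ℂ => qeG e ζ (fun i => x (Sum.inr i)) k) ∈
      ratAt x₀ ∧ qeG e ζ (fun i => x₀ (Sum.inr i)) k ≠ 0 := by
    intro k
    unfold qeG
    split_ifs with h
    · exact ⟨hmul _ _ (hconst _) (hcoord _), mul_ne_zero (inv_ne_zero hζ) (hq _)⟩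
    · exact ⟨hconst 1, one_ne_zero⟩
  have hka : ∀ k, (fun x : DTau n ⊕ Fin (n + e) → ℂ => kaG e ζ (fun i => x (Sum.inr i)) k) ∈
      ratAt x₀ ∧ kaG e ζ (fun i => x₀ (Sum.inr i)) k ≠ 0 := by
    intro k
    unfold kaG
    split_ifs with h
    · exact hqe _
    · exact ⟨hconst 1, one_ne_zero⟩
  have hp0 : ∀ k i, (fun x : DTau n ⊕ Fin (n + e) → ℂ => pG0 e ζ (fun i => x (Sum.inr i)) i₀
      (fun k i => x (Sum.inl (Sum.inr (Sum.inr (k, i))))) k i) ∈ ratAt x₀ ∧
      pG0 e ζ (fun i => x₀ (Sum.inr i)) i₀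
      (fun k i => x₀ (Sum.inl (Sum.inr (Sum.inr (k, i))))) k i ≠ 0 := by
    intro k i
    unfold pG0
    split_ifs with h
    · refine ⟨hmul _ _ (hinv _ (hka k).1 (hka k).2) (hprod _ _ fun j => hinv _ (hcoord _) (hb _ _)),
        mul_ne_zero (inv_ne_zero (hka k).2) ?_⟩
      rw [Finset.prod_ne_zero_iff]
      exact fun j _ => inv_ne_zero (hb _ _)
    · exact ⟨hcoord _, hb _ _⟩
  have hp : ∀ k i, (fun x : DTau n ⊕ Fin (n + e) → ℂ => pG e ζ (fun i => x (Sum.inr i)) i₀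
      (fun i => x (Sum.inl (Sum.inl (i, i))))
      (fun k i => x (Sum.inl (Sum.inr (Sum.inr (k, i))))) k i) ∈ ratAt x₀ := by
    intro k i
    unfold pG
    split_ifs with h h'
    · exact (hp0 k i).1
    · exact hmul _ _ (hmul _ _ (hmul _ _ (hconst _) (hcoord _)) (hinv _ (hcoord _) (hW i)))
        (hprod _ _ fun l => hinv _ (hp0 l i).1 (hp0 l i).2)
    · exact hconst 1
  have hvm : ∀ k i, (fun x : DTau n ⊕ Fin (n + e) → ℂ =>
      if k < e then x (Sum.inl (Sum.inr (Sum.inl (k, i)))) else 1) ∈ ratAt x₀ ∧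
      (if k < e then x₀ (Sum.inl (Sum.inr (Sum.inl (k, i)))) else 1) ≠ 0 := by
    intro k i
    split_ifs with h
    · exact ⟨hcoord _, hv k i⟩
    · exact ⟨hconst 1, one_ne_zero⟩
  obtain ⟨I0, hI0⟩ : ∃ I0 : DIn n (ratAt x₀), I0 = ⟨⟨_, hconst ζ⟩,
    Matrix.of fun i j => ⟨_, hcoord (Sum.inl (Sum.inl (i, j)))⟩, fun k i => ⟨_, (hvm k i).1⟩,
    fun k i => ⟨_, hinv _ (hvm k i).1 (hvm k i).2⟩, fun k i => ⟨_, hp k i⟩, fun _ => 0,
    fun k => ⟨_, (hka k).1⟩⟩ := ⟨_, rfl⟩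
  have hI0r : ∀ x, I0.map (rev x₀ x).toRingHom = DPt e ζ i₀ x 0 := by
    intro x
    rw [hI0]
    refine DIn.ext' rfl ?_ rfl rfl rfl ?_ rfl
    · ext i j
      rfl
    · funext k
      exact map_zero (rev x₀ x).toRingHom
  have hg : ∀ k x, rev x₀ x (Lc I0.Y (k + 1)).det = (Lc (DPt e ζ i₀ x 0).Y (k + 1)).det := by
    intro k x
    rw [← hI0r x, DIn.Lc_map']
    exact RingHom.map_det (rev x₀ x).toRingHom _
  have hdv := fun k => exists_rinv (Lc I0.Y (k + 1)).det (by rw [hg]; exact hdet k)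
  choose dv hdv using hdv
  refine ⟨⟨I0.z, I0.W, I0.v, I0.vi, I0.p, dv, I0.ka⟩, fun x => ?_⟩
  have h1 := hI0r x
  have a0 := congrArg DIn.z h1
  have a1 := congrArg DIn.W h1
  have a2 := congrArg DIn.v h1
  have a3 := congrArg DIn.vi h1
  have a4 := congrArg DIn.p h1
  have a6 := congrArg DIn.ka h1
  refine DIn.ext' a0 a1 a2 a3 a4 ?_ a6
  funext k
  have h3 := hdv k x
  rw [hg] at h3
  exact h3

end Vale.Agent.P002R
end

section

/-!
# P002: duality, rational charts with integral points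
-/

namespace Vale.Agent.P002R

open Matrix

variable {n e : ℕ}

theorem DIn.Y_diag' {S : Type*} [CommRing S] {I : DIn n S} (h : ∀ k i, I.v k i * I.vi k i = 1)
    (k : ℕ) (i : Fin n) : I.Y (k + 1) i i = I.p k i := by
  rw [DIn.Y_succ, dX_diag, vecMulVec_apply, DIn.y, one_mul]
  have h1 := h k i
  calc 1 + I.v k i * ((I.p k i - 1) * I.vi k i) = 1 + (I.p k i - 1) * (I.v k i * I.vi k i) := by
        ring
    _ = _ := by rw [h1]; ring

theorem exists_left_inv {a b : ℕ} (M : Matrix (Fin a) (Fin b) ℂ) (h : ∀ v, M *ᵥ v = 0 → v = 0) :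
    ∃ L : Matrix (Fin b) (Fin a) ℂ, L * M = 1 := by
  obtain ⟨g, hg⟩ := M.mulVecLin.exists_leftInverse_of_injective (by
    rw [LinearMap.ker_eq_bot']
    intro v hv
    exact h v hv)
  refine ⟨LinearMap.toMatrix' g, ?_⟩
  have h1 : LinearMap.toMatrix' g * M = LinearMap.toMatrix' (g.comp M.mulVecLin) := by
    rw [LinearMap.toMatrix'_comp]
    congr 1
    exact (LinearMap.toMatrix'_toLin' M).symm
  rw [h1, hg, LinearMap.toMatrix'_id]

section units

variable {R : Type*} [CommRing R] (φ : R →+* ℂ)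

/-- The homomorphism on units. -/
def uHom : Rˣ →* ℂ := (φ : R →* ℂ).comp (Units.coeHom R)

theorem uHom_apply (u : Rˣ) : uHom φ u = φ u := rfl

theorem uHom_inv (u : Rˣ) : uHom φ u⁻¹ = (uHom φ u)⁻¹ := by
  have h1 : uHom φ u⁻¹ * uHom φ u = 1 := by
    rw [← map_mul, inv_mul_cancel, map_one]
  exact eq_inv_of_mul_eq_one_left h1

theorem dense_units (hinf : (Set.range fun u : Rˣ => φ u).Infinite) {τ : Type*} (t₀ : τ → ℂ)
    (P : MvPolynomial τ ℂ) (hP : ∀ u : τ → Rˣ, MvPolynomial.eval (fun i => φ (u i)) P = 0) :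
    MvPolynomial.eval t₀ P = 0 := by
  have h1 : P = 0 := by
    refine MvPolynomial.funext_set (fun _ => Set.range fun u : Rˣ => φ u) (fun _ => hinf)
      fun x hx => ?_
    have h2 : ∀ i, ∃ u : Rˣ, φ u = x i := fun i => hx i (Set.mem_univ i)
    choose u hu using h2
    rw [map_zero, ← hP u]
    congr 2
    funext i
    exact (hu i).symm
  rw [h1, map_zero]

end units

theorem dualD_oneX {R : Type*} [CommRing R] (φ : R →+* ℂ) (hinj : Function.Injective φ)
    (hn : 0 < n) (he : 0 < e) (hinf : (Set.range fun u : Rˣ => φ u).Infinite)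
    (J : Mat (n + e) ℂ) (ζ : Rˣ) (W0 : Mat n ℂ) (Y0 : Matrix (Fin e) (Fin n) ℂ)
    (h : DualCls (φ ζ) J W0 Y0) (hT : TotD φ W0) (x : Matrix (Fin n) (Fin e) ℂ)
    (Υ : Matrix (Fin (n + e)) (Fin n) ℂ) (hΥ : ∀ v, Υ *ᵥ v = 0 → v = 0)
    (hκ : ∀ i, 1 + Υ i ⬝ᵥ (fun a => oneX x a i) ≠ 0)
    (hcell : ∀ l : Fin e, ∃ X : Mat n ℂ, (∀ i, X i i ≠ 0) ∧
      zZ X = ((List.ofFn (dR (oneX x) Υ)).take (n + l + 1)).prod ∧
      ∀ i, (lL X *ᵥ fun a => x a l) i ≠ 0)
    (hW : P002G.Cj W0 (1 + oneX x * (dU (Υ * oneX x) * Υ))) :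
    DualD φ J (dX (φ ζ) (Υ * oneX x)) := by
  obtain ⟨I₀, hz, hOk, hXi, hUp, hW0, hv0, hp0, hv1, hp1, hka1, hvi, hdv⟩ :=
    exists_params (φ ζ) x Υ hκ hcell
  have hζ : φ ζ ≠ 0 := h.zeta
  obtain ⟨i₀, -⟩ : ∃ i₀ : Fin n, i₀ = ⟨0, hn⟩ := ⟨_, rfl⟩
  obtain ⟨X₀, hX₀⟩ : ∃ X₀, X₀ = dX (φ ζ) (Υ * oneX x) := ⟨_, rfl⟩
  rw [← hX₀]
  have hX₀' : X₀ = I₀.out e := by rw [hX₀, DIn.out, hz, hXi, hUp]
  have hWt : 1 + oneX x * (dU (Υ * oneX x) * Υ) = zZ I₀.W := by
    rw [← hXi, ← hUp]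
    exact DIn.total_prod hOk e
  obtain ⟨t₀, ht₀⟩ : ∃ t₀ : DTau n → ℂ, t₀ = Sum.elim (fun p => I₀.W p.1 p.2)
    (Sum.elim (fun p => I₀.v p.1 p.2) fun p => I₀.p p.1 p.2) := ⟨_, rfl⟩
  -- nonvanishing
  have hkane : ∀ k, I₀.ka k ≠ 0 := fun k => left_ne_zero_of_mul (by
    rw [hOk.ka k]; exact one_ne_zero)
  have hleft : ∀ i, X₀ (Fin.castAdd e i) (Fin.castAdd e i) =
      φ ζ * (I₀.W i i * ∏ k ∈ Finset.range e, I₀.p k i) := fun i => by
    rw [hX₀', DIn.out_left hOk, hz]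
  have hright : ∀ j : Fin e, X₀ (Fin.natAdd n j) (Fin.natAdd n j) = φ ζ * I₀.ka (e - 1 - j) :=
    fun j => by rw [hX₀', DIn.out_right hOk, hz]
  have hX₀ne : ∀ i, X₀ i i ≠ 0 := by
    intro i
    refine Fin.addCases (fun i => ?_) (fun j => ?_) i
    · rw [hleft]
      refine mul_ne_zero hζ (mul_ne_zero (hW0 i) ?_)
      rw [Finset.prod_ne_zero_iff]
      exact fun k _ => hp0 k i
    · rw [hright]
      exact mul_ne_zero hζ (hkane _)
  -- the point
  have hka₀ : ∀ k, kaG e (φ ζ) (fun i => X₀ i i) k = I₀.ka k := by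
    intro k
    rw [kaG]
    split_ifs with hk
    · rw [qeG, dif_pos (by omega), hright ⟨e - 1 - k, by omega⟩]
      simp only
      rw [← mul_assoc, inv_mul_cancel₀ hζ, one_mul]
      congr 1
      omega
    · exact (hka1 k (not_lt.1 hk)).symm
  have hp₀ : ∀ k i, pG0 e (φ ζ) (fun i => X₀ i i) i₀ I₀.p k i = I₀.p k i := by
    intro k i
    rw [pG0]
    split_ifs with hi
    · rw [hka₀, hi]
      have h1 := hOk.ka k
      rw [← Finset.mul_prod_erase _ _ (Finset.mem_univ i₀)] at h1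
      rw [Finset.prod_inv_distrib]
      have h2 := hkane k
      have h3 : ∏ j ∈ Finset.univ.erase i₀, I₀.p k j ≠ 0 := by
        rw [Finset.prod_ne_zero_iff]
        exact fun j _ => hp0 k j
      field_simp
      rw [← h1]
      ring
    · rfl
  have hpG : ∀ k i, pG e (φ ζ) (fun i => X₀ i i) i₀ (fun i => I₀.W i i) I₀.p k i = I₀.p k i := by
    intro k i
    rw [pG]
    split_ifs with hk hk'
    · exact hp₀ k i
    · simp only [hp₀]
      subst hk'
      rw [hleft, Finset.prod_range_succ, Nat.add_sub_cancel, Finset.prod_inv_distrib]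
      have h1 := hW0 i
      have h3 : ∏ l ∈ Finset.range k, I₀.p l i ≠ 0 := by
        rw [Finset.prod_ne_zero_iff]
        exact fun j _ => hp0 j i
      field_simp
    · rw [hp1 k (by omega)]
      rfl
  have hDPt : ∀ dv : ℕ → ℂ, DPt e (φ ζ) i₀ (Sum.elim t₀ fun i => X₀ i i) dv =
      ⟨I₀.z, I₀.W, I₀.v, I₀.vi, I₀.p, dv, I₀.ka⟩ := by
    intro dv
    refine DIn.ext' ?_ ?_ ?_ ?_ ?_ rfl ?_
    · exact hz.symm
    · ext i j
      rw [DPt, ht₀]
      rfl
    · funext k i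
      rw [DPt, ht₀]
      simp only [Sum.elim_inl, Sum.elim_inr]
      split_ifs with hk
      · rfl
      · rw [hv1 k (not_lt.1 hk)]; rfl
    · funext k i
      rw [DPt, ht₀]
      simp only [Sum.elim_inl, Sum.elim_inr]
      rw [hvi]
      split_ifs with hk
      · rfl
      · rw [hv1 k (not_lt.1 hk)]; rfl
    · funext k i
      rw [DPt, ht₀]
      simp only [Sum.elim_inl, Sum.elim_inr]
      exact hpG k i
    · funext k
      rw [DPt]
      simp only [Sum.elim_inr]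
      exact hka₀ k
  have hYc : ∀ dv : ℕ → ℂ, (⟨I₀.z, I₀.W, I₀.v, I₀.vi, I₀.p, dv, I₀.ka⟩ : DIn n ℂ).Y = I₀.Y :=
    fun dv => DIn.Y_congr rfl rfl rfl rfl
  obtain ⟨IS, hIS⟩ := exists_family_dual e (φ ζ) hζ i₀ (Sum.elim t₀ fun i => X₀ i i)
    (fun i => by rw [ht₀]; exact hW0 i) (fun k i => by rw [ht₀]; exact hv0 k i)
    (fun k i => by rw [ht₀]; exact hp0 k i) (fun i => hX₀ne i) (fun k => by
      rw [hDPt, hYc]
      exact right_ne_zero_of_mul (by rw [hOk.dv k]; exact one_ne_zero))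
  have hIS₀ : IS.map (rev (Sum.elim t₀ fun i => X₀ i i) (Sum.elim t₀ fun i => X₀ i i)).toRingHom =
      I₀ := by
    rw [hIS]
    simp only [hDPt, hYc]
    refine DIn.ext' rfl rfl rfl rfl rfl ?_ rfl
    funext k
    exact (hdv k).symm
  obtain ⟨Λ, hΛ⟩ := exists_left_inv Υ hΥ
  have hout : ∀ x' i j, rev (Sum.elim t₀ fun i => X₀ i i) x' (IS.out e i j) =
      ((IS.map (rev (Sum.elim t₀ fun i => X₀ i i) x').toRingHom).out e) i j := by
    intro x' i j
    rw [DIn.out_map]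
    rfl
  obtain ⟨κ, hκd⟩ : ∃ κ, κ = (Λ.map (algebraMap ℂ (ratAt (Sum.elim t₀ fun i => X₀ i i))) *
    IS.Up e).det := ⟨_, rfl⟩
  have hκr : ∀ x', rev (Sum.elim t₀ fun i => X₀ i i) x' κ =
      (Λ * (IS.map (rev (Sum.elim t₀ fun i => X₀ i i) x').toRingHom).Up e).det := by
    intro x'
    rw [hκd, DIn.Up_map]
    have h1 := RingHom.map_det (rev (Sum.elim t₀ fun i => X₀ i i) x').toRingHom
      (Λ.map (algebraMap ℂ (ratAt (Sum.elim t₀ fun i => X₀ i i))) * IS.Up e)
    refine h1.trans ?_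
    congr 1
    rw [RingHom.mapMatrix_apply, Matrix.map_mul]
    congr 1
  refine ⟨DTau n, t₀, {t | ∃ (WR : Mat n R) (vR bR : ℕ → Fin n → Rˣ), (∀ i, IsUnit (WR i i)) ∧
    CjM W0 (zZ (WR.map φ)) ∧ t = Sum.elim (fun p => φ (WR p.1 p.2))
      (Sum.elim (fun p => φ (vR p.1 p.2)) fun p => φ (bR p.1 p.2))}, ?_, IS.out e, κ, ?_, ?_, ?_⟩
  · -- density
    intro P hP
    rw [ht₀]
    refine dense_sum {w | ∃ WR : Mat n R, (∀ i, IsUnit (WR i i)) ∧ CjM W0 (zZ (WR.map φ)) ∧
      w = fun p => φ (WR p.1 p.2)} {s | ∃ vR bR : ℕ → Fin n → Rˣ, s = Sum.elim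
      (fun p => φ (vR p.1 p.2)) fun p => φ (bR p.1 p.2)} ?_ ?_ P ?_
    · intro F hF
      refine hT F (fun X h1 h2 => hF _ ⟨X, h1, h2, rfl⟩) I₀.W hW0 ?_
      rw [← hWt]
      exact P002G.cjC_of_cj hW
    · intro F hF
      refine dense_sum {w | ∃ vR : ℕ → Fin n → Rˣ, w = fun p => φ (vR p.1 p.2)}
        {w | ∃ vR : ℕ → Fin n → Rˣ, w = fun p => φ (vR p.1 p.2)} ?_ ?_ F ?_
      · exact fun F hF => dense_units φ hinf _ F fun u => hF _ ⟨fun k i => u (k, i), rfl⟩
      · exact fun F hF => dense_units φ hinf _ F fun u => hF _ ⟨fun k i => u (k, i), rfl⟩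
      · rintro _ ⟨vR, rfl⟩ _ ⟨bR, rfl⟩
        exact hF _ ⟨vR, bR, rfl⟩
    · rintro _ ⟨WR, h1, h2, rfl⟩ _ ⟨vR, bR, rfl⟩
      exact hP _ ⟨WR, vR, bR, h1, h2, rfl⟩
  · rw [hκr, hIS₀, hUp, hΛ, Matrix.det_one]
    exact one_ne_zero
  · intro i j
    rw [hout, hIS₀, ← hX₀']
  · rintro _ ⟨WR, vR, bR, hWR, hWRc, rfl⟩ q hq hκne
    choose WdU hWdU using hWR
    obtain ⟨IR0, hIR0⟩ : ∃ IR0 : DIn n R, IR0 = ⟨ζ, WR,
      fun k i => ((if k < e then vR k i else 1 : Rˣ) : R),
      fun k i => (((if k < e then vR k i else 1 : Rˣ)⁻¹ : Rˣ) : R),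
      fun k i => (pG e ζ q i₀ WdU bR k i : Rˣ), fun _ => 0, fun k => (kaG e ζ q k : Rˣ)⟩ :=
      ⟨_, rfl⟩
    have hdetU : ∀ k, IsUnit (Lc IR0.Y (k + 1)).det := by
      intro k
      rw [det_Lc, IsUnit.prod_univ_iff]
      intro i
      rw [IsUnit.prod_iff]
      intro l _
      cases l with
      | zero => rw [DIn.Y_zero, hIR0]; simp only; rw [← hWdU]; exact (WdU i).isUnit
      | succ l =>
        rw [DIn.Y_diag' (I := IR0) (fun k i => by rw [hIR0]; exact Units.mul_inv _), hIR0]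
        exact Units.isUnit _
    choose dU' hdU' using hdetU
    obtain ⟨IR, hIR⟩ : ∃ IR : DIn n R, IR = ⟨IR0.z, IR0.W, IR0.v, IR0.vi, IR0.p,
      fun k => ((dU' k)⁻¹ : Rˣ), IR0.ka⟩ := ⟨_, rfl⟩
    have hYR : IR.Y = IR0.Y := by
      rw [hIR]
      exact DIn.Y_congr rfl rfl rfl rfl
    have hqR : ∏ i, q i = ζ ^ (n + e) * ∏ i, WdU i := by
      apply Units.ext
      apply hinj
      rw [Units.coe_prod, map_prod, hq, h.det_J, Units.val_mul, Units.val_pow_eq_pow_val,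
        map_mul, map_pow, Units.coe_prod, map_prod]
      congr 1
      have h1 := hWRc.det
      rw [det_zZ] at h1
      rw [← h1]
      exact Finset.prod_congr rfl fun i _ => by rw [hWdU]; rfl
    have hOkR : IR.Ok := by
      refine ⟨fun k i => ?_, fun k => ?_, fun k => ?_⟩
      · rw [hIR, hIR0]
        exact Units.mul_inv _
      · rw [hYR, ← hdU' k, hIR]
        exact Units.inv_mul _
      · have h1 := kaG_mul_prod e ζ q i₀ WdU bR hqR k
        have h2 := congrArg (fun u : Rˣ => (u : R)) h1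
        simp only [Units.val_mul, Units.coe_prod, Units.val_one] at h2
        rw [hIR, hIR0]
        exact h2
    have hmap : IR.map φ = IS.map (rev (Sum.elim t₀ fun i => X₀ i i) (Sum.elim (Sum.elim
        (fun p : Fin n × Fin n => φ (WR p.1 p.2)) (Sum.elim (fun p : ℕ × Fin n => φ (vR p.1 p.2))
          fun p : ℕ × Fin n => φ (bR p.1 p.2)))
        fun i => φ (q i))).toRingHom := by
      rw [hIS]
      have hf : ∀ dv dv' : ℕ → ℂ, dv = dv' → DIn.mk (φ ζ) (WR.map φ)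
          (fun k i => φ ((if k < e then vR k i else 1 : Rˣ) : R))
          (fun k i => φ (((if k < e then vR k i else 1 : Rˣ)⁻¹ : Rˣ) : R))
          (fun k i => φ (pG e ζ q i₀ WdU bR k i : Rˣ)) dv (fun k => φ (kaG e ζ q k : Rˣ)) =
          DPt e (φ ζ) i₀ (Sum.elim (Sum.elim
        (fun p : Fin n × Fin n => φ (WR p.1 p.2)) (Sum.elim (fun p : ℕ × Fin n => φ (vR p.1 p.2))
          fun p : ℕ × Fin n => φ (bR p.1 p.2))) fun i => φ (q i)) dv' := by
        rintro dv _ rfl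
        refine DIn.ext' rfl ?_ ?_ ?_ ?_ rfl ?_
        · ext i j
          rfl
        · funext k i
          rw [DPt]
          simp only [Sum.elim_inl, Sum.elim_inr]
          split_ifs
          · rfl
          · rw [Units.val_one, map_one]
        · funext k i
          rw [DPt]
          simp only [Sum.elim_inl, Sum.elim_inr]
          rw [← uHom_apply, uHom_inv, uHom_apply]
          congr 1
          split_ifs
          · rfl
          · rw [Units.val_one, map_one]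
        · funext k i
          rw [DPt]
          simp only [Sum.elim_inl, Sum.elim_inr]
          rw [← uHom_apply, pG_map (uHom φ) (uHom_inv φ)]
          simp only [uHom_apply, hWdU]
        · funext k
          rw [DPt]
          simp only [Sum.elim_inr]
          rw [← uHom_apply, kaG_map (uHom φ) (uHom_inv φ)]
          rfl
      have h1 := hf (fun k => φ ((dU' k)⁻¹ : Rˣ)) (fun k => ((Lc (DPt e (φ ζ) i₀ (Sum.elim
        (Sum.elim (fun p : Fin n × Fin n => φ (WR p.1 p.2)) (Sum.elim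
        (fun p : ℕ × Fin n => φ (vR p.1 p.2)) fun p : ℕ × Fin n => φ (bR p.1 p.2)))
          fun i => φ (q i)) 0).Y (k + 1)).det)⁻¹) (by
        funext k
        have h2 : DPt e (φ ζ) i₀ (Sum.elim (Sum.elim
            (fun p : Fin n × Fin n => φ (WR p.1 p.2)) (Sum.elim
            (fun p : ℕ × Fin n => φ (vR p.1 p.2)) fun p : ℕ × Fin n => φ (bR p.1 p.2)))
            fun i => φ (q i)) 0 = IR0.map φ := by
          rw [← hf (fun _ => 0) 0 rfl, hIR0]
          refine DIn.ext' rfl rfl rfl rfl rfl ?_ rfl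
          funext k
          exact (map_zero φ).symm
        rw [h2, DIn.Lc_map']
        have h3 : ((Lc IR0.Y (k + 1)).map φ).det = φ (dU' k) := by
          rw [hdU']
          exact (RingHom.map_det φ _).symm
        rw [h3, ← uHom_apply, ← uHom_apply, uHom_inv])
      rw [← h1, hIR, hIR0]
      rfl
    refine ⟨IR.out e, fun i => ?_, ?_, fun i j => ?_⟩
    · refine Fin.addCases (fun i => ?_) (fun j => ?_) i
      · rw [DIn.out_left hOkR]
        have h1 := prod_pG_left e he ζ q i₀ WdU bR i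
        have h2 := congrArg (fun u : Rˣ => (u : R)) h1
        simp only [Units.val_mul, Units.coe_prod] at h2
        rw [hIR, hIR0]
        simp only
        rw [← hWdU]
        exact h2
      · rw [DIn.out_right hOkR]
        have h1 : ζ * kaG e ζ q (e - 1 - j) = q (Fin.natAdd n j) := by
          have hj := j.2
          rw [kaG, if_pos (by omega), qeG, dif_pos (by omega), mul_inv_cancel_left]
          congr 2
          ext
          simp only
          omega
        have h2 := congrArg (fun u : Rˣ => (u : R)) h1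
        simp only [Units.val_mul] at h2
        rw [hIR, hIR0]
        exact h2
    · rw [← DIn.out_map]
      have h1 : (IR.map φ).out e = dX (φ ζ) ((IR.map φ).Up e * oneX (Matrix.of fun i (j : Fin e) =>
          (IR.map φ).xi (e - 1 - j) i)) := by
        rw [DIn.out, hIR, hIR0]
        rfl
      have h2 := DIn.total_prod (DIn.ok_map φ hOkR) e
      rw [h1]
      refine h.cj_oneX _ _ (fun v hv => ?_) ?_
      · rw [hκr, ← hmap] at hκne
        have h3 : (Λ * (IR.map φ).Up e) *ᵥ v = 0 := by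
          rw [← Matrix.mulVec_mulVec, hv, Matrix.mulVec_zero]
        have h4 := Matrix.eq_zero_of_mulVec_eq_zero hκne h3
        exact h4
      · rw [DIn.Xi] at h2
        rw [h2]
        have h3 : (IR.map φ).W = WR.map φ := by rw [hIR, hIR0]; rfl
        rw [h3]
        exact P002G.cj_of_cjC hWRc
    · rw [hout, ← hmap, DIn.out_map]
      rfl

end Vale.Agent.P002R
end

section

/-!
# P002, genus 0, one regular class: elements of a class near a given one
-/

namespace Vale.Agent.P002L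

open Matrix Vale.Agent.P002R

section

variable {S : Type*} [CommRing S] {r : ℕ}

/-- The product of the first `j` factors. -/
def Qp (c : Mat r S) (ξ : ℕ → S) (j : ℕ) : Mat r S :=
  ((List.range j).map fun i => c - ξ i • (1 : Mat r S)).prod

theorem Qp_zero (c : Mat r S) (ξ : ℕ → S) : Qp c ξ 0 = 1 := rfl

theorem Qp_succ (c : Mat r S) (ξ : ℕ → S) (j : ℕ) :
    Qp c ξ (j + 1) = Qp c ξ j * (c - ξ j • (1 : Mat r S)) := by
  unfold Qp
  rw [List.range_succ, List.map_append, List.prod_append, List.map_singleton, List.prod_singleton]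

theorem Qp_comm (c : Mat r S) (ξ : ℕ → S) (j : ℕ) (a : S) :
    Commute (Qp c ξ j) (c - a • (1 : Mat r S)) := by
  induction j with
  | zero => exact Commute.one_left _
  | succ j ih =>
    rw [Qp_succ]
    refine ih.mul_left ?_
    refine Commute.sub_left (Commute.sub_right (Commute.refl c) ?_) (Commute.sub_right ?_ ?_)
    · exact (Commute.one_right c).smul_right a
    · exact (Commute.one_left c).smul_left (ξ j)
    · exact ((Commute.one_left (1 : Mat r S)).smul_left (ξ j)).smul_right a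

theorem Qp_map {T : Type*} [CommRing T] (f : S →+* T) (c : Mat r S) (ξ : ℕ → S) (j : ℕ) :
    (Qp c ξ j).map f = Qp (c.map f) (fun i => f (ξ i)) j := by
  induction j with
  | zero =>
    rw [Qp_zero, Qp_zero]
    exact Matrix.map_one f (map_zero f) (map_one f)
  | succ j ih =>
    rw [Qp_succ, Qp_succ, Matrix.map_mul, ih]
    congr 1
    ext a b
    simp only [Matrix.map_apply, Matrix.sub_apply, Matrix.smul_apply, Matrix.one_apply, map_sub,
      smul_eq_mul, map_mul]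
    split_ifs <;> simp

theorem Qp_conj {c u M : Mat r S} (ξ : ℕ → S) (h : c * u = u * M) (j : ℕ) :
    Qp c ξ j * u = u * Qp M ξ j := by
  induction j with
  | zero => rw [Qp_zero, Qp_zero, Matrix.one_mul, Matrix.mul_one]
  | succ j ih =>
    have h1 : (c - ξ j • (1 : Mat r S)) * u = u * (M - ξ j • (1 : Mat r S)) := by
      rw [Matrix.sub_mul, Matrix.mul_sub, h, smul_mul_assoc, mul_smul_comm, Matrix.one_mul,
        Matrix.mul_one]
    rw [Qp_succ, Qp_succ, Matrix.mul_assoc, h1, ← Matrix.mul_assoc, ih, Matrix.mul_assoc]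

/-- The columns with label less than `j` are killed. -/
theorem Qp_col {κ : Fin r → ℕ} {ξ : ℕ → S} {M : Mat r S} (hM : Kup κ ξ M) (j : ℕ) (a i : Fin r)
    (h : κ i < j) : Qp M ξ j a i = 0 := by
  induction j generalizing i with
  | zero => omega
  | succ j ih =>
    rw [Qp_succ, Matrix.mul_apply]
    refine Finset.sum_eq_zero fun b _ => ?_
    by_cases hb : b = i
    · subst hb
      rcases Nat.lt_succ_iff_lt_or_eq.1 h with h' | h'
      · rw [ih b h', zero_mul]
      · rw [Matrix.sub_apply, Matrix.smul_apply, Matrix.one_apply_eq, hM.1, smul_eq_mul, mul_one,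
          h', sub_self, mul_zero]
    · rw [Matrix.sub_apply, Matrix.smul_apply, Matrix.one_apply_ne hb, smul_zero, sub_zero]
      by_cases hκ : κ b < κ i
      · rw [ih b (by omega), zero_mul]
      · rw [hM.2 b i hb hκ, mul_zero]

end

theorem rank_add_ker {r : ℕ} (B : Mat r ℂ) :
    B.rank + Module.finrank ℂ (LinearMap.ker B.mulVecLin) = r := by
  have h1 := LinearMap.finrank_range_add_finrank_ker B.mulVecLin
  rw [Module.finrank_fintype_fun_eq_card, Fintype.card_fin] at h1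
  exact h1

/-- A minor which detects the rank. -/
theorem exists_minor {r : ℕ} (B : Mat r ℂ) :
    ∃ (X : Matrix (Fin B.rank) (Fin r) ℂ) (Y : Matrix (Fin r) (Fin B.rank) ℂ), X * B * Y = 1 := by
  obtain ⟨b⟩ : Nonempty (Module.Basis (Fin B.rank) ℂ (LinearMap.range B.mulVecLin)) :=
    ⟨Module.finBasisOfFinrankEq ℂ _ rfl⟩
  have h1 : ∀ k, ∃ y : Fin r → ℂ, B *ᵥ y = (b k : Fin r → ℂ) := fun k => (b k).2
  choose y hy using h1
  obtain ⟨Y, hY⟩ : ∃ Y : Matrix (Fin r) (Fin B.rank) ℂ, ∀ i k, Y i k = y k i :=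
    ⟨Matrix.of fun i k => y k i, fun _ _ => rfl⟩
  have h2 : ∀ v, (B * Y) *ᵥ v = ((∑ k, v k • b k : LinearMap.range B.mulVecLin) : Fin r → ℂ) := by
    intro v
    rw [← Matrix.mulVec_mulVec]
    have h3 : Y *ᵥ v = ∑ k, v k • y k := by
      ext i
      rw [Matrix.mulVec, dotProduct, Finset.sum_apply]
      refine Finset.sum_congr rfl fun k _ => ?_
      rw [Pi.smul_apply, hY, smul_eq_mul, mul_comm]
    rw [h3, Matrix.mulVec_sum, Submodule.coe_sum]
    refine Finset.sum_congr rfl fun k _ => ?_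
    rw [Matrix.mulVec_smul, hy, Submodule.coe_smul]
  obtain ⟨X, hX⟩ := exists_left_inv (B * Y) fun v hv => by
    rw [h2] at hv
    have h4 : ∑ k, v k • b k = 0 := Subtype.ext hv
    have h5 := Fintype.linearIndependent_iff.1 b.linearIndependent v h4
    exact funext h5
  exact ⟨X, Y, by rw [Matrix.mul_assoc, hX]⟩

theorem rank_of_minor {r n : ℕ} (B : Mat r ℂ) (X : Matrix (Fin n) (Fin r) ℂ)
    (Y : Matrix (Fin r) (Fin n) ℂ) (h : (X * B * Y).det ≠ 0) : n ≤ B.rank := by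
  have h1 : (X * B * Y).rank = n := by
    have h2 : IsUnit (X * B * Y) := by
      rw [Matrix.isUnit_iff_isUnit_det]
      exact isUnit_iff_ne_zero.2 h
    rw [Matrix.rank_of_isUnit _ h2, Fintype.card_fin]
  rw [← h1]
  exact (Matrix.rank_mul_le_left _ _).trans (Matrix.rank_mul_le_right _ _)

/-- The kernels are large. -/
theorem card_le_ker {r : ℕ} {κ : Fin r → ℕ} {ξ : ℕ → ℂ} {c u M : Mat r ℂ} (hu : UU u)
    (hM : Kup κ ξ M) (h : c * u = u * M) (j : ℕ) :
    (Finset.univ.filter fun i => κ i < j).card ≤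
      Module.finrank ℂ (LinearMap.ker (Qp c ξ j).mulVecLin) := by
  classical
  have hlin : LinearIndependent ℂ (fun i : Fin r => (fun a => u a i : Fin r → ℂ)) := by
    have h1 : IsUnit u := by
      rw [Matrix.isUnit_iff_isUnit_det, hu.det]
      exact isUnit_one
    exact Matrix.linearIndependent_cols_of_isUnit h1
  have hlin' : LinearIndependent ℂ (fun i : {i // κ i < j} => (fun a => u a i : Fin r → ℂ)) :=
    hlin.comp (fun i : {i // κ i < j} => (i : Fin r)) Subtype.val_injective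
  rw [← Fintype.card_subtype, ← finrank_span_eq_card hlin']
  refine Submodule.finrank_mono ?_
  rw [Submodule.span_le]
  rintro w ⟨⟨i, hi⟩, rfl⟩
  change (Qp c ξ j) *ᵥ (fun a => u a i) = 0
  ext a
  have h2 : (Qp c ξ j *ᵥ fun a => u a i) a = (Qp c ξ j * u) a i := rfl
  rw [h2, Qp_conj ξ h, Matrix.mul_apply]
  exact Finset.sum_eq_zero fun b _ => by rw [Qp_col hM j b i hi, mul_zero]

theorem Qp_eq_zero {r : ℕ} {κ : Fin r → ℕ} {ξ : ℕ → ℂ} {c u M : Mat r ℂ} (hu : UU u)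
    (hM : Kup κ ξ M) (h : c * u = u * M) (j : ℕ) (hj : ∀ i, κ i < j) : Qp c ξ j = 0 := by
  have h1 : Qp M ξ j = 0 := by
    ext a i
    exact Qp_col hM j a i (hj i)
  have h2 := Qp_conj ξ h j
  rw [h1, Matrix.mul_zero] at h2
  have h3 : IsUnit u := by
    rw [Matrix.isUnit_iff_isUnit_det, hu.det]
    exact isUnit_one
  obtain ⟨v, rfl⟩ := h3
  have h4 := congrArg (fun N => N * ((v⁻¹ : (Mat r ℂ)ˣ) : Mat r ℂ)) h2
  simpa only [Matrix.mul_assoc, Units.mul_inv, Matrix.mul_one, Matrix.zero_mul] using h4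

/-- The eigenvalues are a list of units. -/
theorem exists_eig {R : Type} [CommRing R] (φ : R →+* ℂ) {r : ℕ} (c : Mat r ℂ)
    (hc : EigU φ c) : ∃ l : ℕ → Rˣ, Qp c (fun j => φ (l j)) r = 0 := by
  obtain ⟨L, hL⟩ : ∃ L : List ℂ, (L : Multiset ℂ) = c.charpoly.roots :=
    ⟨c.charpoly.roots.toList, Multiset.coe_toList _⟩
  have hlen : L.length = r := by
    have h1 : Multiset.card c.charpoly.roots = r := by
      rw [IsAlgClosed.card_roots_eq_natDegree, Matrix.charpoly_natDegree_eq_dim, Fintype.card_fin]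
    rw [← hL, Multiset.coe_card] at h1
    exact h1
  have hroot : ∀ z ∈ L, ∃ e : Rˣ, φ (e : R) = z := by
    intro z hz
    refine hc z ?_
    have h1 : z ∈ c.charpoly.roots := by
      rw [← hL]
      exact hz
    exact Polynomial.isRoot_of_mem_roots h1
  have h2 : ∀ j : ℕ, ∃ e : Rˣ, ∀ h : j < L.length, φ (e : R) = L[j] := by
    intro j
    by_cases h : j < L.length
    · obtain ⟨e, he⟩ := hroot _ (List.getElem_mem h)
      exact ⟨e, fun _ => he⟩
    · exact ⟨1, fun h' => absurd h' h⟩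
  choose l hl using h2
  refine ⟨l, ?_⟩
  have h3 : (List.range r).map (fun i => c - φ (l i) • (1 : Mat r ℂ)) =
      L.map fun a => c - a • (1 : Mat r ℂ) := by
    refine List.ext_getElem (by rw [List.length_map, List.length_range, List.length_map, hlen])
      fun i h4 h5 => ?_
    rw [List.getElem_map, List.getElem_map, List.getElem_range, hl i (by
      rw [List.length_map] at h5
      exact h5)]
  have h4 : c.charpoly = (L.map fun a => Polynomial.X - Polynomial.C a).prod := by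
    have h5 := (IsAlgClosed.splits c.charpoly).eq_prod_roots_of_monic (Matrix.charpoly_monic c)
    rw [h5, ← hL, Multiset.map_coe, Multiset.prod_coe]
  have h5 : Polynomial.aeval c c.charpoly = 0 := Matrix.aeval_self_charpoly c
  rw [h4, map_list_prod, List.map_map] at h5
  unfold Qp
  rw [h3, ← h5]
  congr 1
  refine List.map_congr_left fun a _ => ?_
  rw [Function.comp_apply, map_sub, Polynomial.aeval_X, Polynomial.aeval_C,
    Algebra.algebraMap_eq_smul_one]

theorem charpoly_of_isConj' {r : ℕ} (a b : (Mat r ℂ)ˣ) (h : IsConj a b) :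
    (a : Mat r ℂ).charpoly = (b : Mat r ℂ).charpoly :=
  ((cjM_of_isConj h).charpoly).symm

/-- T5. -/
theorem exists_type {R : Type} [CommRing R] (φ : R →+* ℂ) {r : ℕ} (C c : (Mat r ℂ)ˣ)
    (hC : EigU φ (C : Mat r ℂ)) (hc : IsConj C c) :
    ∃ (κ : Fin r → ℕ) (l : ℕ → Rˣ) (u M : Mat r ℂ) (h : MvPolynomial (Fin r × Fin r) ℂ),
      UU u ∧ Kup κ (fun j => φ (l j)) M ∧ (c : Mat r ℂ) * u = u * M ∧
      MvPolynomial.eval (fun p => (c : Mat r ℂ) p.1 p.2) h ≠ 0 ∧
      ∀ (c' : (Mat r ℂ)ˣ) (u' M' : Mat r ℂ), UU u' → Kup κ (fun j => φ (l j)) M' →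
        (c' : Mat r ℂ) * u' = u' * M' →
        MvPolynomial.eval (fun p => (c' : Mat r ℂ) p.1 p.2) h ≠ 0 → IsConj C c' := by
  have hcE : EigU φ (c : Mat r ℂ) := by
    intro z hz
    refine hC z ?_
    rw [charpoly_of_isConj' C c hc]
    exact hz
  obtain ⟨l, hl⟩ := exists_eig φ (c : Mat r ℂ) hcE
  obtain ⟨ξ, hξ⟩ : ∃ ξ : ℕ → ℂ, ξ = fun j => φ (l j) := ⟨_, rfl⟩
  rw [← hξ] at hl
  obtain ⟨E, hE⟩ : ∃ E : ℕ → Submodule ℂ (Fin r → ℂ), ∀ j, E j =
    LinearMap.ker (Qp (c : Mat r ℂ) ξ j).mulVecLin := ⟨_, fun _ => rfl⟩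
  have hEm : ∀ j v, v ∈ E j ↔ Qp (c : Mat r ℂ) ξ j *ᵥ v = 0 := fun j v => by
    rw [hE]
    rfl
  obtain ⟨κ, u, M, hu, hM, hcu, hκ, hfin⟩ := exists_position (c : Mat r ℂ) r ξ E
    (by
      rw [hE, Qp_zero, Matrix.mulVecLin_one]
      exact LinearMap.ker_id)
    (by
      rw [hE, hl, Matrix.mulVecLin_zero]
      exact LinearMap.ker_zero)
    (by
      refine monotone_nat_of_le_succ fun j v hv => ?_
      rw [hEm] at hv ⊢
      rw [Qp_succ, (Qp_comm _ _ _ _).eq, ← Matrix.mulVec_mulVec, hv, Matrix.mulVec_zero])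
    (by
      intro j v hv
      rw [hEm] at hv ⊢
      have h1 : (c : Mat r ℂ) *ᵥ v - ξ j • v = ((c : Mat r ℂ) - ξ j • (1 : Mat r ℂ)) *ᵥ v := by
        rw [Matrix.sub_mulVec, Matrix.smul_mulVec, Matrix.one_mulVec]
      rw [h1, Matrix.mulVec_mulVec, ← Qp_succ, hv])
  have hminor := fun j => exists_minor (Qp (c : Mat r ℂ) ξ j)
  choose X Y hXY using hminor
  obtain ⟨P, hP⟩ : ∃ P : ℕ → MvPolynomial (Fin r × Fin r) ℂ, ∀ (j : ℕ) (d : Mat r ℂ),
      MvPolynomial.eval (fun p => d p.1 p.2) (P j) = (X j * Qp d ξ j * Y j).det := by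
    refine ⟨fun j => ((X j).map (MvPolynomial.C : ℂ → MvPolynomial (Fin r × Fin r) ℂ) *
      Qp (Matrix.of fun a b => (MvPolynomial.X (a, b) : MvPolynomial (Fin r × Fin r) ℂ))
      (fun i => MvPolynomial.C (ξ i)) j *
      (Y j).map (MvPolynomial.C : ℂ → MvPolynomial (Fin r × Fin r) ℂ)).det, fun j d => ?_⟩
    rw [RingHom.map_det]
    congr 1
    change (_ * _ * _ : Matrix _ _ _).map _ = _
    rw [Matrix.map_mul, Matrix.map_mul, Qp_map]
    have h1 : ∀ {a b : ℕ} (N : Matrix (Fin a) (Fin b) ℂ),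
        (N.map (MvPolynomial.C : ℂ → MvPolynomial (Fin r × Fin r) ℂ)).map
          (MvPolynomial.eval fun p => d p.1 p.2) = N := by
      intro a b N
      ext i k
      exact MvPolynomial.eval_C _
    rw [h1, h1]
    congr 2
    have h2 : (Matrix.of fun a b => (MvPolynomial.X (a, b) : MvPolynomial (Fin r × Fin r) ℂ)).map
        (MvPolynomial.eval fun p => d p.1 p.2) = d := by
      ext i k
      exact MvPolynomial.eval_X _
    rw [h2]
    congr 1
    funext i
    exact MvPolynomial.eval_C _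
  refine ⟨κ, l, u, M, ∏ j ∈ Finset.range (r + 1), P j, hu, hξ ▸ hM, hcu, ?_, ?_⟩
  · rw [map_prod, Finset.prod_ne_zero_iff]
    intro j _
    rw [hP, hXY, Matrix.det_one]
    exact one_ne_zero
  · intro c' u' M' hu' hM' hcu' hne
    rw [map_prod, Finset.prod_ne_zero_iff] at hne
    rw [← hξ] at hM'
    refine hc.trans ?_
    have hrank : ∀ j ≤ r, (Qp (c : Mat r ℂ) ξ j).rank = (Qp (c' : Mat r ℂ) ξ j).rank := by
      intro j hj
      have h1 := hne j (Finset.mem_range.2 (by omega))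
      rw [hP] at h1
      have h2 := rank_of_minor _ _ _ h1
      have h3 := card_le_ker hu' hM' hcu' j
      rw [← hfin j hj, hE] at h3
      have h4 := rank_add_ker (Qp (c : Mat r ℂ) ξ j)
      have h5 := rank_add_ker (Qp (c' : Mat r ℂ) ξ j)
      omega
    refine conj_of_rank c c' ξ r hl (Qp_eq_zero hu' hM' hcu' r hκ) hrank

end Vale.Agent.P002L
end

section

/-!
# P002, genus 0, dual chart: the dual equations of a functional on the tangent space
-/

namespace Vale.Agent.P002R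

open Matrix Module Vale.Agent.P002

section pre

variable {n N : ℕ}

/-- prefix products -/
def pre (c : Fin N → P002R.Mat n ℂ) (s : ℕ) : P002R.Mat n ℂ := (((List.finRange N).take s).map c).prod

/-- suffix products -/
def suf (c : Fin N → P002R.Mat n ℂ) (s : ℕ) : P002R.Mat n ℂ := (((List.finRange N).drop s).map c).prod

theorem pre_zero (c : Fin N → P002R.Mat n ℂ) : pre c 0 = 1 := by simp [pre]

theorem suf_top (c : Fin N → P002R.Mat n ℂ) : suf c N = 1 := by
  rw [suf, List.drop_eq_nil_of_le (by simp), List.map_nil, List.prod_nil]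

theorem take_succ_finRange {s : ℕ} (hs : s < N) :
    (List.finRange N).take (s + 1) = (List.finRange N).take s ++ [⟨s, hs⟩] := by
  rw [List.take_succ_eq_append_getElem (by simpa using hs)]
  simp

theorem drop_finRange {s : ℕ} (hs : s < N) :
    (List.finRange N).drop s = ⟨s, hs⟩ :: (List.finRange N).drop (s + 1) := by
  rw [List.drop_eq_getElem_cons (by simpa using hs)]
  simp

theorem pre_succ (c : Fin N → P002R.Mat n ℂ) {s : ℕ} (hs : s < N) :
    pre c (s + 1) = pre c s * c ⟨s, hs⟩ := by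
  rw [pre, take_succ_finRange hs, List.map_append, List.prod_append, List.map_singleton,
    List.prod_singleton, pre]

theorem suf_succ (c : Fin N → P002R.Mat n ℂ) {s : ℕ} (hs : s < N) :
    suf c s = c ⟨s, hs⟩ * suf c (s + 1) := by
  rw [suf, drop_finRange hs, List.map_cons, List.prod_cons, suf]

theorem pre_mul_suf {c : Fin N → P002R.Mat n ℂ} (hrel : ((List.finRange N).map c).prod = 1) (s : ℕ) :
    pre c s * suf c s = 1 := by
  rw [pre, suf, ← List.prod_append, ← List.map_append, List.take_append_drop, hrel]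

theorem suf_mul_pre {c : Fin N → P002R.Mat n ℂ} (hrel : ((List.finRange N).map c).prod = 1) (s : ℕ) :
    suf c s * pre c s = 1 := mul_eq_one_comm.1 (pre_mul_suf hrel s)

theorem pre_top {c : Fin N → P002R.Mat n ℂ} (hrel : ((List.finRange N).map c).prod = 1) :
    pre c N = 1 := by
  have := pre_mul_suf hrel N
  rwa [suf_top, Matrix.mul_one] at this

/-- derivative of a prefix product in the direction of one conjugation -/
theorem DL_take {c : Fin N → P002R.Mat n ℂ} (hrel : ((List.finRange N).map c).prod = 1) (i : Fin N)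
    (H : P002R.Mat n ℂ) (s : ℕ) (hs : s ≤ N) :
    DL c (Function.update 0 i H) ((List.finRange N).take s) =
      if i.val < s then pre c i * (H * c i - c i * H) * suf c (i + 1) * pre c s else 0 := by
  induction s with
  | zero => simp [DL_nil]
  | succ s ih =>
    rw [take_succ_finRange (by omega), DL_append, ih (by omega), DL_cons, DL_nil, Matrix.mul_zero,
      add_zero, List.map_nil, List.prod_nil, Matrix.mul_one, List.map_singleton,
      List.prod_singleton, ← pre, pre_succ c (by omega : s < N)]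
    rcases lt_trichotomy i.val s with h | h | h
    · have hne : (⟨s, by omega⟩ : Fin N) ≠ i := by
        intro h'
        rw [← h'] at h
        exact lt_irrefl _ h
      rw [if_pos h, if_pos (by omega), Function.update_of_ne hne]
      simp only [Pi.zero_apply, Matrix.zero_mul, Matrix.mul_zero, sub_zero, add_zero,
        Matrix.mul_assoc]
    · have he : (⟨s, by omega⟩ : Fin N) = i := Fin.ext h.symm
      subst h
      rw [if_neg (lt_irrefl _), if_pos (by omega), he, Function.update_self, Matrix.zero_mul,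
        zero_add]
      have h1 : suf c (i + 1) * (pre c i * c i) = 1 := by
        have := suf_mul_pre hrel (i + 1)
        rwa [pre_succ c i.isLt] at this
      rw [Matrix.mul_assoc (pre c i * (H * c i - c i * H)), h1, Matrix.mul_one]
    · have hne : (⟨s, by omega⟩ : Fin N) ≠ i := by
        intro h'
        rw [← h'] at h
        exact lt_irrefl _ h
      rw [if_neg (by omega), if_neg (by omega), Function.update_of_ne hne]
      simp

variable {c : Fin N → P002R.Mat n ℂ}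

/-- The dual sequence. -/
def dG (Λ : P002R.Mat n ℂ) (a y η : Fin n → ℂ) (ξ : Fin N → Fin n → ℂ) (α β : Fin N → ℂ) (s : ℕ) :
    P002R.Mat n ℂ :=
  Λ - vecMulVec a y -
    ∑ l ∈ Finset.univ.filter (fun l : Fin N => l.val < s), vecMulVec (ξ l) (α l • y + β l • η)

theorem dG_succ (Λ : P002R.Mat n ℂ) (a y η : Fin n → ℂ) (ξ : Fin N → Fin n → ℂ) (α β : Fin N → ℂ)
    (i : Fin N) : dG Λ a y η ξ α β (i + 1) =
      dG Λ a y η ξ α β i - vecMulVec (ξ i) (α i • y + β i • η) := by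
  have h : Finset.univ.filter (fun l : Fin N => l.val < i.val + 1) =
      insert i (Finset.univ.filter (fun l : Fin N => l.val < i.val)) := by
    ext l
    simp only [Finset.mem_filter, Finset.mem_univ, true_and, Finset.mem_insert]
    constructor
    · intro h
      rcases Nat.lt_succ_iff_lt_or_eq.1 h with h | h
      · exact Or.inr h
      · exact Or.inl (Fin.ext h)
    · rintro (rfl | h)
      · exact Nat.lt_succ_self _
      · exact Nat.lt_succ_of_lt h
  rw [dG, dG, h, Finset.sum_insert (by simp)]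
  abel

/-- The dual equations. -/
theorem dual_eqs (hrel : ((List.finRange N).map c).prod = 1) (ξ : Fin N → Fin n → ℂ)
    (α β : Fin N → ℂ) (y : Fin n → ℂ) (j : ℕ) (hj : j ≤ N) (hα : ∀ i, α i ≠ 0 → i.val < j)
    (hβ : ∀ i, β i ≠ 0 → i.val < j)
    (hΦ : ∀ x : Fin N → P002R.Mat n ℂ, DL c x (List.finRange N) = 0 →
      ∑ i, α i * (y ⬝ᵥ (x i *ᵥ ξ i)) +
        y ⬝ᵥ (DL c x ((List.finRange N).take j) *ᵥ ∑ i, β i • ξ i) +
        ∑ i, β i * (y ⬝ᵥ (pre c j *ᵥ (x i *ᵥ ξ i))) = 0) :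
    ∃ Λ : P002R.Mat n ℂ, Λ * pre c j = pre c j * Λ ∧
      (∀ i : Fin N, j ≤ i.val → Λ * c i = c i * Λ) ∧
      (∀ i : Fin N, i.val < j →
        c i * dG Λ (pre c j *ᵥ ∑ i, β i • ξ i) y (y ᵥ* pre c j) ξ α β (i + 1) =
        dG Λ (pre c j *ᵥ ∑ i, β i • ξ i) y (y ᵥ* pre c j) ξ α β i * c i) ∧
      dG Λ (pre c j *ᵥ ∑ i, β i • ξ i) y (y ᵥ* pre c j) ξ α β j =
        Λ - vecMulVec (∑ i, β i • ξ i) (y ᵥ* pre c j) := by
  obtain ⟨b, hb⟩ : ∃ b, b = ∑ i, β i • ξ i := ⟨_, rfl⟩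
  obtain ⟨P, hP⟩ : ∃ P, P = pre c j := ⟨_, rfl⟩
  rw [← hb, ← hP]
  simp only [← hb, ← hP] at hΦ
  -- the functional
  obtain ⟨F, hF⟩ : ∃ F : (Fin N → P002R.Mat n ℂ) →ₗ[ℂ] ℂ, ∀ x, F x =
      ∑ i, α i * (y ⬝ᵥ (x i *ᵥ ξ i)) +
        y ⬝ᵥ (DL c x ((List.finRange N).take j) *ᵥ b) +
        ∑ i, β i * (y ⬝ᵥ (P *ᵥ (x i *ᵥ ξ i))) := by
    refine ⟨{ toFun := fun x => ∑ i, α i * (y ⬝ᵥ (x i *ᵥ ξ i)) +
        y ⬝ᵥ (DL c x ((List.finRange N).take j) *ᵥ b) +
        ∑ i, β i * (y ⬝ᵥ (P *ᵥ (x i *ᵥ ξ i)))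
              map_add' := ?_
              map_smul' := ?_ }, fun x => rfl⟩
    · intro x x'
      simp only [DL_add, Pi.add_apply, Matrix.add_mulVec, dotProduct_add, Matrix.mulVec_add,
        mul_add, Finset.sum_add_distrib]
      ring
    · intro a x
      simp only [DL_smul, Pi.smul_apply, Matrix.smul_mulVec, dotProduct_smul, Matrix.mulVec_smul,
        smul_eq_mul, RingHom.id_apply, mul_add, Finset.mul_sum]
      congr 1
      · congr 1
        exact Finset.sum_congr rfl fun i _ => by ring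
      · exact Finset.sum_congr rfl fun i _ => by ring
  obtain ⟨Λ, hΛ⟩ := exists_factor (DLlin c (List.finRange N)) F fun x hx => by
    rw [hF]; exact hΦ x hx
  have hΛ' : ∀ x, F x = trace (Λ * DL c x (List.finRange N)) := hΛ
  have hps := pre_mul_suf hrel
  have hsp := suf_mul_pre hrel
  have hfull : ∀ (i : Fin N) (H : P002R.Mat n ℂ), DL c (Function.update 0 i H) (List.finRange N) =
      pre c i * (H * c i - c i * H) * suf c (i + 1) := by
    intro i H
    have h1 := DL_take hrel i H N le_rfl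
    rwa [if_pos i.isLt, pre_top hrel, Matrix.mul_one,
      List.take_of_length_le (by simp)] at h1
  have hsum1 : ∀ (i : Fin N) (H : P002R.Mat n ℂ),
      ∑ l, α l * (y ⬝ᵥ ((Function.update (0 : Fin N → P002R.Mat n ℂ) i H) l *ᵥ ξ l)) =
        α i * (y ⬝ᵥ (H *ᵥ ξ i)) := by
    intro i H
    rw [Finset.sum_eq_single i]
    · rw [Function.update_self]
    · intro l _ hl
      rw [Function.update_of_ne hl, Pi.zero_apply, Matrix.zero_mulVec, dotProduct_zero, mul_zero]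
    · intro h; exact absurd (Finset.mem_univ _) h
  have hsum2 : ∀ (i : Fin N) (H : P002R.Mat n ℂ),
      ∑ l, β l * (y ⬝ᵥ (P *ᵥ ((Function.update (0 : Fin N → P002R.Mat n ℂ) i H) l *ᵥ ξ l))) =
        β i * (y ⬝ᵥ (P *ᵥ (H *ᵥ ξ i))) := by
    intro i H
    rw [Finset.sum_eq_single i]
    · rw [Function.update_self]
    · intro l _ hl
      rw [Function.update_of_ne hl, Pi.zero_apply, Matrix.zero_mulVec, Matrix.mulVec_zero,
        dotProduct_zero, mul_zero]
    · intro h; exact absurd (Finset.mem_univ _) h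
  -- the equations at `i < j`
  have hlt : ∀ i : Fin N, i.val < j →
      suf c i * (Λ - vecMulVec (P *ᵥ b) y) * pre c i -
        suf c (i + 1) * (Λ - vecMulVec (P *ᵥ b) y) * pre c (i + 1) =
      vecMulVec (ξ i) (α i • y + β i • (y ᵥ* P)) := by
    intro i hi
    have h1 : ∀ H, trace ((c i * (suf c (i + 1) * (Λ - vecMulVec (P *ᵥ b) y) * pre c i) -
        (suf c (i + 1) * (Λ - vecMulVec (P *ᵥ b) y) * pre c i) * c i) * H) =
        trace (vecMulVec (ξ i) (α i • y + β i • (y ᵥ* P)) * H) := by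
      intro H
      rw [← tr_comm, Matrix.sub_mul, trace_sub, ← hfull, ← hΛ', hF, hsum1, hsum2,
        DL_take hrel i H j hj, if_pos hi, ← hP, hfull, trace_vecMulVec_mul, trace_vecMulVec_mul,
        add_dotProduct, smul_dotProduct, smul_dotProduct, ← Matrix.dotProduct_mulVec,
        ← Matrix.mulVec_mulVec]
      simp only [smul_eq_mul]
      ring
    have h2 := eq_of_trace_eq h1
    rw [← h2, suf_succ c i.isLt, pre_succ c i.isLt]
    simp only [Matrix.mul_assoc]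
  have hge : ∀ i : Fin N, j ≤ i.val →
      suf c i * Λ * pre c i = suf c (i + 1) * Λ * pre c (i + 1) := by
    intro i hi
    have hαi : α i = 0 := by
      by_contra h
      exact absurd (hα i h) (by omega)
    have hβi : β i = 0 := by
      by_contra h
      exact absurd (hβ i h) (by omega)
    have h1 : ∀ H, trace ((c i * (suf c (i + 1) * Λ * pre c i) -
        (suf c (i + 1) * Λ * pre c i) * c i) * H) = trace ((0 : P002R.Mat n ℂ) * H) := by
      intro H
      rw [← tr_comm, ← hfull, ← hΛ', hF, hsum1, hsum2, DL_take hrel i H j hj,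
        if_neg (by omega), hαi, hβi, Matrix.zero_mulVec, dotProduct_zero, zero_mul, zero_mul,
        Matrix.zero_mul, trace_zero]
      ring
    have h2 := sub_eq_zero.1 (eq_of_trace_eq h1)
    rw [suf_succ c i.isLt, pre_succ c i.isLt]
    calc c i * suf c (i + 1) * Λ * pre c i = c i * (suf c (i + 1) * Λ * pre c i) := by
          simp only [Matrix.mul_assoc]
      _ = _ := by rw [h2]; simp only [Matrix.mul_assoc]
  -- `Λ` commutes with the prefix products after `j`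
  have hcomm : ∀ s, j ≤ s → s ≤ N → suf c s * Λ * pre c s = Λ := by
    intro s hjs hsN
    induction hsN using Nat.decreasingInduction with
    | of_succ k hk ih =>
      rw [hge ⟨k, hk⟩ hjs]
      exact ih (by omega)
    | self => rw [suf_top, pre_top hrel, Matrix.one_mul, Matrix.mul_one]
  have hcomm' : ∀ s, j ≤ s → s ≤ N → Λ * pre c s = pre c s * Λ := by
    intro s hjs hsN
    calc Λ * pre c s = pre c s * suf c s * Λ * pre c s := by rw [hps, Matrix.one_mul]
      _ = pre c s * (suf c s * Λ * pre c s) := by simp only [Matrix.mul_assoc]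
      _ = _ := by rw [hcomm s hjs hsN]
  have hG : ∀ s, s ≤ j → pre c s * dG Λ (P *ᵥ b) y (y ᵥ* P) ξ α β s =
      (Λ - vecMulVec (P *ᵥ b) y) * pre c s := by
    intro s
    induction s with
    | zero =>
      intro _
      rw [pre_zero, dG]
      simp
    | succ s ih =>
      intro hs
      have hsN : s < N := by omega
      have h1 := hlt ⟨s, hsN⟩ hs
      have h2 := dG_succ Λ (P *ᵥ b) y (y ᵥ* P) ξ α β ⟨s, hsN⟩
      simp only at h1 h2
      have h3 : suf c s * (Λ - vecMulVec (P *ᵥ b) y) * pre c s =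
          dG Λ (P *ᵥ b) y (y ᵥ* P) ξ α β s := by
        rw [Matrix.mul_assoc, ← ih (by omega), ← Matrix.mul_assoc, hsp, Matrix.one_mul]
      rw [h3] at h1
      have h4 : suf c (s + 1) * (Λ - vecMulVec (P *ᵥ b) y) * pre c (s + 1) =
          dG Λ (P *ᵥ b) y (y ᵥ* P) ξ α β (s + 1) := by
        rw [h2, ← h1]; abel
      rw [← h4, Matrix.mul_assoc, ← Matrix.mul_assoc (pre c (s + 1)), hps, Matrix.one_mul]
  refine ⟨Λ, hP ▸ hcomm' j le_rfl hj, fun i hi => ?_, fun i hi => ?_, ?_⟩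
  · have h1 := hcomm' (i + 1) (by omega) i.isLt
    have h2 := hcomm' i hi i.isLt.le
    rw [pre_succ c i.isLt] at h1
    calc Λ * c i = suf c i * (pre c i * Λ) * c i := by
          rw [← Matrix.mul_assoc, hsp, Matrix.one_mul]
      _ = suf c i * (Λ * (pre c i * c i)) := by rw [← h2]; simp only [Matrix.mul_assoc]
      _ = (suf c i * pre c i) * (c i * Λ) := by rw [h1]; simp only [Matrix.mul_assoc]
      _ = _ := by rw [hsp, Matrix.one_mul]
  · have h1 := hG (i + 1) hi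
    have h2 := hG i hi.le
    rw [pre_succ c i.isLt] at h1
    calc c i * dG Λ (P *ᵥ b) y (y ᵥ* P) ξ α β (i + 1)
        = (suf c i * pre c i) * (c i * dG Λ (P *ᵥ b) y (y ᵥ* P) ξ α β (i + 1)) := by
          rw [hsp, Matrix.one_mul]
      _ = suf c i * (pre c i * c i * dG Λ (P *ᵥ b) y (y ᵥ* P) ξ α β (i + 1)) := by
          simp only [Matrix.mul_assoc]
      _ = suf c i * ((Λ - vecMulVec (P *ᵥ b) y) * pre c i) * c i := by
          rw [h1]; simp only [Matrix.mul_assoc]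
      _ = (suf c i * pre c i) * dG Λ (P *ᵥ b) y (y ᵥ* P) ξ α β i * c i := by
          rw [← h2]; simp only [Matrix.mul_assoc]
      _ = _ := by rw [hsp, Matrix.one_mul]
  · have h1 := hG j le_rfl
    rw [← hP] at h1
    have hΛP : Λ * P = P * Λ := by rw [hP]; exact hcomm' j le_rfl hj
    have h2 : (Λ - vecMulVec (P *ᵥ b) y) * P = P * (Λ - vecMulVec b (y ᵥ* P)) := by
      rw [Matrix.sub_mul, Matrix.mul_sub, hΛP, Matrix.vecMulVec_mul,
        Matrix.mul_vecMulVec]
    rw [h2] at h1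
    have h3 : suf c j * P = 1 := hP ▸ hsp j
    calc dG Λ (P *ᵥ b) y (y ᵥ* P) ξ α β j = suf c j * (P * dG Λ (P *ᵥ b) y (y ᵥ* P) ξ α β j) := by
          rw [← Matrix.mul_assoc, h3, Matrix.one_mul]
      _ = _ := by rw [h1, ← Matrix.mul_assoc, h3, Matrix.one_mul]

end pre

end Vale.Agent.P002R
end
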