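import Mathlib
import Vale.Agent.P002.Bd3.B4
import Vale.Agent.P002.Bd3.B1
import Vale.Agent.P002.Bd3.B9
import Vale.Agent.P002.Bd3.B8
import Vale.Agent.P002.Bd3.B2

set_option linter.all false

@[reducible] def Vale.Agent.P002Fast.coeU11 {M : Type*} [Monoid M] (u : Mˣ) : CoeT Mˣ u M := ⟨Units.val u⟩
attribute [local instance] Vale.Agent.P002Fast.coeU11

section

/-! TASK G6b: products of groups. -/

namespace Vale.Agent.P002R

open Matrix

section Kron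

variable {r r₁ r₂ : ℕ} {S T : Type*} [CommRing S] [CommRing T]

/-- Tensor product of matrices. -/
noncomputable def kr (e : Fin r₁ × Fin r₂ ≃ Fin r) (A : Mat r₁ S) (B : Mat r₂ S) : Mat r S :=
  Matrix.reindex e e (Matrix.kroneckerMap (· * ·) A B)

theorem kr_apply (e : Fin r₁ × Fin r₂ ≃ Fin r) (A : Mat r₁ S) (B : Mat r₂ S)
    (p q : Fin r₁ × Fin r₂) : kr e A B (e p) (e q) = A p.1 q.1 * B p.2 q.2 := by
  simp only [kr, reindex_apply, submatrix_apply, Equiv.symm_apply_apply, kroneckerMap_apply]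

theorem kr_mul (e : Fin r₁ × Fin r₂ ≃ Fin r) (A A' : Mat r₁ S) (B B' : Mat r₂ S) :
    kr e A B * kr e A' B' = kr e (A * A') (B * B') := by
  unfold kr
  rw [Matrix.mul_kronecker_mul, Matrix.reindex_apply, Matrix.reindex_apply, Matrix.reindex_apply,
    Matrix.submatrix_mul_equiv]

theorem kr_one (e : Fin r₁ × Fin r₂ ≃ Fin r) : kr e (1 : Mat r₁ S) (1 : Mat r₂ S) = 1 := by
  unfold kr
  rw [Matrix.one_kronecker_one, Matrix.reindex_apply, Matrix.submatrix_one_equiv]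

theorem kr_map (e : Fin r₁ × Fin r₂ ≃ Fin r) (A : Mat r₁ S) (B : Mat r₂ S) (θ : S →+* T) :
    (kr e A B).map θ = kr e (A.map θ) (B.map θ) := by
  ext i j
  obtain ⟨p, rfl⟩ := e.surjective i
  obtain ⟨q, rfl⟩ := e.surjective j
  rw [Matrix.map_apply, kr_apply, kr_apply, map_mul, Matrix.map_apply, Matrix.map_apply]

theorem det_kr (e : Fin r₁ × Fin r₂ ≃ Fin r) (A : Mat r₁ S) (B : Mat r₂ S) :
    (kr e A B).det = A.det ^ r₂ * B.det ^ r₁ := by
  unfold kr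
  rw [Matrix.det_reindex_self, Matrix.det_kronecker, Fintype.card_fin, Fintype.card_fin]

/-- The inclusion of the first factor. -/
noncomputable def krL (e : Fin r₁ × Fin r₂ ≃ Fin r) : Mat r₁ ℂ →ₐ[ℂ] Mat r ℂ where
  toFun A := kr e A 1
  map_one' := kr_one e
  map_mul' A A' := by rw [kr_mul, one_mul]
  map_zero' := by
    ext i j
    obtain ⟨p, rfl⟩ := e.surjective i
    obtain ⟨q, rfl⟩ := e.surjective j
    rw [kr_apply]
    simp
  map_add' A A' := by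
    ext i j
    obtain ⟨p, rfl⟩ := e.surjective i
    obtain ⟨q, rfl⟩ := e.surjective j
    rw [Matrix.add_apply, kr_apply, kr_apply, kr_apply, Matrix.add_apply, add_mul]
  commutes' c := by
    ext i j
    obtain ⟨p, rfl⟩ := e.surjective i
    obtain ⟨q, rfl⟩ := e.surjective j
    rw [kr_apply, Algebra.algebraMap_eq_smul_one, Algebra.algebraMap_eq_smul_one,
      Matrix.smul_apply, Matrix.smul_apply, smul_mul_assoc, ← kr_apply, kr_one]

/-- The inclusion of the second factor. -/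
noncomputable def krR (e : Fin r₁ × Fin r₂ ≃ Fin r) : Mat r₂ ℂ →ₐ[ℂ] Mat r ℂ where
  toFun B := kr e 1 B
  map_one' := kr_one e
  map_mul' A A' := by rw [kr_mul, one_mul]
  map_zero' := by
    ext i j
    obtain ⟨p, rfl⟩ := e.surjective i
    obtain ⟨q, rfl⟩ := e.surjective j
    rw [kr_apply]
    simp
  map_add' A A' := by
    ext i j
    obtain ⟨p, rfl⟩ := e.surjective i
    obtain ⟨q, rfl⟩ := e.surjective j
    rw [Matrix.add_apply, kr_apply, kr_apply, kr_apply, Matrix.add_apply, mul_add]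
  commutes' c := by
    ext i j
    obtain ⟨p, rfl⟩ := e.surjective i
    obtain ⟨q, rfl⟩ := e.surjective j
    rw [kr_apply, Algebra.algebraMap_eq_smul_one, Algebra.algebraMap_eq_smul_one,
      Matrix.smul_apply, Matrix.smul_apply, mul_smul_comm, ← kr_apply, kr_one]

theorem krL_apply (e : Fin r₁ × Fin r₂ ≃ Fin r) (A : Mat r₁ ℂ) : krL e A = kr e A 1 := rfl

theorem krR_apply (e : Fin r₁ × Fin r₂ ≃ Fin r) (B : Mat r₂ ℂ) : krR e B = kr e 1 B := rfl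

/-- The inclusion of the first factor on units. -/
noncomputable def krU₁ (e : Fin r₁ × Fin r₂ ≃ Fin r) : (Mat r₁ ℂ)ˣ →* (Mat r ℂ)ˣ :=
  Units.map (krL e : Mat r₁ ℂ →* Mat r ℂ)

/-- The inclusion of the second factor on units. -/
noncomputable def krU₂ (e : Fin r₁ × Fin r₂ ≃ Fin r) : (Mat r₂ ℂ)ˣ →* (Mat r ℂ)ˣ :=
  Units.map (krR e : Mat r₂ ℂ →* Mat r ℂ)

theorem krU₁_coe (e : Fin r₁ × Fin r₂ ≃ Fin r) (A : (Mat r₁ ℂ)ˣ) :
    (krU₁ e A : Mat r ℂ) = kr e (A : Mat r₁ ℂ) 1 := rfl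

theorem krU₂_coe (e : Fin r₁ × Fin r₂ ≃ Fin r) (B : (Mat r₂ ℂ)ˣ) :
    (krU₂ e B : Mat r ℂ) = kr e 1 (B : Mat r₂ ℂ) := rfl

theorem krU_comm (e : Fin r₁ × Fin r₂ ≃ Fin r) (A : (Mat r₁ ℂ)ˣ) (B : (Mat r₂ ℂ)ˣ) :
    Commute (krU₁ e A) (krU₂ e B) := by
  apply Units.ext
  rw [Units.val_mul, Units.val_mul, krU₁_coe, krU₂_coe, kr_mul, kr_mul, one_mul, mul_one, one_mul,
    mul_one]

theorem krU₁_inj (e : Fin r₁ × Fin r₂ ≃ Fin r) (h : 0 < r₂) (A : (Mat r₁ ℂ)ˣ)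
    (hA : krU₁ e A = 1) : A = 1 := by
  apply Units.ext
  have h1 := congrArg (fun u : (Mat r ℂ)ˣ => (u : Mat r ℂ)) hA
  simp only [krU₁_coe, Units.val_one] at h1
  ext i j
  have h2 := congrFun (congrFun h1 (e (i, ⟨0, h⟩))) (e (j, ⟨0, h⟩))
  rw [← kr_one e, kr_apply, kr_apply] at h2
  simpa only [Units.val_one, one_apply_eq, mul_one] using h2

theorem krU₂_inj (e : Fin r₁ × Fin r₂ ≃ Fin r) (h : 0 < r₁) (B : (Mat r₂ ℂ)ˣ)
    (hB : krU₂ e B = 1) : B = 1 := by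
  apply Units.ext
  have h1 := congrArg (fun u : (Mat r ℂ)ˣ => (u : Mat r ℂ)) hB
  simp only [krU₂_coe, Units.val_one] at h1
  ext i j
  have h2 := congrFun (congrFun h1 (e (⟨0, h⟩, i))) (e (⟨0, h⟩, j))
  rw [← kr_one e, kr_apply, kr_apply] at h2
  simpa only [Units.val_one, one_apply_eq, one_mul] using h2

theorem EigIn.kr₁ {E : Subgroup ℂˣ} {e : Fin r₁ × Fin r₂ ≃ Fin r} (h : 0 < r₂) {A : Mat r₁ ℂ}
    (hA : EigIn E (kr e A (1 : Mat r₂ ℂ))) : EigIn E A := by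
  intro z hz
  apply hA z
  rw [Polynomial.IsRoot.def, Matrix.eval_charpoly] at hz ⊢
  have h1 : Matrix.scalar (Fin r) z - kr e A (1 : Mat r₂ ℂ) =
      kr e (Matrix.scalar (Fin r₁) z - A) (1 : Mat r₂ ℂ) := by
    have h2 : ∀ (k : ℕ), Matrix.scalar (Fin k) z = algebraMap ℂ (Mat k ℂ) z := fun k => rfl
    rw [h2, h2, ← krL_apply, ← krL_apply, map_sub, AlgHom.commutes]
  rw [h1, det_kr, hz, zero_pow h.ne', zero_mul]

theorem EigIn.kr₂ {E : Subgroup ℂˣ} {e : Fin r₁ × Fin r₂ ≃ Fin r} (h : 0 < r₁) {B : Mat r₂ ℂ}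
    (hB : EigIn E (kr e (1 : Mat r₁ ℂ) B)) : EigIn E B := by
  intro z hz
  apply hB z
  rw [Polynomial.IsRoot.def, Matrix.eval_charpoly] at hz ⊢
  have h1 : Matrix.scalar (Fin r) z - kr e (1 : Mat r₁ ℂ) B =
      kr e (1 : Mat r₁ ℂ) (Matrix.scalar (Fin r₂) z - B) := by
    have h2 : ∀ (k : ℕ), Matrix.scalar (Fin k) z = algebraMap ℂ (Mat k ℂ) z := fun k => rfl
    rw [h2, h2, ← krR_apply, ← krR_apply, map_sub, AlgHom.commutes]
  rw [h1, det_kr, hz, zero_pow h.ne', mul_zero]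

theorem krU₁_mem_GR {R : Type*} [CommRing R] (φ : R →+* ℂ) (e : Fin r₁ × Fin r₂ ≃ Fin r)
    {A : (Mat r₁ ℂ)ˣ} (hA : A ∈ GR r₁ φ) : krU₁ e A ∈ GR r φ := by
  obtain ⟨c, z, rfl⟩ := hA
  obtain ⟨z', hz'⟩ : ∃ z' : SpecialLinearGroup (Fin r) R, (z' : Mat r R) = kr e (z : Mat r₁ R) 1 :=
    ⟨⟨kr e (z : Mat r₁ R) 1, by rw [det_kr, z.det_coe, Matrix.det_one, one_pow, one_pow, one_mul]⟩,
      rfl⟩
  refine ⟨c, z', ?_⟩
  apply Units.ext
  rw [krU₁_coe, scalarU_mul_coe, scalarU_mul_coe, slU_coe, slU_coe, hz', kr_map, ← krL_apply,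
    map_smul, krL_apply]
  congr 2
  ext i j
  by_cases h : i = j
  · subst h; simp
  · simp [Matrix.one_apply_ne h]

theorem krU₂_mem_GR {R : Type*} [CommRing R] (φ : R →+* ℂ) (e : Fin r₁ × Fin r₂ ≃ Fin r)
    {B : (Mat r₂ ℂ)ˣ} (hB : B ∈ GR r₂ φ) : krU₂ e B ∈ GR r φ := by
  obtain ⟨c, z, rfl⟩ := hB
  obtain ⟨z', hz'⟩ : ∃ z' : SpecialLinearGroup (Fin r) R, (z' : Mat r R) = kr e 1 (z : Mat r₂ R) :=
    ⟨⟨kr e 1 (z : Mat r₂ R), by rw [det_kr, z.det_coe, Matrix.det_one, one_pow, one_pow, one_mul]⟩,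
      rfl⟩
  refine ⟨c, z', ?_⟩
  apply Units.ext
  rw [krU₂_coe, scalarU_mul_coe, scalarU_mul_coe, slU_coe, slU_coe, hz', kr_map, ← krR_apply,
    map_smul, krR_apply]
  congr 2
  ext i j
  by_cases h : i = j
  · subst h; simp
  · simp [Matrix.one_apply_ne h]

theorem kr_top (e : Fin r₁ × Fin r₂ ≃ Fin r) (A : Subalgebra ℂ (Mat r ℂ))
    (h₁ : ∀ M : Mat r₁ ℂ, kr e M 1 ∈ A) (h₂ : ∀ M : Mat r₂ ℂ, kr e 1 M ∈ A) : A = ⊤ := by
  rw [eq_top_iff]
  intro X _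
  rw [Matrix.matrix_eq_sum_single X]
  refine sum_mem fun i _ => sum_mem fun j _ => ?_
  obtain ⟨p, rfl⟩ := e.surjective i
  obtain ⟨q, rfl⟩ := e.surjective j
  have h : Matrix.single (e p) (e q) (X (e p) (e q)) = X (e p) (e q) •
      (kr e (Matrix.single p.1 q.1 1) 1 * kr e 1 (Matrix.single p.2 q.2 1)) := by
    rw [kr_mul, mul_one, one_mul]
    ext i j
    obtain ⟨a, rfl⟩ := e.surjective i
    obtain ⟨b, rfl⟩ := e.surjective j
    rw [Matrix.smul_apply, kr_apply, smul_eq_mul, Matrix.single_apply, Matrix.single_apply,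
      Matrix.single_apply]
    by_cases h1 : p = a
    · by_cases h2 : q = b
      · subst h1 h2; simp
      · have : ¬ (q.1 = b.1 ∧ q.2 = b.2) := fun h => h2 (Prod.ext h.1 h.2)
        have h3 : ¬ (e p = e a ∧ e q = e b) := fun h => h2 (e.injective h.2)
        rw [if_neg h3]
        by_cases h4 : q.1 = b.1
        · have : q.2 ≠ b.2 := fun h => h2 (Prod.ext h4 h)
          simp only [this, and_false, ↓reduceIte, mul_zero]
        · simp only [h4, and_false, ↓reduceIte, mul_ite, mul_one, mul_zero, ite_self]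
    · have h3 : ¬ (e p = e a ∧ e q = e b) := fun h => h1 (e.injective h.1)
      rw [if_neg h3]
      by_cases h4 : p.1 = a.1
      · have : p.2 ≠ a.2 := fun h => h1 (Prod.ext h4 h)
        simp only [this, false_and, ↓reduceIte, mul_zero]
      · simp [h4]
  rw [h]
  exact A.smul_mem (A.mul_mem (h₁ _) (h₂ _)) _

end Kron

section Adj

variable {r : ℕ} {G : Type*} [Group G]

theorem ss_of_adjoin (x : G →* (Mat r ℂ)ˣ)
    (h : Algebra.adjoin ℂ (Set.range fun w => (x w : Mat r ℂ)) = ⊤) : SS x := by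
  intro W hW
  have h1 : ∀ M : Mat r ℂ, ∀ v ∈ W, M *ᵥ v ∈ W := by
    intro M
    have hM : M ∈ Algebra.adjoin ℂ (Set.range fun w => (x w : Mat r ℂ)) := by
      rw [h]; exact Algebra.mem_top
    induction hM using Algebra.adjoin_induction with
    | mem y hy =>
      obtain ⟨w, rfl⟩ := hy
      exact hW w
    | algebraMap c =>
      intro v hv
      rw [Algebra.algebraMap_eq_smul_one, Matrix.smul_mulVec, Matrix.one_mulVec]
      exact W.smul_mem c hv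
    | add y z _ _ hy hz =>
      intro v hv
      rw [Matrix.add_mulVec]
      exact W.add_mem (hy v hv) (hz v hv)
    | mul y z _ _ hy hz =>
      intro v hv
      rw [← Matrix.mulVec_mulVec]
      exact hy _ (hz v hv)
  by_cases hW0 : W = ⊥
  · refine ⟨⊤, fun w v _ => Submodule.mem_top, ?_⟩
    rw [hW0]
    exact isCompl_bot_top
  · have hW1 : W = ⊤ := by
      obtain ⟨v, hv, hv0⟩ := (Submodule.ne_bot_iff W).1 hW0
      obtain ⟨i, hi⟩ := Function.ne_iff.1 hv0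
      rw [eq_top_iff]
      intro u _
      have h2 := h1 (Matrix.vecMulVec u (Pi.single i (v i)⁻¹)) v hv
      have h3 : Matrix.vecMulVec u (Pi.single i (v i)⁻¹) *ᵥ v = u := by
        ext j
        rw [Matrix.mulVec, dotProduct, Finset.sum_eq_single i]
        · rw [Matrix.vecMulVec_apply, Pi.single_eq_same, mul_assoc, inv_mul_cancel₀ hi, mul_one]
        · intro k _ hk
          rw [Matrix.vecMulVec_apply, Pi.single_eq_of_ne hk, mul_zero, zero_mul]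
        · intro hk; exact absurd (Finset.mem_univ _) hk
      rwa [h3] at h2
    refine ⟨⊥, fun w v hv => ?_, ?_⟩
    · rw [Submodule.mem_bot] at hv ⊢
      rw [hv, Matrix.mulVec_zero]
    · rw [hW1]
      exact isCompl_top_bot

theorem scalar_of_adjoin (x : G →* (Mat r ℂ)ˣ)
    (h : Algebra.adjoin ℂ (Set.range fun w => (x w : Mat r ℂ)) = ⊤) (M : Mat r ℂ)
    (hM : ∀ w, Commute M (x w : Mat r ℂ)) : ∃ c : ℂ, M = c • (1 : Mat r ℂ) := by
  have h1 : ∀ X : Mat r ℂ, Commute M X := by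
    intro X
    have hX : X ∈ Algebra.adjoin ℂ (Set.range fun w => (x w : Mat r ℂ)) := by
      rw [h]; exact Algebra.mem_top
    induction hX using Algebra.adjoin_induction with
    | mem y hy =>
      obtain ⟨w, rfl⟩ := hy
      exact hM w
    | algebraMap c => exact (Algebra.commutes c M).symm
    | add y z _ _ hy hz => exact hy.add_right hz
    | mul y z _ _ hy hz => exact hy.mul_right hz
  obtain ⟨c, hc⟩ := Matrix.mem_range_scalar_of_commute_single (M := M)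
    (fun i j _ => (h1 _).symm)
  exact ⟨c, by rw [← hc, ← Algebra.algebraMap_eq_smul_one]; rfl⟩

/-- Conjugation as an algebra homomorphism. -/
noncomputable def conjA (U : (Mat r ℂ)ˣ) : Mat r ℂ →ₐ[ℂ] Mat r ℂ where
  toFun M := (U : Mat r ℂ) * M * ((U⁻¹ : (Mat r ℂ)ˣ) : Mat r ℂ)
  map_one' := by rw [mul_one, ← Units.val_mul, mul_inv_cancel, Units.val_one]
  map_mul' M N := by
    have h : ((U⁻¹ : (Mat r ℂ)ˣ) : Mat r ℂ) * (U : Mat r ℂ) = 1 := by
      rw [← Units.val_mul, inv_mul_cancel, Units.val_one]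
    calc (U : Mat r ℂ) * (M * N) * ((U⁻¹ : (Mat r ℂ)ˣ) : Mat r ℂ) =
        (U : Mat r ℂ) * M * 1 * N * ((U⁻¹ : (Mat r ℂ)ˣ) : Mat r ℂ) := by
          rw [mul_one]; simp only [mul_assoc]
      _ = _ := by rw [← h]; simp only [mul_assoc]
  map_zero' := by rw [mul_zero, zero_mul]
  map_add' M N := by rw [mul_add, add_mul]
  commutes' c := by
    rw [← Algebra.commutes, mul_assoc, ← Units.val_mul, mul_inv_cancel, Units.val_one, mul_one]

theorem conjA_apply (U : (Mat r ℂ)ˣ) (M : Mat r ℂ) :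
    conjA U M = (U : Mat r ℂ) * M * ((U⁻¹ : (Mat r ℂ)ˣ) : Mat r ℂ) := rfl

theorem adjoin_conj_top {K : Type*} (y : FreeGroup K →* (Mat r ℂ)ˣ) (U : (Mat r ℂ)ˣ)
    (h : Algebra.adjoin ℂ (Set.range fun w => (y w : Mat r ℂ)) = ⊤) :
    Algebra.adjoin ℂ (Set.range fun w => (conjH U y w : Mat r ℂ)) = ⊤ := by
  obtain ⟨A, hA⟩ : ∃ A, A = Algebra.adjoin ℂ (Set.range fun w => (conjH U y w : Mat r ℂ)) :=
    ⟨_, rfl⟩
  rw [← hA]
  have h1 : Algebra.adjoin ℂ (Set.range fun w => (y w : Mat r ℂ)) ≤ A.comap (conjA U) := by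
    rw [Algebra.adjoin_le_iff]
    rintro _ ⟨w, rfl⟩
    change conjA U (y w : Mat r ℂ) ∈ A
    rw [hA]
    apply Algebra.subset_adjoin
    refine ⟨w, ?_⟩
    simp only [conjH_apply, Units.val_mul, conjA_apply]
  rw [eq_top_iff]
  intro X _
  have h2 : conjA U⁻¹ X ∈ A.comap (conjA U) := h1 (by rw [h]; exact Algebra.mem_top)
  have h3 : conjA U (conjA U⁻¹ X) = X := by
    rw [conjA_apply, conjA_apply, inv_inv]
    have h : (U : Mat r ℂ) * ((U⁻¹ : (Mat r ℂ)ˣ) : Mat r ℂ) = 1 := by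
      rw [← Units.val_mul, mul_inv_cancel, Units.val_one]
    calc (U : Mat r ℂ) * (((U⁻¹ : (Mat r ℂ)ˣ) : Mat r ℂ) * X * (U : Mat r ℂ)) *
          ((U⁻¹ : (Mat r ℂ)ˣ) : Mat r ℂ) =
        ((U : Mat r ℂ) * ((U⁻¹ : (Mat r ℂ)ˣ) : Mat r ℂ)) * X *
          ((U : Mat r ℂ) * ((U⁻¹ : (Mat r ℂ)ˣ) : Mat r ℂ)) := by simp only [mul_assoc]
      _ = X := by rw [h, one_mul, mul_one]
  have h4 : conjA U (conjA U⁻¹ X) ∈ A := h2
  rwa [h3] at h4

theorem commute_of_gen {K : Type*} (x : FreeGroup K →* G) (g : G)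
    (h : ∀ k, Commute (x (FreeGroup.of k)) g) (a : FreeGroup K) : Commute (x a) g := by
  induction a using FreeGroup.induction_on with
  | C1 => rw [map_one]; exact Commute.one_left g
  | of k => exact h k
  | inv_of k _ => rw [map_inv]; exact (h k).inv_left
  | mul a b ha hb => rw [map_mul]; exact ha.mul_left hb

end Adj

section Prod

variable {κ₁ ι₁ κ₂ ι₂ : Type} {r r₁ r₂ : ℕ}

/-- Splitting of the generators. -/
def splG : (κ₁ ⊕ κ₂) ⊕ (ι₁ ⊕ ι₂) → (κ₁ ⊕ ι₁) ⊕ (κ₂ ⊕ ι₂) := Equiv.sumSumSumComm κ₁ κ₂ ι₁ ι₂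

theorem splG_inc₁ (k : κ₁ ⊕ ι₁) : (splG (inc₁ k) : (κ₁ ⊕ ι₁) ⊕ (κ₂ ⊕ ι₂)) = Sum.inl k := by
  rcases k with k | k <;> rfl

theorem splG_inc₂ (k : κ₂ ⊕ ι₂) : (splG (inc₂ k) : (κ₁ ⊕ ι₁) ⊕ (κ₂ ⊕ ι₂)) = Sum.inr k := by
  rcases k with k | k <;> rfl

theorem inc_cases (k : (κ₁ ⊕ κ₂) ⊕ (ι₁ ⊕ ι₂)) :
    (∃ l : κ₁ ⊕ ι₁, k = inc₁ l) ∨ ∃ l : κ₂ ⊕ ι₂, k = inc₂ l := by
  rcases k with (k | k) | (k | k)
  · exact Or.inl ⟨Sum.inl k, rfl⟩
  · exact Or.inr ⟨Sum.inl k, rfl⟩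
  · exact Or.inl ⟨Sum.inr k, rfl⟩
  · exact Or.inr ⟨Sum.inr k, rfl⟩

/-- Tensor product of representations of two free groups. -/
noncomputable def ten (e : Fin r₁ × Fin r₂ ≃ Fin r) (y₁ : FreeGroup (κ₁ ⊕ ι₁) →* (Mat r₁ ℂ)ˣ)
    (y₂ : FreeGroup (κ₂ ⊕ ι₂) →* (Mat r₂ ℂ)ˣ) :
    FreeGroup ((κ₁ ⊕ κ₂) ⊕ (ι₁ ⊕ ι₂)) →* (Mat r ℂ)ˣ :=
  FreeGroup.lift fun k => Sum.elim (fun k₁ => krU₁ e (y₁ (FreeGroup.of k₁)))
    (fun k₂ => krU₂ e (y₂ (FreeGroup.of k₂))) (splG k)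

theorem ten_inc₁ (e : Fin r₁ × Fin r₂ ≃ Fin r) (y₁ : FreeGroup (κ₁ ⊕ ι₁) →* (Mat r₁ ℂ)ˣ)
    (y₂ : FreeGroup (κ₂ ⊕ ι₂) →* (Mat r₂ ℂ)ˣ) (w : FreeGroup (κ₁ ⊕ ι₁)) :
    ten e y₁ y₂ (FreeGroup.map inc₁ w) = krU₁ e (y₁ w) := by
  have h : (ten e y₁ y₂).comp (FreeGroup.map inc₁) = (krU₁ e).comp y₁ := by
    ext1 k
    rw [MonoidHom.comp_apply, FreeGroup.map.of, ten, FreeGroup.lift_apply_of, splG_inc₁,
      Sum.elim_inl, MonoidHom.comp_apply]
  exact DFunLike.congr_fun h w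

theorem ten_inc₂ (e : Fin r₁ × Fin r₂ ≃ Fin r) (y₁ : FreeGroup (κ₁ ⊕ ι₁) →* (Mat r₁ ℂ)ˣ)
    (y₂ : FreeGroup (κ₂ ⊕ ι₂) →* (Mat r₂ ℂ)ˣ) (w : FreeGroup (κ₂ ⊕ ι₂)) :
    ten e y₁ y₂ (FreeGroup.map inc₂ w) = krU₂ e (y₂ w) := by
  have h : (ten e y₁ y₂).comp (FreeGroup.map inc₂) = (krU₂ e).comp y₂ := by
    ext1 k
    rw [MonoidHom.comp_apply, FreeGroup.map.of, ten, FreeGroup.lift_apply_of, splG_inc₂,
      Sum.elim_inr, MonoidHom.comp_apply]
  exact DFunLike.congr_fun h w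

theorem ten_of₁ (e : Fin r₁ × Fin r₂ ≃ Fin r) (y₁ : FreeGroup (κ₁ ⊕ ι₁) →* (Mat r₁ ℂ)ˣ)
    (y₂ : FreeGroup (κ₂ ⊕ ι₂) →* (Mat r₂ ℂ)ˣ) (k : κ₁ ⊕ ι₁) :
    ten e y₁ y₂ (FreeGroup.of (inc₁ k)) = krU₁ e (y₁ (FreeGroup.of k)) := by
  rw [← FreeGroup.map.of, ten_inc₁]

theorem ten_of₂ (e : Fin r₁ × Fin r₂ ≃ Fin r) (y₁ : FreeGroup (κ₁ ⊕ ι₁) →* (Mat r₁ ℂ)ˣ)
    (y₂ : FreeGroup (κ₂ ⊕ ι₂) →* (Mat r₂ ℂ)ˣ) (k : κ₂ ⊕ ι₂) :
    ten e y₁ y₂ (FreeGroup.of (inc₂ k)) = krU₂ e (y₂ (FreeGroup.of k)) := by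
  rw [← FreeGroup.map.of, ten_inc₂]

theorem adjoin_ten_top (e : Fin r₁ × Fin r₂ ≃ Fin r) (y₁ : FreeGroup (κ₁ ⊕ ι₁) →* (Mat r₁ ℂ)ˣ)
    (y₂ : FreeGroup (κ₂ ⊕ ι₂) →* (Mat r₂ ℂ)ˣ)
    (h₁ : Algebra.adjoin ℂ (Set.range fun w => (y₁ w : Mat r₁ ℂ)) = ⊤)
    (h₂ : Algebra.adjoin ℂ (Set.range fun w => (y₂ w : Mat r₂ ℂ)) = ⊤) :
    Algebra.adjoin ℂ (Set.range fun w => (ten e y₁ y₂ w : Mat r ℂ)) = ⊤ := by
  obtain ⟨A, hA⟩ : ∃ A, A = Algebra.adjoin ℂ (Set.range fun w => (ten e y₁ y₂ w : Mat r ℂ)) :=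
    ⟨_, rfl⟩
  rw [← hA]
  apply kr_top e A
  · intro M
    have h3 : Algebra.adjoin ℂ (Set.range fun w => (y₁ w : Mat r₁ ℂ)) ≤ A.comap (krL e) := by
      rw [Algebra.adjoin_le_iff]
      rintro _ ⟨w, rfl⟩
      change kr e (y₁ w : Mat r₁ ℂ) 1 ∈ A
      rw [hA]
      apply Algebra.subset_adjoin
      exact ⟨FreeGroup.map inc₁ w, by simp only [ten_inc₁, krU₁_coe]⟩
    exact h3 (by rw [h₁]; exact Algebra.mem_top)
  · intro M
    have h3 : Algebra.adjoin ℂ (Set.range fun w => (y₂ w : Mat r₂ ℂ)) ≤ A.comap (krR e) := by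
      rw [Algebra.adjoin_le_iff]
      rintro _ ⟨w, rfl⟩
      change kr e 1 (y₂ w : Mat r₂ ℂ) ∈ A
      rw [hA]
      apply Algebra.subset_adjoin
      exact ⟨FreeGroup.map inc₂ w, by simp only [ten_inc₂, krU₂_coe]⟩
    exact h3 (by rw [h₂]; exact Algebra.mem_top)

theorem prodRel_eqn (Rel₁ : Set (FreeGroup (κ₁ ⊕ ι₁))) (Rel₂ : Set (FreeGroup (κ₂ ⊕ ι₂)))
    (w : FreeGroup ((κ₁ ⊕ κ₂) ⊕ (ι₁ ⊕ ι₂))) : w ∈ prodRel Rel₁ Rel₂ ↔
      (∃ w' ∈ Rel₁, FreeGroup.map inc₁ w' = w) ∨ (∃ w' ∈ Rel₂, FreeGroup.map inc₂ w' = w) ∨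
        ∃ (k : κ₁ ⊕ ι₁) (l : κ₂ ⊕ ι₂), w =
          FreeGroup.of (inc₁ k) * FreeGroup.of (inc₂ l) * (FreeGroup.of (inc₁ k))⁻¹ *
            (FreeGroup.of (inc₂ l))⁻¹ := by
  unfold prodRel
  rw [Set.mem_union, Set.mem_union, Set.mem_image, Set.mem_image, or_assoc]
  rfl

theorem ten_mem_DGT {R : Type*} [CommRing R] (φ : R →+* ℂ) {Rel₁ : Set (FreeGroup (κ₁ ⊕ ι₁))}
    {Rel₂ : Set (FreeGroup (κ₂ ⊕ ι₂))} (e : Fin r₁ × Fin r₂ ≃ Fin r)
    {C₁ : ι₁ → (Mat r₁ ℂ)ˣ} {C₂ : ι₂ → (Mat r₂ ℂ)ˣ} {C : ι₁ ⊕ ι₂ → (Mat r ℂ)ˣ}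
    (hC₁ : ∀ j, IsConj (C (Sum.inl j)) (krU₁ e (C₁ j)))
    (hC₂ : ∀ j, IsConj (C (Sum.inr j)) (krU₂ e (C₂ j)))
    {y₁ : FreeGroup (κ₁ ⊕ ι₁) →* (Mat r₁ ℂ)ˣ} {y₂ : FreeGroup (κ₂ ⊕ ι₂) →* (Mat r₂ ℂ)ˣ}
    (hy₁ : y₁ ∈ DGT Rel₁ φ C₁) (hy₂ : y₂ ∈ DGT Rel₂ φ C₂) :
    ten e y₁ y₂ ∈ DGT (prodRel Rel₁ Rel₂) φ C := by
  have htop := adjoin_ten_top e y₁ y₂ hy₁.2 hy₂.2
  refine ⟨⟨⟨?_, ?_, ss_of_adjoin _ htop⟩, ?_⟩, htop⟩
  · intro w hw
    rw [prodRel_eqn] at hw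
    rcases hw with ⟨w', hw', rfl⟩ | ⟨w', hw', rfl⟩ | ⟨k, l, rfl⟩
    · rw [ten_inc₁, hy₁.1.1.1 w' hw', map_one]
    · rw [ten_inc₂, hy₂.1.1.1 w' hw', map_one]
    · rw [map_mul, map_mul, map_mul, map_inv, map_inv, ten_of₁, ten_of₂,
        (krU_comm e (y₁ (FreeGroup.of k)) (y₂ (FreeGroup.of l))).eq]
      group
  · rintro (j | j)
    · refine (hC₁ j).trans ?_
      have h1 : (Sum.inr (Sum.inl j) : (κ₁ ⊕ κ₂) ⊕ (ι₁ ⊕ ι₂)) = inc₁ (Sum.inr j) := rfl
      rw [h1, ten_of₁]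
      exact (krU₁ e).map_isConj (hy₁.1.1.2.1 j)
    · refine (hC₂ j).trans ?_
      have h1 : (Sum.inr (Sum.inr j) : (κ₁ ⊕ κ₂) ⊕ (ι₁ ⊕ ι₂)) = inc₂ (Sum.inr j) := rfl
      rw [h1, ten_of₂]
      exact (krU₂ e).map_isConj (hy₂.1.1.2.1 j)
  · intro k
    rcases inc_cases k with ⟨l, rfl⟩ | ⟨l, rfl⟩
    · rw [ten_of₁]
      exact krU₁_mem_GR φ e (hy₁.1.2 l)
    · rw [ten_of₂]
      exact krU₂_mem_GR φ e (hy₂.1.2 l)

/-- The tuple of matrices of a tensor product. -/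
noncomputable def tenK {S : Type*} [CommRing S] [Algebra ℂ S] (e : Fin r₁ × Fin r₂ ≃ Fin r)
    (P Q : Mat r ℂ) (Y₁ : κ₁ ⊕ ι₁ → Mat r₁ S) (Y₂ : κ₂ ⊕ ι₂ → Mat r₂ S)
    (k : (κ₁ ⊕ κ₂) ⊕ (ι₁ ⊕ ι₂)) : Mat r S :=
  P.map (algebraMap ℂ S) * (Sum.elim (fun k₁ => kr e (Y₁ k₁) 1)
    (fun k₂ => kr e 1 (Y₂ k₂)) (splG k)) * Q.map (algebraMap ℂ S)

theorem tenK_map {S T : Type*} [CommRing S] [Algebra ℂ S] [CommRing T] [Algebra ℂ T]
    (θ : S →ₐ[ℂ] T) (e : Fin r₁ × Fin r₂ ≃ Fin r)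
    (P Q : Mat r ℂ) (Y₁ : κ₁ ⊕ ι₁ → Mat r₁ S) (Y₂ : κ₂ ⊕ ι₂ → Mat r₂ S)
    (k : (κ₁ ⊕ κ₂) ⊕ (ι₁ ⊕ ι₂)) : (tenK e P Q Y₁ Y₂ k).map θ =
      tenK e P Q (fun k => (Y₁ k).map θ) (fun k => (Y₂ k).map θ) k := by
  have h : ∀ M : Mat r ℂ, (M.map (algebraMap ℂ S)).map θ = M.map (algebraMap ℂ T) := by
    intro M
    ext i j
    simp only [map_apply, AlgHom.commutes]
  have hone : ∀ k : ℕ, (1 : Mat k S).map θ = 1 := by
    intro k
    ext i j
    by_cases hij : i = j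
    · subst hij; simp
    · simp only [map_apply, Matrix.one_apply_ne hij, map_zero]
  have hkr : ∀ (A : Mat r₁ S) (B : Mat r₂ S), (kr e A B).map θ = kr e (A.map θ) (B.map θ) :=
    fun A B => kr_map e A B (θ : S →+* T)
  unfold tenK
  rw [Matrix.map_mul, Matrix.map_mul, h, h]
  congr 2
  rcases splG k with k | k
  · rw [Sum.elim_inl, Sum.elim_inl, hkr, hone]
  · rw [Sum.elim_inr, Sum.elim_inr, hkr, hone]

theorem conjH_ten (e : Fin r₁ × Fin r₂ ≃ Fin r) (P : (Mat r ℂ)ˣ)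
    (y₁ : FreeGroup (κ₁ ⊕ ι₁) →* (Mat r₁ ℂ)ˣ) (y₂ : FreeGroup (κ₂ ⊕ ι₂) →* (Mat r₂ ℂ)ˣ)
    (k : (κ₁ ⊕ κ₂) ⊕ (ι₁ ⊕ ι₂)) :
    (conjH P (ten e y₁ y₂) (FreeGroup.of k) : Mat r ℂ) =
      tenK e (P : Mat r ℂ) ((P⁻¹ : (Mat r ℂ)ˣ) : Mat r ℂ)
        (fun k => (y₁ (FreeGroup.of k) : Mat r₁ ℂ)) (fun k => (y₂ (FreeGroup.of k) : Mat r₂ ℂ))
          k := by
  have h : ∀ M : Mat r ℂ, M.map (algebraMap ℂ ℂ) = M := by
    intro M
    ext i j
    simp
  rw [conjH_apply, Units.val_mul, Units.val_mul, tenK, h, h]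
  congr 2
  rcases inc_cases k with ⟨l, rfl⟩ | ⟨l, rfl⟩
  · rw [ten_of₁, splG_inc₁, krU₁_coe, Sum.elim_inl]
  · rw [ten_of₂, splG_inc₂, krU₂_coe, Sum.elim_inr]

theorem exists_polyT₁ (e : Fin r₁ × Fin r₂ ≃ Fin r) (P Q : Mat r ℂ)
    (f : MvPolynomial (((κ₁ ⊕ κ₂) ⊕ (ι₁ ⊕ ι₂)) × Fin r × Fin r) ℂ) (Y₂ : κ₂ ⊕ ι₂ → Mat r₂ ℂ) :
    ∃ f₁ : MvPolynomial ((κ₁ ⊕ ι₁) × Fin r₁ × Fin r₁) ℂ,
      ∀ y₁ : FreeGroup (κ₁ ⊕ ι₁) →* (Mat r₁ ℂ)ˣ,
        evalG y₁ f₁ = evK (tenK e P Q (fun k => (y₁ (FreeGroup.of k) : Mat r₁ ℂ)) Y₂) f := by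
  let L := MvPolynomial ((κ₁ ⊕ ι₁) × Fin r₁ × Fin r₁) ℂ
  refine ⟨evK (tenK e P Q (fun k => Matrix.of fun i j => (MvPolynomial.X (k, i, j) : L))
    (fun k => (Y₂ k).map MvPolynomial.C)) f, ?_⟩
  intro y₁
  have h1 : ∀ g : L, evalG y₁ g = MvPolynomial.aeval
      (fun p => (y₁ (FreeGroup.of p.1) : Mat r₁ ℂ) p.2.1 p.2.2) g := fun g => evalG_eqn y₁ g
  rw [h1, evK_map]
  refine congrArg (fun X => evK X f) (funext fun k => ?_)
  rw [tenK_map]
  congr 1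
  · funext k
    ext i j
    simp only [MvPolynomial.aeval_eq_eval, map_apply, of_apply, MvPolynomial.eval_X]
  · funext k
    ext i j
    simp only [MvPolynomial.aeval_eq_eval, map_apply, MvPolynomial.eval_C]

theorem exists_polyT₂ (e : Fin r₁ × Fin r₂ ≃ Fin r) (P Q : Mat r ℂ)
    (f : MvPolynomial (((κ₁ ⊕ κ₂) ⊕ (ι₁ ⊕ ι₂)) × Fin r × Fin r) ℂ) (Y₁ : κ₁ ⊕ ι₁ → Mat r₁ ℂ) :
    ∃ f₂ : MvPolynomial ((κ₂ ⊕ ι₂) × Fin r₂ × Fin r₂) ℂ,
      ∀ y₂ : FreeGroup (κ₂ ⊕ ι₂) →* (Mat r₂ ℂ)ˣ,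
        evalG y₂ f₂ = evK (tenK e P Q Y₁ (fun k => (y₂ (FreeGroup.of k) : Mat r₂ ℂ))) f := by
  let L := MvPolynomial ((κ₂ ⊕ ι₂) × Fin r₂ × Fin r₂) ℂ
  refine ⟨evK (tenK e P Q (fun k => (Y₁ k).map MvPolynomial.C)
    (fun k => Matrix.of fun i j => (MvPolynomial.X (k, i, j) : L))) f, ?_⟩
  intro y₂
  have h1 : ∀ g : L, evalG y₂ g = MvPolynomial.aeval
      (fun p => (y₂ (FreeGroup.of p.1) : Mat r₂ ℂ) p.2.1 p.2.2) g := fun g => evalG_eqn y₂ g
  rw [h1, evK_map]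
  refine congrArg (fun X => evK X f) (funext fun k => ?_)
  rw [tenK_map]
  congr 1
  · funext k
    ext i j
    simp only [MvPolynomial.aeval_eq_eval, map_apply, MvPolynomial.eval_C]
  · funext k
    ext i j
    simp only [MvPolynomial.aeval_eq_eval, map_apply, of_apply, MvPolynomial.eval_X]

/-- The restrictions of an irreducible representation of the product generate the matrix algebra. -/
theorem adjoin_union_top {n : ℕ} (x : FreeGroup ((κ₁ ⊕ κ₂) ⊕ (ι₁ ⊕ ι₂)) →* (Mat n ℂ)ˣ)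
    (hxtop : Algebra.adjoin ℂ (Set.range fun w => (x w : Mat n ℂ)) = ⊤) :
    Algebra.adjoin ℂ ((Set.range fun w => (x.comp (FreeGroup.map inc₁) w : Mat n ℂ)) ∪
      Set.range fun w => (x.comp (FreeGroup.map inc₂) w : Mat n ℂ)) = ⊤ := by
  rw [eq_top_iff, ← hxtop, adjoin_gen, Algebra.adjoin_le_iff]
  rintro _ ⟨k, rfl⟩
  apply Algebra.subset_adjoin
  rcases inc_cases k with ⟨l, rfl⟩ | ⟨l, rfl⟩
  · refine Or.inl ⟨FreeGroup.of l, ?_⟩
    simp only [MonoidHom.comp_apply, FreeGroup.map.of]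
  · refine Or.inr ⟨FreeGroup.of l, ?_⟩
    simp only [MonoidHom.comp_apply, FreeGroup.map.of]

theorem commute_of_prodRel {G : Type*} [Group G] {Rel₁ : Set (FreeGroup (κ₁ ⊕ ι₁))}
    {Rel₂ : Set (FreeGroup (κ₂ ⊕ ι₂))} (x : FreeGroup ((κ₁ ⊕ κ₂) ⊕ (ι₁ ⊕ ι₂)) →* G)
    (hrel : ∀ w ∈ prodRel Rel₁ Rel₂, x w = 1) (a : FreeGroup (κ₁ ⊕ ι₁))
    (b : FreeGroup (κ₂ ⊕ ι₂)) :
    Commute (x.comp (FreeGroup.map inc₁) a) (x.comp (FreeGroup.map inc₂) b) := by
  refine commute_of_gen (x.comp (FreeGroup.map inc₁)) _ (fun k => ?_) a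
  refine (commute_of_gen (x.comp (FreeGroup.map inc₂)) _ (fun l => ?_) b).symm
  rw [MonoidHom.comp_apply, MonoidHom.comp_apply, FreeGroup.map.of, FreeGroup.map.of]
  have h3 := hrel (FreeGroup.of (inc₁ k) * FreeGroup.of (inc₂ l) * (FreeGroup.of (inc₁ k))⁻¹ *
      (FreeGroup.of (inc₂ l))⁻¹) ((prodRel_eqn _ _ _).2 (Or.inr (Or.inr ⟨k, l, rfl⟩)))
  rw [map_mul, map_mul, map_mul, map_inv, map_inv, mul_inv_eq_one, mul_inv_eq_iff_eq_mul] at h3
  exact h3.symm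

/-- An irreducible representation of the product is a tensor product. -/
theorem exists_ten {Rel₁ : Set (FreeGroup (κ₁ ⊕ ι₁))}
    {Rel₂ : Set (FreeGroup (κ₂ ⊕ ι₂))} {n : ℕ} (hpos : 0 < n)
    (x : FreeGroup ((κ₁ ⊕ κ₂) ⊕ (ι₁ ⊕ ι₂)) →* (Mat n ℂ)ˣ)
    (hrel : ∀ w ∈ prodRel Rel₁ Rel₂, x w = 1)
    (hxtop : Algebra.adjoin ℂ (Set.range fun w => (x w : Mat n ℂ)) = ⊤) :
    ∃ (r₁ r₂ : ℕ) (e : Fin r₁ × Fin r₂ ≃ Fin n) (P : (Mat n ℂ)ˣ)
      (z₁ : FreeGroup (κ₁ ⊕ ι₁) →* (Mat r₁ ℂ)ˣ) (z₂ : FreeGroup (κ₂ ⊕ ι₂) →* (Mat r₂ ℂ)ˣ),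
      0 < r₁ ∧ 0 < r₂ ∧
      Algebra.adjoin ℂ (Set.range fun w => (z₁ w : Mat r₁ ℂ)) = ⊤ ∧
      Algebra.adjoin ℂ (Set.range fun w => (z₂ w : Mat r₂ ℂ)) = ⊤ ∧
      (∀ w ∈ Rel₁, z₁ w = 1) ∧ (∀ w ∈ Rel₂, z₂ w = 1) ∧ x = conjH P (ten e z₁ z₂) := by
  obtain ⟨r₁, r₂, e, P, z₁, z₂, hr₁, hr₂, ht₁, ht₂, hz₁, hz₂⟩ :=
    tensor_decomp hpos (x.comp (FreeGroup.map inc₁)) (x.comp (FreeGroup.map inc₂))
      (commute_of_prodRel x hrel) (adjoin_union_top x hxtop)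
  have hz₁' : ∀ a, x (FreeGroup.map inc₁ a) = P * krU₁ e (z₁ a) * P⁻¹ := by
    intro a
    apply Units.ext
    rw [Units.val_mul, Units.val_mul, krU₁_coe, kr]
    exact hz₁ a
  have hz₂' : ∀ b, x (FreeGroup.map inc₂ b) = P * krU₂ e (z₂ b) * P⁻¹ := by
    intro a
    apply Units.ext
    rw [Units.val_mul, Units.val_mul, krU₂_coe, kr]
    exact hz₂ a
  refine ⟨r₁, r₂, e, P, z₁, z₂, hr₁, hr₂, ht₁, ht₂, fun w hw => ?_, fun w hw => ?_, ?_⟩
  · apply krU₁_inj e hr₂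
    have h3 := hz₁' w
    rw [hrel _ ((prodRel_eqn _ _ _).2 (Or.inl ⟨w, hw, rfl⟩)), eq_mul_inv_iff_mul_eq, one_mul]
      at h3
    exact mul_left_cancel (by rw [mul_one]; exact h3.symm)
  · apply krU₂_inj e hr₁
    have h3 := hz₂' w
    rw [hrel _ ((prodRel_eqn _ _ _).2 (Or.inr (Or.inl ⟨w, hw, rfl⟩))),
      eq_mul_inv_iff_mul_eq, one_mul] at h3
    exact mul_left_cancel (by rw [mul_one]; exact h3.symm)
  · ext1 k
    rw [conjH_apply]
    rcases inc_cases k with ⟨l, rfl⟩ | ⟨l, rfl⟩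
    · rw [ten_of₁, ← hz₁', FreeGroup.map.of]
    · rw [ten_of₂, ← hz₂', FreeGroup.map.of]

theorem conjH_mem_DGT {κ ι : Type} {Rel : Set (FreeGroup (κ ⊕ ι))} {R : Type*} [CommRing R]
    (φ : R →+* ℂ) {n : ℕ} {C : ι → (Mat n ℂ)ˣ} {y : FreeGroup (κ ⊕ ι) →* (Mat n ℂ)ˣ}
    (hy : y ∈ DGT Rel φ C) (X : SpecialLinearGroup (Fin n) ℤ) :
    conjH (slU (Int.castRingHom ℂ) X) y ∈ DGT Rel φ C :=
  ⟨conjH_mem_DG φ hy.1 X, adjoin_conj_top _ _ hy.2⟩

theorem conj_vanish_DGT {κ ι : Type} {Rel : Set (FreeGroup (κ ⊕ ι))} {R : Type*} [CommRing R]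
    (φ : R →+* ℂ) {n : ℕ} {C : ι → (Mat n ℂ)ˣ} (f : MvPolynomial ((κ ⊕ ι) × Fin n × Fin n) ℂ)
    (hf : ∀ y ∈ DGT Rel φ C, evalG y f = 0) (y : FreeGroup (κ ⊕ ι) →* (Mat n ℂ)ˣ)
    (hy : y ∈ DGT Rel φ C) (P : (Mat n ℂ)ˣ) : evalG (conjH P y) f = 0 :=
  conj_vanish_gen (DGT Rel φ C) (fun _ hy X => conjH_mem_DGT φ hy X) f hf y hy P

theorem evalG_conjH_ten {n : ℕ} (e : Fin r₁ × Fin r₂ ≃ Fin n) (P : (Mat n ℂ)ˣ)
    (f : MvPolynomial (((κ₁ ⊕ κ₂) ⊕ (ι₁ ⊕ ι₂)) × Fin n × Fin n) ℂ)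
    (y₁ : FreeGroup (κ₁ ⊕ ι₁) →* (Mat r₁ ℂ)ˣ) (y₂ : FreeGroup (κ₂ ⊕ ι₂) →* (Mat r₂ ℂ)ˣ) :
    evalG (conjH P (ten e y₁ y₂)) f =
      evK (tenK e (P : Mat n ℂ) ((P⁻¹ : (Mat n ℂ)ˣ) : Mat n ℂ)
        (fun k => (y₁ (FreeGroup.of k) : Mat r₁ ℂ))
        (fun k => (y₂ (FreeGroup.of k) : Mat r₂ ℂ))) f := by
  rw [evalG_eq_evK]
  exact congrArg (fun X => evK X f) (funext fun k => conjH_ten e P y₁ y₂ k)

/-- Density for tensor products, first factor. -/
theorem ten_dense₁ {R : Type*} [CommRing R] (φ : R →+* ℂ) (E : Subgroup ℂˣ)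
    (Rel₁ : Set (FreeGroup (κ₁ ⊕ ι₁)))
    {n : ℕ} (h₁ : IrrDense Rel₁ φ E r₁) (e : Fin r₁ × Fin r₂ ≃ Fin n) (P : (Mat n ℂ)ˣ)
    (z₁ : FreeGroup (κ₁ ⊕ ι₁) →* (Mat r₁ ℂ)ˣ) (y₂ : FreeGroup (κ₂ ⊕ ι₂) →* (Mat r₂ ℂ)ˣ)
    (ht₁ : Algebra.adjoin ℂ (Set.range fun w => (z₁ w : Mat r₁ ℂ)) = ⊤)
    (C₁ : ι₁ → (Mat r₁ ℂ)ˣ) (hE₁ : ∀ j, EigIn E (C₁ j : Mat r₁ ℂ)) (hY₁ : z₁ ∈ YG Rel₁ C₁)
    (f : MvPolynomial (((κ₁ ⊕ κ₂) ⊕ (ι₁ ⊕ ι₂)) × Fin n × Fin n) ℂ)
    (hf : ∀ y₁ ∈ DGT Rel₁ φ C₁, evalG (conjH P (ten e y₁ y₂)) f = 0) :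
    evalG (conjH P (ten e z₁ y₂)) f = 0 := by
  obtain ⟨f₁, hf₁⟩ := exists_polyT₁ e (P : Mat n ℂ) ((P⁻¹ : (Mat n ℂ)ˣ) : Mat n ℂ) f
    (fun k => (y₂ (FreeGroup.of k) : Mat r₂ ℂ))
  rw [evalG_conjH_ten, ← hf₁]
  refine h₁ C₁ hE₁ z₁ hY₁ (fun M hM => scalar_of_adjoin z₁ ht₁ M hM) f₁ ?_
  intro y₁ hy₁
  rw [hf₁, ← evalG_conjH_ten]
  exact hf y₁ hy₁

/-- Density for tensor products, second factor. -/
theorem ten_dense₂ {R : Type*} [CommRing R] (φ : R →+* ℂ) (E : Subgroup ℂˣ)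
    (Rel₂ : Set (FreeGroup (κ₂ ⊕ ι₂)))
    {n : ℕ} (h₂ : IrrDense Rel₂ φ E r₂) (e : Fin r₁ × Fin r₂ ≃ Fin n) (P : (Mat n ℂ)ˣ)
    (y₁ : FreeGroup (κ₁ ⊕ ι₁) →* (Mat r₁ ℂ)ˣ) (z₂ : FreeGroup (κ₂ ⊕ ι₂) →* (Mat r₂ ℂ)ˣ)
    (ht₂ : Algebra.adjoin ℂ (Set.range fun w => (z₂ w : Mat r₂ ℂ)) = ⊤)
    (C₂ : ι₂ → (Mat r₂ ℂ)ˣ) (hE₂ : ∀ j, EigIn E (C₂ j : Mat r₂ ℂ)) (hY₂ : z₂ ∈ YG Rel₂ C₂)
    (f : MvPolynomial (((κ₁ ⊕ κ₂) ⊕ (ι₁ ⊕ ι₂)) × Fin n × Fin n) ℂ)
    (hf : ∀ y₂ ∈ DGT Rel₂ φ C₂, evalG (conjH P (ten e y₁ y₂)) f = 0) :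
    evalG (conjH P (ten e y₁ z₂)) f = 0 := by
  obtain ⟨f₂, hf₂⟩ := exists_polyT₂ e (P : Mat n ℂ) ((P⁻¹ : (Mat n ℂ)ˣ) : Mat n ℂ) f
    (fun k => (y₁ (FreeGroup.of k) : Mat r₁ ℂ))
  rw [evalG_conjH_ten, ← hf₂]
  refine h₂ C₂ hE₂ z₂ hY₂ (fun M hM => scalar_of_adjoin z₂ ht₂ M hM) f₂ ?_
  intro y₂ hy₂
  rw [hf₂, ← evalG_conjH_ten]
  exact hf y₂ hy₂

theorem conj_boundary₁ {n : ℕ} (e : Fin r₁ × Fin r₂ ≃ Fin n) (P : (Mat n ℂ)ˣ)
    (z₁ : FreeGroup (κ₁ ⊕ ι₁) →* (Mat r₁ ℂ)ˣ) (z₂ : FreeGroup (κ₂ ⊕ ι₂) →* (Mat r₂ ℂ)ˣ)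
    (j : ι₁) : IsConj (conjH P (ten e z₁ z₂) (FreeGroup.of (Sum.inr (Sum.inl j))))
      (krU₁ e (z₁ (FreeGroup.of (Sum.inr j)))) := by
  have h1 : (Sum.inr (Sum.inl j) : (κ₁ ⊕ κ₂) ⊕ (ι₁ ⊕ ι₂)) = inc₁ (Sum.inr j) := rfl
  rw [h1, conjH_apply, ten_of₁]
  exact (isConj_iff.2 ⟨P, rfl⟩).symm

theorem conj_boundary₂ {n : ℕ} (e : Fin r₁ × Fin r₂ ≃ Fin n) (P : (Mat n ℂ)ˣ)
    (z₁ : FreeGroup (κ₁ ⊕ ι₁) →* (Mat r₁ ℂ)ˣ) (z₂ : FreeGroup (κ₂ ⊕ ι₂) →* (Mat r₂ ℂ)ˣ)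
    (j : ι₂) : IsConj (conjH P (ten e z₁ z₂) (FreeGroup.of (Sum.inr (Sum.inr j))))
      (krU₂ e (z₂ (FreeGroup.of (Sum.inr j)))) := by
  have h1 : (Sum.inr (Sum.inr j) : (κ₁ ⊕ κ₂) ⊕ (ι₁ ⊕ ι₂)) = inc₂ (Sum.inr j) := rfl
  rw [h1, conjH_apply, ten_of₂]
  exact (isConj_iff.2 ⟨P, rfl⟩).symm

/-- Density for tensor products. -/
theorem ten_dense {R : Type*} [CommRing R] (φ : R →+* ℂ) (E : Subgroup ℂˣ)
    (Rel₁ : Set (FreeGroup (κ₁ ⊕ ι₁))) (Rel₂ : Set (FreeGroup (κ₂ ⊕ ι₂)))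
    {n : ℕ} (h₁ : IrrDense Rel₁ φ E r₁) (h₂ : IrrDense Rel₂ φ E r₂)
    (hr₁ : 0 < r₁) (hr₂ : 0 < r₂) (e : Fin r₁ × Fin r₂ ≃ Fin n) (P : (Mat n ℂ)ˣ)
    (z₁ : FreeGroup (κ₁ ⊕ ι₁) →* (Mat r₁ ℂ)ˣ) (z₂ : FreeGroup (κ₂ ⊕ ι₂) →* (Mat r₂ ℂ)ˣ)
    (ht₁ : Algebra.adjoin ℂ (Set.range fun w => (z₁ w : Mat r₁ ℂ)) = ⊤)
    (ht₂ : Algebra.adjoin ℂ (Set.range fun w => (z₂ w : Mat r₂ ℂ)) = ⊤)
    (hz₁ : ∀ w ∈ Rel₁, z₁ w = 1) (hz₂ : ∀ w ∈ Rel₂, z₂ w = 1)
    (C : ι₁ ⊕ ι₂ → (Mat n ℂ)ˣ) (hC : ∀ j, EigIn E (C j : Mat n ℂ))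
    (hconj : ∀ j, IsConj (C j) (conjH P (ten e z₁ z₂) (FreeGroup.of (Sum.inr j))))
    (f : MvPolynomial (((κ₁ ⊕ κ₂) ⊕ (ι₁ ⊕ ι₂)) × Fin n × Fin n) ℂ)
    (hf : ∀ y ∈ DGT (prodRel Rel₁ Rel₂) φ C, evalG y f = 0) :
    evalG (conjH P (ten e z₁ z₂)) f = 0 := by
  obtain ⟨C₁, hC₁⟩ : ∃ C₁ : ι₁ → (Mat r₁ ℂ)ˣ, ∀ j, C₁ j = z₁ (FreeGroup.of (Sum.inr j)) :=
    ⟨_, fun j => rfl⟩
  obtain ⟨C₂, hC₂⟩ : ∃ C₂ : ι₂ → (Mat r₂ ℂ)ˣ, ∀ j, C₂ j = z₂ (FreeGroup.of (Sum.inr j)) :=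
    ⟨_, fun j => rfl⟩
  have hCC₁ : ∀ j, IsConj (C (Sum.inl j)) (krU₁ e (C₁ j)) := fun j => by
    rw [hC₁]
    exact (hconj (Sum.inl j)).trans (conj_boundary₁ e P z₁ z₂ j)
  have hCC₂ : ∀ j, IsConj (C (Sum.inr j)) (krU₂ e (C₂ j)) := fun j => by
    rw [hC₂]
    exact (hconj (Sum.inr j)).trans (conj_boundary₂ e P z₁ z₂ j)
  have hE₁ : ∀ j, EigIn E (C₁ j : Mat r₁ ℂ) := by
    intro j
    have h := (hC (Sum.inl j)).conj (hCC₁ j)
    rw [krU₁_coe] at h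
    exact h.kr₁ hr₂
  have hE₂ : ∀ j, EigIn E (C₂ j : Mat r₂ ℂ) := by
    intro j
    have h := (hC (Sum.inr j)).conj (hCC₂ j)
    rw [krU₂_coe] at h
    exact h.kr₂ hr₁
  have hY₁ : z₁ ∈ YG Rel₁ C₁ :=
    ⟨hz₁, fun j => by rw [hC₁], ss_of_adjoin z₁ ht₁⟩
  have hY₂ : z₂ ∈ YG Rel₂ C₂ :=
    ⟨hz₂, fun j => by rw [hC₂], ss_of_adjoin z₂ ht₂⟩
  refine ten_dense₂ φ E Rel₂ h₂ e P z₁ z₂ ht₂ C₂ hE₂ hY₂ f fun y₂ hy₂ => ?_
  refine ten_dense₁ φ E Rel₁ h₁ e P z₁ y₂ ht₁ C₁ hE₁ hY₁ f fun y₁ hy₁ => ?_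
  exact conj_vanish_DGT φ f hf (ten e y₁ y₂) (ten_mem_DGT φ e hCC₁ hCC₂ hy₁ hy₂) P

/-- TASK G6b -/
theorem prod_irrDense {R : Type*} [CommRing R] (φ : R →+* ℂ) (E : Subgroup ℂˣ)
    (Rel₁ : Set (FreeGroup (κ₁ ⊕ ι₁))) (Rel₂ : Set (FreeGroup (κ₂ ⊕ ι₂)))
    (h₁ : ∀ r' ≤ r, 0 < r' → IrrDense Rel₁ φ E r') (h₂ : ∀ r' ≤ r, 0 < r' → IrrDense Rel₂ φ E r') :
    ∀ r' ≤ r, 0 < r' → IrrDense (prodRel Rel₁ Rel₂) φ E r' := by
  intro n hn hpos C hC x hx hcen f hf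
  have hxtop := burnside_top x hx.2.2 hcen
  obtain ⟨r₁, r₂, e, P, z₁, z₂, hr₁, hr₂, ht₁, ht₂, hz₁, hz₂, rfl⟩ :=
    exists_ten hpos x hx.1 hxtop
  have hcard : r₁ * r₂ = n := by
    have := Fintype.card_congr e
    simpa only [Fintype.card_prod, Fintype.card_fin] using this
  have hle₁ : r₁ ≤ r := le_trans (by rw [← hcard]; exact Nat.le_mul_of_pos_right _ hr₂) hn
  have hle₂ : r₂ ≤ r := le_trans (by rw [← hcard]; exact Nat.le_mul_of_pos_left _ hr₁) hn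
  exact ten_dense φ E Rel₁ Rel₂ (h₁ r₁ hle₁ hr₁) (h₂ r₂ hle₂ hr₂) hr₁ hr₂ e P z₁ z₂ ht₁ ht₂
    hz₁ hz₂ C hC hx.2.1 f hf

end Prod

end Vale.Agent.P002R
end

section

/-!
# Products of families of groups
-/

namespace Vale.Agent.P002R

open Matrix

section equiv

variable {κ ι κ' ι' : Type} {r : ℕ}

/-- Renaming of the generators. -/
def renE (e₁ : κ ≃ κ') (e₂ : ι ≃ ι') : FreeGroup (κ ⊕ ι) →* FreeGroup (κ' ⊕ ι') :=
  FreeGroup.map (Sum.map e₁ e₂)

theorem renE_inl (e₁ : κ ≃ κ') (e₂ : ι ≃ ι') (k : κ) :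
    renE e₁ e₂ (FreeGroup.of (Sum.inl k)) = FreeGroup.of (Sum.inl (e₁ k)) := by
  simp [renE]

theorem renE_inr (e₁ : κ ≃ κ') (e₂ : ι ≃ ι') (k : ι) :
    renE e₁ e₂ (FreeGroup.of (Sum.inr k)) = FreeGroup.of (Sum.inr (e₂ k)) := by
  simp [renE]

theorem renE_symm (e₁ : κ ≃ κ') (e₂ : ι ≃ ι') (w : FreeGroup (κ ⊕ ι)) :
    renE e₁.symm e₂.symm (renE e₁ e₂ w) = w := by
  have h : (renE e₁.symm e₂.symm).comp (renE e₁ e₂) = MonoidHom.id _ := by
    apply FreeGroup.ext_hom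
    rintro (k | k)
    · rw [MonoidHom.comp_apply, renE_inl, renE_inl, Equiv.symm_apply_apply]; rfl
    · rw [MonoidHom.comp_apply, renE_inr, renE_inr, Equiv.symm_apply_apply]; rfl
  exact DFunLike.congr_fun h w

theorem renE_symm' (e₁ : κ ≃ κ') (e₂ : ι ≃ ι') (w : FreeGroup (κ' ⊕ ι')) :
    renE e₁ e₂ (renE e₁.symm e₂.symm w) = w := renE_symm e₁.symm e₂.symm w

theorem SS.renE (e₁ : κ ≃ κ') (e₂ : ι ≃ ι') {x : FreeGroup (κ' ⊕ ι') →* (Mat r ℂ)ˣ} (hx : SS x) :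
    SS (x.comp (P002R.renE e₁ e₂)) := by
  intro W hW
  obtain ⟨W', h1, h2⟩ := hx W (fun w v hv => by
    have := hW (P002R.renE e₁.symm e₂.symm w) v hv
    rwa [MonoidHom.comp_apply, renE_symm'] at this)
  exact ⟨W', fun w v hv => h1 _ v hv, h2⟩

theorem range_renE (e₁ : κ ≃ κ') (e₂ : ι ≃ ι') (x : FreeGroup (κ' ⊕ ι') →* (Mat r ℂ)ˣ) :
    (Set.range fun w => ((x.comp (renE e₁ e₂)) w : Mat r ℂ)) = Set.range fun w => (x w : Mat r ℂ) := by
  ext M
  constructor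
  · rintro ⟨w, rfl⟩
    exact ⟨_, rfl⟩
  · rintro ⟨w, rfl⟩
    refine ⟨renE e₁.symm e₂.symm w, ?_⟩
    simp only [MonoidHom.comp_apply, renE_symm']

theorem evalG_renE (e₁ : κ ≃ κ') (e₂ : ι ≃ ι') (x : FreeGroup (κ' ⊕ ι') →* (Mat r ℂ)ˣ)
    (f : MvPolynomial ((κ' ⊕ ι') × Fin r × Fin r) ℂ) :
    evalG (x.comp (renE e₁ e₂)) (MvPolynomial.rename
      (fun p => (Sum.map e₁.symm e₂.symm p.1, p.2)) f) = evalG x f := by
  rw [evalG, evalG, MvPolynomial.aeval_rename]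
  congr 2
  funext p
  rcases p with ⟨k | k, q⟩
  · simp only [MonoidHom.comp_apply, Function.comp_apply, Sum.map_inl, renE_inl, Equiv.apply_symm_apply]
  · simp only [MonoidHom.comp_apply, Function.comp_apply, Sum.map_inr, renE_inr, Equiv.apply_symm_apply]

theorem mem_DGT_renE (e₁ : κ ≃ κ') (e₂ : ι ≃ ι') {R : Type*} [CommRing R] (φ : R →+* ℂ)
    (Rel : Set (FreeGroup (κ ⊕ ι))) (Rel' : Set (FreeGroup (κ' ⊕ ι')))
    (h : ∀ y : FreeGroup (κ ⊕ ι) →* (Mat r ℂ)ˣ, (∀ w ∈ Rel, y w = 1) →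
      ∀ w ∈ Rel', y (renE e₁.symm e₂.symm w) = 1)
    (C' : ι' → (Mat r ℂ)ˣ) (y : FreeGroup (κ ⊕ ι) →* (Mat r ℂ)ˣ)
    (hy : y ∈ DGT Rel φ (C' ∘ e₂)) : y.comp (renE e₁.symm e₂.symm) ∈ DGT Rel' φ C' := by
  obtain ⟨⟨⟨h1, h2, h3⟩, h4⟩, h5⟩ := hy
  refine ⟨⟨⟨fun w hw => h y h1 w hw, fun j => ?_, h3.renE e₁.symm e₂.symm⟩, fun k => ?_⟩, ?_⟩
  · rw [MonoidHom.comp_apply, renE_inr]
    have := h2 (e₂.symm j)
    rwa [Function.comp, Equiv.apply_symm_apply] at this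
  · rcases k with k | k
    · rw [MonoidHom.comp_apply, renE_inl]; exact h4 _
    · rw [MonoidHom.comp_apply, renE_inr]; exact h4 _
  · rw [range_renE]; exact h5

/-- Invariance under renaming of the generators and change of the relators. -/
theorem IrrDense.congr (e₁ : κ ≃ κ') (e₂ : ι ≃ ι') {R : Type*} [CommRing R] {φ : R →+* ℂ}
    {E : Subgroup ℂˣ} (Rel : Set (FreeGroup (κ ⊕ ι))) (Rel' : Set (FreeGroup (κ' ⊕ ι')))
    (h : ∀ y : FreeGroup (κ ⊕ ι) →* (Mat r ℂ)ˣ, (∀ w ∈ Rel, y w = 1) ↔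
      ∀ w ∈ Rel', y (renE e₁.symm e₂.symm w) = 1)
    (hI : IrrDense Rel φ E r) : IrrDense Rel' φ E r := by
  intro C' hC' x' hx' hirr f' hf'
  rw [← evalG_renE e₁ e₂ x' f']
  refine hI (C' ∘ e₂) (fun j => hC' _) (x'.comp (renE e₁ e₂)) ?_ ?_ _ ?_
  · refine ⟨(h _).2 fun w hw => ?_, fun j => ?_, hx'.2.2.renE e₁ e₂⟩
    · rw [MonoidHom.comp_apply, renE_symm']
      exact hx'.1 w hw
    · rw [MonoidHom.comp_apply, renE_inr]
      exact hx'.2.1 _
  · intro M hM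
    refine hirr M fun w => ?_
    have := hM (renE e₁.symm e₂.symm w)
    rwa [MonoidHom.comp_apply, renE_symm'] at this
  · intro y hy
    have h1 := hf' _ (mem_DGT_renE e₁ e₂ φ Rel Rel' (fun y hy => (h y).1 hy) C' y hy)
    have h2 := evalG_renE e₁ e₂ (y.comp (renE e₁.symm e₂.symm)) f'
    have h3 : (y.comp (renE e₁.symm e₂.symm)).comp (renE e₁ e₂) = y := by
      ext1 w
      simp only [MonoidHom.comp_apply, renE_symm]
    rw [h3] at h2
    rw [h2, h1]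

end equiv

/-! ### Families -/

/-- Inclusion of the generators of a factor. -/
def incS {k : ℕ} {κ ι : Fin k → Type} (i : Fin k) :
    κ i ⊕ ι i → (Σ i, κ i) ⊕ (Σ i, ι i) := Sum.map (Sigma.mk i) (Sigma.mk i)

/-- The relators of the product of a family of groups. -/
def famRel {k : ℕ} {κ ι : Fin k → Type} (Rel : ∀ i, Set (FreeGroup (κ i ⊕ ι i))) :
    Set (FreeGroup ((Σ i, κ i) ⊕ (Σ i, ι i))) :=
  {w | ∃ i, ∃ v ∈ Rel i, w = FreeGroup.map (incS i) v} ∪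
    {w | ∃ (i j : Fin k) (p : κ i ⊕ ι i) (q : κ j ⊕ ι j), i ≠ j ∧ w =
      FreeGroup.of (incS i p) * FreeGroup.of (incS j q) * (FreeGroup.of (incS i p))⁻¹ *
        (FreeGroup.of (incS j q))⁻¹}

theorem famRel_charOK {k : ℕ} {κ ι : Fin k → Type} (Rel : ∀ i, Set (FreeGroup (κ i ⊕ ι i)))
    (h : ∀ i, CharOK (Rel i)) : CharOK (famRel Rel) := by
  rintro w (⟨i, v, hv, rfl⟩ | ⟨i, j, p, q, -, rfl⟩) A _ χ hχ
  · exact h i v hv A (χ.comp (FreeGroup.map (incS i))) fun j => by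
      rw [MonoidHom.comp_apply, FreeGroup.map.of]
      exact hχ ⟨i, j⟩
  · rw [map_mul, map_mul, map_mul, map_inv, map_inv, mul_inv_eq_one, mul_inv_eq_iff_eq_mul,
      mul_comm]

/-- The first factor and the others. -/
def splitSig {k : ℕ} (κ : Fin (k + 1) → Type) : (κ 0 ⊕ Σ i : Fin k, κ i.succ) → Σ i, κ i :=
  Sum.elim (Sigma.mk 0) fun p => ⟨p.1.succ, p.2⟩

theorem splitSig_bijective {k : ℕ} (κ : Fin (k + 1) → Type) :
    Function.Bijective (splitSig κ) := by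
  constructor
  · rintro (a | ⟨i, a⟩) (b | ⟨j, b⟩) h
    · simp only [splitSig, Sum.elim_inl, Sigma.mk.injEq, heq_eq_eq, true_and] at h
      rw [h]
    · simp only [splitSig, Sum.elim_inl, Sum.elim_inr, Sigma.mk.injEq] at h
      exact absurd h.1 (Fin.succ_ne_zero j).symm
    · simp only [splitSig, Sum.elim_inl, Sum.elim_inr, Sigma.mk.injEq] at h
      exact absurd h.1 (Fin.succ_ne_zero i)
    · simp only [splitSig, Sum.elim_inr, Sigma.mk.injEq] at h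
      obtain ⟨h1, h2⟩ := h
      have h3 := Fin.succ_injective k h1
      subst h3
      rw [eq_of_heq h2]
  · rintro ⟨i, a⟩
    induction i using Fin.cases with
    | zero => exact ⟨Sum.inl a, rfl⟩
    | succ i => exact ⟨Sum.inr ⟨i, a⟩, rfl⟩

/-- The first factor and the others. -/
noncomputable def splitE {k : ℕ} (κ : Fin (k + 1) → Type) :
    (κ 0 ⊕ Σ i : Fin k, κ i.succ) ≃ Σ i, κ i :=
  Equiv.ofBijective _ (splitSig_bijective κ)

theorem splitE_inl {k : ℕ} (κ : Fin (k + 1) → Type) (a : κ 0) :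
    splitE κ (Sum.inl a) = ⟨0, a⟩ := rfl

theorem splitE_inr {k : ℕ} (κ : Fin (k + 1) → Type) (i : Fin k) (a : κ i.succ) :
    splitE κ (Sum.inr ⟨i, a⟩) = ⟨i.succ, a⟩ := rfl

theorem splitE_symm_zero {k : ℕ} (κ : Fin (k + 1) → Type) (a : κ 0) :
    (splitE κ).symm ⟨0, a⟩ = Sum.inl a := by
  rw [Equiv.symm_apply_eq, splitE_inl]

theorem splitE_symm_succ {k : ℕ} (κ : Fin (k + 1) → Type) (i : Fin k) (a : κ i.succ) :
    (splitE κ).symm ⟨i.succ, a⟩ = Sum.inr ⟨i, a⟩ := by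
  rw [Equiv.symm_apply_eq, splitE_inr]

/-- Representations without generators. -/
theorem irrDense_of_isEmpty {κ ι : Type} [IsEmpty κ] [IsEmpty ι] {r : ℕ}
    {R : Type*} [CommRing R] (φ : R →+* ℂ) (E : Subgroup ℂˣ) (Rel : Set (FreeGroup (κ ⊕ ι))) :
    IrrDense Rel φ E r := by
  intro C _ x hx hirr f hf
  exact hf x ⟨⟨hx, fun k => by rcases k with k | k <;> exact isEmptyElim k⟩,
    burnside_top x hx.2.2 hirr⟩

theorem fam_irrDense {R : Type*} [CommRing R] (φ : R →+* ℂ) (E : Subgroup ℂˣ) (r : ℕ) (k : ℕ) :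
    ∀ (κ ι : Fin k → Type) (Rel : ∀ i, Set (FreeGroup (κ i ⊕ ι i))),
      (∀ i, ∀ r' ≤ r, 0 < r' → IrrDense (Rel i) φ E r') →
      ∀ r' ≤ r, 0 < r' → IrrDense (famRel Rel) φ E r' := by
  induction k with
  | zero =>
    intro κ ι Rel _ r' _ _
    have : IsEmpty (Σ i, κ i) := ⟨fun p => p.1.elim0⟩
    have : IsEmpty (Σ i, ι i) := ⟨fun p => p.1.elim0⟩
    exact irrDense_of_isEmpty φ E _
  | succ k ih =>
    intro κ ι Rel hRel r' hr' hr'0
    have h1 := ih (fun i => κ i.succ) (fun i => ι i.succ) (fun i => Rel i.succ)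
      (fun i => hRel i.succ)
    have h2 := prod_irrDense φ E (Rel 0) (famRel fun i : Fin k => Rel i.succ) (hRel 0) h1 r' hr' hr'0
    refine IrrDense.congr (splitE κ) (splitE ι) _ _ ?_ h2
    intro y
    obtain ⟨G, hG⟩ : ∃ G : FreeGroup ((Σ i, κ i) ⊕ (Σ i, ι i)) →*
        FreeGroup ((κ 0 ⊕ Σ i : Fin k, κ i.succ) ⊕ (ι 0 ⊕ Σ i : Fin k, ι i.succ)),
        G = renE (splitE κ).symm (splitE ι).symm := ⟨_, rfl⟩
    rw [← hG]
    have hz : ∀ p : κ 0 ⊕ ι 0, G (FreeGroup.of (incS 0 p)) = FreeGroup.of (inc₁ p) := by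
      rintro (p | p)
      · rw [hG, incS, Sum.map_inl, renE_inl, splitE_symm_zero]; rfl
      · rw [hG, incS, Sum.map_inr, renE_inr, splitE_symm_zero]; rfl
    have hs : ∀ (i : Fin k) (p : κ i.succ ⊕ ι i.succ), G (FreeGroup.of (incS i.succ p)) =
        FreeGroup.of (inc₂ (incS (κ := fun i => κ i.succ) (ι := fun i => ι i.succ) i p)) := by
      rintro i (p | p)
      · rw [hG, incS, Sum.map_inl, renE_inl, splitE_symm_succ]; rfl
      · rw [hG, incS, Sum.map_inr, renE_inr, splitE_symm_succ]; rfl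
    have hz' : ∀ w, G (FreeGroup.map (incS 0) w) = FreeGroup.map inc₁ w := by
      intro w
      have : G.comp (FreeGroup.map (incS 0)) = FreeGroup.map inc₁ := by
        apply FreeGroup.ext_hom
        intro p
        rw [MonoidHom.comp_apply, FreeGroup.map.of, FreeGroup.map.of, hz]
      exact DFunLike.congr_fun this w
    have hs' : ∀ (i : Fin k) w, G (FreeGroup.map (incS i.succ) w) =
        FreeGroup.map inc₂ (FreeGroup.map (incS (κ := fun i => κ i.succ)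
          (ι := fun i => ι i.succ) i) w) := by
      intro i w
      have : G.comp (FreeGroup.map (incS i.succ)) = (FreeGroup.map inc₂).comp
          (FreeGroup.map (incS (κ := fun i => κ i.succ) (ι := fun i => ι i.succ) i)) := by
        apply FreeGroup.ext_hom
        intro p
        rw [MonoidHom.comp_apply, MonoidHom.comp_apply, FreeGroup.map.of, FreeGroup.map.of,
          FreeGroup.map.of, hs]
      exact DFunLike.congr_fun this w
    constructor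
    · intro hy
      have hy1 : ∀ w ∈ Rel 0, y (FreeGroup.map inc₁ w) = 1 := fun w hw =>
        hy _ (Or.inl (Or.inl ⟨w, hw, rfl⟩))
      have hy2 : ∀ w ∈ famRel (fun i : Fin k => Rel i.succ), y (FreeGroup.map inc₂ w) = 1 :=
        fun w hw => hy _ (Or.inl (Or.inr ⟨w, hw, rfl⟩))
      have hy3 : ∀ (p : κ 0 ⊕ ι 0) (q : (Σ i : Fin k, κ i.succ) ⊕ (Σ i : Fin k, ι i.succ)),
          Commute (y (FreeGroup.of (inc₁ p))) (y (FreeGroup.of (inc₂ q))) := by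
        intro p q
        have := hy _ (Or.inr ⟨p, q, rfl⟩)
        rw [map_mul, map_mul, map_mul, map_inv, map_inv, mul_inv_eq_one, mul_inv_eq_iff_eq_mul]
          at this
        exact this
      rintro w (⟨i, v, hv, rfl⟩ | ⟨i, j, p, q, hij, rfl⟩)
      · induction i using Fin.cases with
        | zero => rw [hz']; exact hy1 v hv
        | succ i => rw [hs']; exact hy2 _ (Or.inl ⟨i, v, hv, rfl⟩)
      · suffices h : Commute (y (G (FreeGroup.of (incS i p)))) (y (G (FreeGroup.of (incS j q)))) by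
          rw [map_mul, map_mul, map_mul, map_inv, map_inv, map_mul, map_mul, map_mul, map_inv,
            map_inv, mul_inv_eq_one, mul_inv_eq_iff_eq_mul]
          exact h
        induction i using Fin.cases with
        | zero =>
          induction j using Fin.cases with
          | zero => exact absurd rfl hij
          | succ j => rw [hz, hs]; exact hy3 _ _
        | succ i =>
          induction j using Fin.cases with
          | zero => rw [hz, hs]; exact (hy3 _ _).symm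
          | succ j =>
            rw [hs, hs]
            have := hy2 _ (Or.inr ⟨i, j, p, q, fun h => hij (by rw [h]), rfl⟩)
            rw [map_mul, map_mul, map_mul, map_inv, map_inv, FreeGroup.map.of, FreeGroup.map.of,
              map_mul, map_mul, map_mul, map_inv, map_inv, mul_inv_eq_one,
              mul_inv_eq_iff_eq_mul] at this
            exact this
    · intro hy
      have hcm : ∀ (i j : Fin (k + 1)) (p : κ i ⊕ ι i) (q : κ j ⊕ ι j), i ≠ j →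
          Commute (y (G (FreeGroup.of (incS i p)))) (y (G (FreeGroup.of (incS j q)))) := by
        intro i j p q hij
        have := hy _ (Or.inr ⟨i, j, p, q, hij, rfl⟩)
        rw [map_mul, map_mul, map_mul, map_inv, map_inv, map_mul, map_mul, map_mul, map_inv,
          map_inv, mul_inv_eq_one, mul_inv_eq_iff_eq_mul] at this
        exact this
      rintro w ((⟨v, hv, rfl⟩ | ⟨v, hv, rfl⟩) | ⟨p, q, rfl⟩)
      · rw [← hz']
        exact hy _ (Or.inl ⟨0, v, hv, rfl⟩)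
      · rcases hv with ⟨i, v, hv, rfl⟩ | ⟨i, j, p, q, hij, rfl⟩
        · rw [← hs']
          exact hy _ (Or.inl ⟨i.succ, v, hv, rfl⟩)
        · have := hcm i.succ j.succ p q (fun h => hij (Fin.succ_injective k h))
          rw [hs, hs] at this
          rw [map_mul, map_mul, map_mul, map_inv, map_inv, FreeGroup.map.of, FreeGroup.map.of,
            map_mul, map_mul, map_mul, map_inv, map_inv, mul_inv_eq_one, mul_inv_eq_iff_eq_mul]
          exact this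
      · have hq : ∃ (j : Fin k) (q' : κ j.succ ⊕ ι j.succ),
            q = incS (κ := fun i => κ i.succ) (ι := fun i => ι i.succ) j q' := by
          rcases q with ⟨j, q⟩ | ⟨j, q⟩
          · exact ⟨j, Sum.inl q, rfl⟩
          · exact ⟨j, Sum.inr q, rfl⟩
        obtain ⟨j, q', rfl⟩ := hq
        have := hcm 0 j.succ p q' (Fin.succ_ne_zero j).symm
        rw [hz, hs] at this
        rw [map_mul, map_mul, map_mul, map_inv, map_inv, mul_inv_eq_one, mul_inv_eq_iff_eq_mul]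
        exact this

end Vale.Agent.P002R
end

section

/-!
# Density with a condition on the boundary classes: reducible representations and products
-/

namespace Vale.Agent.P002R

open Matrix

/-- A condition on the boundary classes which implies that the eigenvalues are in `E` and which is
inherited by blocks and by tensor factors. -/
structure ClassOK (E : Subgroup ℂˣ) (Q : ∀ r : ℕ, Mat r ℂ → Prop) : Prop where
  eig : ∀ {r : ℕ} {M : Mat r ℂ}, Q r M → EigIn E M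
  conj : ∀ {r : ℕ} {X Y : (Mat r ℂ)ˣ}, IsConj X Y → Q r (X : Mat r ℂ) → Q r (Y : Mat r ℂ)
  blk : ∀ {r r₁ r₂ : ℕ} {D : P002.Dec r r₁ r₂} {A : (Mat r₁ ℂ)ˣ} {B : (Mat r₂ ℂ)ˣ},
    Q r (blkU D (A, B) : Mat r ℂ) → Q r₁ (A : Mat r₁ ℂ) ∧ Q r₂ (B : Mat r₂ ℂ)
  kr₁ : ∀ {r r₁ r₂ : ℕ} {e : Fin r₁ × Fin r₂ ≃ Fin r} {A : Mat r₁ ℂ}, 0 < r₂ →
    Q r (kr e A (1 : Mat r₂ ℂ)) → Q r₁ A
  kr₂ : ∀ {r r₁ r₂ : ℕ} {e : Fin r₁ × Fin r₂ ≃ Fin r} {B : Mat r₂ ℂ}, 0 < r₁ →
    Q r (kr e (1 : Mat r₁ ℂ) B) → Q r₂ B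

/-- Irreducible representations of dimension `r` with boundary classes in `Q` are in the Zariski
closure of the irreducible integral ones (integral up to scalars), with the same classes. -/
def IrrDenseQ {κ ι : Type} (Q : ι → ∀ r : ℕ, Mat r ℂ → Prop) (Rel : Set (FreeGroup (κ ⊕ ι)))
    {R : Type*} [CommRing R] (φ : R →+* ℂ) (r : ℕ) : Prop :=
  ∀ C : ι → (Mat r ℂ)ˣ, (∀ j, Q j r (C j : Mat r ℂ)) → ∀ x ∈ YG Rel C,
    (∀ M : Mat r ℂ, (∀ w, Commute M (x w : Mat r ℂ)) → ∃ c : ℂ, M = c • (1 : Mat r ℂ)) →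
    ∀ f : MvPolynomial ((κ ⊕ ι) × Fin r × Fin r) ℂ, (∀ y ∈ DGT Rel φ C, evalG y f = 0) →
      evalG x f = 0

theorem IrrDense.toQ {κ ι : Type} {Q : ι → ∀ r : ℕ, Mat r ℂ → Prop}
    {Rel : Set (FreeGroup (κ ⊕ ι))} {R : Type*} [CommRing R] {φ : R →+* ℂ} {E : Subgroup ℂˣ}
    {r : ℕ} (hQ : ∀ j, ∀ M, Q j r M → EigIn E M) (h : IrrDense Rel φ E r) :
    IrrDenseQ Q Rel φ r :=
  fun C hC => h C fun j => hQ j _ (hC j)

/-- `M` has a cyclic vector. -/
def HasCyc (r : ℕ) (M : Mat r ℂ) : Prop :=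
  ∃ v : Fin r → ℂ, ∀ W : Submodule ℂ (Fin r → ℂ), v ∈ W → (∀ y ∈ W, M *ᵥ y ∈ W) → W = ⊤

theorem HasCyc.of_surj {r s : ℕ} {M : Mat r ℂ} {N : Mat s ℂ} (hM : HasCyc r M)
    (π : (Fin r → ℂ) →ₗ[ℂ] (Fin s → ℂ)) (hπ : Function.Surjective π)
    (h : ∀ x, π (M *ᵥ x) = N *ᵥ π x) : HasCyc s N := by
  obtain ⟨v, hv⟩ := hM
  refine ⟨π v, fun W hW hN => ?_⟩
  have h1 := hv (W.comap π) hW fun y hy => by
    rw [Submodule.mem_comap, h]
    exact hN _ hy
  rw [Submodule.eq_top_iff']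
  intro y
  obtain ⟨x, rfl⟩ := hπ y
  have h2 : x ∈ W.comap π := by
    rw [h1]
    trivial
  exact h2

section main

variable {κ ι : Type} {r : ℕ}

/-- Reducible representations, with a condition on the classes. -/
theorem partIVQ [Finite κ] {R : Type*} [CommRing R] (φ : R →+* ℂ) (E : Subgroup ℂˣ)
    {Q : ι → ∀ r : ℕ, Mat r ℂ → Prop} (hQ : ∀ j, ClassOK E (Q j))
    (hc : CoefOK' φ E r) (Rel : Set (FreeGroup (κ ⊕ ι))) (hchar : CharOK Rel)
    (hirr : ∀ r' ≤ r, 0 < r' → IrrDenseQ Q Rel φ r')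
    (C : ι → (Mat r ℂ)ˣ) (hC : ∀ j, Q j r (C j : Mat r ℂ))
    (x : FreeGroup (κ ⊕ ι) →* (Mat r ℂ)ˣ) (hx : x ∈ YG Rel C)
    (f : MvPolynomial ((κ ⊕ ι) × Fin r × Fin r) ℂ)
    (hf : ∀ y ∈ DG Rel φ C, evalG y f = 0) : evalG x f = 0 := by
  induction r using Nat.strong_induction_on with
  | _ r ih =>
  rcases Nat.eq_zero_or_pos r with rfl | hr0
  · refine hf x ⟨hx, fun k => ?_⟩
    have h1 : x (FreeGroup.of k) = 1 := by
      apply Units.ext
      exact Subsingleton.elim _ _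
    rw [h1]
    exact (GR 0 φ).one_mem
  by_cases hcen : ∀ M : Mat r ℂ, (∀ w, Commute M (x w : Mat r ℂ)) →
      ∃ c : ℂ, M = c • (1 : Mat r ℂ)
  · exact hirr r le_rfl hr0 C hC x hx hcen f fun y hy => hf y hy.1
  push Not at hcen
  obtain ⟨M, hM, hMs⟩ := hcen
  obtain ⟨hrel, hconj, hss⟩ := hx
  obtain ⟨u, hu⟩ := hc.unit
  have hu' : ∀ k : ℕ, 0 < k → φ (u : R) ^ k ≠ 1 := by
    intro k hk h1
    apply hu k hk
    have h2 : Units.map (φ : R →* ℂ) u ^ k = 1 := by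
      apply Units.ext
      rw [Units.val_pow_eq_pow_val, Units.val_one]
      exact h1
    rw [h2]
    exact E.one_mem
  have : Nonempty (Fin r) := ⟨⟨0, hr0⟩⟩
  obtain ⟨μ, hμM⟩ := Module.End.exists_eigenvalue (Matrix.mulVecLin M)
  let E₁ : Submodule ℂ (Fin r → ℂ) := Module.End.eigenspace (Matrix.mulVecLin M) μ
  have hE1 : E₁ ≠ ⊥ := hμM
  have hE1' : E₁ ≠ ⊤ := by
    intro htop
    apply hMs μ
    ext i j
    have hm : (Pi.single j 1 : Fin r → ℂ) ∈ E₁ := by rw [htop]; trivial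
    rw [Module.End.mem_eigenspace_iff, Matrix.mulVecLin_apply] at hm
    have := congrFun hm i
    simpa only [Matrix.smul_apply, Matrix.one_apply, smul_eq_mul, mul_ite, mul_one, mul_zero, mulVec_single,     MulOpposite.op_one, Pi.smul_apply, col_apply, one_smul, Pi.single_apply] using this
  have hinv1 : P002.InvS x E₁ := by
    intro w v hv
    rw [Module.End.mem_eigenspace_iff, Matrix.mulVecLin_apply] at hv ⊢
    rw [mulVec_mulVec, (hM w).eq, ← mulVec_mulVec, hv, mulVec_smul]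
  obtain ⟨E₂, hinv2, hcompl⟩ := hss E₁ hinv1
  obtain ⟨D, hD1, hD2⟩ := P002.exists_dec E₁ E₂ hcompl
  have hsum : Module.finrank ℂ E₁ + Module.finrank ℂ E₂ = r := by
    rw [Submodule.finrank_add_eq_of_isCompl hcompl]
    simp only [Module.finrank_fintype_fun_eq_card, Fintype.card_fin]
  have hlt1 : Module.finrank ℂ E₁ < r := by
    have := Submodule.finrank_lt hE1'
    simpa only [gt_iff_lt, Module.finrank_fintype_fun_eq_card, Fintype.card_fin] using this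
  have hpos1 : 0 < Module.finrank ℂ E₁ := by
    rw [Module.finrank_pos_iff]
    exact Submodule.nontrivial_iff_ne_bot.mpr hE1
  have hlt2 : Module.finrank ℂ E₂ < r := by omega
  have hpos2 : 0 < Module.finrank ℂ E₂ := by omega
  have hm1 : ∀ w, (x w : Mat r ℂ) * D.P₁ = D.P₁ * (D.Q₁ * (x w : Mat r ℂ) * D.P₁) := by
    intro w
    apply D.mul_P₁
    rw [hD1]
    exact hinv1 w
  have hm2 : ∀ w, (x w : Mat r ℂ) * D.P₂ = D.P₂ * (D.Q₂ * (x w : Mat r ℂ) * D.P₂) := by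
    intro w
    apply D.mul_P₂
    rw [hD2]
    exact hinv2 w
  set x₁ := P002.compr x D.P₁ D.Q₁ D.h11 hm1 with hx1
  set x₂ := P002.compr x D.P₂ D.Q₂ D.h22 hm2 with hx2
  have hs1 : SS x₁ := P002.compr_ss x hss _ _ _ _
  have hs2 : SS x₂ := P002.compr_ss x hss _ _ _ _
  have hrel1 : ∀ w ∈ Rel, x₁ w = 1 := by
    intro w hw
    apply Units.ext
    rw [hx1, P002.compr_apply, hrel w hw]
    simp [D.h11]
  have hrel2 : ∀ w ∈ Rel, x₂ w = 1 := by
    intro w hw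
    apply Units.ext
    rw [hx2, P002.compr_apply, hrel w hw]
    simp [D.h22]
  have hblk : ∀ w, (x w : Mat r ℂ) = D.blk (x₁ w : Mat _ ℂ) (x₂ w : Mat _ ℂ) := by
    intro w
    rw [P002.Dec.blk_complex, hx1, hx2, P002.compr_apply, P002.compr_apply, ← hm1, ← hm2,
      Matrix.mul_assoc, Matrix.mul_assoc, ← Matrix.mul_add, D.hs, Matrix.mul_one]
  -- the boundary classes of the pieces
  let C₁ : ι → (Mat (Module.finrank ℂ E₁) ℂ)ˣ := fun j => x₁ (FreeGroup.of (Sum.inr j))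
  let C₂ : ι → (Mat (Module.finrank ℂ E₂) ℂ)ˣ := fun j => x₂ (FreeGroup.of (Sum.inr j))
  have hCblk : ∀ j, IsConj (C j) (blkU D (C₁ j, C₂ j)) := by
    intro j
    have : blkU D (C₁ j, C₂ j) = x (FreeGroup.of (Sum.inr j)) := by
      apply Units.ext
      rw [blkU_coe, hblk]
    rw [this]
    exact hconj j
  have heig : ∀ j, Q j _ (C₁ j : Mat (Module.finrank ℂ E₁) ℂ) ∧
      Q j _ (C₂ j : Mat (Module.finrank ℂ E₂) ℂ) := fun j =>
    (hQ j).blk ((hQ j).conj (hCblk j) (hC j))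
  have hY1 : x₁ ∈ YG Rel C₁ := ⟨hrel1, fun j => IsConj.refl _, hs1⟩
  have hY2 : x₂ ∈ YG Rel C₂ := ⟨hrel2, fun j => IsConj.refl _, hs2⟩
  have step1 : ∀ y₂ ∈ DG Rel φ C₂,
      evK (fun k => D.blk (x₁ (FreeGroup.of k) : Mat _ ℂ) (y₂ (FreeGroup.of k) : Mat _ ℂ)) f
        = 0 := by
    intro y₂ hy₂
    obtain ⟨f₁, hf₁⟩ := exists_poly₁ D f (fun k => (y₂ (FreeGroup.of k) : Mat _ ℂ))
    rw [← hf₁]
    refine ih _ hlt1 (hc.mono hlt1.le)
      (fun r' hr' => hirr r' (hr'.trans hlt1.le)) C₁ (fun j => (heig j).1) x₁ hY1 f₁ ?_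
    intro y₁ hy₁
    rw [hf₁]
    exact two_block_DG φ u hu'
      { hc := hc, hchar := hchar, hr1 := hpos1, hr2 := hpos2, hr := hsum, C₁ := C₁, C₂ := C₂,
        D₀ := D, hC := hCblk, nC₁ := fun j => (hQ j).eig (heig j).1,
        nC₂ := fun j => (hQ j).eig (heig j).2, y₁ := y₁,
        y₂ := y₂, h₁ := hy₁, h₂ := hy₂ } D f hf
  have step2 : evK (fun k => D.blk (x₁ (FreeGroup.of k) : Mat _ ℂ)
      (x₂ (FreeGroup.of k) : Mat _ ℂ)) f = 0 := by
    obtain ⟨f₂, hf₂⟩ := exists_poly₂ D f (fun k => (x₁ (FreeGroup.of k) : Mat _ ℂ))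
    rw [← hf₂]
    refine ih _ hlt2 (hc.mono hlt2.le)
      (fun r' hr' => hirr r' (hr'.trans hlt2.le)) C₂ (fun j => (heig j).2) x₂ hY2 f₂ ?_
    intro y₂ hy₂
    rw [hf₂]
    exact step1 y₂ hy₂
  rw [evalG_eq_evK]
  refine Eq.trans (congrArg (fun X => evK X f) (funext fun k => ?_)) step2
  exact hblk _

end main

section prod

variable {κ₁ ι₁ κ₂ ι₂ : Type} {r r₁ r₂ : ℕ}

/-- Density for tensor products, first factor. -/
theorem ten_dense₁Q {R : Type*} [CommRing R] (φ : R →+* ℂ)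
    {Q₁ : ι₁ → ∀ r : ℕ, Mat r ℂ → Prop} (Rel₁ : Set (FreeGroup (κ₁ ⊕ ι₁)))
    {n : ℕ} (h₁ : IrrDenseQ Q₁ Rel₁ φ r₁) (e : Fin r₁ × Fin r₂ ≃ Fin n) (P : (Mat n ℂ)ˣ)
    (z₁ : FreeGroup (κ₁ ⊕ ι₁) →* (Mat r₁ ℂ)ˣ) (y₂ : FreeGroup (κ₂ ⊕ ι₂) →* (Mat r₂ ℂ)ˣ)
    (ht₁ : Algebra.adjoin ℂ (Set.range fun w => (z₁ w : Mat r₁ ℂ)) = ⊤)
    (C₁ : ι₁ → (Mat r₁ ℂ)ˣ) (hE₁ : ∀ j, Q₁ j r₁ (C₁ j : Mat r₁ ℂ)) (hY₁ : z₁ ∈ YG Rel₁ C₁)
    (f : MvPolynomial (((κ₁ ⊕ κ₂) ⊕ (ι₁ ⊕ ι₂)) × Fin n × Fin n) ℂ)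
    (hf : ∀ y₁ ∈ DGT Rel₁ φ C₁, evalG (conjH P (ten e y₁ y₂)) f = 0) :
    evalG (conjH P (ten e z₁ y₂)) f = 0 := by
  obtain ⟨f₁, hf₁⟩ := exists_polyT₁ e (P : Mat n ℂ) ((P⁻¹ : (Mat n ℂ)ˣ) : Mat n ℂ) f
    (fun k => (y₂ (FreeGroup.of k) : Mat r₂ ℂ))
  rw [evalG_conjH_ten, ← hf₁]
  refine h₁ C₁ hE₁ z₁ hY₁ (fun M hM => scalar_of_adjoin z₁ ht₁ M hM) f₁ ?_
  intro y₁ hy₁
  rw [hf₁, ← evalG_conjH_ten]
  exact hf y₁ hy₁

/-- Density for tensor products, second factor. -/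
theorem ten_dense₂Q {R : Type*} [CommRing R] (φ : R →+* ℂ)
    {Q₂ : ι₂ → ∀ r : ℕ, Mat r ℂ → Prop} (Rel₂ : Set (FreeGroup (κ₂ ⊕ ι₂)))
    {n : ℕ} (h₂ : IrrDenseQ Q₂ Rel₂ φ r₂) (e : Fin r₁ × Fin r₂ ≃ Fin n) (P : (Mat n ℂ)ˣ)
    (y₁ : FreeGroup (κ₁ ⊕ ι₁) →* (Mat r₁ ℂ)ˣ) (z₂ : FreeGroup (κ₂ ⊕ ι₂) →* (Mat r₂ ℂ)ˣ)
    (ht₂ : Algebra.adjoin ℂ (Set.range fun w => (z₂ w : Mat r₂ ℂ)) = ⊤)
    (C₂ : ι₂ → (Mat r₂ ℂ)ˣ) (hE₂ : ∀ j, Q₂ j r₂ (C₂ j : Mat r₂ ℂ)) (hY₂ : z₂ ∈ YG Rel₂ C₂)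
    (f : MvPolynomial (((κ₁ ⊕ κ₂) ⊕ (ι₁ ⊕ ι₂)) × Fin n × Fin n) ℂ)
    (hf : ∀ y₂ ∈ DGT Rel₂ φ C₂, evalG (conjH P (ten e y₁ y₂)) f = 0) :
    evalG (conjH P (ten e y₁ z₂)) f = 0 := by
  obtain ⟨f₂, hf₂⟩ := exists_polyT₂ e (P : Mat n ℂ) ((P⁻¹ : (Mat n ℂ)ˣ) : Mat n ℂ) f
    (fun k => (y₁ (FreeGroup.of k) : Mat r₁ ℂ))
  rw [evalG_conjH_ten, ← hf₂]
  refine h₂ C₂ hE₂ z₂ hY₂ (fun M hM => scalar_of_adjoin z₂ ht₂ M hM) f₂ ?_
  intro y₂ hy₂
  rw [hf₂, ← evalG_conjH_ten]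
  exact hf y₂ hy₂

/-- Density for tensor products. -/
theorem ten_denseQ {R : Type*} [CommRing R] (φ : R →+* ℂ) (E : Subgroup ℂˣ)
    {Q₁ : ι₁ → ∀ r : ℕ, Mat r ℂ → Prop} {Q₂ : ι₂ → ∀ r : ℕ, Mat r ℂ → Prop}
    (hQ₁ : ∀ j, ClassOK E (Q₁ j)) (hQ₂ : ∀ j, ClassOK E (Q₂ j))
    (Rel₁ : Set (FreeGroup (κ₁ ⊕ ι₁))) (Rel₂ : Set (FreeGroup (κ₂ ⊕ ι₂)))
    {n : ℕ} (h₁ : IrrDenseQ Q₁ Rel₁ φ r₁) (h₂ : IrrDenseQ Q₂ Rel₂ φ r₂)
    (hr₁ : 0 < r₁) (hr₂ : 0 < r₂) (e : Fin r₁ × Fin r₂ ≃ Fin n) (P : (Mat n ℂ)ˣ)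
    (z₁ : FreeGroup (κ₁ ⊕ ι₁) →* (Mat r₁ ℂ)ˣ) (z₂ : FreeGroup (κ₂ ⊕ ι₂) →* (Mat r₂ ℂ)ˣ)
    (ht₁ : Algebra.adjoin ℂ (Set.range fun w => (z₁ w : Mat r₁ ℂ)) = ⊤)
    (ht₂ : Algebra.adjoin ℂ (Set.range fun w => (z₂ w : Mat r₂ ℂ)) = ⊤)
    (hz₁ : ∀ w ∈ Rel₁, z₁ w = 1) (hz₂ : ∀ w ∈ Rel₂, z₂ w = 1)
    (C : ι₁ ⊕ ι₂ → (Mat n ℂ)ˣ) (hC : ∀ j, Sum.elim Q₁ Q₂ j n (C j : Mat n ℂ))
    (hconj : ∀ j, IsConj (C j) (conjH P (ten e z₁ z₂) (FreeGroup.of (Sum.inr j))))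
    (f : MvPolynomial (((κ₁ ⊕ κ₂) ⊕ (ι₁ ⊕ ι₂)) × Fin n × Fin n) ℂ)
    (hf : ∀ y ∈ DGT (prodRel Rel₁ Rel₂) φ C, evalG y f = 0) :
    evalG (conjH P (ten e z₁ z₂)) f = 0 := by
  obtain ⟨C₁, hC₁⟩ : ∃ C₁ : ι₁ → (Mat r₁ ℂ)ˣ, ∀ j, C₁ j = z₁ (FreeGroup.of (Sum.inr j)) :=
    ⟨_, fun j => rfl⟩
  obtain ⟨C₂, hC₂⟩ : ∃ C₂ : ι₂ → (Mat r₂ ℂ)ˣ, ∀ j, C₂ j = z₂ (FreeGroup.of (Sum.inr j)) :=
    ⟨_, fun j => rfl⟩
  have hCC₁ : ∀ j, IsConj (C (Sum.inl j)) (krU₁ e (C₁ j)) := fun j => by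
    rw [hC₁]
    exact (hconj (Sum.inl j)).trans (conj_boundary₁ e P z₁ z₂ j)
  have hCC₂ : ∀ j, IsConj (C (Sum.inr j)) (krU₂ e (C₂ j)) := fun j => by
    rw [hC₂]
    exact (hconj (Sum.inr j)).trans (conj_boundary₂ e P z₁ z₂ j)
  have hE₁ : ∀ j, Q₁ j r₁ (C₁ j : Mat r₁ ℂ) := by
    intro j
    have h := (hQ₁ j).conj (hCC₁ j) (hC (Sum.inl j))
    rw [krU₁_coe] at h
    exact (hQ₁ j).kr₁ hr₂ h
  have hE₂ : ∀ j, Q₂ j r₂ (C₂ j : Mat r₂ ℂ) := by
    intro j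
    have h := (hQ₂ j).conj (hCC₂ j) (hC (Sum.inr j))
    rw [krU₂_coe] at h
    exact (hQ₂ j).kr₂ hr₁ h
  have hY₁ : z₁ ∈ YG Rel₁ C₁ :=
    ⟨hz₁, fun j => by rw [hC₁], ss_of_adjoin z₁ ht₁⟩
  have hY₂ : z₂ ∈ YG Rel₂ C₂ :=
    ⟨hz₂, fun j => by rw [hC₂], ss_of_adjoin z₂ ht₂⟩
  refine ten_dense₂Q φ Rel₂ h₂ e P z₁ z₂ ht₂ C₂ hE₂ hY₂ f fun y₂ hy₂ => ?_
  refine ten_dense₁Q φ Rel₁ h₁ e P z₁ y₂ ht₁ C₁ hE₁ hY₁ f fun y₁ hy₁ => ?_
  exact conj_vanish_DGT φ f hf (ten e y₁ y₂) (ten_mem_DGT φ e hCC₁ hCC₂ hy₁ hy₂) P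

/-- Irreducible representations of a product. -/
theorem prod_irrDenseQ {R : Type*} [CommRing R] (φ : R →+* ℂ) (E : Subgroup ℂˣ)
    {Q₁ : ι₁ → ∀ r : ℕ, Mat r ℂ → Prop} {Q₂ : ι₂ → ∀ r : ℕ, Mat r ℂ → Prop}
    (hQ₁ : ∀ j, ClassOK E (Q₁ j)) (hQ₂ : ∀ j, ClassOK E (Q₂ j))
    (Rel₁ : Set (FreeGroup (κ₁ ⊕ ι₁))) (Rel₂ : Set (FreeGroup (κ₂ ⊕ ι₂)))
    (h₁ : ∀ r' ≤ r, 0 < r' → IrrDenseQ Q₁ Rel₁ φ r')
    (h₂ : ∀ r' ≤ r, 0 < r' → IrrDenseQ Q₂ Rel₂ φ r') :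
    ∀ r' ≤ r, 0 < r' → IrrDenseQ (Sum.elim Q₁ Q₂) (prodRel Rel₁ Rel₂) φ r' := by
  intro n hn hpos C hC x hx hcen f hf
  have hxtop := burnside_top x hx.2.2 hcen
  obtain ⟨r₁, r₂, e, P, z₁, z₂, hr₁, hr₂, ht₁, ht₂, hz₁, hz₂, rfl⟩ :=
    exists_ten hpos x hx.1 hxtop
  have hcard : r₁ * r₂ = n := by
    have := Fintype.card_congr e
    simpa only [Fintype.card_prod, Fintype.card_fin] using this
  have hle₁ : r₁ ≤ r := le_trans (by rw [← hcard]; exact Nat.le_mul_of_pos_right _ hr₂) hn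
  have hle₂ : r₂ ≤ r := le_trans (by rw [← hcard]; exact Nat.le_mul_of_pos_left _ hr₁) hn
  exact ten_denseQ φ E hQ₁ hQ₂ Rel₁ Rel₂ (h₁ r₁ hle₁ hr₁) (h₂ r₂ hle₂ hr₂) hr₁ hr₂ e P z₁ z₂ ht₁ ht₂
    hz₁ hz₂ C hC hx.2.1 f hf

end prod

section equiv

variable {κ ι κ' ι' : Type} {r : ℕ}

/-- Invariance under renaming of the generators and change of the relators. -/
theorem IrrDenseQ.congr (e₁ : κ ≃ κ') (e₂ : ι ≃ ι') {R : Type*} [CommRing R] {φ : R →+* ℂ}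
    {Q : ι → ∀ r : ℕ, Mat r ℂ → Prop} {Q' : ι' → ∀ r : ℕ, Mat r ℂ → Prop}
    (hQ : ∀ j M, Q' j r M → Q (e₂.symm j) r M) (Rel : Set (FreeGroup (κ ⊕ ι))) (Rel' : Set (FreeGroup (κ' ⊕ ι')))
    (h : ∀ y : FreeGroup (κ ⊕ ι) →* (Mat r ℂ)ˣ, (∀ w ∈ Rel, y w = 1) ↔
      ∀ w ∈ Rel', y (renE e₁.symm e₂.symm w) = 1)
    (hI : IrrDenseQ Q Rel φ r) : IrrDenseQ Q' Rel' φ r := by
  intro C' hC' x' hx' hirr f' hf'
  rw [← evalG_renE e₁ e₂ x' f']
  refine hI (C' ∘ e₂) (fun j => by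
    have h1 := hQ (e₂ j) _ (hC' (e₂ j))
    rwa [Equiv.symm_apply_apply] at h1) (x'.comp (renE e₁ e₂)) ?_ ?_ _ ?_
  · refine ⟨(h _).2 fun w hw => ?_, fun j => ?_, hx'.2.2.renE e₁ e₂⟩
    · rw [MonoidHom.comp_apply, renE_symm']
      exact hx'.1 w hw
    · rw [MonoidHom.comp_apply, renE_inr]
      exact hx'.2.1 _
  · intro M hM
    refine hirr M fun w => ?_
    have := hM (renE e₁.symm e₂.symm w)
    rwa [MonoidHom.comp_apply, renE_symm'] at this
  · intro y hy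
    have h1 := hf' _ (mem_DGT_renE e₁ e₂ φ Rel Rel' (fun y hy => (h y).1 hy) C' y hy)
    have h2 := evalG_renE e₁ e₂ (y.comp (renE e₁.symm e₂.symm)) f'
    have h3 : (y.comp (renE e₁.symm e₂.symm)).comp (renE e₁ e₂) = y := by
      ext1 w
      simp only [MonoidHom.comp_apply, renE_symm]
    rw [h3] at h2
    rw [h2, h1]

end equiv

/-- Representations without generators. -/
theorem irrDenseQ_of_isEmpty {κ ι : Type} [IsEmpty κ] [IsEmpty ι] {r : ℕ}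
    {R : Type*} [CommRing R] (φ : R →+* ℂ) (Q : ι → ∀ r : ℕ, Mat r ℂ → Prop)
    (Rel : Set (FreeGroup (κ ⊕ ι))) : IrrDenseQ Q Rel φ r := by
  intro C _ x hx hirr f hf
  exact hf x ⟨⟨hx, fun k => by rcases k with k | k <;> exact isEmptyElim k⟩,
    burnside_top x hx.2.2 hirr⟩

theorem fam_irrDenseQ {R : Type*} [CommRing R] (φ : R →+* ℂ) (E : Subgroup ℂˣ) (r : ℕ) (k : ℕ) :
    ∀ (κ ι : Fin k → Type) (Q : ∀ i, ι i → ∀ r : ℕ, Mat r ℂ → Prop)
      (_ : ∀ i j, ClassOK E (Q i j)) (Rel : ∀ i, Set (FreeGroup (κ i ⊕ ι i))),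
      (∀ i, ∀ r' ≤ r, 0 < r' → IrrDenseQ (Q i) (Rel i) φ r') →
      ∀ r' ≤ r, 0 < r' → IrrDenseQ (fun p : Σ i, ι i => Q p.1 p.2) (famRel Rel) φ r' := by
  induction k with
  | zero =>
    intro κ ι Q _ Rel _ r' _ _
    have : IsEmpty (Σ i, κ i) := ⟨fun p => p.1.elim0⟩
    have : IsEmpty (Σ i, ι i) := ⟨fun p => p.1.elim0⟩
    exact irrDenseQ_of_isEmpty φ _ _
  | succ k ih =>
    intro κ ι Q hQ Rel hRel r' hr' hr'0
    have h1 := ih (fun i => κ i.succ) (fun i => ι i.succ) (fun i => Q i.succ)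
      (fun i => hQ i.succ) (fun i => Rel i.succ) (fun i => hRel i.succ)
    have h2 := prod_irrDenseQ φ E (hQ 0) (fun p : Σ i : Fin k, ι i.succ => hQ p.1.succ p.2)
      (Rel 0) (famRel fun i : Fin k => Rel i.succ) (hRel 0) h1 r' hr' hr'0
    refine IrrDenseQ.congr (splitE κ) (splitE ι) (fun j M hM => ?_) _ _ ?_ h2
    · obtain ⟨j', rfl⟩ := (splitE ι).surjective j
      rw [Equiv.symm_apply_apply]
      rcases j' with j' | ⟨i, j'⟩
      · exact hM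
      · exact hM
    intro y
    obtain ⟨G, hG⟩ : ∃ G : FreeGroup ((Σ i, κ i) ⊕ (Σ i, ι i)) →*
        FreeGroup ((κ 0 ⊕ Σ i : Fin k, κ i.succ) ⊕ (ι 0 ⊕ Σ i : Fin k, ι i.succ)),
        G = renE (splitE κ).symm (splitE ι).symm := ⟨_, rfl⟩
    rw [← hG]
    have hz : ∀ p : κ 0 ⊕ ι 0, G (FreeGroup.of (incS 0 p)) = FreeGroup.of (inc₁ p) := by
      rintro (p | p)
      · rw [hG, incS, Sum.map_inl, renE_inl, splitE_symm_zero]; rfl
      · rw [hG, incS, Sum.map_inr, renE_inr, splitE_symm_zero]; rfl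
    have hs : ∀ (i : Fin k) (p : κ i.succ ⊕ ι i.succ), G (FreeGroup.of (incS i.succ p)) =
        FreeGroup.of (inc₂ (incS (κ := fun i => κ i.succ) (ι := fun i => ι i.succ) i p)) := by
      rintro i (p | p)
      · rw [hG, incS, Sum.map_inl, renE_inl, splitE_symm_succ]; rfl
      · rw [hG, incS, Sum.map_inr, renE_inr, splitE_symm_succ]; rfl
    have hz' : ∀ w, G (FreeGroup.map (incS 0) w) = FreeGroup.map inc₁ w := by
      intro w
      have : G.comp (FreeGroup.map (incS 0)) = FreeGroup.map inc₁ := by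
        apply FreeGroup.ext_hom
        intro p
        rw [MonoidHom.comp_apply, FreeGroup.map.of, FreeGroup.map.of, hz]
      exact DFunLike.congr_fun this w
    have hs' : ∀ (i : Fin k) w, G (FreeGroup.map (incS i.succ) w) =
        FreeGroup.map inc₂ (FreeGroup.map (incS (κ := fun i => κ i.succ)
          (ι := fun i => ι i.succ) i) w) := by
      intro i w
      have : G.comp (FreeGroup.map (incS i.succ)) = (FreeGroup.map inc₂).comp
          (FreeGroup.map (incS (κ := fun i => κ i.succ) (ι := fun i => ι i.succ) i)) := by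
        apply FreeGroup.ext_hom
        intro p
        rw [MonoidHom.comp_apply, MonoidHom.comp_apply, FreeGroup.map.of, FreeGroup.map.of,
          FreeGroup.map.of, hs]
      exact DFunLike.congr_fun this w
    constructor
    · intro hy
      have hy1 : ∀ w ∈ Rel 0, y (FreeGroup.map inc₁ w) = 1 := fun w hw =>
        hy _ (Or.inl (Or.inl ⟨w, hw, rfl⟩))
      have hy2 : ∀ w ∈ famRel (fun i : Fin k => Rel i.succ), y (FreeGroup.map inc₂ w) = 1 :=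
        fun w hw => hy _ (Or.inl (Or.inr ⟨w, hw, rfl⟩))
      have hy3 : ∀ (p : κ 0 ⊕ ι 0) (q : (Σ i : Fin k, κ i.succ) ⊕ (Σ i : Fin k, ι i.succ)),
          Commute (y (FreeGroup.of (inc₁ p))) (y (FreeGroup.of (inc₂ q))) := by
        intro p q
        have := hy _ (Or.inr ⟨p, q, rfl⟩)
        rw [map_mul, map_mul, map_mul, map_inv, map_inv, mul_inv_eq_one, mul_inv_eq_iff_eq_mul]
          at this
        exact this
      rintro w (⟨i, v, hv, rfl⟩ | ⟨i, j, p, q, hij, rfl⟩)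
      · induction i using Fin.cases with
        | zero => rw [hz']; exact hy1 v hv
        | succ i => rw [hs']; exact hy2 _ (Or.inl ⟨i, v, hv, rfl⟩)
      · suffices h : Commute (y (G (FreeGroup.of (incS i p)))) (y (G (FreeGroup.of (incS j q)))) by
          rw [map_mul, map_mul, map_mul, map_inv, map_inv, map_mul, map_mul, map_mul, map_inv,
            map_inv, mul_inv_eq_one, mul_inv_eq_iff_eq_mul]
          exact h
        induction i using Fin.cases with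
        | zero =>
          induction j using Fin.cases with
          | zero => exact absurd rfl hij
          | succ j => rw [hz, hs]; exact hy3 _ _
        | succ i =>
          induction j using Fin.cases with
          | zero => rw [hz, hs]; exact (hy3 _ _).symm
          | succ j =>
            rw [hs, hs]
            have := hy2 _ (Or.inr ⟨i, j, p, q, fun h => hij (by rw [h]), rfl⟩)
            rw [map_mul, map_mul, map_mul, map_inv, map_inv, FreeGroup.map.of, FreeGroup.map.of,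
              map_mul, map_mul, map_mul, map_inv, map_inv, mul_inv_eq_one,
              mul_inv_eq_iff_eq_mul] at this
            exact this
    · intro hy
      have hcm : ∀ (i j : Fin (k + 1)) (p : κ i ⊕ ι i) (q : κ j ⊕ ι j), i ≠ j →
          Commute (y (G (FreeGroup.of (incS i p)))) (y (G (FreeGroup.of (incS j q)))) := by
        intro i j p q hij
        have := hy _ (Or.inr ⟨i, j, p, q, hij, rfl⟩)
        rw [map_mul, map_mul, map_mul, map_inv, map_inv, map_mul, map_mul, map_mul, map_inv,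
          map_inv, mul_inv_eq_one, mul_inv_eq_iff_eq_mul] at this
        exact this
      rintro w ((⟨v, hv, rfl⟩ | ⟨v, hv, rfl⟩) | ⟨p, q, rfl⟩)
      · rw [← hz']
        exact hy _ (Or.inl ⟨0, v, hv, rfl⟩)
      · rcases hv with ⟨i, v, hv, rfl⟩ | ⟨i, j, p, q, hij, rfl⟩
        · rw [← hs']
          exact hy _ (Or.inl ⟨i.succ, v, hv, rfl⟩)
        · have := hcm i.succ j.succ p q (fun h => hij (Fin.succ_injective k h))
          rw [hs, hs] at this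
          rw [map_mul, map_mul, map_mul, map_inv, map_inv, FreeGroup.map.of, FreeGroup.map.of,
            map_mul, map_mul, map_mul, map_inv, map_inv, mul_inv_eq_one, mul_inv_eq_iff_eq_mul]
          exact this
      · have hq : ∃ (j : Fin k) (q' : κ j.succ ⊕ ι j.succ),
            q = incS (κ := fun i => κ i.succ) (ι := fun i => ι i.succ) j q' := by
          rcases q with ⟨j, q⟩ | ⟨j, q⟩
          · exact ⟨j, Sum.inl q, rfl⟩
          · exact ⟨j, Sum.inr q, rfl⟩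
        obtain ⟨j, q', rfl⟩ := hq
        have := hcm 0 j.succ p q' (Fin.succ_ne_zero j).symm
        rw [hz, hs] at this
        rw [map_mul, map_mul, map_mul, map_inv, map_inv, mul_inv_eq_one, mul_inv_eq_iff_eq_mul]
        exact this

end Vale.Agent.P002R
end

section

/-!
# Classes of the form scalar plus rank at most one
-/

namespace Vale.Agent.P002R

open Matrix

/-- `M` is a scalar matrix plus a matrix of rank at most one. -/
def RO (r : ℕ) (M : Mat r ℂ) : Prop := ∃ z : ℂ, (M - z • (1 : Mat r ℂ)).rank ≤ 1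

theorem RO.of_surj {r s : ℕ} {M : Mat r ℂ} {N : Mat s ℂ} (hM : RO r M)
    (π : (Fin r → ℂ) →ₗ[ℂ] (Fin s → ℂ)) (hπ : Function.Surjective π)
    (h : ∀ x, π (M *ᵥ x) = N *ᵥ π x) : RO s N := by
  obtain ⟨z, hz⟩ := hM
  refine ⟨z, le_trans ?_ hz⟩
  rw [Matrix.rank, Matrix.rank]
  have h1 : LinearMap.range (N - z • (1 : Mat s ℂ)).mulVecLin ≤
      (LinearMap.range (M - z • (1 : Mat r ℂ)).mulVecLin).map π := by
    rintro _ ⟨y, rfl⟩
    obtain ⟨x, rfl⟩ := hπ y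
    refine ⟨(M - z • (1 : Mat r ℂ)) *ᵥ x, ⟨x, rfl⟩, ?_⟩
    rw [Matrix.mulVecLin_apply, Matrix.sub_mulVec, Matrix.sub_mulVec, map_sub, h,
      Matrix.smul_mulVec, Matrix.smul_mulVec, Matrix.one_mulVec, Matrix.one_mulVec, map_smul]
  exact (Submodule.finrank_mono h1).trans (Submodule.finrank_map_le _ _)

/-- Conditions which are inherited by quotients. -/
theorem classOK_of_surj (E : Subgroup ℂˣ) (H : ∀ r : ℕ, Mat r ℂ → Prop)
    (hH : ∀ {r s : ℕ} {M : Mat r ℂ} {N : Mat s ℂ}, H r M →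
      ∀ π : (Fin r → ℂ) →ₗ[ℂ] (Fin s → ℂ), Function.Surjective π →
      (∀ x, π (M *ᵥ x) = N *ᵥ π x) → H s N) :
    ClassOK E fun r M => EigIn E M ∧ H r M where
  eig := fun h => h.1
  conj := fun {r X Y} h hX => by
    refine ⟨hX.1.conj h, ?_⟩
    obtain ⟨U, rfl⟩ := isConj_iff.mp h
    refine hH hX.2 (Matrix.mulVecLin (U : Mat r ℂ)) ?_ fun x => ?_
    · intro y
      refine ⟨((U⁻¹ : (Mat r ℂ)ˣ) : Mat r ℂ) *ᵥ y, ?_⟩
      rw [Matrix.mulVecLin_apply, mulVec_mulVec, Units.mul_inv, one_mulVec]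
    · rw [Matrix.mulVecLin_apply, Matrix.mulVecLin_apply, Units.val_mul, Units.val_mul,
        mulVec_mulVec, mulVec_mulVec, Matrix.mul_assoc, Units.inv_mul, Matrix.mul_one]
  blk := fun {r r₁ r₂ D A B} h => by
    rw [blkU_coe] at h
    refine ⟨⟨(EigIn.blk (by rw [blkU_coe]; exact h.1)).1, ?_⟩,
      ⟨(EigIn.blk (by rw [blkU_coe]; exact h.1)).2, ?_⟩⟩
    · refine hH h.2 (Matrix.mulVecLin D.Q₁) (fun y => ⟨D.P₁ *ᵥ y, ?_⟩) fun x => ?_
      · rw [Matrix.mulVecLin_apply, mulVec_mulVec, D.h11, one_mulVec]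
      · rw [Matrix.mulVecLin_apply, Matrix.mulVecLin_apply, mulVec_mulVec, mulVec_mulVec,
          P002.Dec.blk_complex, Matrix.mul_add, ← Matrix.mul_assoc, ← Matrix.mul_assoc,
          ← Matrix.mul_assoc, ← Matrix.mul_assoc, D.h11, D.h12, Matrix.one_mul, Matrix.zero_mul,
          Matrix.zero_mul, add_zero]
    · refine hH h.2 (Matrix.mulVecLin D.Q₂) (fun y => ⟨D.P₂ *ᵥ y, ?_⟩) fun x => ?_
      · rw [Matrix.mulVecLin_apply, mulVec_mulVec, D.h22, one_mulVec]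
      · rw [Matrix.mulVecLin_apply, Matrix.mulVecLin_apply, mulVec_mulVec, mulVec_mulVec,
          P002.Dec.blk_complex, Matrix.mul_add, ← Matrix.mul_assoc, ← Matrix.mul_assoc,
          ← Matrix.mul_assoc, ← Matrix.mul_assoc, D.h22, D.h21, Matrix.one_mul, Matrix.zero_mul,
          Matrix.zero_mul, zero_add]
  kr₁ := fun {r r₁ r₂ e A} h hA => by
    refine ⟨hA.1.kr₁ h, ?_⟩
    refine hH hA.2 (LinearMap.funLeft ℂ ℂ fun i => e (i, ⟨0, h⟩))
      (LinearMap.funLeft_surjective_of_injective ℂ ℂ _ fun i j hij => by simpa only [EmbeddingLike.apply_eq_iff_eq, Prod.mk.injEq, and_true] using hij)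
      fun x => ?_
    ext i
    simp only [LinearMap.funLeft_apply, mulVec, dotProduct]
    rw [← e.sum_comp, Fintype.sum_prod_type]
    refine Finset.sum_congr rfl fun k _ => ?_
    simp only [kr_apply, Matrix.one_apply]
    simp only [mul_ite, mul_one, mul_zero, ite_mul, zero_mul, Finset.sum_ite_eq, Finset.mem_univ, ↓reduceIte]
  kr₂ := fun {r r₁ r₂ e B} h hB => by
    refine ⟨hB.1.kr₂ h, ?_⟩
    refine hH hB.2 (LinearMap.funLeft ℂ ℂ fun i => e (⟨0, h⟩, i))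
      (LinearMap.funLeft_surjective_of_injective ℂ ℂ _ fun i j hij => by simpa using hij)
      fun x => ?_
    ext i
    simp only [LinearMap.funLeft_apply, mulVec, dotProduct]
    rw [← e.sum_comp, Fintype.sum_prod_type_right]
    refine Finset.sum_congr rfl fun k _ => ?_
    simp only [kr_apply, Matrix.one_apply]
    simp only [ite_mul, one_mul, zero_mul, Finset.sum_ite_eq, Finset.mem_univ, ↓reduceIte]

/-- The condition on the classes. -/
def QD (E : Subgroup ℂˣ) (P₁ P₂ : Prop) (r : ℕ) (M : Mat r ℂ) : Prop :=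
  EigIn E M ∧ (P₁ → HasCyc r M) ∧ (P₂ → RO r M)

theorem classOK_QD (E : Subgroup ℂˣ) (P₁ P₂ : Prop) : ClassOK E (QD E P₁ P₂) :=
  classOK_of_surj E (fun r M => (P₁ → HasCyc r M) ∧ (P₂ → RO r M)) fun h π hπ hM =>
    ⟨fun h1 => (h.1 h1).of_surj π hπ hM, fun h2 => (h.2 h2).of_surj π hπ hM⟩

/-- A matrix without a cyclic vector has an eigenspace of dimension at least two. -/
theorem exists_eigenspace {r : ℕ} {M : Mat r ℂ} (h : ¬ HasCyc r M) :
    ∃ z : ℂ, (M - z • (1 : Mat r ℂ)).rank + 2 ≤ r := by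
  by_contra hcon
  push Not at hcon
  apply h
  -- left eigenvectors
  have hdim : ∀ z : ℂ, Module.finrank ℂ (LinearMap.ker (Mᵀ - z • (1 : Mat r ℂ)).mulVecLin) ≤ 1 := by
    intro z
    have h1 := (Mᵀ - z • (1 : Mat r ℂ)).mulVecLin.finrank_range_add_finrank_ker
    have h2 : Module.finrank ℂ (LinearMap.range (Mᵀ - z • (1 : Mat r ℂ)).mulVecLin) =
        (M - z • (1 : Mat r ℂ)).rank := by
      rw [← Matrix.rank_transpose (M - z • (1 : Mat r ℂ)), Matrix.transpose_sub,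
        Matrix.transpose_smul, Matrix.transpose_one]
      rfl
    rw [h2, Module.finrank_fin_fun] at h1
    have := hcon z
    omega
  -- a vector outside of finitely many hyperplanes
  obtain ⟨ι, hι⟩ : ∃ ι : Set ℂ, ∀ z, z ∈ ι ↔ ∃ l : Fin r → ℂ, l ≠ 0 ∧ Mᵀ *ᵥ l = z • l :=
    ⟨{z | ∃ l : Fin r → ℂ, l ≠ 0 ∧ Mᵀ *ᵥ l = z • l}, fun _ => Iff.rfl⟩
  have hfin : Finite ι := by
    refine Set.Finite.subset (Polynomial.finite_setOfPred_isRoot
      (Matrix.charpoly_monic Mᵀ).ne_zero) fun z hz => ?_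
    obtain ⟨l, hl, hz⟩ := (hι z).1 hz
    rw [Set.mem_ofPred_eq, Polynomial.IsRoot.def, Matrix.eval_charpoly]
    refine (Matrix.exists_mulVec_eq_zero_iff.1 ⟨l, hl, ?_⟩)
    rw [Matrix.sub_mulVec, hz, Matrix.scalar_apply, ← Matrix.smul_one_eq_diagonal,
      Matrix.smul_mulVec, Matrix.one_mulVec, sub_self]
  have hex : ∃ v : Fin r → ℂ, ∀ z : ℂ, ∀ l : Fin r → ℂ, l ≠ 0 → Mᵀ *ᵥ l = z • l → l ⬝ᵥ v ≠ 0 := by
    have h3 : ∀ z : ι, ∃ l : Fin r → ℂ, l ≠ 0 ∧ Mᵀ *ᵥ l = (z : ℂ) • l := fun z => (hι z).1 z.2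
    choose l hl0 hl using h3
    have h4 : ∀ z : ι, ∃ p : Submodule ℂ (Fin r → ℂ), ∀ v, v ∈ p ↔ l z ⬝ᵥ v = 0 := by
      intro z
      refine ⟨{ carrier := {v | l z ⬝ᵥ v = 0}, add_mem' := ?_, zero_mem' := ?_, smul_mem' := ?_ },
        fun _ => Iff.rfl⟩
      · intro a b ha hb
        rw [Set.mem_ofPred_eq] at ha hb ⊢
        rw [dotProduct_add, ha, hb, add_zero]
      · exact dotProduct_zero _
      · intro c a ha
        rw [Set.mem_ofPred_eq] at ha ⊢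
        rw [dotProduct_smul, ha, smul_zero]
    choose p hp using h4
    have h5 : (⋃ z, (p z : Set (Fin r → ℂ))) ≠ Set.univ := by
      intro h6
      obtain ⟨z, hz⟩ := Subspace.exists_eq_top_of_iUnion_eq_univ h6
      apply hl0 z
      ext i
      have h7 : (Pi.single i 1 : Fin r → ℂ) ∈ p z := hz ▸ Submodule.mem_top
      rw [hp, dotProduct_single, mul_one] at h7
      exact h7
    obtain ⟨v, hv⟩ := (Set.ne_univ_iff_exists_notMem _).1 h5
    refine ⟨v, fun z m hm0 hm hmv => hv ?_⟩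
    have hz : z ∈ ι := (hι z).2 ⟨m, hm0, hm⟩
    refine Set.mem_iUnion.2 ⟨⟨z, hz⟩, ?_⟩
    rw [SetLike.mem_coe, hp]
    obtain ⟨w, hw⟩ := finrank_le_one_iff.1 (hdim z)
    have hk : ∀ m : Fin r → ℂ, Mᵀ *ᵥ m = z • m →
        m ∈ LinearMap.ker (Mᵀ - z • (1 : Mat r ℂ)).mulVecLin := by
      intro m hm
      rw [LinearMap.mem_ker, Matrix.mulVecLin_apply, Matrix.sub_mulVec, hm, Matrix.smul_mulVec,
        Matrix.one_mulVec, sub_self]
    obtain ⟨a, ha⟩ := hw ⟨m, hk m hm⟩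
    obtain ⟨b, hb⟩ := hw ⟨l ⟨z, hz⟩, hk _ (hl ⟨z, hz⟩)⟩
    have ha' : a • (w : Fin r → ℂ) = m := congrArg Subtype.val ha
    have hb' : b • (w : Fin r → ℂ) = l ⟨z, hz⟩ := congrArg Subtype.val hb
    have ha0 : a ≠ 0 := by
      rintro rfl
      exact hm0 (by rw [← ha', zero_smul])
    rw [← ha', smul_dotProduct, smul_eq_mul, mul_eq_zero, or_iff_right ha0] at hmv
    rw [← hb', smul_dotProduct, hmv, smul_zero]
  obtain ⟨v, hv⟩ := hex
  refine ⟨v, fun W hW hWM => ?_⟩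
  by_contra hWtop
  obtain ⟨f, hf0, hfW⟩ := Submodule.exists_le_ker_of_lt_top W (lt_top_iff_ne_top.2 hWtop)
  obtain ⟨U, hU⟩ : ∃ U : Submodule ℂ (Fin r → ℂ), ∀ l, l ∈ U ↔ ∀ w ∈ W, l ⬝ᵥ w = 0 := by
    refine ⟨{ carrier := {l | ∀ w ∈ W, l ⬝ᵥ w = 0}, add_mem' := ?_, zero_mem' := ?_,
              smul_mem' := ?_ }, fun _ => Iff.rfl⟩
    · intro a b ha hb w hw
      rw [add_dotProduct, ha w hw, hb w hw, add_zero]
    · intro w _
      exact zero_dotProduct _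
    · intro c a ha w hw
      rw [smul_dotProduct, ha w hw, smul_zero]
  have hfl : ∀ w, (fun i => f (Pi.single i 1)) ⬝ᵥ w = f w := by
    intro w
    conv_rhs => rw [← Finset.univ_sum_single w, map_sum]
    refine Finset.sum_congr rfl fun i _ => ?_
    have h8 : (Pi.single i (w i) : Fin r → ℂ) = w i • (Pi.single i 1 : Fin r → ℂ) := by
      rw [← Pi.single_smul, smul_eq_mul, mul_one]
    rw [h8, map_smul, smul_eq_mul, mul_comm]
  have hne : (fun i => f (Pi.single i 1)) ∈ U := by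
    rw [hU]
    intro w hw
    rw [hfl]
    exact LinearMap.mem_ker.1 (hfW hw)
  have hne0 : (fun i => f (Pi.single i 1)) ≠ 0 := by
    intro h0
    apply hf0
    ext i
    exact congrFun h0 i
  have hinv : ∀ l ∈ U, Mᵀ.mulVecLin l ∈ U := by
    intro l hl
    rw [hU] at hl ⊢
    intro w hw
    rw [Matrix.mulVecLin_apply, Matrix.mulVec_transpose, ← Matrix.dotProduct_mulVec]
    exact hl _ (hWM w hw)
  have hnt : Nontrivial U := ⟨⟨_, hne⟩, 0, fun h => hne0 (congrArg Subtype.val h)⟩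
  obtain ⟨z, hz⟩ := Module.End.exists_eigenvalue ((Mᵀ.mulVecLin).restrict hinv)
  obtain ⟨l, hl⟩ := hz.exists_hasEigenvector
  refine hv z (l : Fin r → ℂ) (fun h => hl.2 (Subtype.ext h)) ?_ ((hU _).1 l.2 v hW)
  exact congrArg Subtype.val hl.apply_eq_smul

/-- In rank at most three every class without a cyclic vector is scalar plus rank one. -/
theorem ro_of_not_hasCyc {r : ℕ} (hr : r ≤ 3) {M : Mat r ℂ} (h : ¬ HasCyc r M) : RO r M := by
  obtain ⟨z, hz⟩ := exists_eigenspace h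
  exact ⟨z, by omega⟩

end Vale.Agent.P002R
end

section

/-!
# P002, genus 0: statements for irreducible representations
-/

namespace Vale.Agent.P002L

open Matrix Vale.Agent.P002R

/-- Genus zero, one regular class. -/
def G01Irr : Prop :=
  ∀ {m r : ℕ}, 0 < r → ∀ {R : Type} [CommRing R] (φ : R →+* ℂ) (E : Subgroup ℂˣ),
    CoefOK φ E r →
    ∀ C : Fin (m + 1) → (Mat r ℂ)ˣ, (∀ j, EigIn E (C j : Mat r ℂ)) →
    HasCyc r (C 0 : Mat r ℂ) →
    ∀ x ∈ YG ({relatorU 0 (m + 1)} : Set (FreeGroup ((Fin 0 × Bool) ⊕ Fin (m + 1)))) C,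
    (∀ M : Mat r ℂ, (∀ w, Commute M (x w : Mat r ℂ)) → ∃ c : ℂ, M = c • (1 : Mat r ℂ)) →
    ∀ f : MvPolynomial (((Fin 0 × Bool) ⊕ Fin (m + 1)) × Fin r × Fin r) ℂ,
    (∀ y ∈ DGT ({relatorU 0 (m + 1)} : Set (FreeGroup ((Fin 0 × Bool) ⊕ Fin (m + 1)))) φ C,
      evalG y f = 0) → evalG x f = 0

/-- Genus zero, the last `r` classes are scalar plus rank one and not scalar. -/
def G0R : Prop :=
  ∀ {m r : ℕ}, 0 < r → ∀ {R : Type} [CommRing R] (φ : R →+* ℂ) (E : Subgroup ℂˣ),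
    CoefOK φ E r → (∀ (u : Rˣ) (D : R), D ≠ 0 → ∃ M : ℕ, 0 < M ∧ D ∣ (u : R) ^ M - 1) →
    ∀ C : Fin (m + 1 + r) → (Mat r ℂ)ˣ, (∀ j, EigIn E (C j : Mat r ℂ)) →
    (∀ j : Fin r, RO r (C (Fin.natAdd (m + 1) j) : Mat r ℂ) ∧
      ∀ c : ℂ, (C (Fin.natAdd (m + 1) j) : Mat r ℂ) ≠ c • (1 : Mat r ℂ)) →
    ∀ x ∈ YG ({relatorU 0 (m + 1 + r)} : Set (FreeGroup ((Fin 0 × Bool) ⊕ Fin (m + 1 + r)))) C,
    (∀ M : Mat r ℂ, (∀ w, Commute M (x w : Mat r ℂ)) → ∃ c : ℂ, M = c • (1 : Mat r ℂ)) →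
    ∀ f : MvPolynomial (((Fin 0 × Bool) ⊕ Fin (m + 1 + r)) × Fin r × Fin r) ℂ,
    (∀ y ∈ DGT ({relatorU 0 (m + 1 + r)} :
        Set (FreeGroup ((Fin 0 × Bool) ⊕ Fin (m + 1 + r)))) φ C,
      evalG y f = 0) → evalG x f = 0

end Vale.Agent.P002L
end

section

/-!
# Permutation of the punctures of a sphere
-/

namespace Vale.Agent.P002R

open Matrix

/-- The entries of a word in matrices of fixed determinants are polynomials in the entries of the
generators. -/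
theorem exists_word_matrixD {K : Type} (r : ℕ) (d : K → ℂˣ) (w : FreeGroup K) :
    ∃ M : Matrix (Fin r) (Fin r) (MvPolynomial (K × Fin r × Fin r) ℂ),
      ∀ x : FreeGroup K →* (Mat r ℂ)ˣ, (∀ k, (x (FreeGroup.of k) : Mat r ℂ).det = d k) →
        M.map (evalG x) = (x w : Mat r ℂ) := by
  obtain ⟨S, hS⟩ : ∃ S : Subgroup (FreeGroup K), ∀ w, w ∈ S ↔
      ∃ M : Matrix (Fin r) (Fin r) (MvPolynomial (K × Fin r × Fin r) ℂ),
        ∀ x : FreeGroup K →* (Mat r ℂ)ˣ, (∀ k, (x (FreeGroup.of k) : Mat r ℂ).det = d k) →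
          M.map (evalG x) = (x w : Mat r ℂ) := by
    refine ⟨{
      carrier := {w | ∃ M : Matrix (Fin r) (Fin r) (MvPolynomial (K × Fin r × Fin r) ℂ),
        ∀ x : FreeGroup K →* (Mat r ℂ)ˣ, (∀ k, (x (FreeGroup.of k) : Mat r ℂ).det = d k) →
          M.map (evalG x) = (x w : Mat r ℂ)}
      mul_mem' := ?_
      one_mem' := ?_
      inv_mem' := ?_ }, fun w => Iff.rfl⟩
    · rintro a b ⟨M, hM⟩ ⟨N, hN⟩
      refine ⟨M * N, fun x hx => ?_⟩
      have h1 := RingHom.map_mul (RingHom.mapMatrix (m := Fin r) (evalG x).toRingHom) M N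
      rw [map_mul, Units.val_mul, ← hM x hx, ← hN x hx]
      exact h1
    · refine ⟨1, fun x _ => ?_⟩
      rw [Matrix.map_one _ (map_zero _) (map_one _), map_one, Units.val_one]
    · rintro a ⟨M, hM⟩
      refine ⟨((FreeGroup.lift d a)⁻¹ : ℂˣ).val • M.adjugate, fun x hx => ?_⟩
      have h1 := RingHom.map_adjugate (evalG x).toRingHom M
      have h2 : ∀ w, (x w : Mat r ℂ).det = (FreeGroup.lift d w : ℂˣ) := by
        have h3 : (Units.map (Matrix.detMonoidHom (n := Fin r) (R := ℂ))).comp x =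
            FreeGroup.lift d := by
          apply FreeGroup.ext_hom
          intro k
          rw [FreeGroup.lift_apply_of]
          apply Units.ext
          exact hx k
        intro w
        rw [← h3]
        rfl
      have h4 : ((x a⁻¹ : (Mat r ℂ)ˣ) : Mat r ℂ) =
          ((FreeGroup.lift d a)⁻¹ : ℂˣ).val • (x a : Mat r ℂ).adjugate := by
        rw [map_inv, Matrix.coe_units_inv, Matrix.inv_def, Ring.inverse_eq_inv', h2,
          Units.val_inv_eq_inv_val]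
      rw [h4, ← hM x hx]
      have h5 : (M.map (evalG x)).adjugate = M.adjugate.map (evalG x) := h1.symm
      rw [h5]
      ext i j
      simp [Matrix.map_apply, Matrix.smul_apply]
  have h : (⊤ : Subgroup (FreeGroup K)) ≤ S := by
    rw [← FreeGroup.closure_range_of, Subgroup.closure_le]
    rintro _ ⟨p, rfl⟩
    rw [SetLike.mem_coe, hS]
    refine ⟨Matrix.of fun i j => MvPolynomial.X (p, i, j), fun x _ => ?_⟩
    ext i j
    simp only [evalG, MvPolynomial.aeval_eq_eval, map_apply, of_apply, MvPolynomial.eval_X]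
  exact (hS w).1 (h (Subgroup.mem_top w))

/-- An endomorphism which fixes the generators in `κ` and maps the generators in `ι` to words in
the generators in `ι`. -/
def Fixes {κ ι : Type} (τ : FreeGroup (κ ⊕ ι) →* FreeGroup (κ ⊕ ι)) : Prop :=
  (∀ k, τ (FreeGroup.of (Sum.inl k)) = FreeGroup.of (Sum.inl k)) ∧
    ∀ j, ∃ v : FreeGroup ι, τ (FreeGroup.of (Sum.inr j)) = FreeGroup.map Sum.inr v

/-- Pull back of a polynomial by an endomorphism of the free group. -/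
theorem exists_pullbackD {κ ι : Type} {r : ℕ} (d : ι → ℂˣ)
    (τ : FreeGroup (κ ⊕ ι) →* FreeGroup (κ ⊕ ι)) (hτ : Fixes τ)
    (F : MvPolynomial ((κ ⊕ ι) × Fin r × Fin r) ℂ) :
    ∃ f : MvPolynomial ((κ ⊕ ι) × Fin r × Fin r) ℂ, ∀ x : FreeGroup (κ ⊕ ι) →* (Mat r ℂ)ˣ,
      (∀ j, (x (FreeGroup.of (Sum.inr j)) : Mat r ℂ).det = d j) →
        evalG x f = evalG (x.comp τ) F := by
  have key : ∀ p : κ ⊕ ι, ∃ M : Matrix (Fin r) (Fin r) (MvPolynomial ((κ ⊕ ι) × Fin r × Fin r) ℂ),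
      ∀ x : FreeGroup (κ ⊕ ι) →* (Mat r ℂ)ˣ,
        (∀ j, (x (FreeGroup.of (Sum.inr j)) : Mat r ℂ).det = d j) →
        M.map (evalG x) = (x (τ (FreeGroup.of p)) : Mat r ℂ) := by
    rintro (k | j)
    · refine ⟨Matrix.of fun i j => MvPolynomial.X (Sum.inl k, i, j), fun x _ => ?_⟩
      rw [hτ.1]
      ext i j
      simp only [evalG, MvPolynomial.aeval_eq_eval, map_apply, of_apply, MvPolynomial.eval_X]
    · obtain ⟨v, hv⟩ := hτ.2 j
      obtain ⟨M, hM⟩ := exists_word_matrixD r d v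
      refine ⟨M.map (MvPolynomial.rename fun p => (Sum.inr p.1, p.2)), fun x hx => ?_⟩
      have h1 := hM (x.comp (FreeGroup.map Sum.inr)) fun k => by
        rw [MonoidHom.comp_apply, FreeGroup.map.of]
        exact hx k
      rw [hv, ← MonoidHom.comp_apply, ← h1]
      ext i l
      rw [Matrix.map_apply, Matrix.map_apply, Matrix.map_apply, evalG, evalG,
        MvPolynomial.aeval_rename]
      congr 2
  choose M hM using key
  refine ⟨MvPolynomial.aeval (fun p => M p.1 p.2.1 p.2.2) F, fun x hx => ?_⟩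
  have h : (evalG x).comp
      (MvPolynomial.aeval (R := ℂ)
        (fun p : (κ ⊕ ι) × Fin r × Fin r => M p.1 p.2.1 p.2.2)) = evalG (x.comp τ) := by
    apply MvPolynomial.algHom_ext
    intro p
    rw [AlgHom.comp_apply, MvPolynomial.aeval_X]
    have h1 := congrFun (congrFun (hM p.1 x hx) p.2.1) p.2.2
    rw [Matrix.map_apply] at h1
    rw [h1]
    simp only [evalG, MonoidHom.coe_comp, Function.comp_apply, MvPolynomial.aeval_X]
  exact DFunLike.congr_fun h F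

variable {κ ι : Type} {r : ℕ} {Q : ι → ∀ r : ℕ, Mat r ℂ → Prop} {R : Type*} [CommRing R]
  {φ : R →+* ℂ}

theorem YG.comp_auto {w₁ w₂ : FreeGroup (κ ⊕ ι)}
    {τ τ' : FreeGroup (κ ⊕ ι) →* FreeGroup (κ ⊕ ι)} (h12 : ∀ w, τ (τ' w) = w) (hw : τ w₁ = w₂)
    (hc : ∀ j, IsConj (FreeGroup.of (Sum.inr j)) (τ (FreeGroup.of (Sum.inr j))))
    {C : ι → (Mat r ℂ)ˣ} {x : FreeGroup (κ ⊕ ι) →* (Mat r ℂ)ˣ} (hx : x ∈ YG {w₂} C) :
    x.comp τ ∈ YG {w₁} C := by
  refine ⟨fun w h => ?_, fun j => ?_, fun W hW => ?_⟩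
  · rw [Set.mem_singleton_iff.1 h, MonoidHom.comp_apply, hw]
    exact hx.1 _ rfl
  · refine (hx.2.1 j).trans ?_
    rw [MonoidHom.comp_apply]
    exact MonoidHom.map_isConj x (hc j)
  · obtain ⟨W', h1, h2⟩ := hx.2.2 W fun w v hv => by
      have h3 := hW (τ' w) v hv
      rwa [MonoidHom.comp_apply, h12] at h3
    exact ⟨W', fun w v hv => h1 _ v hv, h2⟩

/-- Invariance of the density under automorphisms of the free group which preserve the conjugacy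
classes of the generators. -/
theorem IrrDenseQ.auto {w₁ w₂ : FreeGroup (κ ⊕ ι)}
    (τ τ' : FreeGroup (κ ⊕ ι) →* FreeGroup (κ ⊕ ι)) (hτ' : Fixes τ') (h12 : ∀ w, τ (τ' w) = w)
    (h21 : ∀ w, τ' (τ w) = w) (hw : τ w₁ = w₂)
    (hc : ∀ j, IsConj (FreeGroup.of (Sum.inr j)) (τ (FreeGroup.of (Sum.inr j))))
    (hc' : ∀ j, IsConj (FreeGroup.of (Sum.inr j)) (τ' (FreeGroup.of (Sum.inr j))))
    (hI : IrrDenseQ Q {w₁} φ r) : IrrDenseQ Q {w₂} φ r := by
  intro C hC x hx hirr f hf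
  have hdet : ∀ y ∈ YG {w₁} C, ∀ j : ι, (y (FreeGroup.of (Sum.inr j)) : Mat r ℂ).det =
      (Units.map (Matrix.detMonoidHom (n := Fin r) (R := ℂ)) (C j) : ℂˣ) := by
    intro y hy j
    obtain ⟨U, hU⟩ := isConj_iff.1 (hy.2.1 j)
    rw [← hU, Units.val_mul, Units.val_mul, Matrix.det_mul, Matrix.det_mul, mul_right_comm,
      ← Matrix.det_mul, Units.mul_inv, Matrix.det_one, one_mul]
    rfl
  obtain ⟨F, hF⟩ := exists_pullbackD (r := r)
    (fun j => Units.map (Matrix.detMonoidHom (n := Fin r) (R := ℂ)) (C j)) τ' hτ' f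
  have hx1 : x.comp τ ∈ YG {w₁} C := YG.comp_auto h12 hw hc hx
  have h3 : ∀ y : FreeGroup (κ ⊕ ι) →* (Mat r ℂ)ˣ, (y.comp τ).comp τ' = y := by
    intro y
    ext1 w
    simp only [MonoidHom.comp_apply, h12]
  have h4 : evalG (x.comp τ) F = evalG x f := by
    rw [hF _ (hdet _ hx1), h3]
  rw [← h4]
  have hw' : τ' w₂ = w₁ := by rw [← hw, h21]
  refine hI C hC _ hx1 (fun M hM => hirr M fun w => ?_) F fun y hy => ?_
  · have := hM (τ' w)
    rwa [MonoidHom.comp_apply, h12] at this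
  · rw [hF _ (hdet _ hy.1.1)]
    refine hf _ ⟨⟨YG.comp_auto h21 hw' hc' hy.1.1, fun k => ?_⟩, ?_⟩
    · have h5 : ∀ w, y w ∈ GR r φ := by
        have h6 : (⊤ : Subgroup (FreeGroup (κ ⊕ ι))) ≤ (GR r φ).comap y := by
          rw [← FreeGroup.closure_range_of, Subgroup.closure_le]
          rintro _ ⟨k, rfl⟩
          exact hy.1.2 k
        exact fun w => h6 (Subgroup.mem_top w)
      exact h5 _
    · rw [← hy.2]
      congr 1
      ext M
      constructor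
      · rintro ⟨w, rfl⟩
        exact ⟨τ' w, rfl⟩
      · rintro ⟨w, rfl⟩
        refine ⟨τ w, ?_⟩
        simp only [MonoidHom.comp_apply, h21]

/-- The product of the boundary generators, in the order of a list, and of a word in the other
generators. -/
def relL (R' : FreeGroup κ) (L : List ι) : FreeGroup (κ ⊕ ι) :=
  (L.map fun j => FreeGroup.of (Sum.inr j)).prod * FreeGroup.map Sum.inl R'

section swap

variable [DecidableEq ι]

/-- The elementary braid `a ↦ b a b⁻¹`. -/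
def brd1 (a b : ι) : FreeGroup (κ ⊕ ι) →* FreeGroup (κ ⊕ ι) :=
  FreeGroup.lift (Sum.elim (fun k => FreeGroup.of (Sum.inl k)) fun j =>
    if j = a then FreeGroup.of (Sum.inr b) * FreeGroup.of (Sum.inr a) *
      (FreeGroup.of (Sum.inr b))⁻¹ else FreeGroup.of (Sum.inr j))

/-- Its inverse. -/
def brd2 (a b : ι) : FreeGroup (κ ⊕ ι) →* FreeGroup (κ ⊕ ι) :=
  FreeGroup.lift (Sum.elim (fun k => FreeGroup.of (Sum.inl k)) fun j =>
    if j = a then (FreeGroup.of (Sum.inr b))⁻¹ * FreeGroup.of (Sum.inr a) *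
      FreeGroup.of (Sum.inr b) else FreeGroup.of (Sum.inr j))

theorem brd1_inl (a b : ι) (k : κ) : brd1 a b (FreeGroup.of (Sum.inl k)) =
    (FreeGroup.of (Sum.inl k) : FreeGroup (κ ⊕ ι)) := by
  rw [brd1, FreeGroup.lift_apply_of, Sum.elim_inl]

theorem brd2_inl (a b : ι) (k : κ) : brd2 a b (FreeGroup.of (Sum.inl k)) =
    (FreeGroup.of (Sum.inl k) : FreeGroup (κ ⊕ ι)) := by
  rw [brd2, FreeGroup.lift_apply_of, Sum.elim_inl]

theorem brd1_ne {a b j : ι} (h : j ≠ a) : brd1 a b (FreeGroup.of (Sum.inr j)) =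
    (FreeGroup.of (Sum.inr j) : FreeGroup (κ ⊕ ι)) := by
  rw [brd1, FreeGroup.lift_apply_of, Sum.elim_inr, if_neg h]

theorem brd2_ne {a b j : ι} (h : j ≠ a) : brd2 a b (FreeGroup.of (Sum.inr j)) =
    (FreeGroup.of (Sum.inr j) : FreeGroup (κ ⊕ ι)) := by
  rw [brd2, FreeGroup.lift_apply_of, Sum.elim_inr, if_neg h]

theorem brd1_self (a b : ι) : brd1 a b (FreeGroup.of (Sum.inr a)) =
    (FreeGroup.of (Sum.inr b) * FreeGroup.of (Sum.inr a) * (FreeGroup.of (Sum.inr b))⁻¹ :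
      FreeGroup (κ ⊕ ι)) := by
  rw [brd1, FreeGroup.lift_apply_of, Sum.elim_inr, if_pos rfl]

theorem brd2_self (a b : ι) : brd2 a b (FreeGroup.of (Sum.inr a)) =
    ((FreeGroup.of (Sum.inr b))⁻¹ * FreeGroup.of (Sum.inr a) * FreeGroup.of (Sum.inr b) :
      FreeGroup (κ ⊕ ι)) := by
  rw [brd2, FreeGroup.lift_apply_of, Sum.elim_inr, if_pos rfl]

theorem brd12 {a b : ι} (h : b ≠ a) (w : FreeGroup (κ ⊕ ι)) : brd1 a b (brd2 a b w) = w := by
  have h1 : (brd1 a b).comp (brd2 a b) = MonoidHom.id (FreeGroup (κ ⊕ ι)) := by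
    apply FreeGroup.ext_hom
    rintro (k | j)
    · rw [MonoidHom.comp_apply, brd2_inl, brd1_inl, MonoidHom.id_apply]
    · rw [MonoidHom.comp_apply, MonoidHom.id_apply]
      by_cases hj : j = a
      · rw [hj, brd2_self, map_mul, map_mul, map_inv, brd1_self, brd1_ne h]
        group
      · rw [brd2_ne hj, brd1_ne hj]
  exact DFunLike.congr_fun h1 w

theorem brd21 {a b : ι} (h : b ≠ a) (w : FreeGroup (κ ⊕ ι)) : brd2 a b (brd1 a b w) = w := by
  have h1 : (brd2 a b).comp (brd1 a b) = MonoidHom.id (FreeGroup (κ ⊕ ι)) := by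
    apply FreeGroup.ext_hom
    rintro (k | j)
    · rw [MonoidHom.comp_apply, brd1_inl, brd2_inl, MonoidHom.id_apply]
    · rw [MonoidHom.comp_apply, MonoidHom.id_apply]
      by_cases hj : j = a
      · rw [hj, brd1_self, map_mul, map_mul, map_inv, brd2_self, brd2_ne h]
        group
      · rw [brd1_ne hj, brd2_ne hj]
  exact DFunLike.congr_fun h1 w

theorem brd1_map_inl (a b : ι) (w : FreeGroup κ) : brd1 a b (FreeGroup.map Sum.inl w) =
    (FreeGroup.map Sum.inl w : FreeGroup (κ ⊕ ι)) := by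
  have h1 : (brd1 a b).comp (FreeGroup.map Sum.inl) =
      (FreeGroup.map Sum.inl : FreeGroup κ →* FreeGroup (κ ⊕ ι)) := by
    apply FreeGroup.ext_hom
    intro k
    rw [MonoidHom.comp_apply, FreeGroup.map.of, brd1_inl]
  exact DFunLike.congr_fun h1 w

theorem brd2_fixes (a b : ι) : Fixes (brd2 a b : FreeGroup (κ ⊕ ι) →* FreeGroup (κ ⊕ ι)) := by
  refine ⟨fun k => brd2_inl a b k, fun j => ?_⟩
  by_cases hj : j = a
  · refine ⟨(FreeGroup.of b)⁻¹ * FreeGroup.of a * FreeGroup.of b, ?_⟩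
    rw [hj, brd2_self, map_mul, map_mul, map_inv, FreeGroup.map.of, FreeGroup.map.of]
  · exact ⟨FreeGroup.of j, by rw [brd2_ne hj, FreeGroup.map.of]⟩

variable {R' : FreeGroup κ}

theorem IrrDenseQ.swap {l₁ l₂ : List ι} {a b : ι}
    (hnd : (l₁ ++ a :: b :: l₂).Nodup)
    (hI : IrrDenseQ Q {(relL R' (l₁ ++ a :: b :: l₂) : FreeGroup (κ ⊕ ι))} φ r) :
    IrrDenseQ Q {(relL R' (l₁ ++ b :: a :: l₂) : FreeGroup (κ ⊕ ι))} φ r := by
  have hba : b ≠ a := by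
    rintro rfl
    rw [List.nodup_append] at hnd
    have := hnd.2.1
    simp at this
  have h1 : a ∉ l₁ := by
    intro h
    rw [List.nodup_append] at hnd
    exact hnd.2.2 a h a (by simp) rfl
  have h2 : a ∉ l₂ := by
    intro h
    rw [List.nodup_append] at hnd
    have := hnd.2.1
    rw [List.nodup_cons] at this
    exact this.1 (List.mem_cons_of_mem _ h)
  refine IrrDenseQ.auto (brd1 a b) (brd2 a b) (brd2_fixes a b) (brd12 hba) (brd21 hba) ?_ (fun j => ?_)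
    (fun j => ?_) hI
  · have key : ∀ l : List ι, a ∉ l → (l.map fun j => brd1 a b
        (FreeGroup.of (Sum.inr j) : FreeGroup (κ ⊕ ι))) =
        l.map fun j => (FreeGroup.of (Sum.inr j) : FreeGroup (κ ⊕ ι)) := by
      intro l hl
      refine List.map_congr_left fun j hj => brd1_ne ?_
      rintro rfl
      exact hl hj
    unfold relL
    rw [map_mul, brd1_map_inl, map_list_prod, List.map_map]
    change (List.map (fun j => brd1 a b (FreeGroup.of (Sum.inr j) : FreeGroup (κ ⊕ ι)))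
      (l₁ ++ a :: b :: l₂)).prod * _ = _
    rw [List.map_append, List.map_cons, List.map_cons, key l₁ h1, key l₂ h2, brd1_self,
      brd1_ne hba, List.map_append, List.map_cons, List.map_cons, List.prod_append,
      List.prod_append, List.prod_cons, List.prod_cons, List.prod_cons, List.prod_cons]
    group
  · by_cases hj : j = a
    · rw [hj, brd1_self]
      exact isConj_iff.2 ⟨_, rfl⟩
    · rw [brd1_ne hj]
  · by_cases hj : j = a
    · rw [hj, brd2_self]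
      exact isConj_iff.2 ⟨(FreeGroup.of (Sum.inr b))⁻¹, by rw [inv_inv]⟩
    · rw [brd2_ne hj]

theorem IrrDenseQ.perm_aux {L L' : List ι} (h : L.Perm L') :
    ∀ l₁ : List ι, (l₁ ++ L).Nodup →
    IrrDenseQ Q {(relL R' (l₁ ++ L) : FreeGroup (κ ⊕ ι))} φ r →
    IrrDenseQ Q {(relL R' (l₁ ++ L') : FreeGroup (κ ⊕ ι))} φ r := by
  induction h with
  | nil => exact fun l₁ _ h => h
  | cons x h ih =>
    intro l₁ hnd hI
    have := ih (l₁ ++ [x]) (by simpa using hnd) (by simpa using hI)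
    simpa using this
  | swap x y l => exact fun l₁ hnd hI => hI.swap hnd
  | trans h h' ih ih' =>
    intro l₁ hnd hI
    exact ih' l₁ ((List.Perm.append_left l₁ h).nodup_iff.1 hnd) (ih l₁ hnd hI)

/-- Invariance under permutations of the punctures. -/
theorem IrrDenseQ.perm {L L' : List ι} (h : L.Perm L') (hnd : L.Nodup)
    (hI : IrrDenseQ Q {(relL R' L : FreeGroup (κ ⊕ ι))} φ r) :
    IrrDenseQ Q {(relL R' L' : FreeGroup (κ ⊕ ι))} φ r :=
  IrrDenseQ.perm_aux h [] hnd hI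

end swap

/-- The product of the commutators. -/
def comW (g : ℕ) : FreeGroup (Fin g × Bool) :=
  (List.ofFn fun i : Fin g => (FreeGroup.of (i, false) * FreeGroup.of (i, true) *
    (FreeGroup.of (i, false))⁻¹ * (FreeGroup.of (i, true))⁻¹ : FreeGroup (Fin g × Bool))).prod

theorem relatorU_relL (g n : ℕ) : relatorU g n = relL (comW g) (List.finRange n) := by
  rw [relatorU_eqn, relL, comW, map_list_prod, List.ofFn_eq_map, List.map_ofFn]
  congr 2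

/-- Invariance under permutations of the classes. -/
theorem irrDenseQ_reorder {g n : ℕ} {Q : Fin n → ∀ r : ℕ, Mat r ℂ → Prop}
    (e : Equiv.Perm (Fin n)) (hI : IrrDenseQ (fun j => Q (e j))
      ({relatorU g n} : Set (FreeGroup ((Fin g × Bool) ⊕ Fin n))) φ r) :
    IrrDenseQ Q ({relatorU g n} : Set (FreeGroup ((Fin g × Bool) ⊕ Fin n))) φ r := by
  rw [relatorU_relL] at hI ⊢
  have h1 : IrrDenseQ Q ({relL (comW g) ((List.finRange n).map e)} :
      Set (FreeGroup ((Fin g × Bool) ⊕ Fin n))) φ r := by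
    refine IrrDenseQ.congr (Equiv.refl _) e (fun j M hM => ?_) _ _ (fun y => ?_) hI
    · rw [Equiv.apply_symm_apply]
      exact hM
    · have h3 : renE (Equiv.refl (Fin g × Bool)).symm e.symm (FreeGroup.map Sum.inl (comW g)) =
          (FreeGroup.map Sum.inl (comW g) : FreeGroup ((Fin g × Bool) ⊕ Fin n)) := by
        have h4 : (renE (Equiv.refl (Fin g × Bool)).symm e.symm).comp (FreeGroup.map Sum.inl) =
            (FreeGroup.map Sum.inl : FreeGroup (Fin g × Bool) →*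
              FreeGroup ((Fin g × Bool) ⊕ Fin n)) := by
          apply FreeGroup.ext_hom
          intro k
          rw [MonoidHom.comp_apply, FreeGroup.map.of, renE_inl]
          rfl
        exact DFunLike.congr_fun h4 _
      have h2 : renE (Equiv.refl (Fin g × Bool)).symm e.symm
          (relL (comW g) ((List.finRange n).map e)) = relL (comW g) (List.finRange n) := by
        rw [relL, relL, map_mul, h3, map_list_prod, List.map_map, List.map_map]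
        congr 2
        refine List.map_congr_left fun j _ => ?_
        simp only [Function.comp_apply]
        rw [renE_inr, Equiv.symm_apply_apply]
      constructor
      · intro h w hw
        rw [Set.mem_singleton_iff.1 hw, h2]
        exact h _ rfl
      · intro h w hw
        rw [Set.mem_singleton_iff.1 hw, ← h2]
        exact h _ rfl
  refine h1.perm ?_ ((List.nodup_finRange n).map e.injective)
  refine (List.perm_ext_iff_of_nodup ((List.nodup_finRange n).map e.injective)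
    (List.nodup_finRange n)).2 fun j => ?_
  simp only [List.mem_map, List.mem_finRange, true_and, iff_true]
  exact ⟨e.symm j, e.apply_symm_apply j⟩

end Vale.Agent.P002R
end

section

/-!
# Two regular classes in genus zero, all classes in genus one: definitions
-/

namespace Vale.Agent.P002R

open Matrix

/-- The main theorem in genus zero: irreducible representations of a sphere with `m + 3`
punctures, the classes of the first and of the last puncture have cyclic vectors. -/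
def G02Irr : Prop :=
  ∀ {m r : ℕ}, 0 < r → ∀ {R : Type} [CommRing R] (φ : R →+* ℂ) (E : Subgroup ℂˣ),
    CoefOK φ E r → (∀ (u : Rˣ) (D : R), D ≠ 0 → ∃ M : ℕ, 0 < M ∧ D ∣ (u : R) ^ M - 1) →
    ∀ C : Fin (m + 3) → (Mat r ℂ)ˣ, (∀ j, EigIn E (C j : Mat r ℂ)) →
    HasCyc r (C 0 : Mat r ℂ) → HasCyc r (C (Fin.last (m + 2)) : Mat r ℂ) →
    ∀ x ∈ YG ({relatorU 0 (m + 3)} : Set (FreeGroup ((Fin 0 × Bool) ⊕ Fin (m + 3)))) C,
    (∀ M : Mat r ℂ, (∀ w, Commute M (x w : Mat r ℂ)) → ∃ c : ℂ, M = c • (1 : Mat r ℂ)) →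
    ∀ f : MvPolynomial (((Fin 0 × Bool) ⊕ Fin (m + 3)) × Fin r × Fin r) ℂ,
    (∀ y ∈ DGT ({relatorU 0 (m + 3)} : Set (FreeGroup ((Fin 0 × Bool) ⊕ Fin (m + 3)))) φ C,
      evalG y f = 0) → evalG x f = 0

/-- Representations of a torus with `n` punctures in prescribed classes which are integral up to
scalars. -/
def DTor {n r : ℕ} {R : Type} [CommRing R] (φ : R →+* ℂ) (C : Fin n → (Mat r ℂ)ˣ) :
    Set (FU 1 n →* (Mat r ℂ)ˣ) :=
  {y | y (relatorU 1 n) = 1 ∧ (∀ j, IsConj (C j) (y (FreeGroup.of (Sum.inr j)))) ∧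
    ∀ k, y (FreeGroup.of k) ∈ GR r φ}

end Vale.Agent.P002R
end

section

/-!
# P002, genus 0: generic points
-/

namespace Vale.Agent.P002R

open Matrix Module Vale.Agent.P002

variable {r : ℕ}

section normed

open scoped Matrix.Norms.Operator

/-- Existence of generic points; the derivations vanish on the subfield `K₀`. -/
theorem exists_generic_point_K {G : Type} [Fintype G] [DecidableEq G] (hr : 1 ≤ r)
    (K₀ : Subfield ℂ) (hK₀ : Countable K₀) (Φ : (G → P002R.Mat r ℂ) → P002R.Mat r ℂ)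
    (hΦ : ∀ Y : G → P002R.Mat r ℂ, (∀ k, IsUnit (Y k)) → ∃ D : (G → P002R.Mat r ℂ) →L[ℂ] P002R.Mat r ℂ,
      HasStrictFDerivAt Φ D Y ∧ ∀ δ : Derivation ℤ ℂ ℂ, (∀ c ∈ K₀, δ c = 0) →
        (Φ Y).map δ = D fun k => (Y k).map δ)
    (hdet : ∀ Y : G → P002R.Mat r ℂ, (∀ k, IsUnit (Y k)) → (Φ Y).det = 1)
    (X : G → P002R.Mat r ℂ) (hX : ∀ k, IsUnit (X k)) (hΦX : Φ X = 1)
    (hdual : ∀ D : (G → P002R.Mat r ℂ) →L[ℂ] P002R.Mat r ℂ, HasStrictFDerivAt Φ D X →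
      ∀ N : P002R.Mat r ℂ, (∀ H, trace (N * D H) = 0) → ∃ c : ℂ, N = c • (1 : P002R.Mat r ℂ))
    (U : Set (G → P002R.Mat r ℂ)) (hU : U ∈ nhds X) :
    ∃ Y ∈ U, (∀ k, IsUnit (Y k)) ∧ Φ Y = 1 ∧ ∃ c : Fin r × Fin r → ℂ,
      ∀ D : (G → P002R.Mat r ℂ) →L[ℂ] P002R.Mat r ℂ, HasStrictFDerivAt Φ D Y →
        ∀ H : G → P002R.Mat r ℂ, D H = 0 → ∀ γ : Fin r × Fin r → ℂ,
          ∃ δ : Derivation ℤ ℂ ℂ, (∀ c ∈ K₀, δ c = 0) ∧ (∀ k i j, δ (Y k i j) = H k i j) ∧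
            ∀ p, δ (c p) = γ p := by
  have hr0 : 0 < r := hr
  -- the derivative of `c • Φ Y`
  have hder : ∀ (Y : G → P002R.Mat r ℂ) (c : ℂ) (D : (G → P002R.Mat r ℂ) →L[ℂ] P002R.Mat r ℂ),
      HasStrictFDerivAt Φ D Y → ∃ D' : ((G → P002R.Mat r ℂ) × ℂ) →L[ℂ] P002R.Mat r ℂ,
        HasStrictFDerivAt (fun p : (G → P002R.Mat r ℂ) × ℂ => p.2 • Φ p.1) D' (Y, c) ∧
          ∀ H γ, D' (H, γ) = c • D H + γ • Φ Y := by
    intro Y c D hD
    have hfst : HasStrictFDerivAt (fun p : (G → P002R.Mat r ℂ) × ℂ => Φ p.1)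
        (D.comp (ContinuousLinearMap.fst ℂ (G → P002R.Mat r ℂ) ℂ)) (Y, c) :=
      HasStrictFDerivAt.comp (Y, c) hD
        (ContinuousLinearMap.fst ℂ (G → P002R.Mat r ℂ) ℂ).hasStrictFDerivAt
    have hsnd : HasStrictFDerivAt (fun p : (G → P002R.Mat r ℂ) × ℂ => p.2)
        (ContinuousLinearMap.snd ℂ (G → P002R.Mat r ℂ) ℂ) (Y, c) :=
      (ContinuousLinearMap.snd ℂ (G → P002R.Mat r ℂ) ℂ).hasStrictFDerivAt
    exact ⟨_, hsnd.smul hfst, fun H γ => rfl⟩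
  obtain ⟨D₀, hD₀, -⟩ := hΦ X hX
  obtain ⟨D, hD, hDe⟩ := hder X 1 D₀ hD₀
  have hDe' : ∀ H γ, D (H, γ) = D₀ H + γ • (1 : P002R.Mat r ℂ) := fun H γ => by
    rw [hDe, one_smul, hΦX]
  have hsurj : ∀ M, ∃ p, D p = M := by
    have h1 : D.range = ⊤ := by
      by_contra hne
      obtain ⟨φ, hφ, hle⟩ := Submodule.exists_le_ker_of_lt_top _ (lt_top_iff_ne_top.2 hne)
      obtain ⟨N, hNφ⟩ := exists_trace_repr φ
      have h0 : ∀ p, trace (N * D p) = 0 := fun p => by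
        have := hle (LinearMap.mem_range_self D.toLinearMap p)
        rw [LinearMap.mem_ker, hNφ] at this
        exact this
      have h1 : ∀ H, trace (N * D₀ H) = 0 := fun H => by
        have := h0 (H, 0)
        rw [hDe', zero_smul, add_zero] at this
        exact this
      obtain ⟨c, hcN⟩ := hdual D₀ hD₀ N h1
      have h2 : trace N = 0 := by
        have := h0 (0, 1)
        rw [hDe', map_zero, one_smul, zero_add, Matrix.mul_one] at this
        exact this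
      rw [hcN, trace_smul, trace_one, smul_eq_mul, Fintype.card_fin] at h2
      have hc0 : c = 0 := by
        rcases mul_eq_zero.1 h2 with h | h
        · exact h
        · exact absurd (Nat.cast_eq_zero.1 h) hr0.ne'
      rw [hc0, zero_smul] at hcN
      apply hφ
      ext1 M
      rw [hNφ, hcN, Matrix.zero_mul, trace_zero, LinearMap.zero_apply]
    intro M
    have h2 : M ∈ D.range := h1 ▸ Submodule.mem_top
    exact h2
  -- coordinates
  obtain ⟨e, he⟩ : ∃ e : (G × Fin r × Fin r) → ((G → P002R.Mat r ℂ) × ℂ) →ₗ[ℂ] ℂ,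
      ∀ a p, e a p = p.1 a.1 a.2.1 a.2.2 :=
    ⟨fun a => (Matrix.entryLinearMap ℂ ℂ a.2.1 a.2.2 : P002R.Mat r ℂ →ₗ[ℂ] ℂ).comp
      ((LinearMap.proj a.1).comp (LinearMap.fst ℂ (G → P002R.Mat r ℂ) ℂ)), fun a p => rfl⟩
  obtain ⟨I, hI1, hI2⟩ := exists_coords e (LinearMap.ker D.toLinearMap) (by
    rintro ⟨H, γ⟩ hz h
    have h1 : H = 0 := by
      funext k
      ext i j
      have := h (k, i, j)
      rw [he] at this
      exact this
    have h2 : D (H, γ) = 0 := hz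
    rw [hDe', h1, map_zero, zero_add] at h2
    have h3 : γ = 0 := by
      have := congrFun (congrFun h2 ⟨0, hr0⟩) ⟨0, hr0⟩
      simpa using this
    rw [h1, h3]
    rfl)
  -- the local diffeomorphism
  obtain ⟨eI, heI⟩ : ∃ eI : ((G → P002R.Mat r ℂ) × ℂ) →L[ℂ] (I → ℂ), ∀ p a, eI p a = e a p :=
    ⟨LinearMap.toContinuousLinearMap (LinearMap.pi fun a : I => e a), fun p a => rfl⟩
  have hbij : Function.Bijective (D.prod eI) := by
    constructor
    · rw [injective_iff_map_eq_zero]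
      intro z hz
      have h1 : D z = 0 := congrArg Prod.fst hz
      have h2 : eI z = 0 := congrArg Prod.snd hz
      refine hI1 z h1 fun i hi => ?_
      rw [← heI z ⟨i, hi⟩, h2]
      rfl
    · rintro ⟨M, a⟩
      obtain ⟨p, hp⟩ := hsurj M
      obtain ⟨z, hz, hz'⟩ := hI2 fun i => if h : i ∈ I then a ⟨i, h⟩ - e i p else 0
      have hz0 : D z = 0 := hz
      refine ⟨p + z, Prod.ext ?_ ?_⟩
      · show D (p + z) = M
        rw [map_add, hp, hz0, add_zero]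
      · show eI (p + z) = a
        funext i
        rw [map_add, Pi.add_apply, heI, heI, hz' i i.2, dif_pos i.2]
        ring
  obtain ⟨A, hA⟩ : ∃ A : ((G → P002R.Mat r ℂ) × ℂ) ≃L[ℂ] (P002R.Mat r ℂ × (I → ℂ)),
      (A : ((G → P002R.Mat r ℂ) × ℂ) →L[ℂ] (P002R.Mat r ℂ × (I → ℂ))) = D.prod eI := by
    refine ⟨(LinearEquiv.ofBijective (D.prod eI).toLinearMap hbij).toContinuousLinearEquiv, ?_⟩
    ext p <;> rfl
  have hΨ : HasStrictFDerivAt (fun p : (G → P002R.Mat r ℂ) × ℂ => (p.2 • Φ p.1, eI p))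
      (A : ((G → P002R.Mat r ℂ) × ℂ) →L[ℂ] (P002R.Mat r ℂ × (I → ℂ))) (X, (1 : ℂ)) := by
    rw [hA]
    exact hD.prodMk eI.hasStrictFDerivAt
  obtain ⟨s, hs, hsinj⟩ := exists_approx A hΨ
  have hmap := hΨ.map_nhds_eq_of_equiv
  -- the neighbourhood
  have hUn : {Y : G → P002R.Mat r ℂ | ∀ k, IsUnit (Y k)} ∈ nhds X := by
    have : {Y : G → P002R.Mat r ℂ | ∀ k, IsUnit (Y k)} =
        ⋂ k, {Y : G → P002R.Mat r ℂ | (Y k).det ≠ 0} := by
      ext Y
      simp only [Set.mem_ofPred_eq, Set.mem_iInter]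
      exact forall_congr' fun k => by rw [Matrix.isUnit_iff_isUnit_det, isUnit_iff_ne_zero]
    rw [this]
    refine (isOpen_iInter_of_finite fun k => ?_).mem_nhds ?_
    · exact isOpen_ne.preimage (Continuous.matrix_det (continuous_apply k))
    · simp only [Set.mem_iInter, Set.mem_ofPred_eq]
      intro k
      rw [← isUnit_iff_ne_zero, ← Matrix.isUnit_iff_isUnit_det]
      exact hX k
  have hCn : {c : ℂ | c ^ r = 1 → c = 1} ∈ nhds (1 : ℂ) := by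
    have hfin : ({c : ℂ | c ^ r = 1 ∧ c ≠ 1}).Finite := by
      refine (Multiset.finite_toSet (Polynomial.nthRoots r (1 : ℂ))).subset ?_
      rintro c ⟨h1, -⟩
      exact (Polynomial.mem_nthRoots hr0).2 h1
    have h1 : {c : ℂ | c ^ r = 1 → c = 1} = {c : ℂ | c ^ r = 1 ∧ c ≠ 1}ᶜ := by
      ext c
      simp only [Set.mem_ofPred_eq, Set.mem_compl_iff, not_and, not_not]
    rw [h1]
    refine hfin.isClosed.isOpen_compl.mem_nhds ?_
    simp only [ne_eq, Set.mem_compl_iff, Set.mem_ofPred_eq, one_pow, not_true_eq_false, and_false, not_false_eq_true]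
  have hprod : (U ∩ {Y : G → P002R.Mat r ℂ | ∀ k, IsUnit (Y k)}) ×ˢ
      {c : ℂ | c ^ r = 1 → c = 1} ∈ nhds (X, (1 : ℂ)) :=
    prod_mem_nhds (Filter.inter_mem hU hUn) hCn
  have hall : ((U ∩ {Y : G → P002R.Mat r ℂ | ∀ k, IsUnit (Y k)}) ×ˢ
      {c : ℂ | c ^ r = 1 → c = 1}) ∩ interior s ∈ nhds (X, (1 : ℂ)) :=
    Filter.inter_mem hprod (interior_mem_nhds.2 hs)
  have himg := hmap.ge (Filter.image_mem_map (m := fun p : (G → P002R.Mat r ℂ) × ℂ =>
    (p.2 • Φ p.1, eI p)) hall)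
  have hbase : ((X, (1 : ℂ)).2 • Φ (X, (1 : ℂ)).1, eI (X, (1 : ℂ))) =
      ((1 : P002R.Mat r ℂ), eI (X, (1 : ℂ))) := by
    simp only [one_smul, hΦX]
  rw [hbase, nhds_prod_eq] at himg
  obtain ⟨V₁, hV₁, V₂, hV₂, hV⟩ := Filter.mem_prod_iff.1 himg
  obtain ⟨ε, hε, hball⟩ := Metric.mem_nhds_iff.1 hV₂
  -- algebraically independent coordinates
  obtain ⟨tc, htV, htind⟩ := exists_dense_algIndep K₀ hK₀
    (ι := I ⊕ (Fin r × Fin r))
    (fun a => Sum.elim (fun a : I => Metric.ball (eI (X, (1 : ℂ)) a) ε) (fun _ => Set.univ) a)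
    (fun a => by
      cases a with
      | inl a => exact Metric.isOpen_ball
      | inr a => exact isOpen_univ)
    (fun a => by
      cases a with
      | inl a => exact Metric.nonempty_ball.2 hε
      | inr a => exact Set.univ_nonempty)
  have htmem : (fun a : I => tc (Sum.inl a)) ∈ V₂ := by
    refine hball ?_
    rw [Metric.mem_ball, dist_pi_lt_iff hε]
    intro a
    exact htV (Sum.inl a)
  obtain ⟨⟨Y, c₁⟩, ⟨⟨⟨hYU, hYn⟩, hc₁⟩, hYs⟩, hYeq⟩ := hV (Set.mk_mem_prod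
    (mem_of_mem_nhds hV₁) htmem)
  have hY1 : c₁ • Φ Y = 1 := congrArg Prod.fst hYeq
  have hY2 : eI (Y, c₁) = fun a : I => tc (Sum.inl a) := congrArg Prod.snd hYeq
  have hc1 : c₁ = 1 := by
    apply hc₁
    have h1 := congrArg Matrix.det hY1
    rw [det_smul, hdet Y hYn, mul_one, det_one, Fintype.card_fin] at h1
    exact h1
  rw [hc1] at hY1 hY2 hYs
  rw [one_smul] at hY1
  refine ⟨Y, hYU, hYn, hY1, fun p => tc (Sum.inr p), fun D₁ hD₁ H hH γ => ?_⟩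
  obtain ⟨δ, hδ0, hδ⟩ := exists_derivation K₀ tc htind
    (fun a => Sum.elim (fun a : I => H a.1.1 a.1.2.1 a.1.2.2) γ a)
  refine ⟨δ, hδ0, ?_, fun p => hδ (Sum.inr p)⟩
  obtain ⟨D₂, hD₂, hD₂δ⟩ := hΦ Y hYn
  have hDD : D₂ = D₁ := hD₂.hasFDerivAt.unique hD₁.hasFDerivAt
  have h1 : D₁ (fun k => (Y k).map δ) = 0 := by
    rw [← hDD, ← hD₂δ δ hδ0, hY1]
    ext i j
    rw [Matrix.map_apply, Matrix.one_apply]
    split_ifs
    · simp
    · simp only [map_zero, Matrix.zero_apply]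
  obtain ⟨D₃, hD₃, hD₃e⟩ := hder Y 1 D₁ hD₁
  have h2 : ((fun k => (Y k).map δ) - H, (0 : ℂ)) = 0 := by
    refine hsinj (Y, (1 : ℂ)) (mem_interior_iff_mem_nhds.1 hYs) (D₃.prod eI)
      (hD₃.prodMk eI.hasStrictFDerivAt).hasFDerivAt _ ?_
    refine Prod.ext ?_ ?_
    · show D₃ ((fun k => (Y k).map δ) - H, (0 : ℂ)) = 0
      rw [hD₃e, map_sub, h1, hH, sub_zero, smul_zero, zero_smul, add_zero]
    · show eI ((fun k => (Y k).map δ) - H, (0 : ℂ)) = 0
      funext a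
      have h3 : Y a.1.1 a.1.2.1 a.1.2.2 = tc (Sum.inl a) := by
        have := congrFun hY2 a
        rw [heI, he] at this
        exact this
      have h4 := hδ (Sum.inl a)
      rw [heI, he]
      show δ (Y a.1.1 a.1.2.1 a.1.2.2) - H a.1.1 a.1.2.1 a.1.2.2 = 0
      rw [h3, h4]
      exact sub_self _
  have h3 : (fun k => (Y k).map δ) - H = 0 := congrArg Prod.fst h2
  intro k i j
  have h4 := congrFun (congrFun (congrFun (sub_eq_zero.1 h3) k) i) j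
  exact h4

end normed

end Vale.Agent.P002R
end

section

/-!
# P002, genus 0: generic points of the variety of tuples of conjugates with product one
-/

namespace Vale.Agent.P002R

open Matrix Module Vale.Agent.P002

variable {r : ℕ} {ι : Type}

/-- the tuple of the conjugates -/
noncomputable def cj (J Y : ι → P002R.Mat r ℂ) (j : ι) : P002R.Mat r ℂ := Y j * J j * (Y j)⁻¹

theorem cj_apply (J Y : ι → P002R.Mat r ℂ) (j : ι) : cj J Y j = Y j * J j * (Y j)⁻¹ := rfl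

theorem isUnit_cj {J Y : ι → P002R.Mat r ℂ} (hJ : ∀ j, IsUnit (J j)) (hY : ∀ j, IsUnit (Y j))
    (j : ι) : IsUnit (cj J Y j) :=
  ((hY j).mul (hJ j)).mul (Matrix.isUnit_nonsing_inv_iff.2 (hY j))

theorem isUnit_cj_prod {J Y : ι → P002R.Mat r ℂ} (hJ : ∀ j, IsUnit (J j))
    (hY : ∀ j, IsUnit (Y j)) (l : List ι) : IsUnit (l.map (cj J Y)).prod := by
  induction l with
  | nil => simp only [List.map_nil, List.prod_nil, isUnit_one]
  | cons j l ih => rw [List.map_cons, List.prod_cons]; exact (isUnit_cj hJ hY j).mul ih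

theorem det_cj {J Y : ι → P002R.Mat r ℂ} (hY : ∀ j, IsUnit (Y j)) (j : ι) :
    (cj J Y j).det = (J j).det := by
  have hud : IsUnit (Y j).det := (Matrix.isUnit_iff_isUnit_det _).1 (hY j)
  rw [cj_apply, det_mul, det_mul, det_nonsing_inv, mul_right_comm, Ring.mul_inverse_cancel _ hud,
    one_mul]

theorem det_cj_prod {J Y : ι → P002R.Mat r ℂ} (hY : ∀ j, IsUnit (Y j)) (l : List ι) :
    (l.map (cj J Y)).prod.det = (l.map fun j => (J j).det).prod := by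
  induction l with
  | nil => simp only [List.map_nil, List.prod_nil, det_one]
  | cons j l ih => rw [List.map_cons, List.prod_cons, det_mul, ih, det_cj hY, List.map_cons,
      List.prod_cons]

/-- a matrix orthogonal to the image of `DL` is a scalar -/
theorem scalar_of_orth [DecidableEq ι] {c : ι → P002R.Mat r ℂ} (L : List ι) (hnd : L.Nodup)
    (hmem : ∀ j, j ∈ L) (hrel : (L.map c).prod = 1)
    (hadj : Algebra.adjoin ℂ (Set.range c) = ⊤)
    (N : P002R.Mat r ℂ) (hN : ∀ x, trace (N * DL c x L) = 0) :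
    ∃ a : ℂ, N = a • (1 : P002R.Mat r ℂ) := by
  have h1 := pre_ind c N L (by
    intro l' j l'' hl hcom
    obtain ⟨X, hX⟩ : ∃ X, X = (l'.map c).prod := ⟨_, rfl⟩
    obtain ⟨Z, hZ⟩ : ∃ Z, Z = (l''.map c).prod := ⟨_, rfl⟩
    rw [← hX] at hcom
    have hnd' : (l' ++ j :: l'').Nodup := hl ▸ hnd
    rw [List.nodup_append, List.nodup_cons] at hnd'
    have h1 : ∀ H, trace ((0 : P002R.Mat r ℂ) * H) =
        trace ((c j * (Z * N * X) - (Z * N * X) * c j) * H) := by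
      intro H
      rw [← tr_comm, Matrix.zero_mul, trace_zero, ← hN (Function.update 0 j H), hl]
      rw [DL_split c _ l' l'' j (fun k hk => ?_) (fun k hk => ?_), Function.update_self, hX, hZ]
      · rw [Function.update_of_ne, Pi.zero_apply]
        exact hnd'.2.2 k hk j List.mem_cons_self
      · rw [Function.update_of_ne, Pi.zero_apply]
        rintro rfl
        exact hnd'.2.1.1 hk
    have h2 := eq_of_trace_eq h1
    have hcyc := cyc_one (X := X) (a := c j) (Y := Z) (by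
      rw [← hrel, hl, hX, hZ]
      simp only [List.map_append, List.map_cons, List.prod_append, List.prod_cons,
        Matrix.mul_assoc])
    refine comm_of_inv hcyc.1 ?_
    rw [show Z * X * N = Z * N * X by rw [Matrix.mul_assoc, ← hcom.eq, Matrix.mul_assoc], ← h2])
  have h2 : ∀ M : P002R.Mat r ℂ, Commute N M := by
    intro M
    have h3 : M ∈ Algebra.adjoin ℂ (Set.range c) := hadj ▸ Algebra.mem_top
    induction h3 using Algebra.adjoin_induction with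
    | mem x hx =>
      obtain ⟨j, rfl⟩ := hx
      exact h1.2 j (hmem j)
    | algebraMap a => exact (Algebra.commutes a N).symm
    | add x y _ _ hx hy => exact hx.add_right hy
    | mul x y _ _ hx hy => exact hx.mul_right hy
  obtain ⟨a, ha⟩ := Matrix.mem_range_scalar_iff_commute_single'.2 fun i j => (h2 (single i j 1)).symm
  refine ⟨a, ?_⟩
  rw [← ha, Matrix.scalar_apply, Matrix.smul_one_eq_diagonal]

section normed

open scoped Matrix.Norms.Operator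

variable [Fintype ι]

theorem deriv_cj (J : ι → P002R.Mat r ℂ) {Y : ι → P002R.Mat r ℂ} (hY : ∀ j, IsUnit (Y j)) (j : ι) :
    ∃ D : (ι → P002R.Mat r ℂ) →L[ℂ] P002R.Mat r ℂ,
      HasStrictFDerivAt (fun Y : ι → P002R.Mat r ℂ => cj J Y j) D Y ∧
      ∀ x : ι → P002R.Mat r ℂ, D (fun k => x k * Y k) = x j * cj J Y j - cj J Y j * x j := by
  have hp : HasStrictFDerivAt (fun Y : ι → P002R.Mat r ℂ => Y j)
      (ContinuousLinearMap.proj j : (ι → P002R.Mat r ℂ) →L[ℂ] P002R.Mat r ℂ) Y :=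
    (ContinuousLinearMap.proj j : (ι → P002R.Mat r ℂ) →L[ℂ] P002R.Mat r ℂ).hasStrictFDerivAt
  obtain ⟨D1, h1, e1⟩ := exists_deriv_inv hp (hY j)
  obtain ⟨D2, h2, e2⟩ := exists_deriv_mul hp (hasStrictFDerivAt_const (J j) Y)
  obtain ⟨D3, h3, e3⟩ := exists_deriv_mul h2 h1
  refine ⟨D3, h3, fun x => ?_⟩
  have hud : IsUnit (Y j).det := (Matrix.isUnit_iff_isUnit_det _).1 (hY j)
  have a1 : Y j * (Y j)⁻¹ = 1 := Matrix.mul_nonsing_inv _ hud
  have eqn : D3 (fun k => x k * Y k) = (x j * Y j * J j + Y j * 0) * (Y j)⁻¹ +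
      Y j * J j * -((Y j)⁻¹ * (x j * Y j) * (Y j)⁻¹) :=
    (e3 _).trans (congrArg₂ (fun M N => M + N)
      (congrArg (fun M => M * (Y j)⁻¹) (e2 _))
      (congrArg (fun M => Y j * J j * M) (e1 _)))
  refine eqn.trans ?_
  rw [cj_apply]
  have e : Y j * J j * -((Y j)⁻¹ * (x j * Y j) * (Y j)⁻¹) =
      -(Y j * J j * (Y j)⁻¹ * x j * (Y j * (Y j)⁻¹)) := by noncomm_ring
  rw [e, a1]
  noncomm_ring

theorem deriv_list (J : ι → P002R.Mat r ℂ) {Y : ι → P002R.Mat r ℂ} (hY : ∀ j, IsUnit (Y j))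
    (l : List ι) :
    ∃ D : (ι → P002R.Mat r ℂ) →L[ℂ] P002R.Mat r ℂ,
      HasStrictFDerivAt (fun Y : ι → P002R.Mat r ℂ => (l.map (cj J Y)).prod) D Y ∧
      ∀ x : ι → P002R.Mat r ℂ, D (fun k => x k * Y k) = DL (cj J Y) x l := by
  induction l with
  | nil =>
    refine ⟨0, ?_, fun x => rfl⟩
    simp only [List.map_nil, List.prod_nil]
    exact hasStrictFDerivAt_const _ _
  | cons j l ih =>
    obtain ⟨D₁, h1, e1⟩ := deriv_cj J hY j
    obtain ⟨D₂, h2, e2⟩ := ih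
    obtain ⟨D, h, e⟩ := exists_deriv_mul h1 h2
    refine ⟨D, ?_, fun x => ?_⟩
    · simp only [List.map_cons, List.prod_cons]
      exact h
    · rw [DL_cons, ← e1, ← e2]
      exact e _

theorem good_cj (K₀ : Subfield ℂ) {J : ι → P002R.Mat r ℂ} (hJK : ∀ j a b, J j a b ∈ K₀)
    {Y : ι → P002R.Mat r ℂ} (hY : ∀ j, IsUnit (Y j)) (l : List ι) :
    GoodG K₀ (fun Y : ι → P002R.Mat r ℂ => (l.map (cj J Y)).prod) Y := by
  refine GoodG.list_prod (fun j Y => cj J Y j) l fun j _ => ?_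
  exact ((GoodG.proj _).mul (GoodG.const (hJK j))).mul (GoodG.inv (GoodG.proj _) (hY _))

/-- generating the matrix algebra is an open condition -/
theorem adjoin_nhds (J Y : ι → P002R.Mat r ℂ) (hY : ∀ j, IsUnit (Y j))
    (hadj : Algebra.adjoin ℂ (Set.range (cj J Y)) = ⊤) :
    {Y : ι → P002R.Mat r ℂ | Algebra.adjoin ℂ (Set.range (cj J Y)) = ⊤} ∈ nhds Y := by
  classical
  have h1 : Submodule.span ℂ (Submonoid.closure (Set.range (cj J Y)) : Set (P002R.Mat r ℂ)) = ⊤ := by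
    rw [← Algebra.adjoin_eq_span, hadj]
    rfl
  obtain ⟨f, hf, hspan, hind⟩ := Submodule.exists_fun_fin_finrank_span_eq ℂ
    (Submonoid.closure (Set.range (cj J Y)) : Set (P002R.Mat r ℂ))
  have hword : ∀ x ∈ Submonoid.closure (Set.range (cj J Y)),
      ∃ l : List ι, (l.map (cj J Y)).prod = x := by
    intro x hx
    induction hx using Submonoid.closure_induction with
    | mem x hx =>
      obtain ⟨j, rfl⟩ := hx
      exact ⟨[j], by simp⟩
    | one => exact ⟨[], rfl⟩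
    | mul x y _ _ hx hy =>
      obtain ⟨l, rfl⟩ := hx
      obtain ⟨l', rfl⟩ := hy
      exact ⟨l ++ l', by rw [List.map_append, List.prod_append]⟩
  choose w hw using fun i => hword (f i) (hf i)
  obtain ⟨d, hd⟩ : ∃ d, d = finrank ℂ (Submodule.span ℂ
    (Submonoid.closure (Set.range (cj J Y)) : Set (P002R.Mat r ℂ))) := ⟨_, rfl⟩
  have hcont : ContinuousAt (fun (Y : ι → P002R.Mat r ℂ) i => ((w i).map (cj J Y)).prod) Y := by
    refine continuousAt_pi.2 fun i => ?_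
    obtain ⟨D, hD, -⟩ := deriv_list J hY (w i)
    exact hD.hasFDerivAt.continuousAt
  have hfw : (fun i => ((w i).map (cj J Y)).prod) = f := funext hw
  have h3 : {g | LinearIndependent ℂ g} ∈ nhds (fun i => ((w i).map (cj J Y)).prod) := by
    rw [hfw]
    exact hind.eventually
  have h4 := hcont h3
  refine Filter.mem_of_superset h4 ?_
  intro Y' hY'
  have h5 : LinearIndependent ℂ (fun i => ((w i).map (cj J Y')).prod) := hY'
  show Algebra.adjoin ℂ (Set.range (cj J Y')) = ⊤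
  have h6 : Submodule.span ℂ (Set.range fun i => ((w i).map (cj J Y')).prod) = ⊤ := by
    apply Submodule.eq_top_of_finrank_eq
    rw [finrank_span_eq_card h5, Fintype.card_fin, h1, finrank_top]
  have h7 : Submodule.span ℂ (Set.range fun i => ((w i).map (cj J Y')).prod) ≤
      Subalgebra.toSubmodule (Algebra.adjoin ℂ (Set.range (cj J Y'))) := by
    rw [Submodule.span_le]
    rintro _ ⟨i, rfl⟩
    show ((w i).map (cj J Y')).prod ∈ Algebra.adjoin ℂ (Set.range (cj J Y'))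
    refine list_prod_mem fun x hx => ?_
    rw [List.mem_map] at hx
    obtain ⟨j, -, rfl⟩ := hx
    exact Algebra.subset_adjoin ⟨j, rfl⟩
  rw [h6, top_le_iff] at h7
  exact Algebra.toSubmodule_eq_top.1 h7

/-- Existence of generic points. -/
theorem generic_point_norm [DecidableEq ι] (hr : 1 ≤ r) (L : List ι) (hnd : L.Nodup)
    (hmem : ∀ j, j ∈ L) (K₀ : Subfield ℂ) (hK₀ : Countable K₀) (J : ι → P002R.Mat r ℂ)
    (hJK : ∀ j a b, J j a b ∈ K₀)
    (Y₀ : ι → P002R.Mat r ℂ) (hY₀ : ∀ j, IsUnit (Y₀ j)) (hrel : (L.map (cj J Y₀)).prod = 1)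
    (hadj : Algebra.adjoin ℂ (Set.range (cj J Y₀)) = ⊤) (U : Set (ι → P002R.Mat r ℂ))
    (hU : U ∈ nhds Y₀) :
    ∃ Y ∈ U, (∀ j, IsUnit (Y j)) ∧ (L.map (cj J Y)).prod = 1 ∧
      Algebra.adjoin ℂ (Set.range (cj J Y)) = ⊤ ∧
      ∀ x : ι → P002R.Mat r ℂ, DL (cj J Y) x L = 0 →
        ∃ δ : Derivation ℤ ℂ ℂ, (∀ a ∈ K₀, δ a = 0) ∧ ∀ k, (Y k).map δ = x k * Y k := by
  have hdet : ∀ Y : ι → P002R.Mat r ℂ, (∀ k, IsUnit (Y k)) →
      ((L.map (cj J Y)).prod).det = 1 := by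
    intro Y hY
    rw [det_cj_prod hY, ← det_cj_prod hY₀, hrel, det_one]
  obtain ⟨Y, ⟨hYU, hYadj⟩, hYu, hYrel, c, hgen⟩ := exists_generic_point_K hr K₀ hK₀
    (fun Y : ι → P002R.Mat r ℂ => (L.map (cj J Y)).prod)
    (fun Y hY => good_cj K₀ hJK hY L) hdet Y₀ hY₀ hrel
    (fun D hD N hN => by
      obtain ⟨D', hD', hDe⟩ := deriv_list J hY₀ L
      have hDD : D' = D := hD'.hasFDerivAt.unique hD.hasFDerivAt
      refine scalar_of_orth L hnd hmem hrel hadj N fun x => ?_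
      rw [← hDe, hDD]
      exact hN _)
    _ (Filter.inter_mem hU (adjoin_nhds J Y₀ hY₀ hadj))
  refine ⟨Y, hYU, hYu, hYrel, hYadj, fun x hx => ?_⟩
  obtain ⟨D, hD, hDe⟩ := deriv_list J hYu L
  obtain ⟨δ, hδ0, hδ1, -⟩ := hgen D hD (fun k => x k * Y k) (by rw [hDe]; exact hx) 0
  refine ⟨δ, hδ0, fun k => ?_⟩
  ext i j
  exact hδ1 k i j

theorem map_der_list_norm {K₀ : Subfield ℂ} {J Y : ι → P002R.Mat r ℂ} (hJK : ∀ j a b, J j a b ∈ K₀)
    (hY : ∀ j, IsUnit (Y j)) (δ : Derivation ℤ ℂ ℂ) (hδ : ∀ a ∈ K₀, δ a = 0)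
    (x : ι → P002R.Mat r ℂ) (hx : ∀ k, (Y k).map δ = x k * Y k) (l : List ι) :
    ((l.map (cj J Y)).prod).map δ = DL (cj J Y) x l := by
  obtain ⟨D, hD, h⟩ := good_cj K₀ hJK hY l
  obtain ⟨D', hD', e⟩ := deriv_list J hY l
  have hDD : D' = D := hD'.hasFDerivAt.unique hD.hasFDerivAt
  rw [← e, hDD]
  refine (h δ hδ).trans ?_
  congr 1
  funext k
  exact hx k

end normed

variable [Fintype ι]

/-- Generic points. -/
def GenPt (K₀ : Subfield ℂ) (J : ι → P002R.Mat r ℂ) (L : List ι) (Y : ι → P002R.Mat r ℂ) : Prop :=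
  ∀ x : ι → P002R.Mat r ℂ, DL (cj J Y) x L = 0 →
    ∃ δ : Derivation ℤ ℂ ℂ, (∀ a ∈ K₀, δ a = 0) ∧ ∀ k, (Y k).map δ = x k * Y k

theorem generic_point [DecidableEq ι] (hr : 1 ≤ r) (L : List ι) (hnd : L.Nodup)
    (hmem : ∀ j, j ∈ L) (K₀ : Subfield ℂ) (hK₀ : Countable K₀) (J : ι → P002R.Mat r ℂ)
    (hJK : ∀ j a b, J j a b ∈ K₀)
    (Y₀ : ι → P002R.Mat r ℂ) (hY₀ : ∀ j, IsUnit (Y₀ j)) (hrel : (L.map (cj J Y₀)).prod = 1)
    (hadj : Algebra.adjoin ℂ (Set.range (cj J Y₀)) = ⊤) (U : Set (ι → P002R.Mat r ℂ))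
    (hU : U ∈ nhds Y₀) :
    ∃ Y ∈ U, (∀ j, IsUnit (Y j)) ∧ (L.map (cj J Y)).prod = 1 ∧
      Algebra.adjoin ℂ (Set.range (cj J Y)) = ⊤ ∧ GenPt K₀ J L Y :=
  generic_point_norm hr L hnd hmem K₀ hK₀ J hJK Y₀ hY₀ hrel hadj U hU

theorem map_der_list {K₀ : Subfield ℂ} {J Y : ι → P002R.Mat r ℂ} (hJK : ∀ j a b, J j a b ∈ K₀)
    (hY : ∀ j, IsUnit (Y j)) (δ : Derivation ℤ ℂ ℂ) (hδ : ∀ a ∈ K₀, δ a = 0)
    (x : ι → P002R.Mat r ℂ) (hx : ∀ k, (Y k).map δ = x k * Y k) (l : List ι) :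
    ((l.map (cj J Y)).prod).map δ = DL (cj J Y) x l :=
  map_der_list_norm hJK hY δ hδ x hx l

theorem map_der_inv {M : P002R.Mat r ℂ} (hM : IsUnit M) (δ : Derivation ℤ ℂ ℂ) :
    (M⁻¹).map δ = -(M⁻¹ * M.map δ * M⁻¹) := by
  have hud : IsUnit M.det := (Matrix.isUnit_iff_isUnit_det _).1 hM
  have h1 : M * M⁻¹ = 1 := Matrix.mul_nonsing_inv _ hud
  have h2 : M⁻¹ * M = 1 := Matrix.nonsing_inv_mul _ hud
  have h3 := congrArg (fun M : P002R.Mat r ℂ => M.map δ) h1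
  simp only [map_der_mul] at h3
  have h4 : (1 : P002R.Mat r ℂ).map δ = 0 := by
    ext i j
    rw [Matrix.map_apply, Matrix.one_apply]
    split_ifs <;> simp
  rw [h4] at h3
  have h5 : M * M⁻¹.map δ = -(M.map δ * M⁻¹) := by
    rw [eq_neg_iff_add_eq_zero, add_comm]; exact h3
  calc M⁻¹.map δ = M⁻¹ * (M * M⁻¹.map δ) := by
        rw [← Matrix.mul_assoc, h2, Matrix.one_mul]
    _ = -(M⁻¹ * M.map δ * M⁻¹) := by
        rw [h5, Matrix.mul_neg, Matrix.mul_assoc]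

omit [Fintype ι] in
/-- the functional equation at a generic point -/
theorem generic_fun [DecidableEq ι] {K₀ : Subfield ℂ} {J : ι → P002R.Mat r ℂ}
    {Y : ι → P002R.Mat r ℂ} (hJ : ∀ j, IsUnit (J j)) (hY : ∀ j, IsUnit (Y j)) (b t : ι)
    (l₁ l₂ l₃ : List ι) (hnd : (b :: (l₁ ++ (l₂ ++ t :: l₃))).Nodup)
    (hmem : ∀ j, j ∈ b :: (l₁ ++ (l₂ ++ t :: l₃)))
    (hrel : ((b :: (l₁ ++ (l₂ ++ t :: l₃))).map (cj J Y)).prod = 1)
    (hadj : Algebra.adjoin ℂ (Set.range (cj J Y)) = ⊤)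
    (hgen : GenPt K₀ J (b :: (l₁ ++ (l₂ ++ t :: l₃))) Y) (u y : Fin r → ℂ) (hu : u ≠ 0)
    (hy : y ≠ 0) :
    ∃ (δ : Derivation ℤ ℂ ℂ) (x : ι → P002R.Mat r ℂ), (∀ a ∈ K₀, δ a = 0) ∧
      (∀ k, (Y k).map δ = x k * Y k) ∧
      y ⬝ᵥ ((DL (cj J Y) x l₁ + (l₁.map (cj J Y)).prod * x t - x b * (l₁.map (cj J Y)).prod) *ᵥ u)
        ≠ 0 := by
  obtain ⟨x, hx1, hx2⟩ := rank_one (cj J Y) (fun j => isUnit_cj hJ hY j) b t l₁ l₂ l₃ hnd hrel
    hmem (fun W hW => eq_bot_or_top_of_adjoin (cj J Y) hadj W hW) u y hu hy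
  obtain ⟨δ, h1, h2⟩ := hgen x hx1
  exact ⟨δ, x, h1, h2, hx2⟩

/-- linear functionals at a generic point -/
theorem generic_functional [DecidableEq ι] {K₀ : Subfield ℂ} {J : ι → P002R.Mat r ℂ}
    (hJK : ∀ j a b, J j a b ∈ K₀)
    {Y : ι → P002R.Mat r ℂ} (hJ : ∀ j, IsUnit (J j)) (hY : ∀ j, IsUnit (Y j)) (b t : ι)
    (l₁ l₂ l₃ : List ι) (hnd : (b :: (l₁ ++ (l₂ ++ t :: l₃))).Nodup)
    (hmem : ∀ j, j ∈ b :: (l₁ ++ (l₂ ++ t :: l₃)))
    (hrel : ((b :: (l₁ ++ (l₂ ++ t :: l₃))).map (cj J Y)).prod = 1)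
    (hadj : Algebra.adjoin ℂ (Set.range (cj J Y)) = ⊤)
    (hgen : GenPt K₀ J (b :: (l₁ ++ (l₂ ++ t :: l₃))) Y)
    (e ε : Fin r → ℂ) (he : ∀ i, e i ∈ K₀) (hε : ∀ i, ε i ∈ K₀) (he0 : e ≠ 0) (hε0 : ε ≠ 0) :
    ε ⬝ᵥ (((Y t)⁻¹ * ((l₁.map (cj J Y)).prod)⁻¹ * Y b) *ᵥ e) ≠ 0 := by
  intro h0
  obtain ⟨P, hP⟩ : ∃ P, P = (l₁.map (cj J Y)).prod := ⟨_, rfl⟩
  have hPu : IsUnit P := hP ▸ isUnit_cj_prod hJ hY l₁
  obtain ⟨G, hG⟩ : ∃ G, G = (Y t)⁻¹ * P⁻¹ * Y b := ⟨_, rfl⟩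
  rw [← hP, ← hG] at h0
  have hu : (P⁻¹ * Y b) *ᵥ e ≠ 0 := by
    intro h
    apply he0
    have hud : IsUnit (P⁻¹ * Y b).det :=
      (Matrix.isUnit_iff_isUnit_det _).1 ((Matrix.isUnit_nonsing_inv_iff.2 hPu).mul (hY b))
    calc e = ((P⁻¹ * Y b)⁻¹ * (P⁻¹ * Y b)) *ᵥ e := by
          rw [Matrix.nonsing_inv_mul _ hud, Matrix.one_mulVec]
      _ = 0 := by rw [← Matrix.mulVec_mulVec, h, Matrix.mulVec_zero]
  have hy : ε ᵥ* ((Y t)⁻¹ * P⁻¹) ≠ 0 := by
    intro h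
    apply hε0
    have hud : IsUnit ((Y t)⁻¹ * P⁻¹).det :=
      (Matrix.isUnit_iff_isUnit_det _).1 ((Matrix.isUnit_nonsing_inv_iff.2 (hY t)).mul
        (Matrix.isUnit_nonsing_inv_iff.2 hPu))
    calc ε = ε ᵥ* (((Y t)⁻¹ * P⁻¹) * ((Y t)⁻¹ * P⁻¹)⁻¹) := by
          rw [Matrix.mul_nonsing_inv _ hud, Matrix.vecMul_one]
      _ = 0 := by rw [← Matrix.vecMul_vecMul, h, Matrix.zero_vecMul]
  obtain ⟨δ, x, hδ, hx, hne⟩ := generic_fun hJ hY b t l₁ l₂ l₃ hnd hmem hrel hadj hgen _ _ hu hy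
  apply hne
  rw [← hP]
  have hGδ : G.map δ = -((Y t)⁻¹ * P⁻¹ * (DL (cj J Y) x l₁ + P * x t - x b * P) * (P⁻¹ * Y b)) := by
    have hud : IsUnit (Y t).det := (Matrix.isUnit_iff_isUnit_det _).1 (hY t)
    have hPd : IsUnit P.det := (Matrix.isUnit_iff_isUnit_det _).1 hPu
    have a1 : Y t * (Y t)⁻¹ = 1 := Matrix.mul_nonsing_inv _ hud
    have a2 : P * P⁻¹ = 1 := Matrix.mul_nonsing_inv _ hPd
    have a3 : P⁻¹ * P = 1 := Matrix.nonsing_inv_mul _ hPd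
    have hPδ : P.map δ = DL (cj J Y) x l₁ := by rw [hP, map_der_list hJK hY δ hδ x hx]
    rw [hG, map_der_mul, map_der_mul, map_der_inv (hY t), map_der_inv hPu, hx, hx, hPδ]
    have e1 : -((Y t)⁻¹ * (x t * Y t) * (Y t)⁻¹) = -((Y t)⁻¹ * x t * (Y t * (Y t)⁻¹)) := by
      noncomm_ring
    have e2 : (Y t)⁻¹ * P⁻¹ * (DL (cj J Y) x l₁ + P * x t - x b * P) * (P⁻¹ * Y b) =
        (Y t)⁻¹ * P⁻¹ * DL (cj J Y) x l₁ * P⁻¹ * Y b +
          (Y t)⁻¹ * (P⁻¹ * P) * x t * P⁻¹ * Y b - (Y t)⁻¹ * P⁻¹ * x b * (P * P⁻¹) * Y b := by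
      noncomm_ring
    rw [e1, a1, e2, a2, a3]
    noncomm_ring
  have h1 : (ε ᵥ* ((Y t)⁻¹ * P⁻¹)) ⬝ᵥ
      ((DL (cj J Y) x l₁ + P * x t - x b * P) *ᵥ ((P⁻¹ * Y b) *ᵥ e)) = - (ε ⬝ᵥ (G.map δ *ᵥ e)) := by
    have e1 : ∀ A B C : P002R.Mat r ℂ, (ε ᵥ* A) ⬝ᵥ (B *ᵥ (C *ᵥ e)) =
        ε ⬝ᵥ ((A * B * C) *ᵥ e) := fun A B C => by
      rw [← Matrix.mulVec_mulVec, ← Matrix.mulVec_mulVec, Matrix.dotProduct_mulVec ε]
    rw [hGδ, Matrix.neg_mulVec, dotProduct_neg, neg_neg, e1]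
  rw [h1, neg_eq_zero]
  have h2 := congrArg δ h0
  rw [map_zero] at h2
  simp only [dotProduct, map_sum, Derivation.leibniz, smul_eq_mul, hδ _ (hε _), mul_zero,
    add_zero, Matrix.mulVec, Finset.mul_sum, hδ _ (he _)] at h2
  simp only [dotProduct, Matrix.mulVec, Matrix.map_apply, Finset.mul_sum]
  rw [← h2]
  refine Finset.sum_congr rfl fun i _ => Finset.sum_congr rfl fun j _ => ?_
  rw [zero_add]
  ring

end Vale.Agent.P002R
end

section

/-!
# P002, genus 0: every irreducible representation is a limit of representations in chart form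
-/

namespace Vale.Agent.P002R

open Matrix

variable {n r : ℕ}

/-- The images of the boundary generators. -/
def bt (x : FU 0 n →* (Mat r ℂ)ˣ) (j : Fin n) : Mat r ℂ :=
  (x (FreeGroup.of (Sum.inr j)) : Mat r ℂ)

theorem bt_eqn (x : FU 0 n →* (Mat r ℂ)ˣ) (j : Fin n) :
    bt x j = (x (FreeGroup.of (Sum.inr j)) : Mat r ℂ) := rfl

/-- The representation with given boundary. -/
def mkR (c : Fin n → (Mat r ℂ)ˣ) : FU 0 n →* (Mat r ℂ)ˣ :=
  FreeGroup.lift (Sum.elim (fun k => k.1.elim0) c)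

theorem mkR_inr (c : Fin n → (Mat r ℂ)ˣ) (j : Fin n) :
    mkR c (FreeGroup.of (Sum.inr j)) = c j := by
  rw [mkR, FreeGroup.lift_apply_of]
  rfl

theorem relU_iff (x : FU 0 n →* (Mat r ℂ)ˣ) :
    x (relatorU 0 n) = 1 ↔ ((List.finRange n).map (bt x)).prod = 1 := by
  have h1 : ((x (relatorU 0 n) : (Mat r ℂ)ˣ) : Mat r ℂ) =
      ((List.finRange n).map (bt x)).prod := by
    unfold relatorU
    rw [List.ofFn_zero, List.prod_nil, mul_one, map_list_prod, List.ofFn_eq_map, List.map_map,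
      ← Units.coeHom_apply, map_list_prod, List.map_map]
    rfl
  rw [← h1, Units.val_eq_one]

/-- Evaluation at a tuple. -/
noncomputable def evT (f : MvPolynomial (GenU 0 n × Fin r × Fin r) ℂ) (c : Fin n → Mat r ℂ) : ℂ :=
  MvPolynomial.eval (fun p => (Sum.elim (fun _ => (0 : Mat r ℂ)) c p.1) p.2.1 p.2.2) f

theorem evalG_eq_evT (x : FU 0 n →* (Mat r ℂ)ˣ) (f : MvPolynomial (GenU 0 n × Fin r × Fin r) ℂ) :
    evalG x f = evT f (bt x) := by
  rw [evalG_eq_eval, evT]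
  have h1 : (fun p : GenU 0 n × Fin r × Fin r =>
      (x (FreeGroup.of p.1) : Mat r ℂ) p.2.1 p.2.2) =
      fun p => (Sum.elim (fun _ => (0 : Mat r ℂ)) (bt x) p.1) p.2.1 p.2.2 := by
    funext p
    obtain ⟨k | j, a, b⟩ := p
    · exact k.1.elim0
    · rfl
  rw [h1]

theorem evT_continuous (f : MvPolynomial (GenU 0 n × Fin r × Fin r) ℂ) :
    Continuous (evT f) := by
  have h1 : Continuous fun c : Fin n → Mat r ℂ => fun p : GenU 0 n × Fin r × Fin r =>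
      (Sum.elim (fun _ => (0 : Mat r ℂ)) c p.1) p.2.1 p.2.2 := by
    refine continuous_pi fun p => ?_
    obtain ⟨k | j, a, b⟩ := p
    · exact k.1.elim0
    · exact (continuous_apply b).comp ((continuous_apply a).comp (continuous_apply j))
  exact (MvPolynomial.continuous_eval f).comp h1

/-! ### Triangular forms -/

theorem exists_upT (C : (Mat r ℂ)ˣ) : ∃ J : (Mat r ℂ)ˣ, IsConj C J ∧ UpT (J : Mat r ℂ) := by
  obtain ⟨d, ν, -, hν, -, h⟩ := P002.exists_jordan (C : Mat r ℂ)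
  obtain ⟨P, hP⟩ := h 1 one_ne_zero
  refine ⟨P⁻¹ * C * P, isConj_iff.2 ⟨P⁻¹, by rw [inv_inv]⟩, ?_⟩
  have h1 : ((P⁻¹ * C * P : (Mat r ℂ)ˣ) : Mat r ℂ) =
      diagonal d + (1 : ℂ) • ν.map (Int.cast : ℤ → ℂ) := by
    rw [Units.val_mul, Units.val_mul, hP]
    calc ((P⁻¹ : (Mat r ℂ)ˣ) : Mat r ℂ) * ((P : Mat r ℂ) *
          (diagonal d + (1 : ℂ) • ν.map (Int.cast : ℤ → ℂ)) * ((P⁻¹ : (Mat r ℂ)ˣ) : Mat r ℂ)) *
          (P : Mat r ℂ)
        = (((P⁻¹ : (Mat r ℂ)ˣ) : Mat r ℂ) * (P : Mat r ℂ)) *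
          (diagonal d + (1 : ℂ) • ν.map (Int.cast : ℤ → ℂ)) *
          (((P⁻¹ : (Mat r ℂ)ˣ) : Mat r ℂ) * (P : Mat r ℂ)) := by
          simp only [Matrix.mul_assoc]
      _ = _ := by rw [Units.inv_mul, Matrix.one_mul, Matrix.mul_one]
  rw [h1]
  intro i j hij
  rw [Matrix.add_apply, Matrix.diagonal_apply_ne _ hij.ne', Matrix.smul_apply, Matrix.map_apply,
    hν i j hij.not_gt, Int.cast_zero, smul_zero, add_zero]

section normed

open scoped Matrix.Norms.Operator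

theorem continuousAt_cj_norm (J : Fin n → Mat r ℂ) {Y : Fin n → Mat r ℂ} (hY : ∀ j, IsUnit (Y j)) :
    ContinuousAt (fun Y : Fin n → Mat r ℂ => cj J Y) Y := by
  refine continuousAt_pi.2 fun j => ?_
  obtain ⟨D, hD, -⟩ := deriv_cj J hY j
  exact hD.hasFDerivAt.continuousAt

end normed

theorem continuousAt_cj (J : Fin n → Mat r ℂ) {Y : Fin n → Mat r ℂ} (hY : ∀ j, IsUnit (Y j)) :
    ContinuousAt (fun Y : Fin n → Mat r ℂ => cj J Y) Y := continuousAt_cj_norm J hY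

theorem unit_conj (g M : (Mat r ℂ)ˣ) :
    ((g⁻¹ * M * g : (Mat r ℂ)ˣ) : Mat r ℂ) = (g : Mat r ℂ)⁻¹ * (M : Mat r ℂ) * (g : Mat r ℂ) := by
  rw [Units.val_mul, Units.val_mul, Matrix.coe_units_inv]

/-- products of conjugates -/
theorem prod_conj {ι : Type*} (g : (Mat r ℂ)ˣ) (c : ι → Mat r ℂ) (l : List ι) :
    (l.map fun j => (g : Mat r ℂ)⁻¹ * c j * (g : Mat r ℂ)).prod =
      (g : Mat r ℂ)⁻¹ * (l.map c).prod * (g : Mat r ℂ) := by
  have h1 : (g : Mat r ℂ) * (g : Mat r ℂ)⁻¹ = 1 := by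
    rw [← Matrix.coe_units_inv, Units.mul_inv]
  have h2 : (g : Mat r ℂ)⁻¹ * (g : Mat r ℂ) = 1 := by
    rw [← Matrix.coe_units_inv, Units.inv_mul]
  induction l with
  | nil => simp only [List.map_nil, List.prod_nil, mul_one, h2]
  | cons j l ih =>
    rw [List.map_cons, List.prod_cons, ih, List.map_cons, List.prod_cons]
    calc (g : Mat r ℂ)⁻¹ * c j * (g : Mat r ℂ) *
          ((g : Mat r ℂ)⁻¹ * (l.map c).prod * (g : Mat r ℂ))
        = (g : Mat r ℂ)⁻¹ * c j * ((g : Mat r ℂ) * (g : Mat r ℂ)⁻¹) * (l.map c).prod *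
          (g : Mat r ℂ) := by simp only [Matrix.mul_assoc]
      _ = _ := by rw [h1, Matrix.mul_one]; simp only [Matrix.mul_assoc]

/-- Conjugation acts on polynomials. -/
theorem exists_conjP {K : Type*} (g : (Mat r ℂ)ˣ) (f : MvPolynomial (K × Fin r × Fin r) ℂ) :
    ∃ f' : MvPolynomial (K × Fin r × Fin r) ℂ, ∀ y : FreeGroup K →* (Mat r ℂ)ˣ,
      evalG y f' = evalG (conjH g y) f := by
  refine ⟨MvPolynomial.aeval (fun p : K × Fin r × Fin r =>
    ∑ b, (∑ a, MvPolynomial.C ((g : Mat r ℂ) p.2.1 a) * MvPolynomial.X (p.1, a, b)) *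
      MvPolynomial.C (((g⁻¹ : (Mat r ℂ)ˣ) : Mat r ℂ) b p.2.2)) f, fun y => ?_⟩
  rw [← AlgHom.comp_apply, MvPolynomial.comp_aeval]
  unfold evalG
  refine congrArg (fun h : K × Fin r × Fin r → ℂ => MvPolynomial.aeval h f) ?_
  funext p
  rw [conjH_apply, Units.val_mul, Units.val_mul, Matrix.mul_apply, map_sum]
  refine Finset.sum_congr rfl fun b _ => ?_
  rw [map_mul, Matrix.mul_apply, map_sum]
  congr 1
  · refine Finset.sum_congr rfl fun a _ => ?_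
    rw [map_mul, MvPolynomial.aeval_X, MvPolynomial.aeval_C]
    rfl
  · rw [MvPolynomial.aeval_C]
    rfl

end Vale.Agent.P002R
end

section

/-!
# P002, genus 1: generic points
-/

namespace Vale.Agent.P002R

open Matrix Module Vale.Agent.P002

variable {r : ℕ} {ι : Type}

/-- the tuple of the conjugates -/
noncomputable def cI (J : ι → P002R.Mat r ℂ) (Y : ι ⊕ Bool → P002R.Mat r ℂ) : ι → P002R.Mat r ℂ :=
  cj J fun j => Y (Sum.inl j)

theorem cI_eqn (J : ι → P002R.Mat r ℂ) (Y : ι ⊕ Bool → P002R.Mat r ℂ) :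
    cI J Y = cj J fun j => Y (Sum.inl j) := rfl

/-- the handle -/
noncomputable def hI (Y : ι ⊕ Bool → P002R.Mat r ℂ) : P002R.Mat r ℂ :=
  Y (Sum.inr false) * Y (Sum.inr true) * (Y (Sum.inr false))⁻¹ * (Y (Sum.inr true))⁻¹

/-- the relation -/
noncomputable def PhiI (J : ι → P002R.Mat r ℂ) (L : List ι) (Y : ι ⊕ Bool → P002R.Mat r ℂ) :
    P002R.Mat r ℂ := (L.map (cI J Y)).prod * hI Y

/-- all matrices -/
noncomputable def allI (J : ι → P002R.Mat r ℂ) (Y : ι ⊕ Bool → P002R.Mat r ℂ) :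
    ι ⊕ Bool → P002R.Mat r ℂ := Sum.elim (cI J Y) fun s => Y (Sum.inr s)

theorem orth_comm1 [DecidableEq ι] {c : ι → P002R.Mat r ℂ} {a b : P002R.Mat r ℂ}
    (ha : IsUnit a) (hb : IsUnit b) (L : List ι) (hnd : L.Nodup)
    (hrel : (L.map c).prod * (a * b * a⁻¹ * b⁻¹) = 1)
    (N : P002R.Mat r ℂ) (hN : ∀ x, trace (N * D1 c a b L x) = 0) :
    (∀ j ∈ L, Commute N (c j)) ∧ Commute N a ∧ Commute N b := by
  have had : IsUnit a.det := (Matrix.isUnit_iff_isUnit_det _).1 ha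
  have hbd : IsUnit b.det := (Matrix.isUnit_iff_isUnit_det _).1 hb
  obtain ⟨cP, hcP⟩ : ∃ cP, cP = (L.map c).prod := ⟨_, rfl⟩
  obtain ⟨h, hh⟩ : ∃ h, h = a * b * a⁻¹ * b⁻¹ := ⟨_, rfl⟩
  have H : HInv a a⁻¹ b b⁻¹ h cP :=
    ⟨Matrix.mul_nonsing_inv _ had, Matrix.nonsing_inv_mul _ had, Matrix.mul_nonsing_inv _ hbd,
      Matrix.nonsing_inv_mul _ hbd, hh, by rw [← hrel, hcP, hh]⟩
  have hN' : ∀ x : ι ⊕ Bool → P002R.Mat r ℂ,
      0 = trace (N * (DL c (fun j => x (Sum.inl j)) L * h +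
      cP * (x (Sum.inr false) * h + a * x (Sum.inr true) * (b * a⁻¹ * b⁻¹) -
        a * b * a⁻¹ * x (Sum.inr false) * b⁻¹ - h * x (Sum.inr true)))) := by
    intro x
    have h1 := hN x
    rw [D1, ← hh, ← hcP] at h1
    exact h1.symm
  have hu1 : ∀ (s : Bool) (X : P002R.Mat r ℂ) (j : ι),
      (Function.update (0 : ι ⊕ Bool → P002R.Mat r ℂ) (Sum.inr s) X) (Sum.inl j) = 0 := by
    intro s X j
    rw [Function.update_of_ne (by simp), Pi.zero_apply]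
  have hu2 : ∀ (s : Bool) (X : P002R.Mat r ℂ) (j : ι),
      (Function.update (0 : ι ⊕ Bool → P002R.Mat r ℂ) (Sum.inl j) X) (Sum.inr s) = 0 := by
    intro s X j
    rw [Function.update_of_ne (by simp), Pi.zero_apply]
  have hu3 : ∀ (X : P002R.Mat r ℂ) (j k : ι), k ≠ j →
      (Function.update (0 : ι ⊕ Bool → P002R.Mat r ℂ) (Sum.inl j) X) (Sum.inl k) = 0 := by
    intro X j k hk
    rw [Function.update_of_ne (by simpa using hk), Pi.zero_apply]
  have hu4 : ∀ X : P002R.Mat r ℂ,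
      (Function.update (0 : ι ⊕ Bool → P002R.Mat r ℂ) (Sum.inr false) X) (Sum.inr true) = 0 := by
    intro X
    rw [Function.update_of_ne (by simp), Pi.zero_apply]
  have hu5 : ∀ X : P002R.Mat r ℂ,
      (Function.update (0 : ι ⊕ Bool → P002R.Mat r ℂ) (Sum.inr true) X) (Sum.inr false) = 0 := by
    intro X
    rw [Function.update_of_ne (by simp), Pi.zero_apply]
  have hc1 := pre_ind c N L (by
    intro l' j l'' hl hcom
    obtain ⟨X, hX⟩ : ∃ X, X = (l'.map c).prod := ⟨_, rfl⟩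
    obtain ⟨Z, hZ⟩ : ∃ Z, Z = (l''.map c).prod := ⟨_, rfl⟩
    rw [← hX] at hcom
    have hnd' : (l' ++ j :: l'').Nodup := hl ▸ hnd
    rw [List.nodup_append, List.nodup_cons] at hnd'
    have h1 : ∀ K, trace ((0 : P002R.Mat r ℂ) * K) =
        trace ((c j * (Z * h * N * X) - (Z * h * N * X) * c j) * K) := by
      intro K
      have h2 := hN' (Function.update 0 (Sum.inl j) K)
      have e0 : DL c (fun k => (Function.update (0 : ι ⊕ Bool → P002R.Mat r ℂ) (Sum.inl j) K)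
          (Sum.inl k)) L = X * (K * c j - c j * K) * Z := by
        rw [hl, DL_split c _ l' l'' j (fun k hk => ?_) (fun k hk => ?_), Function.update_self,
          hX, hZ]
        · exact hu3 K j k (hnd'.2.2 k hk j List.mem_cons_self)
        · refine hu3 K j k ?_
          rintro rfl
          exact hnd'.2.1.1 hk
      rw [e0, hu2, hu2] at h2
      simp only [Matrix.zero_mul, Matrix.mul_zero, add_zero,
        sub_self] at h2
      rw [← tr_comm, Matrix.zero_mul, trace_zero, h2]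
      simp only [Matrix.mul_assoc]
    have h2 := eq_of_trace_eq h1
    have hcyc := cyc_one (X := X) (a := c j) (Y := Z * h) (by
      rw [← H.rel, hcP, hl, hX, hZ]
      simp only [List.map_append, List.map_cons, List.prod_append, List.prod_cons,
        Matrix.mul_assoc])
    refine comm_of_inv hcyc.1 ?_
    rw [show Z * h * X * N = Z * h * N * X by rw [Matrix.mul_assoc, ← hcom.eq, Matrix.mul_assoc,
      Matrix.mul_assoc, Matrix.mul_assoc], ← h2])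
  rw [← hcP] at hc1
  have Eb := rankB_Eb (N := N) H (fun X => by
    have h2 := hN' (Function.update 0 (Sum.inr true) X)
    rw [Function.update_self, hu5,
      DL_zero_fun c L _ (fun j => hu1 true X j)] at h2
    simp only [Matrix.zero_mul, zero_add, Matrix.mul_zero, sub_zero] at h2
    exact h2.symm)
  have Ea := rankB_Ea (N := N) (Wm := 0) H (fun X => by
    have h2 := hN' (Function.update 0 (Sum.inr false) X)
    rw [Function.update_self, hu4,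
      DL_zero_fun c L _ (fun j => hu1 false X j)] at h2
    simp only [Matrix.zero_mul, Matrix.mul_zero, sub_zero, zero_add, trace_zero,
      add_zero] at h2 ⊢
    exact h2)
  have h1 : h * N * cP = N := by
    rw [Matrix.mul_assoc, hc1.1.eq, ← Matrix.mul_assoc, H.rel', Matrix.one_mul]
  rw [h1, Matrix.mul_zero, sub_eq_zero] at Ea
  have hNb : Commute N b := by
    show N * b = b * N
    conv_rhs => rw [Ea]
    simp only [Matrix.mul_assoc, mulL H.b1]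
  have hNbi : Commute N b⁻¹ := by
    show N * b⁻¹ = b⁻¹ * N
    calc N * b⁻¹ = b⁻¹ * (b * N) * b⁻¹ := by rw [mulL H.b2]
      _ = b⁻¹ * N := by rw [← hNb.eq]; simp only [Matrix.mul_assoc, H.b1, Matrix.mul_one]
  have hNa : Commute N a⁻¹ := by
    have e1 : b * (a⁻¹ * (N * b⁻¹)) = b * (N * (a⁻¹ * b⁻¹)) := by
      rw [hNbi.eq, Eb, ← Matrix.mul_assoc, hNb.eq, Matrix.mul_assoc]
    have e2 : b⁻¹ * (b * (a⁻¹ * (N * b⁻¹))) * b = b⁻¹ * (b * (N * (a⁻¹ * b⁻¹))) * b := by rw [e1]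
    simp only [mulL H.b2] at e2
    simp only [Matrix.mul_assoc, H.b2, Matrix.mul_one] at e2
    exact e2.symm
  refine ⟨hc1.2, ?_, hNb⟩
  show N * a = a * N
  calc N * a = a * (a⁻¹ * N) * a := by rw [mulL H.a1]
    _ = a * N := by rw [← hNa.eq]; simp only [Matrix.mul_assoc, H.a2, Matrix.mul_one]

/-- a matrix orthogonal to the image of `D1` is a scalar -/
theorem scalar_of_orth1 [DecidableEq ι] {c : ι → P002R.Mat r ℂ} {a b : P002R.Mat r ℂ}
    (ha : IsUnit a) (hb : IsUnit b) (L : List ι) (hnd : L.Nodup) (hmem : ∀ j, j ∈ L)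
    (hrel : (L.map c).prod * (a * b * a⁻¹ * b⁻¹) = 1) (q : ι ⊕ Bool → P002R.Mat r ℂ)
    (hq1 : ∀ j, q (Sum.inl j) = c j) (hq2 : q (Sum.inr false) = a) (hq3 : q (Sum.inr true) = b)
    (hadj : Algebra.adjoin ℂ (Set.range q) = ⊤)
    (N : P002R.Mat r ℂ) (hN : ∀ x, trace (N * D1 c a b L x) = 0) :
    ∃ t : ℂ, N = t • (1 : P002R.Mat r ℂ) := by
  obtain ⟨h1, h2, h3⟩ := orth_comm1 ha hb L hnd hrel N hN
  have h4 : ∀ M : P002R.Mat r ℂ, Commute N M := by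
    intro M
    have h5 : M ∈ Algebra.adjoin ℂ (Set.range q) := hadj ▸ Algebra.mem_top
    induction h5 using Algebra.adjoin_induction with
    | mem x hx =>
      obtain ⟨k, rfl⟩ := hx
      rcases k with j | s
      · rw [hq1]
        exact h1 j (hmem j)
      · cases s
        · rw [hq2]
          exact h2
        · rw [hq3]
          exact h3
    | algebraMap a => exact (Algebra.commutes a N).symm
    | add x y _ _ hx hy => exact hx.add_right hy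
    | mul x y _ _ hx hy => exact hx.mul_right hy
  obtain ⟨t, ht⟩ := Matrix.mem_range_scalar_iff_commute_single'.2 fun i j => (h4 (single i j 1)).symm
  refine ⟨t, ?_⟩
  rw [← ht, Matrix.scalar_apply, Matrix.smul_one_eq_diagonal]

/-- Generic points. -/
def GenPt1 (K₀ : Subfield ℂ) (J : ι → P002R.Mat r ℂ) (L : List ι)
    (Y : ι ⊕ Bool → P002R.Mat r ℂ) : Prop :=
  ∀ x : ι ⊕ Bool → P002R.Mat r ℂ,
    D1 (cI J Y) (Y (Sum.inr false)) (Y (Sum.inr true)) L x = 0 →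
    ∃ δ : Derivation ℤ ℂ ℂ, (∀ a ∈ K₀, δ a = 0) ∧ ∀ k, (Y k).map δ = x k * Y k

section normed

open scoped Matrix.Norms.Operator

/-- generating the matrix algebra is an open condition -/
theorem adjoin_nhds_gen_norm {E κ : Type*} [TopologicalSpace E] (c : E → κ → P002R.Mat r ℂ) (p : E)
    (hc : ContinuousAt c p) (hadj : Algebra.adjoin ℂ (Set.range (c p)) = ⊤) :
    {q | Algebra.adjoin ℂ (Set.range (c q)) = ⊤} ∈ nhds p := by
  classical
  have h1 : Submodule.span ℂ (Submonoid.closure (Set.range (c p)) : Set (P002R.Mat r ℂ)) = ⊤ := by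
    rw [← Algebra.adjoin_eq_span, hadj]
    rfl
  obtain ⟨f, hf, hspan, hind⟩ := Submodule.exists_fun_fin_finrank_span_eq ℂ
    (Submonoid.closure (Set.range (c p)) : Set (P002R.Mat r ℂ))
  have hword : ∀ x ∈ Submonoid.closure (Set.range (c p)),
      ∃ l : List κ, (l.map (c p)).prod = x := by
    intro x hx
    induction hx using Submonoid.closure_induction with
    | mem x hx =>
      obtain ⟨j, rfl⟩ := hx
      exact ⟨[j], by simp⟩
    | one => exact ⟨[], rfl⟩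
    | mul x y _ _ hx hy =>
      obtain ⟨l, rfl⟩ := hx
      obtain ⟨l', rfl⟩ := hy
      exact ⟨l ++ l', by rw [List.map_append, List.prod_append]⟩
  choose w hw using fun i => hword (f i) (hf i)
  obtain ⟨d, hd⟩ : ∃ d, d = finrank ℂ (Submodule.span ℂ
    (Submonoid.closure (Set.range (c p)) : Set (P002R.Mat r ℂ))) := ⟨_, rfl⟩
  have hlist : ∀ l : List κ, ContinuousAt (fun q : E => (l.map (c q)).prod) p := by
    intro l
    induction l with
    | nil =>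
      simp only [List.map_nil, List.prod_nil]
      exact continuousAt_const
    | cons j l ih =>
      simp only [List.map_cons, List.prod_cons]
      exact ContinuousAt.mul (continuousAt_pi.1 hc j) ih
  have hcont : ContinuousAt (fun (q : E) i => ((w i).map (c q)).prod) p :=
    continuousAt_pi.2 fun i => hlist (w i)
  have hfw : (fun i => ((w i).map (c p)).prod) = f := funext hw
  have h3 : {g | LinearIndependent ℂ g} ∈ nhds (fun i => ((w i).map (c p)).prod) := by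
    rw [hfw]
    exact hind.eventually
  have h4 := hcont h3
  refine Filter.mem_of_superset h4 ?_
  intro q hq
  have h5 : LinearIndependent ℂ (fun i => ((w i).map (c q)).prod) := hq
  show Algebra.adjoin ℂ (Set.range (c q)) = ⊤
  have h6 : Submodule.span ℂ (Set.range fun i => ((w i).map (c q)).prod) = ⊤ := by
    apply Submodule.eq_top_of_finrank_eq
    rw [finrank_span_eq_card h5, Fintype.card_fin, h1, finrank_top]
  have h7 : Submodule.span ℂ (Set.range fun i => ((w i).map (c q)).prod) ≤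
      Subalgebra.toSubmodule (Algebra.adjoin ℂ (Set.range (c q))) := by
    rw [Submodule.span_le]
    rintro _ ⟨i, rfl⟩
    show ((w i).map (c q)).prod ∈ Algebra.adjoin ℂ (Set.range (c q))
    refine list_prod_mem fun x hx => ?_
    rw [List.mem_map] at hx
    obtain ⟨j, -, rfl⟩ := hx
    exact Algebra.subset_adjoin ⟨j, rfl⟩
  rw [h6, top_le_iff] at h7
  exact Algebra.toSubmodule_eq_top.1 h7

variable [Fintype ι]

theorem deriv_listI (J : ι → P002R.Mat r ℂ) {Y : ι ⊕ Bool → P002R.Mat r ℂ}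
    (hY : ∀ j, IsUnit (Y j)) (l : List ι) :
    ∃ D : (ι ⊕ Bool → P002R.Mat r ℂ) →L[ℂ] P002R.Mat r ℂ,
      HasStrictFDerivAt (fun Y : ι ⊕ Bool → P002R.Mat r ℂ => (l.map (cI J Y)).prod) D Y ∧
      ∀ x : ι ⊕ Bool → P002R.Mat r ℂ, D (fun k => x k * Y k) =
        DL (cI J Y) (fun j => x (Sum.inl j)) l := by
  obtain ⟨D, hD, he⟩ := deriv_list J (Y := fun j => Y (Sum.inl j)) (fun j => hY _) l
  obtain ⟨R, hR⟩ : ∃ R : (ι ⊕ Bool → P002R.Mat r ℂ) →L[ℂ] (ι → P002R.Mat r ℂ),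
      ∀ Y, R Y = fun j => Y (Sum.inl j) :=
    ⟨ContinuousLinearMap.pi fun j => ContinuousLinearMap.proj (Sum.inl j), fun Y => rfl⟩
  refine ⟨D.comp R, ?_, fun x => ?_⟩
  · have h1 : HasStrictFDerivAt (fun Y => R Y) R Y := R.hasStrictFDerivAt
    have h2 : HasStrictFDerivAt (fun Y : ι → P002R.Mat r ℂ => (l.map (cj J Y)).prod) D (R Y) := by
      rw [hR]
      exact hD
    have h3 := HasStrictFDerivAt.comp Y h2 h1
    have h4 : (fun Y : ι ⊕ Bool → P002R.Mat r ℂ => (l.map (cI J Y)).prod) =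
        (fun Y : ι → P002R.Mat r ℂ => (l.map (cj J Y)).prod) ∘ fun Y => R Y := by
      funext Y'
      rw [Function.comp_apply, hR]
      rfl
    rw [h4]
    exact h3
  · rw [ContinuousLinearMap.comp_apply, hR]
    exact he fun j => x (Sum.inl j)

theorem deriv_PhiI (J : ι → P002R.Mat r ℂ) {Y : ι ⊕ Bool → P002R.Mat r ℂ}
    (hY : ∀ j, IsUnit (Y j)) (L : List ι) :
    ∃ D : (ι ⊕ Bool → P002R.Mat r ℂ) →L[ℂ] P002R.Mat r ℂ,
      HasStrictFDerivAt (PhiI J L) D Y ∧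
      ∀ x : ι ⊕ Bool → P002R.Mat r ℂ, D (fun k => x k * Y k) =
        D1 (cI J Y) (Y (Sum.inr false)) (Y (Sum.inr true)) L x := by
  obtain ⟨D₁, h1, e1⟩ := deriv_listI J hY L
  have hp : ∀ s : Bool, HasStrictFDerivAt (fun Y : ι ⊕ Bool → P002R.Mat r ℂ => Y (Sum.inr s))
      (ContinuousLinearMap.proj (Sum.inr s) : (ι ⊕ Bool → P002R.Mat r ℂ) →L[ℂ] P002R.Mat r ℂ) Y :=
    fun s => (ContinuousLinearMap.proj (Sum.inr s) :
      (ι ⊕ Bool → P002R.Mat r ℂ) →L[ℂ] P002R.Mat r ℂ).hasStrictFDerivAt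
  obtain ⟨D₂, h2, e2⟩ := exists_deriv_cm (hp false) (hp true) (hY _) (hY _)
  obtain ⟨D, h, e⟩ := exists_deriv_mul h1 h2
  refine ⟨D, h, fun x => ?_⟩
  have had : IsUnit (Y (Sum.inr false)).det := (Matrix.isUnit_iff_isUnit_det _).1 (hY _)
  have hbd : IsUnit (Y (Sum.inr true)).det := (Matrix.isUnit_iff_isUnit_det _).1 (hY _)
  have a1 := Matrix.mul_nonsing_inv _ had
  have b1 := Matrix.mul_nonsing_inv _ hbd
  obtain ⟨a, ha⟩ : ∃ a, a = Y (Sum.inr false) := ⟨_, rfl⟩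
  obtain ⟨b, hb⟩ : ∃ b, b = Y (Sum.inr true) := ⟨_, rfl⟩
  have h3 : D₂ (fun k => x k * Y k) = x (Sum.inr false) * (a * b * a⁻¹ * b⁻¹) +
      a * x (Sum.inr true) * (b * a⁻¹ * b⁻¹) - a * b * a⁻¹ * x (Sum.inr false) * b⁻¹ -
      a * b * a⁻¹ * b⁻¹ * x (Sum.inr true) := by
    refine (e2 _).trans ?_
    show (x (Sum.inr false) * Y (Sum.inr false)) * Y (Sum.inr true) * (Y (Sum.inr false))⁻¹ *
      (Y (Sum.inr true))⁻¹ + Y (Sum.inr false) * (x (Sum.inr true) * Y (Sum.inr true)) *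
      (Y (Sum.inr false))⁻¹ * (Y (Sum.inr true))⁻¹ - Y (Sum.inr false) * Y (Sum.inr true) *
      (Y (Sum.inr false))⁻¹ * (x (Sum.inr false) * Y (Sum.inr false)) * (Y (Sum.inr false))⁻¹ *
      (Y (Sum.inr true))⁻¹ - Y (Sum.inr false) * Y (Sum.inr true) * (Y (Sum.inr false))⁻¹ *
      (Y (Sum.inr true))⁻¹ * (x (Sum.inr true) * Y (Sum.inr true)) * (Y (Sum.inr true))⁻¹ = _
    rw [← ha] at a1
    rw [← hb] at b1
    rw [← ha, ← hb]
    simp only [Matrix.mul_assoc, mulL a1, b1, Matrix.mul_one]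
  refine (e _).trans ?_
  rw [D1, ← ha, ← hb, ← h3, ← e1]
  have h4 : a * b * a⁻¹ * b⁻¹ = cm (Y (Sum.inr false)) (Y (Sum.inr true)) := by
    rw [ha, hb]
    rfl
  rw [h4, ha, hb]
  rfl

theorem good_cI (K₀ : Subfield ℂ) {J : ι → P002R.Mat r ℂ} (hJK : ∀ j a b, J j a b ∈ K₀)
    {Y : ι ⊕ Bool → P002R.Mat r ℂ} (hY : ∀ j, IsUnit (Y j)) (l : List ι) :
    GoodG K₀ (fun Y : ι ⊕ Bool → P002R.Mat r ℂ => (l.map (cI J Y)).prod) Y := by
  refine GoodG.list_prod (fun j Y => cI J Y j) l fun j _ => ?_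
  exact ((GoodG.proj _).mul (GoodG.const (hJK j))).mul (GoodG.inv (GoodG.proj _) (hY _))

theorem good_PhiI (K₀ : Subfield ℂ) {J : ι → P002R.Mat r ℂ} (hJK : ∀ j a b, J j a b ∈ K₀)
    {Y : ι ⊕ Bool → P002R.Mat r ℂ} (hY : ∀ j, IsUnit (Y j)) (l : List ι) :
    GoodG K₀ (PhiI J l) Y :=
  (good_cI K₀ hJK hY l).mul ((((GoodG.proj _).mul (GoodG.proj _)).mul
    (GoodG.inv (GoodG.proj _) (hY _))).mul (GoodG.inv (GoodG.proj _) (hY _)))

omit [Fintype ι] in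
theorem det_PhiI {J : ι → P002R.Mat r ℂ} {Y : ι ⊕ Bool → P002R.Mat r ℂ}
    (hY : ∀ j, IsUnit (Y j)) (l : List ι) :
    (PhiI J l Y).det = (l.map fun j => (J j).det).prod := by
  have had : IsUnit (Y (Sum.inr false)).det := (Matrix.isUnit_iff_isUnit_det _).1 (hY _)
  have hbd : IsUnit (Y (Sum.inr true)).det := (Matrix.isUnit_iff_isUnit_det _).1 (hY _)
  have h1 : (hI Y).det = 1 := by
    rw [hI, det_mul, det_mul, det_mul, det_nonsing_inv, det_nonsing_inv,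
      mul_right_comm (Y (Sum.inr false)).det, Ring.mul_inverse_cancel _ had, one_mul,
      Ring.mul_inverse_cancel _ hbd]
  rw [PhiI, det_mul, h1, mul_one, cI_eqn, det_cj_prod fun j => hY _]

theorem continuousAt_allI (J : ι → P002R.Mat r ℂ) {Y : ι ⊕ Bool → P002R.Mat r ℂ}
    (hY : ∀ j, IsUnit (Y j)) :
    ContinuousAt (fun Y : ι ⊕ Bool → P002R.Mat r ℂ => allI J Y) Y := by
  refine continuousAt_pi.2 fun k => ?_
  rcases k with j | s
  · obtain ⟨D, hD, -⟩ := deriv_listI J hY [j]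
    have h1 := hD.hasFDerivAt.continuousAt
    simp only [List.map_cons, List.map_nil, List.prod_cons, List.prod_nil, mul_one] at h1
    exact h1
  · exact continuousAt_apply (Sum.inr s) Y

/-- Existence of generic points. -/
theorem generic_point1_norm [DecidableEq ι] (hr : 1 ≤ r) (L : List ι) (hnd : L.Nodup)
    (hmem : ∀ j, j ∈ L) (K₀ : Subfield ℂ) (hK₀ : Countable K₀) (J : ι → P002R.Mat r ℂ)
    (hJK : ∀ j a b, J j a b ∈ K₀)
    (Y₀ : ι ⊕ Bool → P002R.Mat r ℂ) (hY₀ : ∀ j, IsUnit (Y₀ j)) (hrel : PhiI J L Y₀ = 1)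
    (hadj : Algebra.adjoin ℂ (Set.range (allI J Y₀)) = ⊤) (U : Set (ι ⊕ Bool → P002R.Mat r ℂ))
    (hU : U ∈ nhds Y₀) :
    ∃ Y ∈ U, (∀ j, IsUnit (Y j)) ∧ PhiI J L Y = 1 ∧
      Algebra.adjoin ℂ (Set.range (allI J Y)) = ⊤ ∧ GenPt1 K₀ J L Y := by
  have hdet : ∀ Y : ι ⊕ Bool → P002R.Mat r ℂ, (∀ k, IsUnit (Y k)) → (PhiI J L Y).det = 1 := by
    intro Y hY
    rw [det_PhiI hY, ← det_PhiI hY₀, hrel, det_one]
  obtain ⟨Y, ⟨hYU, hYadj⟩, hYu, hYrel, c, hgen⟩ := exists_generic_point_K hr K₀ hK₀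
    (PhiI J L) (fun Y hY => good_PhiI K₀ hJK hY L) hdet Y₀ hY₀ hrel
    (fun D hD N hN => by
      obtain ⟨D', hD', hDe⟩ := deriv_PhiI J hY₀ L
      have hDD : D' = D := hD'.hasFDerivAt.unique hD.hasFDerivAt
      refine scalar_of_orth1 (hY₀ _) (hY₀ _) L hnd hmem hrel (allI J Y₀) (fun j => rfl) rfl rfl
        hadj N fun x => ?_
      rw [← hDe, hDD]
      exact hN _)
    _ (Filter.inter_mem hU (adjoin_nhds_gen_norm (fun Y => allI J Y) Y₀ (continuousAt_allI J hY₀)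
      hadj))
  refine ⟨Y, hYU, hYu, hYrel, hYadj, fun x hx => ?_⟩
  obtain ⟨D, hD, hDe⟩ := deriv_PhiI J hYu L
  obtain ⟨δ, hδ0, hδ1, -⟩ := hgen D hD (fun k => x k * Y k) (by rw [hDe]; exact hx) 0
  refine ⟨δ, hδ0, fun k => ?_⟩
  ext i j
  exact hδ1 k i j

theorem map_der_listI_norm {K₀ : Subfield ℂ} {J : ι → P002R.Mat r ℂ} {Y : ι ⊕ Bool → P002R.Mat r ℂ}
    (hJK : ∀ j a b, J j a b ∈ K₀) (hY : ∀ j, IsUnit (Y j)) (δ : Derivation ℤ ℂ ℂ)
    (hδ : ∀ a ∈ K₀, δ a = 0) (x : ι ⊕ Bool → P002R.Mat r ℂ) (hx : ∀ k, (Y k).map δ = x k * Y k)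
    (l : List ι) :
    ((l.map (cI J Y)).prod).map δ = DL (cI J Y) (fun j => x (Sum.inl j)) l :=
  map_der_list_norm hJK (fun j => hY (Sum.inl j)) δ hδ (fun j => x (Sum.inl j))
    (fun j => hx (Sum.inl j)) l

end normed

variable [Fintype ι]

theorem generic_point1 [DecidableEq ι] (hr : 1 ≤ r) (L : List ι) (hnd : L.Nodup)
    (hmem : ∀ j, j ∈ L) (K₀ : Subfield ℂ) (hK₀ : Countable K₀) (J : ι → P002R.Mat r ℂ)
    (hJK : ∀ j a b, J j a b ∈ K₀)
    (Y₀ : ι ⊕ Bool → P002R.Mat r ℂ) (hY₀ : ∀ j, IsUnit (Y₀ j)) (hrel : PhiI J L Y₀ = 1)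
    (hadj : Algebra.adjoin ℂ (Set.range (allI J Y₀)) = ⊤) (U : Set (ι ⊕ Bool → P002R.Mat r ℂ))
    (hU : U ∈ nhds Y₀) :
    ∃ Y ∈ U, (∀ j, IsUnit (Y j)) ∧ PhiI J L Y = 1 ∧
      Algebra.adjoin ℂ (Set.range (allI J Y)) = ⊤ ∧ GenPt1 K₀ J L Y :=
  generic_point1_norm hr L hnd hmem K₀ hK₀ J hJK Y₀ hY₀ hrel hadj U hU

theorem map_der_listI {K₀ : Subfield ℂ} {J : ι → P002R.Mat r ℂ} {Y : ι ⊕ Bool → P002R.Mat r ℂ}
    (hJK : ∀ j a b, J j a b ∈ K₀) (hY : ∀ j, IsUnit (Y j)) (δ : Derivation ℤ ℂ ℂ)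
    (hδ : ∀ a ∈ K₀, δ a = 0) (x : ι ⊕ Bool → P002R.Mat r ℂ) (hx : ∀ k, (Y k).map δ = x k * Y k)
    (l : List ι) :
    ((l.map (cI J Y)).prod).map δ = DL (cI J Y) (fun j => x (Sum.inl j)) l :=
  map_der_listI_norm hJK hY δ hδ x hx l

end Vale.Agent.P002R
end

section

/-!
# P002, genus 1: consequences of genericity
-/

namespace Vale.Agent.P002R

open Matrix Module Vale.Agent.P002

variable {r : ℕ} {ι : Type} [Fintype ι]

omit [Fintype ι] in
theorem allI_inl (J : ι → P002R.Mat r ℂ) (Y : ι ⊕ Bool → P002R.Mat r ℂ) (j : ι) :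
    allI J Y (Sum.inl j) = cI J Y j := rfl

omit [Fintype ι] in
theorem allI_inr (J : ι → P002R.Mat r ℂ) (Y : ι ⊕ Bool → P002R.Mat r ℂ) (s : Bool) :
    allI J Y (Sum.inr s) = Y (Sum.inr s) := rfl

omit [Fintype ι] in
theorem isUnit_cI {J : ι → P002R.Mat r ℂ} {Y : ι ⊕ Bool → P002R.Mat r ℂ} (hJ : ∀ j, IsUnit (J j))
    (hY : ∀ j, IsUnit (Y j)) (j : ι) : IsUnit (cI J Y j) := isUnit_cj hJ (fun _ => hY _) j

omit [Fintype ι] in
theorem isUnit_cI_prod {J : ι → P002R.Mat r ℂ} {Y : ι ⊕ Bool → P002R.Mat r ℂ}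
    (hJ : ∀ j, IsUnit (J j)) (hY : ∀ j, IsUnit (Y j)) (l : List ι) :
    IsUnit (l.map (cI J Y)).prod := isUnit_cj_prod hJ (fun _ => hY _) l

/-- derivation of a matrix-vector product -/
theorem der_mulVec (δ : Derivation ℤ ℂ ℂ) (M : P002R.Mat r ℂ) (v : Fin r → ℂ) :
    (fun i => δ ((M *ᵥ v) i)) = M.map δ *ᵥ v + M *ᵥ fun i => δ (v i) := by
  funext i
  simp only [Matrix.mulVec, dotProduct, map_sum, Derivation.leibniz, smul_eq_mul, Pi.add_apply,
    Matrix.map_apply, ← Finset.sum_add_distrib]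
  refine Finset.sum_congr rfl fun j _ => ?_
  ring

omit [Fintype ι] in
/-- the generic point and rank one lemma together -/
theorem gen_B [DecidableEq ι] {K₀ : Subfield ℂ} {J : ι → P002R.Mat r ℂ}
    {Y : ι ⊕ Bool → P002R.Mat r ℂ} (hJ : ∀ j, IsUnit (J j)) (hY : ∀ j, IsUnit (Y j)) (i₀ : ι)
    (l₁ : List ι) (hnd : (i₀ :: l₁).Nodup) (hmem : ∀ j, j ∈ i₀ :: l₁)
    (hrel : PhiI J (i₀ :: l₁) Y = 1)
    (hadj : Algebra.adjoin ℂ (Set.range (allI J Y)) = ⊤) (hgen : GenPt1 K₀ J (i₀ :: l₁) Y)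
    (y w v : Fin r → ℂ) (hy : y ≠ 0) (hw : w ≠ 0) (lam κ : ℂ) (hlam : lam ≠ 0)
    (haw : Y (Sum.inr false) *ᵥ w = lam • w - κ • v) :
    ∃ (δ : Derivation ℤ ℂ ℂ) (x : ι ⊕ Bool → P002R.Mat r ℂ), (∀ a ∈ K₀, δ a = 0) ∧
      (∀ k, (Y k).map δ = x k * Y k) ∧
      y ⬝ᵥ ((x (Sum.inr false) * Y (Sum.inr false)) *ᵥ w) +
        κ * (y ⬝ᵥ ((((l₁.map (cI J Y)).prod)⁻¹ * x (Sum.inl i₀) * (l₁.map (cI J Y)).prod -
          ((l₁.map (cI J Y)).prod)⁻¹ * DL (cI J Y) (fun j => x (Sum.inl j)) l₁) *ᵥ v)) ≠ 0 := by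
  obtain ⟨x, hx1, hx2⟩ := rank_B (cI J Y) (isUnit_cI hJ hY) _ _ (hY (Sum.inr false))
    (hY (Sum.inr true)) i₀ l₁ hnd hmem hrel (fun W h1 h2 h3 => by
      refine eq_bot_or_top_of_adjoin (allI J Y) hadj W fun k => ?_
      rcases k with j | s
      · exact h1 j
      · cases s
        · exact h2
        · exact h3) y w v hy hw lam κ hlam haw
  obtain ⟨δ, h1, h2⟩ := hgen x hx1
  exact ⟨δ, x, h1, h2, hx2⟩

omit [Fintype ι] in
/-- left and right eigenvectors pair nontrivially -/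
theorem gen_pair [DecidableEq ι] {K₀ : Subfield ℂ} {J : ι → P002R.Mat r ℂ}
    {Y : ι ⊕ Bool → P002R.Mat r ℂ} (hJ : ∀ j, IsUnit (J j)) (hY : ∀ j, IsUnit (Y j)) (i₀ : ι)
    (l₁ : List ι) (hnd : (i₀ :: l₁).Nodup) (hmem : ∀ j, j ∈ i₀ :: l₁)
    (hrel : PhiI J (i₀ :: l₁) Y = 1)
    (hadj : Algebra.adjoin ℂ (Set.range (allI J Y)) = ⊤) (hgen : GenPt1 K₀ J (i₀ :: l₁) Y)
    (lam : ℂ) (y w : Fin r → ℂ) (hy : y ≠ 0) (hw : w ≠ 0)
    (hya : y ᵥ* Y (Sum.inr false) = lam • y) (haw : Y (Sum.inr false) *ᵥ w = lam • w) :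
    y ⬝ᵥ w ≠ 0 := by
  intro h0
  have had : IsUnit (Y (Sum.inr false)).det := (Matrix.isUnit_iff_isUnit_det _).1 (hY _)
  have hlam : lam ≠ 0 := by
    rintro rfl
    apply hw
    rw [zero_smul] at haw
    calc w = ((Y (Sum.inr false))⁻¹ * Y (Sum.inr false)) *ᵥ w := by
          rw [Matrix.nonsing_inv_mul _ had, Matrix.one_mulVec]
      _ = 0 := by rw [← Matrix.mulVec_mulVec, haw, Matrix.mulVec_zero]
  obtain ⟨δ, x, -, hx, hne⟩ := gen_B hJ hY i₀ l₁ hnd hmem hrel hadj hgen y w 0 hy hw lam 0 hlam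
    (by rw [haw, zero_smul, sub_zero])
  apply hne
  rw [zero_mul, add_zero, ← hx]
  have h1 := der_mulVec δ (Y (Sum.inr false)) w
  rw [haw] at h1
  have h2 := congrArg (fun q => y ⬝ᵥ q) h1
  simp only [Pi.smul_apply, smul_eq_mul, Derivation.leibniz, dotProduct_add] at h2
  have h3 : y ⬝ᵥ (Y (Sum.inr false) *ᵥ fun i => δ (w i)) = lam * (y ⬝ᵥ fun i => δ (w i)) := by
    rw [Matrix.dotProduct_mulVec, hya, smul_dotProduct, smul_eq_mul]
  have h4 : (y ⬝ᵥ fun i => lam * δ (w i) + w i * δ lam) =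
      lam * (y ⬝ᵥ fun i => δ (w i)) + δ lam * (y ⬝ᵥ w) := by
    simp only [dotProduct, Finset.mul_sum, ← Finset.sum_add_distrib]
    refine Finset.sum_congr rfl fun i _ => ?_
    ring
  rw [h3, h4, h0, mul_zero, add_zero] at h2
  linear_combination -h2

omit [Fintype ι] in
/-- derivation of eigenvector matrices -/
theorem der_eigenbasis {a A Z : P002R.Mat r ℂ} {ν : Fin r → ℂ} (δ : Derivation ℤ ℂ ℂ)
    (ha : a.map δ = 0) (hA : IsUnit A) (hν : Function.Injective ν) (haA : a * A = A * diagonal ν)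
    (hZ : A.map δ = A * Z) : ∀ i j, i ≠ j → Z i j = 0 := by
  have hud : IsUnit A.det := (Matrix.isUnit_iff_isUnit_det _).1 hA
  have a2 : A⁻¹ * A = 1 := Matrix.nonsing_inv_mul _ hud
  have h1 := congrArg (fun M : P002R.Mat r ℂ => M.map δ) haA
  simp only [map_der_mul] at h1
  rw [ha, Matrix.zero_mul, zero_add, hZ] at h1
  have h2 : diagonal ν * Z = Z * diagonal ν + (diagonal ν).map δ := by
    calc diagonal ν * Z = A⁻¹ * (A * diagonal ν) * Z := by rw [mulL a2]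
      _ = A⁻¹ * (a * (A * Z)) := by rw [← haA]; simp only [Matrix.mul_assoc]
      _ = _ := by
        rw [h1, Matrix.mul_add, mulL a2, Matrix.mul_assoc, mulL a2]
  intro i j hij
  have h3 := congrFun (congrFun h2 i) j
  rw [Matrix.diagonal_mul, Matrix.add_apply, Matrix.mul_diagonal, Matrix.map_apply,
    Matrix.diagonal_apply_ne _ hij, map_zero, add_zero] at h3
  have h4 : (ν i - ν j) * Z i j = 0 := by
    linear_combination h3
  rcases mul_eq_zero.1 h4 with h | h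
  · exact absurd (hν (sub_eq_zero.1 h)) hij
  · exact h

omit [Fintype ι] in
/-- the derivative of the relation with frozen `a` -/
theorem D1_frozen {c : ι → P002R.Mat r ℂ} {a b : P002R.Mat r ℂ} (L : List ι)
    (q : ι ⊕ Bool → P002R.Mat r ℂ) (hq1 : ∀ j, q (Sum.inl j) = c j) (hq2 : q (Sum.inr false) = a)
    (hq3 : q (Sum.inr true) = b * a⁻¹ * b⁻¹) (x : ι ⊕ Bool → P002R.Mat r ℂ)
    (hx : x (Sum.inr false) = 0) :
    D1 c a b L x = DL q x (L.map Sum.inl ++ [Sum.inr false, Sum.inr true]) := by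
  have h1 : ∀ l : List ι, DL q x (l.map Sum.inl) = DL c (fun j => x (Sum.inl j)) l := by
    intro l
    induction l with
    | nil => rfl
    | cons j l ih =>
      rw [List.map_cons, DL_cons, DL_cons, ih, hq1, List.map_map]
      congr 3
      refine List.map_congr_left fun k _ => ?_
      exact hq1 k
  have h2 : ((L.map Sum.inl).map q).prod = (L.map c).prod := by
    rw [List.map_map]
    congr 1
    exact List.map_congr_left fun k _ => hq1 k
  rw [D1, DL_append, h1, h2, hx, DL_cons, DL_cons, DL_nil, hq2, hq3, hx]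
  simp only [List.map_cons, List.map_nil, List.prod_cons, List.prod_nil, hq3, hq2]
  have h3 : a * (b * a⁻¹ * b⁻¹) = a * b * a⁻¹ * b⁻¹ := by simp only [Matrix.mul_assoc]
  rw [Matrix.mul_one, h3]
  noncomm_ring

end Vale.Agent.P002R
end

section

/-!
# P002, genus 1, arbitrary classes: the eigenvalues of `a` at a generic point
-/

namespace Vale.Agent.P002R

open Matrix Module Vale.Agent.P002

variable {r : ℕ}

/-- commuting with the complement of an idempotent -/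
theorem scalar_of_block {c e : P002R.Mat r ℂ} (hec : Commute e c) (he0 : e ≠ 0)
    (he1 : e ≠ 1) (hK : ∀ Θ : P002R.Mat r ℂ, c * ((1 - e) * Θ * e) = (1 - e) * Θ * e * c) :
    ∃ μ : ℂ, c = μ • (1 : P002R.Mat r ℂ) := by
  have hv : ∀ p q : Fin r → ℂ, (1 - e) * vecMulVec p q * e =
      vecMulVec ((1 - e) *ᵥ p) (q ᵥ* e) := by
    intro p q
    rw [Matrix.mul_vecMulVec, Matrix.vecMulVec_mul]
  have hv2 : ∀ p q : Fin r → ℂ, vecMulVec (c *ᵥ ((1 - e) *ᵥ p)) (q ᵥ* e) =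
      vecMulVec ((1 - e) *ᵥ p) ((q ᵥ* e) ᵥ* c) := by
    intro p q
    have h1 := hK (vecMulVec p q)
    rwa [hv, Matrix.mul_vecMulVec, Matrix.vecMulVec_mul] at h1
  -- a nonzero row
  obtain ⟨q₀, hq₀⟩ : ∃ q₀ : Fin r → ℂ, q₀ ᵥ* e ≠ 0 := by
    by_contra hcon
    push Not at hcon
    apply he0
    ext i j
    have h1 := congrFun (hcon (Pi.single i 1)) j
    rwa [Matrix.single_one_vecMul] at h1
  obtain ⟨p₀, hp₀⟩ : ∃ p₀ : Fin r → ℂ, (1 - e) *ᵥ p₀ ≠ 0 := by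
    by_contra hcon
    push Not at hcon
    apply he1
    have h2 : (1 - e) = 0 := by
      ext i j
      have h1 := congrFun (hcon (Pi.single j 1)) i
      rwa [Matrix.mulVec_single_one] at h1
    exact (sub_eq_zero.1 h2).symm
  obtain ⟨k, hk⟩ := Function.ne_iff.1 hq₀
  obtain ⟨i, hi⟩ := Function.ne_iff.1 hp₀
  rw [Pi.zero_apply] at hk hi
  obtain ⟨μ, hμ⟩ : ∃ μ, μ = ((q₀ ᵥ* e) ᵥ* c) k / (q₀ ᵥ* e) k := ⟨_, rfl⟩
  have h1 : ∀ p : Fin r → ℂ, c *ᵥ ((1 - e) *ᵥ p) = μ • ((1 - e) *ᵥ p) := by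
    intro p
    funext l
    have h2 := congrFun (congrFun (hv2 p q₀) l) k
    rw [vecMulVec_apply, vecMulVec_apply] at h2
    rw [Pi.smul_apply, smul_eq_mul, hμ]
    field_simp
    rw [h2]
    ring
  have h2 : ∀ q : Fin r → ℂ, (q ᵥ* e) ᵥ* c = μ • (q ᵥ* e) := by
    intro q
    funext l
    have h3 := congrFun (congrFun (hv2 p₀ q) i) l
    rw [vecMulVec_apply, vecMulVec_apply, h1, Pi.smul_apply, smul_eq_mul] at h3
    rw [Pi.smul_apply, smul_eq_mul]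
    apply mul_left_cancel₀ hi
    rw [← h3]
    ring
  have h3 : c * (1 - e) = μ • (1 - e) := by
    ext l m
    have h4 := congrFun (h1 (Pi.single m 1)) l
    rw [Matrix.mulVec_mulVec, Matrix.mulVec_single_one, Matrix.mulVec_single_one] at h4
    exact h4
  have h4 : e * c = μ • e := by
    ext l m
    have h5 := congrFun (h2 (Pi.single l 1)) m
    rw [Matrix.vecMul_vecMul, Matrix.single_one_vecMul, Matrix.single_one_vecMul] at h5
    exact h5
  refine ⟨μ, ?_⟩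
  calc c = c * (1 - e) + c * e := by rw [← Matrix.mul_add, sub_add_cancel, Matrix.mul_one]
    _ = μ • (1 - e) + μ • e := by rw [h3, ← hec.eq, h4]
    _ = μ • 1 := by rw [← smul_add, sub_add_cancel]

/-- `a'` in the eigenbasis -/
theorem eigen_a' {a b A : P002R.Mat r ℂ} {ν : Fin r → ℂ} (ha : IsUnit a) (hb : IsUnit b)
    (hA : IsUnit A) (haA : a * A = A * diagonal ν) :
    (∀ i, ν i ≠ 0) ∧ (b * a⁻¹ * b⁻¹) * (b * A) = (b * A) * diagonal fun i => (ν i)⁻¹ := by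
  have had : IsUnit a.det := (Matrix.isUnit_iff_isUnit_det _).1 ha
  have hbd : IsUnit b.det := (Matrix.isUnit_iff_isUnit_det _).1 hb
  have hAd : IsUnit A.det := (Matrix.isUnit_iff_isUnit_det _).1 hA
  have a2 := Matrix.nonsing_inv_mul _ had
  have b2 := Matrix.nonsing_inv_mul _ hbd
  have A2 := Matrix.nonsing_inv_mul _ hAd
  have hν : ∀ i, ν i ≠ 0 := by
    have h1 : IsUnit (diagonal ν : P002R.Mat r ℂ) := by
      have h2 : (diagonal ν : P002R.Mat r ℂ) = A⁻¹ * (a * A) := by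
        rw [haA, mulL A2]
      rw [h2]
      exact (Matrix.isUnit_nonsing_inv_iff.2 hA).mul (ha.mul hA)
    rw [Matrix.isUnit_iff_isUnit_det, det_diagonal, isUnit_iff_ne_zero,
      Finset.prod_ne_zero_iff] at h1
    exact fun i => h1 i (Finset.mem_univ i)
  refine ⟨hν, ?_⟩
  have h2 : (diagonal ν : P002R.Mat r ℂ) * diagonal (fun i => (ν i)⁻¹) = 1 := by
    rw [Matrix.diagonal_mul_diagonal, ← Matrix.diagonal_one]
    congr 1
    funext i
    exact mul_inv_cancel₀ (hν i)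
  have h3 : a⁻¹ * A = A * diagonal fun i => (ν i)⁻¹ := by
    calc a⁻¹ * A = a⁻¹ * (A * diagonal ν * diagonal fun i => (ν i)⁻¹) := by
          rw [Matrix.mul_assoc, h2, Matrix.mul_one]
      _ = a⁻¹ * (a * A) * diagonal fun i => (ν i)⁻¹ := by
          rw [haA]; simp only [Matrix.mul_assoc]
      _ = _ := by rw [mulL a2]
  calc (b * a⁻¹ * b⁻¹) * (b * A) = b * (a⁻¹ * A) := by
        simp only [Matrix.mul_assoc, mulL b2]
    _ = _ := by rw [h3, Matrix.mul_assoc]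

/-- commuting with a one sided inverse -/
theorem commute_of_mul_one {e M M' : P002R.Mat r ℂ} (h : M * M' = 1) (he : Commute e M) :
    Commute e M' := by
  have h' : M' * M = 1 := mul_eq_one_comm.1 h
  show e * M' = M' * e
  calc e * M' = (M' * M) * e * M' := by rw [h', Matrix.one_mul]
    _ = M' * (e * M) * M' := by rw [he.eq]; simp only [Matrix.mul_assoc]
    _ = M' * e := by simp only [Matrix.mul_assoc, h, Matrix.mul_one]

variable {ι : Type}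

theorem map_der_cI [Fintype ι] {K₀ : Subfield ℂ} {J : ι → P002R.Mat r ℂ}
    {Y : ι ⊕ Bool → P002R.Mat r ℂ} (hJK : ∀ j a b, J j a b ∈ K₀) (hY : ∀ j, IsUnit (Y j))
    (δ : Derivation ℤ ℂ ℂ) (hδ : ∀ a ∈ K₀, δ a = 0) (x : ι ⊕ Bool → P002R.Mat r ℂ)
    (hx : ∀ k, (Y k).map δ = x k * Y k) (j : ι) :
    (cI J Y j).map δ = x (Sum.inl j) * cI J Y j - cI J Y j * x (Sum.inl j) := by
  have h1 := map_der_listI hJK hY δ hδ x hx [j]
  rw [DL_cons, DL_nil, List.map_cons, List.map_nil, List.prod_cons, List.prod_nil, Matrix.mul_one,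
    Matrix.mul_one, Matrix.mul_zero, add_zero] at h1
  exact h1

/-- the derivative of an idempotent commuting with `c` -/
theorem der_idem {c e dc : P002R.Mat r ℂ} (he : e * e = e) (hec : Commute e c)
    (δ : Derivation ℤ ℂ ℂ) (hc : c.map δ = dc) :
    e * dc * (1 - e) = c * (e * e.map δ * (1 - e)) - (e * e.map δ * (1 - e)) * c := by
  have h1 := congrArg (fun M : P002R.Mat r ℂ => M.map δ) hec.eq
  simp only [map_der_mul] at h1
  rw [hc] at h1
  have h2 : e * (e.map δ * c + e * dc) * (1 - e) = e * (dc * e + c * e.map δ) * (1 - e) := by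
    rw [h1]
  have h3 : e * (e.map δ * c + e * dc) * (1 - e) =
      (e * e.map δ * (1 - e)) * c + e * dc * (1 - e) := by
    have e1 : c * (1 - e) = (1 - e) * c := by
      rw [Matrix.mul_sub, Matrix.sub_mul, hec.eq, Matrix.mul_one, Matrix.one_mul]
    calc e * (e.map δ * c + e * dc) * (1 - e)
        = e * e.map δ * (c * (1 - e)) + (e * e) * dc * (1 - e) := by
          simp only [Matrix.mul_add, Matrix.add_mul, Matrix.mul_assoc]
      _ = _ := by rw [e1, he]; simp only [Matrix.mul_assoc]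
  have h4 : e * (dc * e + c * e.map δ) * (1 - e) = c * (e * e.map δ * (1 - e)) := by
    have e2 : e * (1 - e) = 0 := by rw [Matrix.mul_sub, he, Matrix.mul_one, sub_self]
    calc e * (dc * e + c * e.map δ) * (1 - e)
        = e * dc * (e * (1 - e)) + (e * c) * e.map δ * (1 - e) := by
          simp only [Matrix.mul_add, Matrix.add_mul, Matrix.mul_assoc]
      _ = _ := by rw [e2, hec.eq, Matrix.mul_zero, zero_add]; simp only [Matrix.mul_assoc]
  rw [h3, h4] at h2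
  rw [← h2]
  abel

/-- the trace against a block -/
theorem trace_block {e Θ dc : P002R.Mat r ℂ} :
    trace (((1 - e) * Θ * e) * dc) = trace (Θ * (e * dc * (1 - e))) := by
  rw [show ((1 - e) * Θ * e) * dc = (1 - e) * (Θ * (e * dc)) by simp only [Matrix.mul_assoc],
    Matrix.trace_mul_comm (1 - e)]
  simp only [Matrix.mul_assoc]

theorem trace_comm_swap (Θ c u : P002R.Mat r ℂ) :
    trace (Θ * (c * u - u * c)) = trace ((Θ * c - c * Θ) * u) := by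
  rw [Matrix.mul_sub, Matrix.sub_mul, trace_sub, trace_sub, ← Matrix.mul_assoc, ← Matrix.mul_assoc,
    Matrix.trace_mul_comm (Θ * u) c, ← Matrix.mul_assoc c Θ u]

/-- At a generic point no nontrivial idempotent commutes with the frozen tuple, unless the
classes are scalar. -/
theorem gen_idem [Fintype ι] [DecidableEq ι] {K₀ : Subfield ℂ} {J : ι → P002R.Mat r ℂ}
    (hJK : ∀ j a b, J j a b ∈ K₀) {Y : ι ⊕ Bool → P002R.Mat r ℂ} (hJ : ∀ j, IsUnit (J j))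
    (hY : ∀ j, IsUnit (Y j)) (L : List ι) (hnd : L.Nodup) (hrel : PhiI J L Y = 1)
    (hgen : GenPt1 K₀ J L Y) {A : P002R.Mat r ℂ} {ν : Fin r → ℂ} (hA : IsUnit A)
    (hν : Function.Injective ν) (haA : Y (Sum.inr false) * A = A * diagonal ν)
    {e : P002R.Mat r ℂ} (he : e * e = e) (hec : ∀ j, Commute e (cI J Y j))
    (hea : Commute e (Y (Sum.inr false))) (he0 : e ≠ 0) (he1 : e ≠ 1) (j : ι) (hj : j ∈ L) :
    ∃ μ : ℂ, cI J Y j = μ • (1 : P002R.Mat r ℂ) := by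
  obtain ⟨a, ha⟩ : ∃ a, a = Y (Sum.inr false) := ⟨_, rfl⟩
  obtain ⟨b, hb⟩ : ∃ b, b = Y (Sum.inr true) := ⟨_, rfl⟩
  obtain ⟨c, hc⟩ : ∃ c, c = cI J Y j := ⟨_, rfl⟩
  have hau : IsUnit a := ha ▸ hY _
  have hbu : IsUnit b := hb ▸ hY _
  have hcu : IsUnit c := hc ▸ isUnit_cI hJ hY j
  have hecj : Commute e c := hc ▸ hec j
  have hrel' : (L.map (cI J Y)).prod * (a * b * a⁻¹ * b⁻¹) = 1 := by
    rw [← hrel, PhiI, hI, ha, hb]
  rw [← ha] at haA hea
  -- `e` commutes with `a'`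
  have hea' : Commute e (b * a⁻¹ * b⁻¹) := by
    have h1 : ((L.map (cI J Y)).prod * a) * (b * a⁻¹ * b⁻¹) = 1 := by
      rw [← hrel']; simp only [Matrix.mul_assoc]
    refine commute_of_mul_one h1 (Commute.mul_right ?_ hea)
    have h2 : ∀ l : List ι, Commute e (l.map (cI J Y)).prod := by
      intro l
      induction l with
      | nil => simp
      | cons k l ih => rw [List.map_cons, List.prod_cons]; exact (hec k).mul_right ih
    exact h2 L
  obtain ⟨hν0, haA'⟩ := eigen_a' hau hbu hA haA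
  have hν' : Function.Injective fun i => (ν i)⁻¹ := fun i k hik => hν (inv_injective hik)
  obtain ⟨l', l'', hL⟩ := List.append_of_mem hj
  rw [← hc]
  refine scalar_of_block hecj he0 he1 fun Θ₀ => ?_
  obtain ⟨Θ, hΘ⟩ : ∃ Θ, Θ = (1 - e) * Θ₀ * e := ⟨_, rfl⟩
  have e2 : (1 - e) * (1 - e) = 1 - e := by
    have e0 : (1 - e) * (1 - e) = 1 - e - (e - e * e) := by noncomm_ring
    rw [e0, he, sub_self, sub_zero]
  have hΘe : (1 - e) * Θ * e = Θ := by
    rw [hΘ]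
    calc (1 - e) * ((1 - e) * Θ₀ * e) * e = ((1 - e) * (1 - e)) * Θ₀ * (e * e) := by
          simp only [Matrix.mul_assoc]
      _ = _ := by rw [e2, he]
  rw [← hΘ]
  have hcomm1 : Commute (1 - e) c := (Commute.one_left c).sub_left hecj
  have hblock : ∀ M : P002R.Mat r ℂ, Commute (1 - e) M → Commute e M →
      (1 - e) * (Θ * M - M * Θ) * e = Θ * M - M * Θ := by
    intro M h1 h2
    calc (1 - e) * (Θ * M - M * Θ) * e
        = (1 - e) * Θ * (M * e) - ((1 - e) * M) * Θ * e := by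
          simp only [Matrix.mul_sub, Matrix.sub_mul, Matrix.mul_assoc]
      _ = ((1 - e) * Θ * e) * M - M * ((1 - e) * Θ * e) := by
          rw [← h2.eq, h1.eq]; simp only [Matrix.mul_assoc]
      _ = _ := by rw [hΘe]
  obtain ⟨T, hT⟩ := exists_off hA hν haA he hea (hblock c hcomm1 hecj)
  obtain ⟨Wm, hWm⟩ : ∃ Wm, Wm = -((1 - e) * T * e) := ⟨_, rfl⟩
  obtain ⟨F, hF⟩ := exists_FI (cI J Y) a Θ Wm j
  obtain ⟨D, hD⟩ := exists_D1lin (cI J Y) a b L
  obtain ⟨N, hN⟩ := exists_factor D F (by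
    intro x hx
    rw [hD, ha, hb] at hx
    obtain ⟨δ, hδ, hxδ⟩ := hgen x hx
    have h1 := map_der_cI hJK hY δ hδ x hxδ j
    have h2 := hxδ (Sum.inr false)
    rw [← ha] at h2
    rw [← hc] at h1
    obtain ⟨u, hu⟩ : ∃ u, u = e * e.map δ * (1 - e) := ⟨_, rfl⟩
    have h3 := der_idem he hecj δ h1
    have h4 := der_idem he hea δ h2
    rw [← hu] at h3 h4
    rw [hF, ← hc]
    have h5 : trace (Θ * (x (Sum.inl j) * c - c * x (Sum.inl j))) =
        trace ((T * a - a * T) * u) := by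
      rw [hT, ← trace_comm_swap, ← h3, ← trace_block, hΘe]
    have h6 : trace (Wm * (x (Sum.inr false) * a)) = -trace ((T * a - a * T) * u) := by
      rw [hWm, Matrix.neg_mul, trace_neg, trace_block, h4, trace_comm_swap]
    rw [h5, h6, add_neg_cancel])
  obtain ⟨hN1, -, hN2⟩ := dual_gen hau hbu L hnd hrel' j l' l'' hL Θ Wm N (fun x => by
    rw [← hF, hN, hD])
  rw [← hc] at hN2
  -- `N` commutes with `e`
  obtain ⟨n, hn⟩ := diag_of_commute (hbu.mul hA) hν' haA' hN1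
  obtain ⟨n', hn'⟩ := diag_of_commute (hbu.mul hA) hν' haA' hea'
  have hNe : Commute N e := commute_of_diag (hbu.mul hA) hn hn'
  obtain ⟨K, hK⟩ : ∃ K, K = c * Θ - Θ * c := ⟨_, rfl⟩
  rw [← hK] at hN2
  have hKe : (1 - e) * K * e = K := by
    have h1 := hblock c hcomm1 hecj
    have h2 : K = -(Θ * c - c * Θ) := by rw [hK, neg_sub]
    rw [h2, Matrix.mul_neg, Matrix.neg_mul, h1]
  have e3 : (1 - e) * e = 0 := by rw [Matrix.sub_mul, he, Matrix.one_mul, sub_self]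
  have h1 : c * K = 0 := by
    have h2 : (1 - e) * (N * c) * e = 0 := by
      calc (1 - e) * (N * c) * e = (1 - e) * (N * (c * e)) := by simp only [Matrix.mul_assoc]
        _ = (1 - e) * ((N * e) * c) := by rw [← hecj.eq]; simp only [Matrix.mul_assoc]
        _ = ((1 - e) * e) * (N * c) := by rw [hNe.eq]; simp only [Matrix.mul_assoc]
        _ = 0 := by rw [e3, Matrix.zero_mul]
    have h3 : (1 - e) * (c * (N - K)) * e = -(c * K) := by
      calc (1 - e) * (c * (N - K)) * e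
          = ((1 - e) * c) * (N * e) - ((1 - e) * c) * K * e := by
            simp only [Matrix.mul_sub, Matrix.sub_mul, Matrix.mul_assoc]
        _ = c * (((1 - e) * e) * N) - c * ((1 - e) * K * e) := by
            rw [hcomm1.eq, hNe.eq]; simp only [Matrix.mul_assoc]
        _ = _ := by rw [e3, hKe, Matrix.zero_mul, Matrix.mul_zero, zero_sub]
    rw [hN2, h3, neg_eq_zero] at h2
    exact h2
  have h2 : K = 0 := hcu.mul_left_cancel (by rw [h1, Matrix.mul_zero])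
  rw [hK, sub_eq_zero] at h2
  exact h2

end Vale.Agent.P002R
end

section

/-!
# P002, genus 1, arbitrary classes: the frozen tuple is irreducible at a generic point
-/

namespace Vale.Agent.P002R

open Matrix Module Vale.Agent.P002

variable {r : ℕ}

/-- spectral projections commute with the commutant -/
theorem commute_spectral {A N c : P002R.Mat r ℂ} {n : Fin r → ℂ} (hA : IsUnit A)
    (hn : N * A = A * diagonal n) (hNc : Commute N c) (g : ℂ → ℂ) :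
    Commute (A * diagonal (fun i => g (n i)) * A⁻¹) c := by
  have hud : IsUnit A.det := (Matrix.isUnit_iff_isUnit_det _).1 hA
  have a1 : A * A⁻¹ = 1 := Matrix.mul_nonsing_inv _ hud
  have a2 : A⁻¹ * A = 1 := Matrix.nonsing_inv_mul _ hud
  obtain ⟨C, hC⟩ : ∃ C, C = A⁻¹ * (c * A) := ⟨_, rfl⟩
  have hcA : c * A = A * C := by rw [hC, mulL a1]
  have h1 : diagonal n * C = C * diagonal n := by
    have h2 : A * (diagonal n * C) = A * (C * diagonal n) := by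
      calc A * (diagonal n * C) = N * (A * C) := by rw [← Matrix.mul_assoc, ← hn, Matrix.mul_assoc]
        _ = (N * c) * A := by rw [← hcA, Matrix.mul_assoc]
        _ = c * (N * A) := by rw [hNc.eq, Matrix.mul_assoc]
        _ = A * (C * diagonal n) := by
          rw [hn, ← Matrix.mul_assoc, hcA, Matrix.mul_assoc]
    exact hA.mul_left_cancel h2
  have h2 : diagonal (fun i => g (n i)) * C = C * diagonal (fun i => g (n i)) := by
    ext i j
    rw [Matrix.diagonal_mul, Matrix.mul_diagonal]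
    have h3 := congrFun (congrFun h1 i) j
    rw [Matrix.diagonal_mul, Matrix.mul_diagonal] at h3
    by_cases hij : n i = n j
    · rw [hij]
      ring
    · have h4 : (n i - n j) * C i j = 0 := by linear_combination h3
      rcases mul_eq_zero.1 h4 with h | h
      · exact absurd (sub_eq_zero.1 h) hij
      · rw [h, mul_zero, zero_mul]
  have hAc : A⁻¹ * c = C * A⁻¹ := by
    rw [hC]
    simp only [Matrix.mul_assoc, a1, Matrix.mul_one]
  show A * diagonal (fun i => g (n i)) * A⁻¹ * c = c * (A * diagonal (fun i => g (n i)) * A⁻¹)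
  calc A * diagonal (fun i => g (n i)) * A⁻¹ * c
      = A * (diagonal (fun i => g (n i)) * C) * A⁻¹ := by
        rw [Matrix.mul_assoc _ A⁻¹ c, hAc]
        simp only [Matrix.mul_assoc]
    _ = (c * A) * diagonal (fun i => g (n i)) * A⁻¹ := by
        rw [h2, hcA]
        simp only [Matrix.mul_assoc]
    _ = _ := by simp only [Matrix.mul_assoc]

variable {ι : Type}

/-- The logarithmic derivatives of the eigenvalues of `a` are free. -/
theorem gen_free [DecidableEq ι] {J : ι → P002R.Mat r ℂ}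
    {Y : ι ⊕ Bool → P002R.Mat r ℂ} (hJ : ∀ j, IsUnit (J j))
    (hY : ∀ j, IsUnit (Y j)) (L : List ι) (hnd : L.Nodup) (hmem : ∀ j, j ∈ L)
    (hrel : PhiI J L Y = 1) {A : P002R.Mat r ℂ} {ν : Fin r → ℂ} (hA : IsUnit A)
    (hν : Function.Injective ν) (haA : Y (Sum.inr false) * A = A * diagonal ν) (j₀ : ι)
    (hno : ∀ e : P002R.Mat r ℂ, e * e = e → (∀ j, Commute e (cI J Y j)) →
      Commute e (Y (Sum.inr false)) → e = 0 ∨ e = 1)
    (m : Fin r → ℂ) (hm : ∀ x : ι ⊕ Bool → P002R.Mat r ℂ,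
      D1 (cI J Y) (Y (Sum.inr false)) (Y (Sum.inr true)) L x = 0 →
      trace (A * diagonal m * A⁻¹ * x (Sum.inr false)) = 0) : m = 0 := by
  classical
  obtain ⟨a, ha⟩ : ∃ a, a = Y (Sum.inr false) := ⟨_, rfl⟩
  obtain ⟨b, hb⟩ : ∃ b, b = Y (Sum.inr true) := ⟨_, rfl⟩
  have hau : IsUnit a := ha ▸ hY _
  have hbu : IsUnit b := hb ▸ hY _
  have had : IsUnit a.det := (Matrix.isUnit_iff_isUnit_det _).1 hau
  have hbd : IsUnit b.det := (Matrix.isUnit_iff_isUnit_det _).1 hbu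
  have hAd : IsUnit A.det := (Matrix.isUnit_iff_isUnit_det _).1 hA
  have a1 := Matrix.mul_nonsing_inv _ had
  have b1 := Matrix.mul_nonsing_inv _ hbd
  have b2 := Matrix.nonsing_inv_mul _ hbd
  have A1 := Matrix.mul_nonsing_inv _ hAd
  have A2 := Matrix.nonsing_inv_mul _ hAd
  have hrel' : (L.map (cI J Y)).prod * (a * b * a⁻¹ * b⁻¹) = 1 := by
    rw [← hrel, PhiI, hI, ha, hb]
  rw [← ha, ← hb] at hm
  rw [← ha] at haA hno
  obtain ⟨E, hE⟩ : ∃ E, E = A * diagonal m * A⁻¹ := ⟨_, rfl⟩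
  obtain ⟨F, hF⟩ := exists_FI (cI J Y) a 0 (a⁻¹ * E) j₀
  obtain ⟨D, hD⟩ := exists_D1lin (cI J Y) a b L
  have htr : ∀ X : P002R.Mat r ℂ, trace (a⁻¹ * E * (X * a)) = trace (E * X) := by
    intro X
    rw [show a⁻¹ * E * (X * a) = (a⁻¹ * E * X) * a by simp only [Matrix.mul_assoc],
      Matrix.trace_mul_comm]
    congr 1
    simp only [Matrix.mul_assoc, mulL a1]
  obtain ⟨N, hN⟩ := exists_factor D F (by
    intro x hx
    rw [hD] at hx
    rw [hF, Matrix.zero_mul, trace_zero, zero_add, htr, hE]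
    exact hm x hx)
  have hdual : ∀ k : ι, Commute N (b * a⁻¹ * b⁻¹) ∧
      (a * b * a⁻¹ * b⁻¹) * N * (L.map (cI J Y)).prod - b⁻¹ * N * b = a * (a⁻¹ * E) ∧
      N * cI J Y k = cI J Y k * (N - (cI J Y k * 0 - 0 * cI J Y k)) := by
    intro k
    obtain ⟨l', l'', hL⟩ := List.append_of_mem (hmem k)
    refine dual_gen hau hbu L hnd hrel' k l' l'' hL 0 (a⁻¹ * E) N fun x => ?_
    rw [← hD, ← hN, hF, Matrix.zero_mul, Matrix.zero_mul, trace_zero]
  have hNc : ∀ k, Commute N (cI J Y k) := by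
    intro k
    have h1 := (hdual k).2.2
    rw [Matrix.mul_zero, Matrix.zero_mul, sub_zero, sub_zero] at h1
    exact h1
  obtain ⟨hN1, hN2, -⟩ := hdual j₀
  obtain ⟨P, hP⟩ : ∃ P, P = (L.map (cI J Y)).prod := ⟨_, rfl⟩
  have hPu : IsUnit P := hP ▸ isUnit_cI_prod hJ hY L
  have hNP : Commute N P := by
    have h2 : ∀ l : List ι, Commute N (l.map (cI J Y)).prod := by
      intro l
      induction l with
      | nil => simp
      | cons k l ih => rw [List.map_cons, List.prod_cons]; exact (hNc k).mul_right ih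
    exact hP ▸ h2 L
  rw [← hP] at hN2 hrel'
  have hNa : Commute N a := by
    have h1 : (b * a⁻¹ * b⁻¹) * (P * a) = 1 := by
      apply mul_eq_one_comm.1
      rw [← hrel']; simp only [Matrix.mul_assoc]
    have h2 : Commute N (P * a) := commute_of_mul_one h1 hN1
    have h3 : P * (N * a) = P * (a * N) := by
      rw [← Matrix.mul_assoc, ← hNP.eq, Matrix.mul_assoc, h2.eq, Matrix.mul_assoc]
    exact hPu.mul_left_cancel h3
  have h1 : (a * b * a⁻¹ * b⁻¹) * N * P = N := by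
    rw [Matrix.mul_assoc, hNP.eq, ← Matrix.mul_assoc, mul_eq_one_comm.1 hrel', Matrix.one_mul]
  rw [h1, mulL a1] at hN2
  obtain ⟨n, hn⟩ := diag_of_commute hA hν haA hNa
  -- `N` is a scalar
  have hsc : ∀ i k, n i = n k := by
    intro i₀ k₀
    obtain ⟨g, hg⟩ : ∃ g : ℂ → ℂ, g = fun z => if z = n i₀ then 1 else 0 := ⟨_, rfl⟩
    obtain ⟨e, he⟩ : ∃ e, e = A * diagonal (fun i => g (n i)) * A⁻¹ := ⟨_, rfl⟩
    have hee : e * e = e := by
      rw [he]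
      have h2 : (diagonal (fun i => g (n i)) : P002R.Mat r ℂ) * diagonal (fun i => g (n i)) =
          diagonal fun i => g (n i) := by
        rw [Matrix.diagonal_mul_diagonal]
        congr 1
        funext i
        rw [hg]
        simp only
        split_ifs <;> simp
      calc A * diagonal (fun i => g (n i)) * A⁻¹ * (A * diagonal (fun i => g (n i)) * A⁻¹)
          = A * (diagonal (fun i => g (n i)) * diagonal (fun i => g (n i))) * A⁻¹ := by
            simp only [Matrix.mul_assoc, mulL A2]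
        _ = _ := by rw [h2]
    have heA : e * A = A * diagonal fun i => g (n i) := by
      rw [he]; simp only [Matrix.mul_assoc, A2, Matrix.mul_one]
    have hdiag : ∀ i, g (n i) = (A⁻¹ * (e * A)) i i := by
      intro i
      rw [heA, mulL A2, Matrix.diagonal_apply_eq]
    rcases hno e hee (fun j => he ▸ commute_spectral hA hn (hNc j) g)
      (he ▸ commute_spectral hA hn hNa g) with h | h
    · exfalso
      have h2 := hdiag i₀
      rw [h, Matrix.zero_mul, Matrix.mul_zero, Matrix.zero_apply, hg] at h2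
      simp at h2
    · have h2 := hdiag k₀
      rw [h, Matrix.one_mul, A2, Matrix.one_apply_eq, hg] at h2
      simp only at h2
      by_contra hcon
      rw [if_neg (Ne.symm hcon)] at h2
      exact zero_ne_one h2
  have hE0 : E = 0 := by
    rcases Nat.eq_zero_or_pos r with hr | hr
    · subst hr
      exact Subsingleton.elim _ _
    · obtain ⟨i₀⟩ : Nonempty (Fin r) := ⟨⟨0, hr⟩⟩
      have h2 : N = n i₀ • (1 : P002R.Mat r ℂ) := by
        have h3 : diagonal n = n i₀ • (1 : P002R.Mat r ℂ) := by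
          rw [Matrix.smul_one_eq_diagonal]
          congr 1
          funext i
          exact hsc i i₀
        have h4 : N = N * A * A⁻¹ := by rw [Matrix.mul_assoc, A1, Matrix.mul_one]
        rw [h4, hn, h3, Matrix.mul_smul, Matrix.mul_one, Matrix.smul_mul, A1]
      rw [← hN2, h2, Matrix.mul_smul, Matrix.mul_one, Matrix.smul_mul, b2, sub_self]
  have h5 : (diagonal m : P002R.Mat r ℂ) = 0 := by
    have h6 : (diagonal m : P002R.Mat r ℂ) = A⁻¹ * E * A := by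
      rw [hE]; simp only [Matrix.mul_assoc, mulL A2, A2, Matrix.mul_one]
    rw [h6, hE0, Matrix.mul_zero, Matrix.zero_mul]
  funext i
  have h7 := congrFun (congrFun h5 i) i
  rwa [Matrix.diagonal_apply_eq] at h7

/-- derivation of the eigenvalues -/
theorem der_eigenvalues {a A X : P002R.Mat r ℂ} {ν : Fin r → ℂ} (δ : Derivation ℤ ℂ ℂ)
    (ha : a.map δ = X * a) (hA : IsUnit A) (haA : a * A = A * diagonal ν) (i : Fin r) :
    δ (ν i) = (A⁻¹ * X * A) i i * ν i := by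
  have hud : IsUnit A.det := (Matrix.isUnit_iff_isUnit_det _).1 hA
  have a1 : A * A⁻¹ = 1 := Matrix.mul_nonsing_inv _ hud
  have a2 : A⁻¹ * A = 1 := Matrix.nonsing_inv_mul _ hud
  obtain ⟨Z, hZ⟩ : ∃ Z, Z = A⁻¹ * A.map δ := ⟨_, rfl⟩
  have hAZ : A.map δ = A * Z := by rw [hZ, mulL a1]
  have h1 := congrArg (fun M : P002R.Mat r ℂ => M.map δ) haA
  simp only [map_der_mul] at h1
  rw [ha, hAZ] at h1
  have h2 : A⁻¹ * X * A * diagonal ν + diagonal ν * Z =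
      Z * diagonal ν + (diagonal ν).map δ := by
    calc A⁻¹ * X * A * diagonal ν + diagonal ν * Z
        = A⁻¹ * (X * (A * diagonal ν)) + A⁻¹ * (A * diagonal ν) * Z := by
          rw [mulL a2]; simp only [Matrix.mul_assoc]
      _ = A⁻¹ * (X * a * A + a * (A * Z)) := by
          rw [← haA, Matrix.mul_add]; simp only [Matrix.mul_assoc]
      _ = _ := by rw [h1, Matrix.mul_add, mulL a2, Matrix.mul_assoc, mulL a2]
  have h3 := congrFun (congrFun h2 i) i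
  rw [Matrix.add_apply, Matrix.add_apply, Matrix.mul_diagonal, Matrix.diagonal_mul,
    Matrix.mul_diagonal, Matrix.map_apply, Matrix.diagonal_apply_eq] at h3
  linear_combination -h3

end Vale.Agent.P002R
end

section

/-!
# P002, genus 1: every irreducible representation is a limit of representations in chart form
-/

namespace Vale.Agent.P002R

open Matrix

variable {n m r : ℕ}

/-- The images of the generators. -/
def mt (x : FU 1 n →* (Mat r ℂ)ˣ) : Fin n ⊕ Bool → Mat r ℂ :=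
  Sum.elim (fun j => (x (FreeGroup.of (Sum.inr j)) : Mat r ℂ))
    fun s => (x (FreeGroup.of (Sum.inl (0, s))) : Mat r ℂ)

theorem mt_inl (x : FU 1 n →* (Mat r ℂ)ˣ) (j : Fin n) :
    mt x (Sum.inl j) = (x (FreeGroup.of (Sum.inr j)) : Mat r ℂ) := rfl

theorem mt_inr (x : FU 1 n →* (Mat r ℂ)ˣ) (s : Bool) :
    mt x (Sum.inr s) = (x (FreeGroup.of (Sum.inl (0, s))) : Mat r ℂ) := rfl

/-- The representation with given generators. -/
def mkR1 (q : Fin n ⊕ Bool → (Mat r ℂ)ˣ) : FU 1 n →* (Mat r ℂ)ˣ :=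
  FreeGroup.lift (Sum.elim (fun k => q (Sum.inr k.2)) fun j => q (Sum.inl j))

theorem mkR1_inr (q : Fin n ⊕ Bool → (Mat r ℂ)ˣ) (j : Fin n) :
    mkR1 q (FreeGroup.of (Sum.inr j)) = q (Sum.inl j) := by
  rw [mkR1, FreeGroup.lift_apply_of]
  rfl

theorem mkR1_inl (q : Fin n ⊕ Bool → (Mat r ℂ)ˣ) (i : Fin 1) (s : Bool) :
    mkR1 q (FreeGroup.of (Sum.inl (i, s))) = q (Sum.inr s) := by
  rw [mkR1, FreeGroup.lift_apply_of]
  rfl

theorem relU1_iff (x : FU 1 n →* (Mat r ℂ)ˣ) :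
    x (relatorU 1 n) = 1 ↔ ((List.finRange n).map fun j => mt x (Sum.inl j)).prod *
      (mt x (Sum.inr false) * mt x (Sum.inr true) * (mt x (Sum.inr false))⁻¹ *
        (mt x (Sum.inr true))⁻¹) = 1 := by
  have h1 : ((x (relatorU 1 n) : (Mat r ℂ)ˣ) : Mat r ℂ) =
      ((List.finRange n).map fun j => mt x (Sum.inl j)).prod *
      (mt x (Sum.inr false) * mt x (Sum.inr true) * (mt x (Sum.inr false))⁻¹ *
        (mt x (Sum.inr true))⁻¹) := by
    rw [relatorU_eqn, map_mul, Units.val_mul, map_list_prod, List.ofFn_eq_map, List.map_map,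
      ← Units.coeHom_apply, map_list_prod, List.map_map]
    congr 1
    simp only [List.ofFn_succ (n := 0), List.ofFn_zero, List.prod_nil, List.prod_cons, mul_one,
      map_mul, map_inv, Units.val_mul, Matrix.coe_units_inv]
    rfl
  rw [← h1, Units.val_eq_one]

/-- Evaluation at a tuple. -/
noncomputable def evT1 (f : MvPolynomial (GenU 1 n × Fin r × Fin r) ℂ)
    (c : Fin n ⊕ Bool → Mat r ℂ) : ℂ :=
  MvPolynomial.eval (fun p => (Sum.elim (fun k : Fin 1 × Bool => c (Sum.inr k.2))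
    (fun j => c (Sum.inl j)) p.1) p.2.1 p.2.2) f

theorem evalG_eq_evT1 (x : FU 1 n →* (Mat r ℂ)ˣ)
    (f : MvPolynomial (GenU 1 n × Fin r × Fin r) ℂ) : evalG x f = evT1 f (mt x) := by
  rw [evalG_eq_eval, evT1]
  have h1 : (fun p : GenU 1 n × Fin r × Fin r =>
      (x (FreeGroup.of p.1) : Mat r ℂ) p.2.1 p.2.2) =
      fun p => (Sum.elim (fun k : Fin 1 × Bool => mt x (Sum.inr k.2))
        (fun j => mt x (Sum.inl j)) p.1) p.2.1 p.2.2 := by
    funext p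
    obtain ⟨⟨k, s⟩ | j, a, b⟩ := p
    · have hk : k = 0 := Subsingleton.elim _ _
      subst hk
      rfl
    · rfl
  rw [h1]

theorem evT1_continuous (f : MvPolynomial (GenU 1 n × Fin r × Fin r) ℂ) :
    Continuous (evT1 f) := by
  have h1 : Continuous fun c : Fin n ⊕ Bool → Mat r ℂ => fun p : GenU 1 n × Fin r × Fin r =>
      (Sum.elim (fun k : Fin 1 × Bool => c (Sum.inr k.2)) (fun j => c (Sum.inl j)) p.1)
        p.2.1 p.2.2 := by
    refine continuous_pi fun p => ?_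
    obtain ⟨k | j, a, b⟩ := p
    · exact (continuous_apply b).comp ((continuous_apply a).comp (continuous_apply (Sum.inr k.2)))
    · exact (continuous_apply b).comp ((continuous_apply a).comp (continuous_apply (Sum.inl j)))
  exact (MvPolynomial.continuous_eval f).comp h1

section normed

open scoped Matrix.Norms.Operator

theorem continuousAt_allI_norm (J : Fin n → Mat r ℂ) {Y : Fin n ⊕ Bool → Mat r ℂ}
    (hY : ∀ j, IsUnit (Y j)) : ContinuousAt (fun Y : Fin n ⊕ Bool → Mat r ℂ => allI J Y) Y :=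
  continuousAt_allI J hY

end normed

theorem continuousAt_allI' (J : Fin n → Mat r ℂ) {Y : Fin n ⊕ Bool → Mat r ℂ}
    (hY : ∀ j, IsUnit (Y j)) : ContinuousAt (fun Y : Fin n ⊕ Bool → Mat r ℂ => allI J Y) Y :=
  continuousAt_allI_norm J hY

/-- generation by the tuple -/
theorem adjoin_iff1 (z : FU 1 n →* (Mat r ℂ)ˣ) :
    Algebra.adjoin ℂ (Set.range fun w => (z w : Mat r ℂ)) = ⊤ ↔
      Algebra.adjoin ℂ (Set.range (mt z)) = ⊤ := by
  constructor
  · intro h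
    have h1 := adjoin_gen_eq_top z h
    rw [eq_top_iff, ← h1, Algebra.adjoin_le_iff]
    rintro _ ⟨⟨k, s⟩ | j, rfl⟩
    · have hk : k = 0 := Subsingleton.elim _ _
      subst hk
      exact Algebra.subset_adjoin ⟨Sum.inr s, rfl⟩
    · exact Algebra.subset_adjoin ⟨Sum.inl j, rfl⟩
  · intro h
    rw [eq_top_iff, ← h, Algebra.adjoin_le_iff]
    rintro _ ⟨j | s, rfl⟩
    · exact Algebra.subset_adjoin ⟨FreeGroup.of (Sum.inr j), rfl⟩
    · exact Algebra.subset_adjoin ⟨FreeGroup.of (Sum.inl (0, s)), rfl⟩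

end Vale.Agent.P002R
end

section

/-! # Extension of derivations to arbitrary field extensions in characteristic zero, valuation
rings dominating primes, tensor products of domains over the complex numbers -/

namespace Vale.Agent.P292

open TensorProduct

universe u v w

/-- Dual numbers, without the standard algebra structures. -/
def ExtDual (E : Type*) := TrivSqZeroExt E E

noncomputable instance (E : Type*) [CommRing E] : CommRing (ExtDual E) :=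
  inferInstanceAs (CommRing (TrivSqZeroExt E E))

/-- Field extensions in characteristic zero are formally smooth. -/
theorem formallySmooth_of_charZero (K L : Type*) [Field K] [Field L] [CharZero K] [Algebra K L] :
    Algebra.FormallySmooth K L := by
  obtain ⟨ι, x, hx⟩ := exists_isTranscendenceBasis' K L
  have h1 : Algebra.IsAlgebraic (IntermediateField.adjoin K (Set.range x)) L :=
    hx.isAlgebraic_field
  have h2 : CharZero (IntermediateField.adjoin K (Set.range x)) :=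
    charZero_of_injective_algebraMap (algebraMap K _).injective
  have h3 : Algebra.IsSeparable (IntermediateField.adjoin K (Set.range x)) L := inferInstance
  exact Algebra.FormallySmooth.of_algebraicIndependent_of_isSeparable hx.1

/-- Every derivation from a domain to an overfield of characteristic zero extends to a derivation
of the overfield. -/
theorem exists_derivation_extend {k : Type*} {A : Type*} {E : Type*} [CommRing k] [CommRing A]
    [IsDomain A] [Field E] [CharZero E] [Algebra k A] [Algebra A E] [Algebra k E]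
    [IsScalarTower k A E] (hinj : Function.Injective (algebraMap A E)) (d : Derivation k A E) :
    ∃ D : Derivation k E E, ∀ x, D (algebraMap A E x) = d x := by
  have : FaithfulSMul A E := (faithfulSMul_iff_algebraMap_injective A E).2 hinj
  let : Algebra (FractionRing A) E := FractionRing.liftAlgebra A E
  have : IsScalarTower A (FractionRing A) E := FractionRing.isScalarTower_liftAlgebra A E
  have : CharZero A := (algebraMap A E).charZero
  have : CharZero (FractionRing A) := IsFractionRing.charZero_of_isFractionRing A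
  have : Algebra.FormallyEtale A (FractionRing A) :=
    Algebra.FormallyEtale.of_isLocalization (nonZeroDivisors A)
  have : Algebra.FormallySmooth (FractionRing A) E := formallySmooth_of_charZero _ _
  have : Algebra.FormallySmooth A E := Algebra.FormallySmooth.comp A (FractionRing A) E
  let φ : A →+* ExtDual E :=
    { toFun := fun a => (TrivSqZeroExt.inl (algebraMap A E a) + TrivSqZeroExt.inr (d a) :
        TrivSqZeroExt E E)
      map_one' := by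
        change (_ : TrivSqZeroExt E E) = 1
        ext <;> simp
      map_zero' := by
        change (_ : TrivSqZeroExt E E) = 0
        ext <;> simp only [map_zero, TrivSqZeroExt.inl_zero, DualNumber.inr_eq_smul_eps, zero_smul, add_zero, TrivSqZeroExt.fst_zero]
      map_mul' := fun a b => by
        change (_ : TrivSqZeroExt E E) = (_ : TrivSqZeroExt E E) * (_ : TrivSqZeroExt E E)
        refine TrivSqZeroExt.ext ?_ ?_
        · simp
        · rw [TrivSqZeroExt.snd_mul]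
          simp only [TrivSqZeroExt.snd_add, TrivSqZeroExt.fst_add, TrivSqZeroExt.fst_inl,
            TrivSqZeroExt.snd_inl, TrivSqZeroExt.fst_inr, TrivSqZeroExt.snd_inr, zero_add,
            add_zero, Derivation.leibniz, Algebra.smul_def, MulOpposite.smul_eq_mul_unop,
            MulOpposite.unop_op, Algebra.algebraMap_self, RingHom.id_apply]
          ring
      map_add' := fun a b => by
        change (_ : TrivSqZeroExt E E) = (_ : TrivSqZeroExt E E) + (_ : TrivSqZeroExt E E)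
        ext <;> simp }
  let _ : Algebra A (ExtDual E) := φ.toAlgebra
  let g : ExtDual E →ₐ[A] E :=
    { toRingHom := (TrivSqZeroExt.fstHom E E E).toRingHom
      commutes' := fun a => by
        change TrivSqZeroExt.fst (TrivSqZeroExt.inl (algebraMap A E a) +
          TrivSqZeroExt.inr (d a) : TrivSqZeroExt E E) = _
        simp }
  have hg : Function.Surjective g := fun x => ⟨(TrivSqZeroExt.inl x : TrivSqZeroExt E E), rfl⟩
  have hgn : IsNilpotent (RingHom.ker (g : ExtDual E →+* E)) := by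
    refine ⟨2, ?_⟩
    rw [pow_two]
    refine le_antisymm (Ideal.mul_le.2 fun r hr s hs => ?_) bot_le
    have h1 : TrivSqZeroExt.fst (r : TrivSqZeroExt E E) = 0 := hr
    have h2 : TrivSqZeroExt.fst (s : TrivSqZeroExt E E) = 0 := hs
    have h3 : ∀ a b : TrivSqZeroExt E E, TrivSqZeroExt.fst a = 0 → TrivSqZeroExt.fst b = 0 →
        a * b = 0 := fun a b ha hb => by ext <;> simp [ha, hb]
    exact h3 r s h1 h2
  let h : E →ₐ[A] ExtDual E :=
    Algebra.FormallySmooth.liftOfSurjective (AlgHom.id A E) g hg hgn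
  have hh : ∀ x, TrivSqZeroExt.fst (h x : TrivSqZeroExt E E) = x := fun x =>
    Algebra.FormallySmooth.liftOfSurjective_apply (AlgHom.id A E) g hg hgn x
  let D : E →ₗ[ℤ] E :=
    { toFun := fun x => TrivSqZeroExt.snd (h x : TrivSqZeroExt E E)
      map_add' := fun x y => by
        rw [map_add]
        exact TrivSqZeroExt.snd_add _ _
      map_smul' := fun c x => by
        rw [map_zsmul]
        exact TrivSqZeroExt.snd_smul _ _ }
  have hD : ∀ x, D x = TrivSqZeroExt.snd (h x : TrivSqZeroExt E E) := fun _ => rfl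
  have hDA : ∀ a, D (algebraMap A E a) = d a := by
    intro a
    rw [hD, h.commutes]
    change TrivSqZeroExt.snd (TrivSqZeroExt.inl (algebraMap A E a) +
          TrivSqZeroExt.inr (d a) : TrivSqZeroExt E E) = _
    simp
  have hDm : ∀ x y, D (x * y) = x * D y + y * D x := by
    intro x y
    have key : ∀ a b : TrivSqZeroExt E E, TrivSqZeroExt.snd (a * b) =
        TrivSqZeroExt.fst a * TrivSqZeroExt.snd b + TrivSqZeroExt.fst b * TrivSqZeroExt.snd a := by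
      intro a b
      rw [TrivSqZeroExt.snd_mul]
      simp only [smul_eq_mul, MulOpposite.smul_eq_mul_unop, MulOpposite.unop_op, mul_comm]
    have h3 := key (h x) (h y)
    rw [hh, hh] at h3
    rw [hD, map_mul]
    exact h3
  have hDk : ∀ c : k, D (algebraMap k E c) = 0 := by
    intro c
    rw [IsScalarTower.algebraMap_apply k A E, hDA, Derivation.map_algebraMap]
  refine ⟨Derivation.mk' { toFun := D, map_add' := map_add D, map_smul' := fun c x => ?_ }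
    (fun x y => hDm x y), hDA⟩
  rw [Algebra.smul_def, hDm, hDk, mul_zero, add_zero, RingHom.id_apply, Algebra.smul_def]

end Vale.Agent.P292
end
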