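import Mathlib
import Vale.Agent.P002.Bd3.B1
import Vale.Agent.P002.Bd3.B2

set_option linter.all false

@[reducible] def Vale.Agent.P002Fast.coeU5 {M : Type*} [Monoid M] (u : Mˣ) : CoeT Mˣ u M := ⟨Units.val u⟩
attribute [local instance] Vale.Agent.P002Fast.coeU5

section

/-!
# Basic lemmas for the relative framework
-/

namespace Vale.Agent.P002R

open Matrix

variable {κ : Type*} {r : ℕ} {S T : Type*} [CommRing S] [CommRing T]

theorem evalW_comp [Algebra ℂ S] (x : FreeGroup κ →* (Mat r S)ˣ) (φ : FreeGroup κ →* FreeGroup κ)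
    (f : MvPolynomial (FreeGroup κ × Fin r × Fin r) ℂ) :
    evalW (x.comp φ) f = evalW x (MvPolynomial.rename (fun p => (φ p.1, p.2)) f) := by
  simp only [evalW, MvPolynomial.aeval_rename]
  rfl

theorem InZ.comp' [Algebra ℂ S] {D : Set (FreeGroup κ →* (Mat r ℂ)ˣ)} {x : FreeGroup κ →* (Mat r S)ˣ}
    (hx : InZ D x) (φ : FreeGroup κ →* FreeGroup κ) (hφ : ∀ y ∈ D, y.comp φ ∈ D) :
    InZ D (x.comp φ) := by
  intro f hf
  rw [evalW_comp]
  apply hx
  intro y hy
  rw [← evalW_comp]
  exact hf _ (hφ y hy)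

theorem InZ.word_eq [Algebra ℂ S] {D : Set (FreeGroup κ →* (Mat r ℂ)ˣ)} (w : FreeGroup κ)
    (M : Mat r ℂ) (hD : ∀ y ∈ D, (y w : Mat r ℂ) = M)
    {x : FreeGroup κ →* (Mat r S)ˣ} (hx : InZ D x) :
    (x w : Mat r S) = M.map (algebraMap ℂ S) := by
  ext i j
  have := hx (MvPolynomial.X (w, i, j) - MvPolynomial.C (M i j)) ?_
  · simp only [evalW, map_sub, MvPolynomial.aeval_X, MvPolynomial.aeval_C, sub_eq_zero] at this
    rw [this, Matrix.map_apply]
  · intro y hy
    simp only [evalW, map_sub, MvPolynomial.aeval_X, MvPolynomial.aeval_C, sub_eq_zero, hD y hy]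
    rfl

theorem baseChange_apply (θ : S →+* T) (x : FreeGroup κ →* (Mat r S)ˣ) (w : FreeGroup κ) :
    (baseChange θ x w : Mat r T) = (x w : Mat r S).map θ := rfl

theorem baseChange_inv_apply (θ : S →+* T) (x : FreeGroup κ →* (Mat r S)ˣ) (w : FreeGroup κ) :
    (((baseChange θ x w)⁻¹ : (Mat r T)ˣ) : Mat r T) =
      (((x w)⁻¹ : (Mat r S)ˣ) : Mat r S).map θ := rfl

theorem evalW_baseChange [Algebra ℂ S] [Algebra ℂ T] (θ : S →ₐ[ℂ] T)
    (x : FreeGroup κ →* (Mat r S)ˣ) (f : MvPolynomial (FreeGroup κ × Fin r × Fin r) ℂ) :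
    evalW (baseChange (θ : S →+* T) x) f = θ (evalW x f) := by
  have : (evalW (baseChange (θ : S →+* T) x)) = θ.comp (evalW x) := by
    apply MvPolynomial.algHom_ext
    intro p
    simp [evalW, baseChange_apply]
  rw [this]; rfl

theorem flow_of [DecidableEq κ] (x : FreeGroup κ →* (Mat r S)ˣ) (k : κ) (z : (Mat r S)ˣ) (l : κ) :
    flow x k z (FreeGroup.of l) =
      if l = k then x (FreeGroup.of k) * z else x (FreeGroup.of l) := by
  simp [flow]

/-- The endomorphism `k ↦ k * l ^ n`. -/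
def twist [DecidableEq κ] (k l : κ) (n : ℤ) : FreeGroup κ →* FreeGroup κ :=
  FreeGroup.lift fun i => if i = k then FreeGroup.of k * FreeGroup.of l ^ n else FreeGroup.of i

theorem twist_of [DecidableEq κ] (k l : κ) (n : ℤ) (i : κ) :
    twist k l n (FreeGroup.of i) =
      if i = k then FreeGroup.of k * FreeGroup.of l ^ n else FreeGroup.of i := by
  simp [twist]

theorem twist_comp [DecidableEq κ] {k l : κ} (hkl : k ≠ l) (n : ℤ) :
    (twist k l n).comp (twist k l (-n)) = MonoidHom.id _ := by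
  apply FreeGroup.ext_hom
  intro i
  by_cases hi : i = k
  · subst hi
    simp only [MonoidHom.comp_apply, twist_of, if_true, map_mul, map_zpow, hkl.symm, if_false,
      MonoidHom.id_apply]
    group
  · simp [twist_of, hi]

/-- The automorphism `k ↦ k * l ^ n`. -/
def dehn [DecidableEq κ] {k l : κ} (hkl : k ≠ l) (n : ℤ) : FreeGroup κ ≃* FreeGroup κ :=
  MonoidHom.toMulEquiv (twist k l n) (twist k l (-n))
    (by simpa using twist_comp hkl (-n)) (twist_comp hkl n)

theorem flow_pow [DecidableEq κ] (x : FreeGroup κ →* (Mat r S)ˣ) (k l : κ) (n : ℤ) :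
    flow x k (x (FreeGroup.of l) ^ n) = x.comp (twist k l n) := by
  apply FreeGroup.ext_hom
  intro i
  rw [flow_of, MonoidHom.comp_apply, twist_of]
  split_ifs <;> simp

theorem baseChange_flow [DecidableEq κ] (θ : S →+* T) (x : FreeGroup κ →* (Mat r S)ˣ) (k : κ)
    (z : (Mat r S)ˣ) :
    baseChange θ (flow x k z) =
      flow (baseChange θ x) k (Units.map (RingHom.mapMatrix θ).toMonoidHom z) := by
  apply FreeGroup.ext_hom
  intro i
  rw [flow_of]
  show (Units.map (RingHom.mapMatrix θ).toMonoidHom) (flow x k z (FreeGroup.of i)) = _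
  rw [flow_of]
  split_ifs
  · rw [map_mul]; rfl
  · rfl

end Vale.Agent.P002R
end

section

/-! TASK G: arc lemma. -/

namespace Vale.Agent.P002

theorem coeff_zero_aeval {σ : Type*} (Ψ : MvPolynomial σ ℂ) (c : σ → PowerSeries ℂ) :
    PowerSeries.coeff 0 (MvPolynomial.aeval c Ψ) =
      MvPolynomial.eval (fun i => PowerSeries.coeff 0 (c i)) Ψ := by
  induction Ψ using MvPolynomial.induction_on with
  | C a => simp
  | add p q hp hq => rw [map_add, map_add, map_add, hp, hq]
  | mul_X p i hp => simp at hp ⊢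

theorem coeff_one_aeval {σ : Type*} [Fintype σ] (Ψ : MvPolynomial σ ℂ)
    (c : σ → PowerSeries ℂ) :
    PowerSeries.coeff 1 (MvPolynomial.aeval c Ψ) =
      ∑ i, MvPolynomial.eval (fun i => PowerSeries.coeff 0 (c i)) (MvPolynomial.pderiv i Ψ) *
        PowerSeries.coeff 1 (c i) := by
  classical
  induction Ψ using MvPolynomial.induction_on with
  | C a => 
    rw [MvPolynomial.aeval_C]
    simp
  | add p q hp hq =>
    rw [map_add, map_add, hp, hq, ← Finset.sum_add_distrib]
    refine Finset.sum_congr rfl fun i _ => ?_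
    rw [map_add, map_add, add_mul]
  | mul_X p i hp =>
    rw [map_mul, MvPolynomial.aeval_X, PowerSeries.coeff_one_mul,
      ← PowerSeries.coeff_zero_eq_constantCoeff_apply,
      ← PowerSeries.coeff_zero_eq_constantCoeff_apply, coeff_zero_aeval, hp, Finset.sum_mul]
    have : ∀ j, MvPolynomial.eval (fun i => PowerSeries.coeff 0 (c i))
        (MvPolynomial.pderiv j (p * MvPolynomial.X i)) * PowerSeries.coeff 1 (c j) =
        MvPolynomial.eval (fun i => PowerSeries.coeff 0 (c i)) (MvPolynomial.pderiv j p) *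
          PowerSeries.coeff 1 (c j) * PowerSeries.coeff 0 (c i) +
        (if j = i then PowerSeries.coeff 1 (c j) *
          MvPolynomial.eval (fun i => PowerSeries.coeff 0 (c i)) p else 0) := by
      intro j
      rw [Derivation.leibniz, MvPolynomial.pderiv_X]
      simp only [smul_eq_mul, map_add, map_mul, MvPolynomial.eval_X]
      by_cases hji : j = i
      · subst hji
        rw [if_pos rfl, Pi.single_eq_same, map_one]
        ring
      · rw [if_neg hji, Pi.single_eq_of_ne (Ne.symm hji), map_zero]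
        ring
    simp only [this]
    rw [Finset.sum_add_distrib, Finset.sum_ite_eq' Finset.univ i]
    simp

/-- telescoping -/
theorem sub_mem_pow_mul {A B : Type*} [CommRing A] [CommRing B] [Algebra ℂ A] [Algebra ℂ B]
    (α β : A →ₐ[ℂ] B) (m : Ideal A)
    (N J : Ideal B) (hα : ∀ a ∈ m, α a ∈ N) (hβ : ∀ a ∈ m, β a ∈ N) (h : ∀ a, α a - β a ∈ J)
    (n : ℕ) : ∀ q ∈ m ^ (n + 1), α q - β q ∈ N ^ n * J := by
  induction n with
  | zero =>
    intro q _
    rw [pow_zero, Ideal.one_eq_top, Ideal.top_mul]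
    exact h q
  | succ n ih =>
    intro q hq
    rw [pow_succ] at hq
    refine Submodule.mul_induction_on hq ?_ ?_
    · intro a ha b hb
      have e : α (a * b) - β (a * b) = (α a - β a) * α b + β a * (α b - β b) := by
        rw [map_mul, map_mul]; ring
      rw [e]
      refine Ideal.add_mem _ ?_ ?_
      · have := Ideal.mul_mem_mul (ih a ha) (hα b hb)
        rw [pow_succ, mul_assoc, mul_comm N J, ← mul_assoc]
        exact this
      · refine Ideal.mul_mem_mul ?_ (h b)
        have : m ^ (n + 1) ≤ (N ^ (n + 1)).comap (β : A →+* B) := by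
          refine le_trans (Ideal.pow_right_mono (I := m) (J := N.comap (β : A →+* B)) hβ (n + 1)) ?_
          exact Ideal.le_comap_pow (β : A →+* B) (n + 1)
        exact this ha
    · intro a b ha hb
      have e : α (a + b) - β (a + b) = (α a - β a) + (α b - β b) := by
        rw [map_add, map_add]; ring
      rw [e]
      exact Ideal.add_mem _ ha hb

theorem map_pow_mem {A B : Type*} [CommRing A] [CommRing B] [Algebra ℂ A] [Algebra ℂ B]
    (θ : A →ₐ[ℂ] B) (m : Ideal A) (N : Ideal B) (h : ∀ a ∈ m, θ a ∈ N) (k : ℕ) :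
    ∀ a ∈ m ^ k, θ a ∈ N ^ k := by
  intro a ha
  have : m ^ k ≤ (N ^ k).comap (θ : A →+* B) := by
    refine le_trans (Ideal.pow_right_mono (I := m) (J := N.comap (θ : A →+* B)) h k) ?_
    exact Ideal.le_comap_pow (θ : A →+* B) k
  exact this ha

theorem algHom_sub_mem {σ B : Type*} [CommRing B] [Algebra ℂ B]
    (α β : MvPolynomial σ ℂ →ₐ[ℂ] B) (J : Ideal B)
    (h : ∀ i, α (MvPolynomial.X i) - β (MvPolynomial.X i) ∈ J) (a : MvPolynomial σ ℂ) :
    α a - β a ∈ J := by
  have : (Ideal.Quotient.mkₐ ℂ J).comp α = (Ideal.Quotient.mkₐ ℂ J).comp β := by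
    apply MvPolynomial.algHom_ext
    intro i
    exact Ideal.Quotient.eq.mpr (h i)
  exact Ideal.Quotient.eq.mp (DFunLike.congr_fun this a)

open MvPolynomial in
/-- linear part -/
theorem sub_linear_mem {σ : Type*} [Fintype σ] (q : MvPolynomial σ ℂ) :
    q - C (eval 0 q) - ∑ i, C (eval 0 (pderiv i q)) * X i ∈ idealOfVars σ ℂ ^ 2 := by
  classical
  induction q using MvPolynomial.induction_on with
  | C a => simp
  | add p q hp hq =>
    have := Ideal.add_mem _ hp hq
    convert this using 1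
    simp only [map_add, add_mul, Finset.sum_add_distrib]
    ring
  | mul_X p j hp =>
    have h1 : ∑ i, C (eval 0 (pderiv i (p * X j))) * X i = C (eval 0 p) * X j := by
      rw [Finset.sum_eq_single j]
      · rw [Derivation.leibniz, pderiv_X_self]
        simp
      · intro i _ hi
        rw [Derivation.leibniz, pderiv_X_of_ne hi.symm]
        simp
      · simp
    rw [h1, map_mul, eval_X]
    have h2 : p * X j - C (eval 0 p * (0 : σ → ℂ) j) - C (eval 0 p) * X j =
        (p - C (eval 0 p)) * X j := by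
      simp; ring
    rw [h2, pow_two]
    refine Ideal.mul_mem_mul ?_ (Ideal.subset_span ⟨j, rfl⟩)
    have h3 := (mem_pow_idealOfVars_iff' 1 (p - C (eval 0 p))).mpr (by
      intro x hx
      have hx0 : x = 0 := by
        rw [← Finsupp.degree_eq_zero_iff]; omega
      subst hx0
      rw [coeff_sub, coeff_zero_C, ← constantCoeff_eq, ← eval_zero, sub_self])
    rwa [pow_one] at h3


open MvPolynomial in
theorem mem_pow_succ_of_lines {σ : Type*} [Fintype σ] (q : MvPolynomial σ ℂ) (k : ℕ)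
    (hq : q ∈ idealOfVars σ ℂ ^ k)
    (h : ∀ x : σ → ℂ, PowerSeries.coeff k
      (aeval (fun i => PowerSeries.C (x i) * PowerSeries.X : σ → PowerSeries ℂ) q) = 0) :
    q ∈ idealOfVars σ ℂ ^ (k + 1) := by
  classical
  have hcoeff : ∀ (x : σ → ℂ) (p : MvPolynomial σ ℂ), PowerSeries.coeff k
      (aeval (fun i => PowerSeries.C (x i) * PowerSeries.X : σ → PowerSeries ℂ) p) =
      eval x (homogeneousComponent k p) := by
    intro x p
    induction p using MvPolynomial.induction_on' with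
    | monomial d a =>
      rw [aeval_monomial]
      have h1 : d.prod (fun i n => (PowerSeries.C (x i) * PowerSeries.X : PowerSeries ℂ) ^ n) =
          PowerSeries.C (d.prod fun i n => x i ^ n) * PowerSeries.X ^ d.degree := by
        have hdeg : d.degree = ∑ i ∈ d.support, d i := rfl
        rw [Finsupp.prod, Finsupp.prod, hdeg, map_prod, ← Finset.prod_pow_eq_pow_sum,
          ← Finset.prod_mul_distrib]
        refine Finset.prod_congr rfl fun i _ => ?_
        rw [mul_pow, map_pow]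
      rw [h1]
      have h2 : homogeneousComponent k (monomial d a : MvPolynomial σ ℂ) =
          if d.degree = k then monomial d a else 0 := by
        by_cases hd : d.degree = k
        · rw [if_pos hd]
          exact homogeneousComponent_eq_self (isHomogeneous_monomial a hd)
        · rw [if_neg hd]
          apply homogeneousComponent_eq_zero'
          intro e he
          rw [mem_support_iff, coeff_monomial] at he
          by_cases hde : d = e
          · subst hde; exact hd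
          · rw [if_neg hde] at he; exact absurd rfl he
      rw [h2]
      have h3 : (algebraMap ℂ (PowerSeries ℂ) a) = PowerSeries.C a := rfl
      rw [h3, ← mul_assoc, ← map_mul, PowerSeries.coeff_C_mul, PowerSeries.coeff_X_pow]
      by_cases hd : d.degree = k
      · rw [if_pos hd, if_pos hd.symm, eval_monomial, mul_one]
      · rw [if_neg hd, if_neg (Ne.symm hd), map_zero, mul_zero]
    | add p q hp hq => rw [map_add, map_add, map_add, map_add, hp, hq]
  have h0 : homogeneousComponent k q = 0 := by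
    apply MvPolynomial.funext
    intro x
    rw [← hcoeff, h x, map_zero]
  rw [mem_pow_idealOfVars_iff'] at hq ⊢
  intro x hx
  by_cases hxk : x.degree = k
  · have := congrArg (coeff x) h0
    rwa [coeff_homogeneousComponent, if_pos hxk, coeff_zero] at this
  · exact hq x (by omega)


/-- linear forms as polynomials -/
noncomputable def linPoly {σ : Type*} [Fintype σ] [DecidableEq σ] :
    ((σ → ℂ) →ₗ[ℂ] ℂ) →ₗ[ℂ] MvPolynomial σ ℂ where
  toFun := fun ψ => ∑ i, MvPolynomial.C (ψ (Pi.single i 1)) * MvPolynomial.X i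
  map_add' := by
    intro a b
    simp only [LinearMap.add_apply, map_add, add_mul, Finset.sum_add_distrib]
  map_smul' := by
    intro c a
    simp only [LinearMap.smul_apply, smul_eq_mul, map_mul, RingHom.id_apply,
      Finset.smul_sum, MvPolynomial.smul_eq_C_mul, mul_assoc]

theorem linPoly_apply {σ : Type*} [Fintype σ] [DecidableEq σ] (ψ : (σ → ℂ) →ₗ[ℂ] ℂ) :
    linPoly ψ = ∑ i, MvPolynomial.C (ψ (Pi.single i 1)) * MvPolynomial.X i := rfl

theorem exists_proj {σ ι : Type*} [Fintype σ] [DecidableEq σ] [Finite ι]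
    (φ : ι → ((σ → ℂ) →ₗ[ℂ] ℂ)) :
    ∃ P : (σ → ℂ) →ₗ[ℂ] (σ → ℂ), (∀ v j, φ j (P v) = 0) ∧
      ∀ i, MvPolynomial.X i - linPoly ((LinearMap.proj i).comp P) ∈
        Ideal.span (Set.range fun j => linPoly (φ j)) := by
  let K : Submodule ℂ (σ → ℂ) := ⨅ j, LinearMap.ker (φ j)
  have hK : ∀ u, u ∈ K ↔ ∀ j, φ j u = 0 := by
    intro u
    simp [K]
  obtain ⟨K', hKK'⟩ := Submodule.exists_isCompl K
  refine ⟨K.projection K' hKK', ?_, ?_⟩
  · intro v
    rw [← hK]
    exact (K.projectionOnto K' hKK' v).2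
  · intro i
    have h1 : (LinearMap.proj i : (σ → ℂ) →ₗ[ℂ] ℂ) - (LinearMap.proj i).comp
        (K.projection K' hKK') ∈ Submodule.span ℂ (Set.range φ) := by
      apply mem_span_of_iInf_ker_le_ker
      intro u hu
      rw [LinearMap.mem_ker, LinearMap.sub_apply, LinearMap.comp_apply,
        (Submodule.projection_eq_self_iff hKK' u).mpr hu, sub_self]
    have h2 : MvPolynomial.X i - linPoly ((LinearMap.proj i).comp (K.projection K' hKK')) =
        linPoly ((LinearMap.proj i : (σ → ℂ) →ₗ[ℂ] ℂ) -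
        (LinearMap.proj i).comp (K.projection K' hKK')) := by
      rw [map_sub]
      congr 1
      rw [linPoly_apply, Finset.sum_eq_single i]
      · simp
      · intro b _ hb
        simp [hb.symm]
      · simp
    rw [h2]
    have h3 := Submodule.mem_map_of_mem (f := linPoly) h1
    rw [Submodule.map_span, ← Set.range_comp] at h3
    exact Submodule.span_le_restrictScalars ℂ (MvPolynomial σ ℂ) _ h3

theorem idealOfVars_map_le {σ A : Type*} [CommRing A] [Algebra ℂ A]
    (α : MvPolynomial σ ℂ →ₐ[ℂ] A) (N : Ideal A) (h : ∀ i, α (MvPolynomial.X i) ∈ N) :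
    ∀ a ∈ MvPolynomial.idealOfVars σ ℂ, α a ∈ N := by
  intro a ha
  have : MvPolynomial.idealOfVars σ ℂ ≤ N.comap (α : MvPolynomial σ ℂ →+* A) := by
    rw [MvPolynomial.idealOfVars, Ideal.span_le]
    rintro _ ⟨i, rfl⟩
    exact h i
  exact this ha

/-- a function in the `k`-th power of the maximal ideal, evaluated along an arc -/
theorem coeff_arc {σ : Type*} [Fintype σ] (H : MvPolynomial σ ℂ) (k : ℕ)
    (hH : H ∈ MvPolynomial.idealOfVars σ ℂ ^ (k + 1)) (u : σ → ℂ) (c : σ → PowerSeries ℂ)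
    (hc0 : ∀ i, PowerSeries.coeff 0 (c i) = 0) (hc1 : ∀ i, PowerSeries.coeff 1 (c i) = u i)
    (hcH : MvPolynomial.aeval c H = 0) :
    PowerSeries.coeff (k + 1) (MvPolynomial.aeval
      (fun i => PowerSeries.C (u i) * PowerSeries.X : σ → PowerSeries ℂ) H) = 0 := by
  let α : MvPolynomial σ ℂ →ₐ[ℂ] PowerSeries ℂ :=
    MvPolynomial.aeval (fun i => PowerSeries.C (u i) * PowerSeries.X)
  let β : MvPolynomial σ ℂ →ₐ[ℂ] PowerSeries ℂ := MvPolynomial.aeval c
  let N : Ideal (PowerSeries ℂ) := Ideal.span {PowerSeries.X}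
  have hmem : α H - β H ∈ N ^ k * N ^ 2 := by
    refine sub_mem_pow_mul α β (MvPolynomial.idealOfVars σ ℂ) N (N ^ 2) ?_ ?_ ?_ k H hH
    · refine idealOfVars_map_le α N ?_
      intro i
      simp only [α, MvPolynomial.aeval_X]
      exact Ideal.mul_mem_left _ _ (Ideal.subset_span rfl)
    · refine idealOfVars_map_le β N ?_
      intro i
      simp only [β, MvPolynomial.aeval_X]
      rw [Ideal.mem_span_singleton, PowerSeries.X_dvd_iff,
        ← PowerSeries.coeff_zero_eq_constantCoeff_apply]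
      exact hc0 i
    · intro b
      refine algHom_sub_mem α β (N ^ 2) ?_ b
      intro i
      simp only [α, β, MvPolynomial.aeval_X, N]
      rw [Ideal.span_singleton_pow, Ideal.mem_span_singleton, PowerSeries.X_pow_dvd_iff]
      intro n hn
      interval_cases n
      · rw [map_sub, hc0 i]; simp
      · rw [map_sub, hc1 i, PowerSeries.coeff_C_mul, PowerSeries.coeff_one_X, mul_one,
          sub_self]
  have hβ : β H = 0 := hcH
  rw [hβ, sub_zero, ← pow_add, Ideal.span_singleton_pow, Ideal.mem_span_singleton,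
    PowerSeries.X_pow_dvd_iff] at hmem
  exact hmem (k + 1) (by omega)

theorem aeval_lin {σ : Type*} [Fintype σ] [DecidableEq σ] (P : (σ → ℂ) →ₗ[ℂ] (σ → ℂ))
    (x : σ → ℂ) (H : MvPolynomial σ ℂ) :
    MvPolynomial.aeval (fun i => PowerSeries.C (x i) * PowerSeries.X : σ → PowerSeries ℂ)
      (MvPolynomial.aeval (fun i => linPoly ((LinearMap.proj i).comp P)) H) =
    MvPolynomial.aeval (fun i => PowerSeries.C (P x i) * PowerSeries.X : σ → PowerSeries ℂ) H := by
  rw [← AlgHom.comp_apply, MvPolynomial.comp_aeval]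
  congr 2
  funext i
  rw [linPoly_apply, map_sum]
  have hx : P x i = ∑ l, P (Pi.single l 1) i * x l := by
    conv_lhs => rw [← Finset.univ_sum_single x, map_sum, Finset.sum_apply]
    refine Finset.sum_congr rfl fun l _ => ?_
    have : (Pi.single l (x l) : σ → ℂ) = x l • Pi.single l 1 := by
      rw [← Pi.single_smul, smul_eq_mul, mul_one]
    rw [this, map_smul, Pi.smul_apply, smul_eq_mul, mul_comm]
  rw [hx, map_sum, Finset.sum_mul]
  refine Finset.sum_congr rfl fun l _ => ?_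
  rw [map_mul, MvPolynomial.aeval_X, map_mul, ← mul_assoc]
  congr 2
  exact MvPolynomial.aeval_C _ _

open MvPolynomial in
theorem arc_step {σ ι : Type*} [Fintype σ] [Finite ι] (Ψ : ι → MvPolynomial σ ℂ)
    (f : MvPolynomial σ ℂ) (hp : ∀ j, eval 0 (Ψ j) = 0)
    (harc : ∀ u : σ → ℂ,
      (∀ j, ∑ i, eval 0 (pderiv i (Ψ j)) * u i = 0) →
      ∃ c : σ → PowerSeries ℂ, (∀ i, PowerSeries.coeff 0 (c i) = 0) ∧
        (∀ i, PowerSeries.coeff 1 (c i) = u i) ∧ aeval c f = 0 ∧
        ∀ j, aeval c (Ψ j) = 0) (k : ℕ) :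
    f ∈ Ideal.span (Set.range Ψ) ⊔ idealOfVars σ ℂ ^ (k + 1) := by
  classical
  set I := Ideal.span (Set.range Ψ) with hI
  set m := idealOfVars σ ℂ with hm
  have hXm : ∀ i, (X i : MvPolynomial σ ℂ) ∈ m := fun i => Ideal.subset_span ⟨i, rfl⟩
  induction k with
  | zero =>
    obtain ⟨c, hc0, -, hcf, -⟩ := harc 0 (by simp)
    have h1 := coeff_zero_aeval f c
    rw [hcf, map_zero] at h1
    have h2 : (fun i => PowerSeries.coeff 0 (c i)) = (0 : σ → ℂ) := funext hc0
    rw [h2] at h1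
    refine Ideal.mem_sup_right ?_
    rw [mem_pow_idealOfVars_iff']
    intro x hx
    have hx0 : x = 0 := by
      rw [← Finsupp.degree_eq_zero_iff]; omega
    subst hx0
    rw [← constantCoeff_eq, ← eval_zero]
    exact h1.symm
  | succ k ih =>
    obtain ⟨a, ha, H, hH, rfl⟩ := Submodule.mem_sup.mp ih
    let φ : ι → ((σ → ℂ) →ₗ[ℂ] ℂ) := fun j =>
      ∑ i, (eval 0 (pderiv i (Ψ j))) • LinearMap.proj i
    have hφ : ∀ j u, φ j u = ∑ i, eval 0 (pderiv i (Ψ j)) * u i := by
      intro j u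
      simp [φ]
    obtain ⟨P, hP1, hXY⟩ := exists_proj φ
    set J : Ideal (MvPolynomial σ ℂ) := Ideal.span (Set.range fun j => linPoly (φ j)) with hJdef
    let θ : MvPolynomial σ ℂ →ₐ[ℂ] MvPolynomial σ ℂ :=
      aeval fun i => linPoly ((LinearMap.proj i).comp P)
    have hθX : ∀ i, θ (X i) = linPoly ((LinearMap.proj i).comp P) := fun i => aeval_X _ _
    have hθJ : ∀ a, (AlgHom.id ℂ (MvPolynomial σ ℂ)) a - θ a ∈ J := by
      intro a
      refine algHom_sub_mem _ θ J (fun i => ?_) a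
      rw [hθX]
      exact hXY i
    have hθm : ∀ a ∈ m, θ a ∈ m := by
      refine idealOfVars_map_le θ m ?_
      intro i
      rw [hθX, linPoly_apply]
      exact Ideal.sum_mem _ fun l _ => Ideal.mul_mem_left _ _ (hXm l)
    have h1 : H - θ H ∈ m ^ k * J :=
      sub_mem_pow_mul (AlgHom.id ℂ (MvPolynomial σ ℂ)) θ m m J (fun a h => h) hθm hθJ k H hH
    have hJ : J ≤ I ⊔ m ^ 2 := by
      rw [hJdef, Ideal.span_le]
      rintro _ ⟨j, rfl⟩
      have h2 := sub_linear_mem (Ψ j)
      rw [hp j, map_zero, sub_zero] at h2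
      have h3 : linPoly (φ j) = ∑ i, C (eval 0 (pderiv i (Ψ j))) * X i := by
        rw [linPoly_apply]
        refine Finset.sum_congr rfl fun i _ => ?_
        rw [hφ, Finset.sum_eq_single i]
        · simp
        · intro b _ hb
          simp [hb]
        · simp
      rw [← h3] at h2
      have h4 : linPoly (φ j) = Ψ j - (Ψ j - linPoly (φ j)) := by ring
      rw [SetLike.mem_coe]
      change linPoly (φ j) ∈ _
      rw [h4]
      exact Ideal.sub_mem _ (Ideal.mem_sup_left (Ideal.subset_span ⟨j, rfl⟩))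
        (Ideal.mem_sup_right h2)
    have h5 : H - θ H ∈ I ⊔ m ^ (k + 1 + 1) := by
      have h6 : m ^ k * J ≤ I ⊔ m ^ (k + 1 + 1) := by
        refine (Ideal.mul_mono_right hJ).trans ?_
        rw [Ideal.mul_sup]
        refine sup_le_sup Ideal.mul_le_right ?_
        rw [← pow_add]
      exact h6 h1
    have h7 : θ H ∈ m ^ (k + 1 + 1) := by
      apply mem_pow_succ_of_lines
      · exact map_pow_mem θ m m hθm (k + 1) H hH
      · intro x
        obtain ⟨c, hc0, hc1, hcf, hcΨ⟩ := harc (P x) (fun j => by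
          rw [← hφ]; exact hP1 x j)
        have hca : aeval c a = 0 := by
          have : I ≤ RingHom.ker (aeval c : MvPolynomial σ ℂ →ₐ[ℂ] PowerSeries ℂ) := by
            rw [hI, Ideal.span_le]
            rintro _ ⟨j, rfl⟩
            exact hcΨ j
          exact this ha
        have hcH : aeval c H = 0 := by
          rw [map_add, hca, zero_add] at hcf
          exact hcf
        rw [aeval_lin]
        exact coeff_arc H k hH (P x) c hc0 hc1 hcH
    have h8 : a + H = a + (H - θ H) + θ H := by rw [add_assoc, sub_add_cancel]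
    rw [h8]
    exact Ideal.add_mem _ (Ideal.add_mem _ (Ideal.mem_sup_left ha) h5) (Ideal.mem_sup_right h7)


open MvPolynomial in
theorem arc_lemma_zero {σ ι : Type*} [Fintype σ] [Finite ι] (Ψ : ι → MvPolynomial σ ℂ)
    (f : MvPolynomial σ ℂ) (hp : ∀ j, eval 0 (Ψ j) = 0)
    (harc : ∀ u : σ → ℂ,
      (∀ j, ∑ i, eval 0 (pderiv i (Ψ j)) * u i = 0) →
      ∃ c : σ → PowerSeries ℂ, (∀ i, PowerSeries.coeff 0 (c i) = 0) ∧
        (∀ i, PowerSeries.coeff 1 (c i) = u i) ∧ aeval c f = 0 ∧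
        ∀ j, aeval c (Ψ j) = 0) :
    ∃ h : MvPolynomial σ ℂ, eval 0 h ≠ 0 ∧ h * f ∈ Ideal.span (Set.range Ψ) := by
  set I := Ideal.span (Set.range Ψ) with hI
  set m := idealOfVars σ ℂ with hm
  have hall : ∀ k, f ∈ I ⊔ m ^ k := by
    intro k
    cases k with
    | zero => simp
    | succ k => exact arc_step Ψ f hp harc k
  let M := MvPolynomial σ ℂ ⧸ I
  let mk : MvPolynomial σ ℂ →ₗ[MvPolynomial σ ℂ] M := Submodule.mkQ I
  have hx : mk f ∈ (⨅ i : ℕ, m ^ i • ⊤ : Submodule (MvPolynomial σ ℂ) M) := by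
    rw [Submodule.mem_iInf]
    intro k
    obtain ⟨a, ha, b, hb, hab⟩ := Submodule.mem_sup.mp (hall k)
    have h1 : mk f = b • mk 1 := by
      rw [← hab, map_add, ← map_smul, smul_eq_mul, mul_one]
      have : mk a = 0 := (Submodule.Quotient.mk_eq_zero I).mpr ha
      rw [this, zero_add]
    rw [h1]
    exact Submodule.smul_mem_smul hb trivial
  obtain ⟨r, hr⟩ := (Ideal.mem_iInf_smul_pow_eq_bot_iff m (mk f)).mp hx
  refine ⟨1 - (r : MvPolynomial σ ℂ), ?_, ?_⟩
  · have h0 : eval 0 (r : MvPolynomial σ ℂ) = 0 := by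
      have := (mem_pow_idealOfVars_iff' 1 (r : MvPolynomial σ ℂ)).mp (by
        rw [pow_one]; exact r.2) 0 (by simp)
      rw [← constantCoeff_eq, ← eval_zero] at this
      exact this
    rw [map_sub, map_one, h0, sub_zero]
    exact one_ne_zero
  · have h2 : mk ((1 - (r : MvPolynomial σ ℂ)) * f) = 0 := by
      have : (1 - (r : MvPolynomial σ ℂ)) * f = f - (r : MvPolynomial σ ℂ) • f := by
        rw [sub_mul, one_mul, smul_eq_mul]
      rw [this, map_sub, map_smul, hr, sub_self]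
    exact (Submodule.Quotient.mk_eq_zero I).mp h2

/-- translation of variables -/
noncomputable def transl {σ : Type*} (p : σ → ℂ) : MvPolynomial σ ℂ →ₐ[ℂ] MvPolynomial σ ℂ :=
  MvPolynomial.aeval fun i => MvPolynomial.X i + MvPolynomial.C (p i)

theorem transl_X {σ : Type*} (p : σ → ℂ) (i : σ) :
    transl p (MvPolynomial.X i) = MvPolynomial.X i + MvPolynomial.C (p i) :=
  MvPolynomial.aeval_X _ _

theorem transl_C {σ : Type*} (p : σ → ℂ) (a : ℂ) :
    transl p (MvPolynomial.C a) = MvPolynomial.C a :=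
  MvPolynomial.aeval_C _ _

theorem transl_neg_transl {σ : Type*} (p : σ → ℂ) (q : MvPolynomial σ ℂ) :
    transl (-p) (transl p q) = q := by
  induction q using MvPolynomial.induction_on with
  | C a => rw [transl_C, transl_C]
  | add a b ha hb => rw [map_add, map_add, ha, hb]
  | mul_X a i ha =>
    rw [map_mul, map_mul, ha, transl_X, map_add, transl_X, transl_C, Pi.neg_apply, map_neg,
      neg_add_cancel_right]

theorem eval_transl {σ : Type*} (p p' : σ → ℂ) (q : MvPolynomial σ ℂ) :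
    MvPolynomial.eval p' (transl p q) = MvPolynomial.eval (p' + p) q := by
  induction q using MvPolynomial.induction_on with
  | C a => rw [transl_C, MvPolynomial.eval_C, MvPolynomial.eval_C]
  | add a b ha hb => rw [map_add, map_add, map_add, ha, hb]
  | mul_X a i ha =>
    rw [map_mul, map_mul, map_mul, ha, transl_X, map_add, MvPolynomial.eval_X,
      MvPolynomial.eval_C, MvPolynomial.eval_X, Pi.add_apply]

theorem pderiv_transl {σ : Type*} (p : σ → ℂ) (q : MvPolynomial σ ℂ) (i : σ) :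
    MvPolynomial.pderiv i (transl p q) = transl p (MvPolynomial.pderiv i q) := by
  classical
  induction q using MvPolynomial.induction_on with
  | C a => rw [transl_C, MvPolynomial.pderiv_C, map_zero]
  | add a b ha hb => rw [map_add, map_add, map_add, map_add, ha, hb]
  | mul_X a j ha =>
    rw [map_mul, Derivation.leibniz, Derivation.leibniz, ha, transl_X, map_add,
      MvPolynomial.pderiv_C, add_zero, smul_eq_mul, smul_eq_mul, smul_eq_mul, smul_eq_mul,
      map_add, map_mul, map_mul, transl_X]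
    congr 2
    by_cases hij : i = j
    · subst hij
      rw [MvPolynomial.pderiv_X_self, map_one]
    · rw [MvPolynomial.pderiv_X_of_ne (Ne.symm hij), map_zero]

theorem aeval_transl {σ : Type*} (p : σ → ℂ) (c : σ → PowerSeries ℂ) (q : MvPolynomial σ ℂ) :
    MvPolynomial.aeval (fun i => c i - PowerSeries.C (p i)) (transl p q) =
      MvPolynomial.aeval c q := by
  induction q using MvPolynomial.induction_on with
  | C a => rw [transl_C, MvPolynomial.aeval_C, MvPolynomial.aeval_C]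
  | add a b ha hb => rw [map_add, map_add, map_add, ha, hb]
  | mul_X a i ha =>
    have h1 : (MvPolynomial.aeval fun i => c i - PowerSeries.C (p i))
        (MvPolynomial.C (p i) : MvPolynomial σ ℂ) = PowerSeries.C (p i) :=
      MvPolynomial.aeval_C _ _
    rw [map_mul, map_mul, map_mul, ha, transl_X, map_add, MvPolynomial.aeval_X,
      MvPolynomial.aeval_X, h1, sub_add_cancel]

theorem arc_lemma {σ ι : Type*} [Fintype σ] [Finite ι] (Ψ : ι → MvPolynomial σ ℂ)
    (f : MvPolynomial σ ℂ) (p : σ → ℂ) (hp : ∀ j, MvPolynomial.eval p (Ψ j) = 0)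
    (harc : ∀ u : σ → ℂ,
      (∀ j, ∑ i, MvPolynomial.eval p (MvPolynomial.pderiv i (Ψ j)) * u i = 0) →
      ∃ c : σ → PowerSeries ℂ, (∀ i, PowerSeries.coeff 0 (c i) = p i) ∧
        (∀ i, PowerSeries.coeff 1 (c i) = u i) ∧ MvPolynomial.aeval c f = 0 ∧
        ∀ j, MvPolynomial.aeval c (Ψ j) = 0) :
    ∃ h : MvPolynomial σ ℂ, MvPolynomial.eval p h ≠ 0 ∧
      h * f ∈ Ideal.span (Set.range Ψ) := by
  obtain ⟨h, hh0, hhf⟩ := arc_lemma_zero (fun j => transl p (Ψ j)) (transl p f)
    (fun j => by rw [eval_transl, zero_add, hp j])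
    (by
      intro u hu
      obtain ⟨c, hc0, hc1, hcf, hcΨ⟩ := harc u (fun j => by
        rw [← hu j]
        refine Finset.sum_congr rfl fun i _ => ?_
        rw [pderiv_transl, eval_transl, zero_add])
      refine ⟨fun i => c i - PowerSeries.C (p i), ?_, ?_, ?_, ?_⟩
      · intro i
        rw [map_sub, hc0 i]
        simp
      · intro i
        rw [map_sub, hc1 i, PowerSeries.coeff_C]
        simp
      · rw [aeval_transl, hcf]
      · intro j
        rw [aeval_transl, hcΨ])
  refine ⟨transl (-p) h, ?_, ?_⟩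
  · rw [eval_transl, add_neg_cancel]
    exact hh0
  · have h1 := Ideal.mem_map_of_mem (transl (-p)) hhf
    rw [Ideal.map_span, map_mul, transl_neg_transl, ← Set.range_comp] at h1
    have h2 : (transl (-p)) ∘ (fun j => transl p (Ψ j)) = Ψ := by
      funext j
      exact transl_neg_transl p (Ψ j)
    rwa [h2] at h1

end Vale.Agent.P002
end

section

/-!
# Application of the arc lemma to representations
-/

namespace Vale.Agent.P002R

open Matrix

variable {κ : Type*} {r : ℕ} {S : Type*} [CommRing S]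

section words

/-- The generic matrix of a generator (`b = false`) or of its inverse (`b = true`). -/
noncomputable def gpoly (r : ℕ) (k : κ) (b : Bool) :
    Mat r (MvPolynomial (κ × Bool × Fin r × Fin r) ℂ) :=
  Matrix.of fun i j => MvPolynomial.X (k, b, i, j)

/-- The generic matrix of a word. -/
noncomputable def wpoly (r : ℕ) [DecidableEq κ] (w : FreeGroup κ) :
    Mat r (MvPolynomial (κ × Bool × Fin r × Fin r) ℂ) :=
  (w.toWord.map fun l => gpoly r l.1 (!l.2)).prod

theorem evalP_gpoly [Algebra ℂ S] (X : κ → (Mat r S)ˣ) (k : κ) (b : Bool) :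
    (gpoly r k b).map (evalP X) =
      if b then (((X k)⁻¹ : (Mat r S)ˣ) : Mat r S) else (X k : Mat r S) := by
  ext i j
  rw [Matrix.map_apply, gpoly, Matrix.of_apply, evalP, MvPolynomial.aeval_X]
  cases b <;> simp

theorem evalP_wpoly [DecidableEq κ] [Algebra ℂ S] (X : κ → (Mat r S)ˣ) (w : FreeGroup κ) :
    (wpoly r w).map (evalP X) = (FreeGroup.lift X w : Mat r S) := by
  have h : ∀ L : List (κ × Bool), ((L.map fun l => gpoly r l.1 (!l.2)).prod).map (evalP X) =
      ((FreeGroup.lift X (FreeGroup.mk L) : (Mat r S)ˣ) : Mat r S) := by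
    intro L
    induction L with
    | nil =>
      rw [List.map_nil, List.prod_nil, FreeGroup.lift_mk, List.map_nil, List.prod_nil,
        Units.val_one]
      exact Matrix.map_one _ (map_zero _) (map_one _)
    | cons l L ih =>
      rw [List.map_cons, List.prod_cons, FreeGroup.lift_mk, List.map_cons, List.prod_cons,
        Units.val_mul, Matrix.map_mul, ih, evalP_gpoly, FreeGroup.lift_mk]
      obtain ⟨k, b⟩ := l
      cases b <;> simp
  have h2 := h w.toWord
  rw [FreeGroup.mk_toWord] at h2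
  exact h2

/-- A polynomial in the entries of all words as a polynomial in the entries of the generators
and of their inverses. -/
noncomputable def toP [DecidableEq κ] :
    MvPolynomial (FreeGroup κ × Fin r × Fin r) ℂ →ₐ[ℂ]
      MvPolynomial (κ × Bool × Fin r × Fin r) ℂ :=
  MvPolynomial.aeval fun p => wpoly r p.1 p.2.1 p.2.2

theorem evalP_toP [DecidableEq κ] [Algebra ℂ S] (X : κ → (Mat r S)ˣ)
    (f : MvPolynomial (FreeGroup κ × Fin r × Fin r) ℂ) :
    evalP X (toP f) = evalW (FreeGroup.lift X) f := by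
  have : (evalP X).comp toP = evalW (FreeGroup.lift X) := by
    apply MvPolynomial.algHom_ext
    intro p
    rw [AlgHom.comp_apply, toP, MvPolynomial.aeval_X, evalW, MvPolynomial.aeval_X]
    have := congrFun (congrFun (evalP_wpoly X p.1) p.2.1) p.2.2
    rwa [Matrix.map_apply] at this
  rw [← this]; rfl

theorem lift_of (x : FreeGroup κ →* (Mat r S)ˣ) :
    FreeGroup.lift (fun k => x (FreeGroup.of k)) = x := by
  apply FreeGroup.ext_hom
  intro k
  simp

end words

section der

theorem IsDer.one {x : FreeGroup κ →* (Mat r ℂ)ˣ} {E : FreeGroup κ → Mat r ℂ} (hE : IsDer x E) :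
    E 1 = 0 := by
  have h := hE 1 1
  rw [mul_one, map_one, Units.val_one, Matrix.mul_one, Matrix.one_mul] at h
  exact (add_eq_left.1 h.symm)

theorem IsDer.inv {x : FreeGroup κ →* (Mat r ℂ)ˣ} {E : FreeGroup κ → Mat r ℂ} (hE : IsDer x E)
    (w : FreeGroup κ) : E w⁻¹ = -((((x w)⁻¹ : (Mat r ℂ)ˣ) : Mat r ℂ) * E w *
      (((x w)⁻¹ : (Mat r ℂ)ˣ) : Mat r ℂ)) := by
  have h := hE w⁻¹ w
  rw [inv_mul_cancel, hE.one, map_inv] at h
  have h1 : E w⁻¹ * (x w : Mat r ℂ) = -((((x w)⁻¹ : (Mat r ℂ)ˣ) : Mat r ℂ) * E w) :=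
    eq_neg_of_add_eq_zero_left h.symm
  rw [← Matrix.neg_mul, ← h1, Matrix.mul_assoc, ← Units.val_mul, mul_inv_cancel, Units.val_one,
    Matrix.mul_one]

/-- Two derivations which agree on the generators agree. -/
theorem IsDer.ext {x : FreeGroup κ →* (Mat r ℂ)ˣ} {E E' : FreeGroup κ → Mat r ℂ}
    (hE : IsDer x E) (hE' : IsDer x E') (h : ∀ k, E (FreeGroup.of k) = E' (FreeGroup.of k)) :
    E = E' := by
  funext w
  induction w using FreeGroup.induction_on with
  | C1 => rw [hE.one, hE'.one]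
  | of k => exact h k
  | inv_of k hk => rw [hE.inv, hE'.inv, hk]
  | mul a b ha hb => rw [hE, hE', ha, hb]

/-- Derivation `E` composed with an endomorphism. -/
theorem IsDer.comp {x : FreeGroup κ →* (Mat r ℂ)ˣ} {E : FreeGroup κ → Mat r ℂ} (hE : IsDer x E)
    (φ : FreeGroup κ →* FreeGroup κ) : IsDer (x.comp φ) (fun w => E (φ w)) := by
  intro w w'
  simp only [map_mul, MonoidHom.comp_apply]
  exact hE _ _

theorem IsDer.add {x : FreeGroup κ →* (Mat r ℂ)ˣ} {E E' : FreeGroup κ → Mat r ℂ}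
    (hE : IsDer x E) (hE' : IsDer x E') : IsDer x (fun w => E w + E' w) := by
  intro w w'
  simp only [hE w w', hE' w w', Matrix.add_mul, Matrix.mul_add]
  abel

theorem IsDer.smul {x : FreeGroup κ →* (Mat r ℂ)ˣ} {E : FreeGroup κ → Mat r ℂ}
    (hE : IsDer x E) (c : ℂ) : IsDer x (fun w => c • E w) := by
  intro w w'
  simp only [hE w w', Matrix.smul_mul, Matrix.mul_smul, smul_add]

/-- Linear part of a representation over power series. -/
noncomputable def der1 (x : FreeGroup κ →* (Mat r (PowerSeries ℂ))ˣ) (w : FreeGroup κ) :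
    Mat r ℂ := (x w : Mat r (PowerSeries ℂ)).map (PowerSeries.coeff 1)

/-- Constant part of a representation over power series. -/
noncomputable def rep0 (x : FreeGroup κ →* (Mat r (PowerSeries ℂ))ˣ) :
    FreeGroup κ →* (Mat r ℂ)ˣ := baseChange PowerSeries.constantCoeff x

theorem map_coeff_one_mul (M N : Mat r (PowerSeries ℂ)) :
    (M * N).map (PowerSeries.coeff 1) =
      M.map (PowerSeries.coeff 1) * N.map PowerSeries.constantCoeff +
      M.map PowerSeries.constantCoeff * N.map (PowerSeries.coeff 1) := by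
  ext i j
  simp only [Matrix.map_apply, Matrix.mul_apply, Matrix.add_apply, map_sum,
    PowerSeries.coeff_one_mul, ← Finset.sum_add_distrib]
  refine Finset.sum_congr rfl fun k _ => ?_
  ring

theorem isDer_der1 (x : FreeGroup κ →* (Mat r (PowerSeries ℂ))ˣ) : IsDer (rep0 x) (der1 x) := by
  intro w w'
  rw [der1, map_mul, Units.val_mul, map_coeff_one_mul]
  rfl

end der

/-- `C p + X u` as a matrix of power series. -/
noncomputable def lin1 (P U : Mat r ℂ) : Mat r (PowerSeries ℂ) :=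
  P.map (PowerSeries.C (R := ℂ)) + (PowerSeries.X : PowerSeries ℂ) • U.map (PowerSeries.C (R := ℂ))

theorem lin1_const (P U : Mat r ℂ) : (lin1 P U).map PowerSeries.constantCoeff = P := by
  ext i j
  simp [lin1]

theorem lin1_one (P U : Mat r ℂ) : (lin1 P U).map (PowerSeries.coeff 1) = U := by
  ext i j
  simp [lin1]

theorem isUnit_of_const (M : Mat r (PowerSeries ℂ))
    (h : IsUnit (M.map PowerSeries.constantCoeff)) : IsUnit M := by
  rw [Matrix.isUnit_iff_isUnit_det] at h ⊢
  rw [PowerSeries.isUnit_iff_constantCoeff]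
  have : (M.map PowerSeries.constantCoeff).det = PowerSeries.constantCoeff M.det :=
    (RingHom.map_det _ M).symm
  rwa [this] at h

/-- The coordinates of a tuple of invertible matrices. -/
noncomputable def coo (X : κ → (Mat r S)ˣ) (p : κ × Bool × Fin r × Fin r) : S :=
  if p.2.1 then (((X p.1)⁻¹ : (Mat r S)ˣ) : Mat r S) p.2.2.1 p.2.2.2
    else (X p.1 : Mat r S) p.2.2.1 p.2.2.2

theorem evalP_eq_aeval [Algebra ℂ S] (X : κ → (Mat r S)ˣ) :
    evalP X = MvPolynomial.aeval (coo X) := rfl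

theorem aeval_eq {σ : Type*} (p : σ → ℂ) (h : MvPolynomial σ ℂ) :
    MvPolynomial.aeval p h = MvPolynomial.eval p h := by
  rw [MvPolynomial.aeval_def, Algebra.algebraMap_self]
  rfl

/-- The equations of the representation variety. -/
noncomputable def eqns [DecidableEq κ] {ι : Type*} (W : ι → FreeGroup κ) (M : ι → Mat r ℂ) :
    (κ × Fin r × Fin r) ⊕ (ι × Fin r × Fin r) → MvPolynomial (κ × Bool × Fin r × Fin r) ℂ
  | Sum.inl q => (gpoly r q.1 false * gpoly r q.1 true) q.2.1 q.2.2 -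
      MvPolynomial.C ((1 : Mat r ℂ) q.2.1 q.2.2)
  | Sum.inr q => wpoly r (W q.1) q.2.1 q.2.2 - MvPolynomial.C (M q.1 q.2.1 q.2.2)

theorem evalP_eqns [DecidableEq κ] [Algebra ℂ S] {ι : Type*} (W : ι → FreeGroup κ)
    (M : ι → Mat r ℂ) (X : κ → (Mat r S)ˣ)
    (hX : ∀ i, (FreeGroup.lift X (W i) : Mat r S) = (M i).map (algebraMap ℂ S)) (q) :
    evalP X (eqns W M q) = 0 := by
  rcases q with q | q
  · have h1 : evalP X ((gpoly r q.1 false * gpoly r q.1 true) q.2.1 q.2.2) =
        (1 : Mat r S) q.2.1 q.2.2 := by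
      have h2 : (gpoly r q.1 false * gpoly r q.1 true).map (evalP X) = (1 : Mat r S) := by
        rw [Matrix.map_mul, evalP_gpoly, evalP_gpoly]
        simp only [Bool.false_eq_true, if_false, if_true]
        rw [← Units.val_mul, mul_inv_cancel, Units.val_one]
      rw [← h2, Matrix.map_apply]
    rw [eqns, map_sub, h1, evalP, MvPolynomial.aeval_C]
    by_cases h : q.2.1 = q.2.2
    · rw [h, Matrix.one_apply_eq, Matrix.one_apply_eq, map_one, sub_self]
    · rw [Matrix.one_apply_ne h, Matrix.one_apply_ne h, map_zero, sub_self]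
  · have h1 : evalP X (wpoly r (W q.1) q.2.1 q.2.2) =
        algebraMap ℂ S (M q.1 q.2.1 q.2.2) := by
      have h2 := evalP_wpoly X (W q.1)
      rw [hX] at h2
      have h3 := congrFun (congrFun h2 q.2.1) q.2.2
      rwa [Matrix.map_apply, Matrix.map_apply] at h3
    rw [eqns, map_sub, h1, evalP, MvPolynomial.aeval_C, sub_self]

/-- Application of the arc lemma. -/
theorem arc_application [Fintype κ] [DecidableEq κ] {ι : Type*} [Finite ι]
    (W : ι → FreeGroup κ) (M : ι → Mat r ℂ) (D : Set (FreeGroup κ →* (Mat r ℂ)ˣ))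
    (hD : ∀ y ∈ D, ∀ i, (y (W i) : Mat r ℂ) = M i) (ρ : FreeGroup κ →* (Mat r ℂ)ˣ)
    (hρ : ∀ i, (ρ (W i) : Mat r ℂ) = M i)
    (hreal : ∀ E : FreeGroup κ → Mat r ℂ, IsDer ρ E → (∀ i, E (W i) = 0) →
      ∃ x : FreeGroup κ →* (Mat r (PowerSeries ℂ))ˣ, InZ D x ∧ rep0 x = ρ ∧
        ∀ k, der1 x (FreeGroup.of k) = E (FreeGroup.of k))
    (f : MvPolynomial (FreeGroup κ × Fin r × Fin r) ℂ) (hf : ∀ y ∈ D, evalW y f = 0) :
    ∃ h : MvPolynomial (κ × Bool × Fin r × Fin r) ℂ,
      evalP (fun k => ρ (FreeGroup.of k)) h ≠ 0 ∧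
      ∀ X : κ → (Mat r ℂ)ˣ, (∀ i, (FreeGroup.lift X (W i) : Mat r ℂ) = M i) →
        evalP X h * evalW (FreeGroup.lift X) f = 0 := by
  obtain ⟨P, hP⟩ : ∃ P : κ → (Mat r ℂ)ˣ, P = fun k => ρ (FreeGroup.of k) := ⟨_, rfl⟩
  have hPρ : FreeGroup.lift P = ρ := by rw [hP]; exact lift_of ρ
  have hPk : ∀ k, ρ (FreeGroup.of k) = P k := fun k => by rw [hP]
  -- jets of coordinates
  have h0 : ∀ x : FreeGroup κ →* (Mat r (PowerSeries ℂ))ˣ, rep0 x = ρ →
      ∀ v, PowerSeries.coeff 0 (coo (fun k => x (FreeGroup.of k)) v) = coo P v := by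
    rintro x hx ⟨k, b, i, j⟩
    have h1 : (rep0 x (FreeGroup.of k)) = P k := by rw [hx, hPk]
    cases b
    · have h2 := congrArg (fun U : (Mat r ℂ)ˣ => (U : Mat r ℂ) i j) h1
      simpa [coo, rep0, baseChange_apply] using h2
    · have h2 := congrArg (fun U : (Mat r ℂ)ˣ => ((U⁻¹ : (Mat r ℂ)ˣ) : Mat r ℂ) i j) h1
      simp only [rep0, baseChange_inv_apply] at h2
      simpa [coo] using h2
  have h1 : ∀ x : FreeGroup κ →* (Mat r (PowerSeries ℂ))ˣ, rep0 x = ρ →
      ∀ u : κ × Bool × Fin r × Fin r → ℂ,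
      (∀ k, der1 x (FreeGroup.of k) = Matrix.of fun i j => u (k, false, i, j)) →
      (∀ k, (P k : Mat r ℂ) * (Matrix.of fun i j => u (k, true, i, j)) +
        (Matrix.of fun i j => u (k, false, i, j)) * (((P k)⁻¹ : (Mat r ℂ)ˣ) : Mat r ℂ) = 0) →
      ∀ v, PowerSeries.coeff 1 (coo (fun k => x (FreeGroup.of k)) v) = u v := by
    rintro x hx u hu1 hu2 ⟨k, b, i, j⟩
    cases b
    · have h2 := congrFun (congrFun (hu1 k) i) j
      simpa [coo, der1] using h2
    · have h3 : der1 x (FreeGroup.of k)⁻¹ = Matrix.of fun i j => u (k, true, i, j) := by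
        have h4 : IsDer ρ (der1 x) := by rw [← hx]; exact isDer_der1 x
        rw [h4.inv, hu1, hPk]
        have h5 := hu2 k
        have h6 : (P k : Mat r ℂ) * (Matrix.of fun i j => u (k, true, i, j)) =
            -((Matrix.of fun i j => u (k, false, i, j)) *
              (((P k)⁻¹ : (Mat r ℂ)ˣ) : Mat r ℂ)) := eq_neg_of_add_eq_zero_left h5
        have h7 : (Matrix.of fun i j => u (k, true, i, j)) =
            (((P k)⁻¹ : (Mat r ℂ)ˣ) : Mat r ℂ) * ((P k : Mat r ℂ) *
              (Matrix.of fun i j => u (k, true, i, j))) := by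
          rw [← Matrix.mul_assoc, ← Units.val_mul, inv_mul_cancel, Units.val_one, Matrix.one_mul]
        rw [h7, h6, Matrix.mul_neg, Matrix.mul_assoc]
      have h8 := congrFun (congrFun h3 i) j
      rw [der1, map_inv, Matrix.map_apply, Matrix.of_apply] at h8
      simpa [coo] using h8
  have hpz : ∀ q, MvPolynomial.eval (coo P) (eqns W M q) = 0 := by
    intro q
    have := evalP_eqns W M P (fun i => by rw [hPρ, hρ]; ext i j; simp) q
    rwa [evalP_eq_aeval, aeval_eq] at this
  have harc : ∀ u : κ × Bool × Fin r × Fin r → ℂ,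
      (∀ q, ∑ v, MvPolynomial.eval (coo P) (MvPolynomial.pderiv v (eqns W M q)) * u v = 0) →
      ∃ c : κ × Bool × Fin r × Fin r → PowerSeries ℂ,
        (∀ v, PowerSeries.coeff 0 (c v) = coo P v) ∧ (∀ v, PowerSeries.coeff 1 (c v) = u v) ∧
        MvPolynomial.aeval c (toP f) = 0 ∧ ∀ q, MvPolynomial.aeval c (eqns W M q) = 0 := by
    intro u hu
    -- tangent vectors
    have hlin : ∀ q, PowerSeries.coeff 1 (MvPolynomial.aeval
        (fun v => (PowerSeries.C (R := ℂ) (coo P v) + PowerSeries.X * PowerSeries.C (R := ℂ) (u v)))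
          (eqns W M q)) = 0 := by
      intro q
      rw [P002.coeff_one_aeval]
      rw [← hu q]
      refine Finset.sum_congr rfl fun v _ => ?_
      have e0 : (fun i => PowerSeries.coeff 0 (PowerSeries.C (R := ℂ) (coo P i) +
          PowerSeries.X * PowerSeries.C (R := ℂ) (u i))) = coo P := by
        funext i; simp
      have e1 : PowerSeries.coeff 1 (PowerSeries.C (R := ℂ) (coo P v) +
          PowerSeries.X * PowerSeries.C (R := ℂ) (u v)) = u v := by
        simp
      rw [e0, e1]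
    have htan : ∀ k, (P k : Mat r ℂ) * (Matrix.of fun i j => u (k, true, i, j)) +
        (Matrix.of fun i j => u (k, false, i, j)) * (((P k)⁻¹ : (Mat r ℂ)ˣ) : Mat r ℂ) = 0 := by
      intro k
      have g1 : ∀ b, (gpoly r k b).map (MvPolynomial.aeval
          (fun v => (PowerSeries.C (R := ℂ) (coo P v) +
            PowerSeries.X * PowerSeries.C (R := ℂ) (u v)))) =
          lin1 (if b then (((P k)⁻¹ : (Mat r ℂ)ˣ) : Mat r ℂ) else (P k : Mat r ℂ))
            (Matrix.of fun i j => u (k, b, i, j)) := by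
        intro b
        ext1 i j
        rw [Matrix.map_apply, gpoly, Matrix.of_apply, MvPolynomial.aeval_X]
        cases b <;> simp [lin1, coo]
      have g2 := map_coeff_one_mul
        (lin1 (P k : Mat r ℂ) (Matrix.of fun i j => u (k, false, i, j)))
        (lin1 (((P k)⁻¹ : (Mat r ℂ)ˣ) : Mat r ℂ) (Matrix.of fun i j => u (k, true, i, j)))
      rw [lin1_one, lin1_one, lin1_const, lin1_const] at g2
      rw [add_comm, ← g2]
      ext i j
      have g3 := hlin (Sum.inl (k, i, j))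
      rw [eqns, map_sub, map_sub, MvPolynomial.aeval_C] at g3
      have g4 : MvPolynomial.aeval (fun v => (PowerSeries.C (R := ℂ) (coo P v) +
            PowerSeries.X * PowerSeries.C (R := ℂ) (u v)))
            ((gpoly r k false * gpoly r k true) i j) =
          (lin1 (P k : Mat r ℂ) (Matrix.of fun i j => u (k, false, i, j)) *
        lin1 (((P k)⁻¹ : (Mat r ℂ)ˣ) : Mat r ℂ) (Matrix.of fun i j => u (k, true, i, j))) i j := by
        have g5 := congrFun (congrFun (Matrix.map_mul (f := (MvPolynomial.aeval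
          (fun v => (PowerSeries.C (R := ℂ) (coo P v) +
            PowerSeries.X * PowerSeries.C (R := ℂ) (u v))) :
            MvPolynomial (κ × Bool × Fin r × Fin r) ℂ →ₐ[ℂ] PowerSeries ℂ))
            (L := gpoly r k false) (M := gpoly r k true)) i) j
        rw [g1, g1] at g5
        simp only [Bool.false_eq_true, if_false, if_true] at g5
        rw [← g5, Matrix.map_apply]
      rw [g4] at g3
      rw [Matrix.map_apply, Matrix.zero_apply]
      rw [← g3]
      have g6 : PowerSeries.coeff 1 (algebraMap ℂ (PowerSeries ℂ) ((1 : Mat r ℂ) i j)) = 0 := by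
        rw [← PowerSeries.C_eq_algebraMap, PowerSeries.coeff_C]
        simp
      rw [g6, sub_zero]
    -- the linear family
    have hY : ∀ k, ∃ y : (Mat r (PowerSeries ℂ))ˣ, (y : Mat r (PowerSeries ℂ)) =
        lin1 (P k : Mat r ℂ) (Matrix.of fun i j => u (k, false, i, j)) := by
      intro k
      have : IsUnit (lin1 (P k : Mat r ℂ) (Matrix.of fun i j => u (k, false, i, j))) := by
        apply isUnit_of_const
        rw [lin1_const]
        exact (P k).isUnit
      exact this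
    choose Y hY using hY
    have hY0 : rep0 (FreeGroup.lift Y) = ρ := by
      rw [← hPρ]
      apply FreeGroup.ext_hom
      intro k
      ext1
      rw [rep0, baseChange_apply, FreeGroup.lift_apply_of, FreeGroup.lift_apply_of, hY,
        lin1_const]
    have hY1 : ∀ k, der1 (FreeGroup.lift Y) (FreeGroup.of k) =
        Matrix.of fun i j => u (k, false, i, j) := by
      intro k
      rw [der1, FreeGroup.lift_apply_of, hY, lin1_one]
    have hYv := h1 _ hY0 u hY1 htan
    have hY0v := h0 _ hY0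
    have hE : IsDer ρ (der1 (FreeGroup.lift Y)) := by rw [← hY0]; exact isDer_der1 _
    have hEW : ∀ a, der1 (FreeGroup.lift Y) (W a) = 0 := by
      intro a
      ext i j
      have g3 := hu (Sum.inr (a, i, j))
      have g4 : PowerSeries.coeff 1 (evalP (fun k => (FreeGroup.lift Y) (FreeGroup.of k))
          (eqns W M (Sum.inr (a, i, j)))) = 0 := by
        rw [evalP_eq_aeval, P002.coeff_one_aeval, ← g3]
        refine Finset.sum_congr rfl fun v _ => ?_
        rw [hYv, funext hY0v]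
      rw [eqns, map_sub, map_sub] at g4
      have g5 := congrFun (congrFun (evalP_wpoly (fun k => (FreeGroup.lift Y) (FreeGroup.of k))
        (W a)) i) j
      rw [Matrix.map_apply, lift_of] at g5
      rw [g5, evalP, MvPolynomial.aeval_C, ← PowerSeries.C_eq_algebraMap, PowerSeries.coeff_C]
        at g4
      simpa [der1] using g4
    obtain ⟨x, hx1, hx2, hx3⟩ := hreal _ hE hEW
    refine ⟨coo fun k => x (FreeGroup.of k), h0 x hx2, h1 x hx2 u (fun k => ?_) htan, ?_, ?_⟩
    · rw [hx3, hY1]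
    · rw [← evalP_eq_aeval, evalP_toP, lift_of]
      exact hx1 f hf
    · intro q
      rw [← evalP_eq_aeval]
      apply evalP_eqns
      intro i
      rw [lift_of]
      exact hx1.word_eq (W i) (M i) fun y hy => hD y hy i
  obtain ⟨h, hh1, hh2⟩ := P002.arc_lemma (eqns W M) (toP f) (coo P) hpz harc
  refine ⟨h, ?_, fun X hX => ?_⟩
  · rw [← hP, evalP_eq_aeval, aeval_eq]
    exact hh1
  · rw [← evalP_toP, ← map_mul]
    have hker : Ideal.span (Set.range (eqns W M)) ≤ RingHom.ker (evalP X : _ →ₐ[ℂ] ℂ) := by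
      rw [Ideal.span_le]
      rintro _ ⟨q, rfl⟩
      rw [SetLike.mem_coe, RingHom.mem_ker]
      exact evalP_eqns W M X (fun i => by rw [hX]; ext i j; simp) q
    exact (RingHom.mem_ker).1 (hker hh2)

end Vale.Agent.P002R
end

section

/-!
# Composites of slides
-/

namespace Vale.Agent.P002R

open Matrix

variable {g m n r : ℕ}

theorem gC_def (j : Fin n) : (gC j : FF g n) = gD j * gE j * (gD j)⁻¹ := rfl

theorem Adm.map_Fc {τ : FF g n ≃* FF g n} (h : Adm τ) {w : FF g n} (hw : w ∈ Fc g n) :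
    τ w ∈ Fc g n := by
  have : (Fc g n) ≤ (Fc g n).comap τ.toMonoidHom := by
    rw [Fc, Subgroup.closure_le]
    rintro w (⟨k, rfl⟩ | ⟨j, rfl⟩)
    · exact h.hab k
    · obtain ⟨u, hu, hu'⟩ := h.hd j
      rw [SetLike.mem_coe, Subgroup.mem_comap]
      have h1 : τ.toMonoidHom (gC j) = u * gC j * u⁻¹ := by
        change τ (gC j) = _
        rw [gC_def, map_mul, map_mul, map_inv, h.he, hu']
        group
      rw [h1]
      exact mul_mem (mul_mem hu (Subgroup.subset_closure (Or.inr ⟨j, rfl⟩))) (inv_mem hu)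
  exact this hw

theorem Adm.refl : Adm (MulEquiv.refl (FF g n)) where
  rel := rfl
  he _ := rfl
  hd _ := ⟨1, one_mem _, by simp⟩
  hab k := Subgroup.subset_closure (Or.inl ⟨k, rfl⟩)

theorem Adm.trans {τ τ' : FF g n ≃* FF g n} (h : Adm τ) (h' : Adm τ') : Adm (τ.trans τ') where
  rel := by rw [MulEquiv.trans_apply, h.rel, h'.rel]
  he j := by rw [MulEquiv.trans_apply, h.he, h'.he]
  hd j := by
    obtain ⟨u, hu, hu'⟩ := h.hd j
    obtain ⟨v, hv, hv'⟩ := h'.hd j
    refine ⟨τ' u * v, mul_mem (h'.map_Fc hu) hv, ?_⟩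
    rw [MulEquiv.trans_apply, hu', map_mul, hv', mul_assoc]
  hab k := by
    rw [MulEquiv.trans_apply]
    exact h'.map_Fc (h.hab k)

/-- `σ` is a slide of the last handle around the loop `q`. -/
def IsSlide (q : Loop m n) (σ : FF (m + 1) n ≃* FF (m + 1) n) : Prop :=
  Adm σ ∧ Adm σ.symm ∧ σ (gB (Fin.last m)) = gB (Fin.last m) ∧
      (∀ {G : Type} [Group G] (x : FF (m + 1) n →* G), x (gB (Fin.last m)) = 1 →
        x (σ (gA (Fin.last m))) = x (loopW q) * x (gA (Fin.last m)) ∧
          ∀ k, k ≠ Sum.inl (Fin.last m, false) →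
            x (σ (FreeGroup.of k)) = x (FreeGroup.of k)) ∧
      (∀ (r : ℕ) (x : FF (m + 1) n →* (Mat r ℂ)ˣ), x (gB (Fin.last m)) = 1 →
        ∀ E : FF (m + 1) n → Mat r ℂ, IsDer x E → ∀ k, k ≠ Sum.inl (Fin.last m, false) →
          E (σ.symm (FreeGroup.of k)) = E (FreeGroup.of k) +
            Lam x q ((x (gA (Fin.last m)) : Mat r ℂ) * E (gB (Fin.last m)) *
              (((x (gA (Fin.last m)))⁻¹ : (Mat r ℂ)ˣ) : Mat r ℂ)) k)

variable (σ : Loop m n → FF (m + 1) n ≃* FF (m + 1) n)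

/-- Composite of slides. -/
def slp : List (Loop m n) → FF (m + 1) n ≃* FF (m + 1) n
  | [] => MulEquiv.refl _
  | q :: p => (σ q).trans (slp p)

theorem slp_nil : slp σ [] = MulEquiv.refl _ := rfl

theorem slp_cons (q : Loop m n) (p : List (Loop m n)) (w : FF (m + 1) n) :
    slp σ (q :: p) w = slp σ p (σ q w) := rfl

theorem slp_cons_symm (q : Loop m n) (p : List (Loop m n)) (w : FF (m + 1) n) :
    (slp σ (q :: p)).symm w = (σ q).symm ((slp σ p).symm w) := rfl

variable {σ} (hσ : ∀ q, IsSlide q (σ q))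

include hσ

theorem slp_adm (p : List (Loop m n)) : Adm (slp σ p) := by
  induction p with
  | nil => exact Adm.refl
  | cons q p ih => exact (hσ q).1.trans ih

theorem slp_symm_adm (p : List (Loop m n)) : Adm (slp σ p).symm := by
  induction p with
  | nil => exact Adm.refl
  | cons q p ih => exact ih.trans (hσ q).2.1

theorem slp_gB (p : List (Loop m n)) : slp σ p (gB (Fin.last m)) = gB (Fin.last m) := by
  induction p with
  | nil => rfl
  | cons q p ih => rw [slp_cons, (hσ q).2.2.1, ih]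

theorem slp_of {G : Type} [Group G] (x : FF (m + 1) n →* G) (hx : x (gB (Fin.last m)) = 1)
    (p : List (Loop m n)) (k : Gen (m + 1) n) (hk : k ≠ Sum.inl (Fin.last m, false)) :
    x (slp σ p (FreeGroup.of k)) = x (FreeGroup.of k) := by
  induction p with
  | nil => rfl
  | cons q p ih =>
    rw [slp_cons]
    have hy : (x.comp (slp σ p).toMonoidHom) (gB (Fin.last m)) = 1 := by
      change x (slp σ p (gB (Fin.last m))) = 1
      rw [slp_gB hσ, hx]
    have := ((hσ q).2.2.2.1 (x.comp (slp σ p).toMonoidHom) hy).2 k hk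
    change x (slp σ p (σ q (FreeGroup.of k))) = x (slp σ p (FreeGroup.of k)) at this
    rw [this, ih]

omit hσ in
/-- The subgroup generated by all generators except `a_m`. -/
def Fprime (m n : ℕ) : Subgroup (FF (m + 1) n) :=
  Subgroup.closure {w | ∃ k : Gen (m + 1) n, k ≠ Sum.inl (Fin.last m, false) ∧
    w = FreeGroup.of k}

omit hσ in
theorem of_mem_Fprime {k : Gen (m + 1) n} (hk : k ≠ Sum.inl (Fin.last m, false)) :
    FreeGroup.of k ∈ Fprime m n := Subgroup.subset_closure ⟨k, hk, rfl⟩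

omit hσ in
theorem gB_mem (i : Fin (m + 1)) : (gB i : FF (m + 1) n) ∈ Fprime m n :=
  of_mem_Fprime (by simp)

omit hσ in
theorem gA_mem (i : Fin m) : (gA i.castSucc : FF (m + 1) n) ∈ Fprime m n :=
  of_mem_Fprime (by simp [(Fin.castSucc_lt_last i).ne])

omit hσ in
theorem gC_mem (j : Fin n) : (gC j : FF (m + 1) n) ∈ Fprime m n := by
  rw [gC_def]
  exact mul_mem (mul_mem (of_mem_Fprime (by simp)) (of_mem_Fprime (by simp)))
    (inv_mem (of_mem_Fprime (by simp)))

omit hσ in
theorem bw_mem (b : Fin n ⊕ Fin m) : bw b ∈ Fprime m n := by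
  rcases b with j | i
  · exact gC_mem j
  · exact mul_mem (mul_mem (mul_mem (gA_mem i) (gB_mem _)) (inv_mem (gA_mem i)))
      (inv_mem (gB_mem _))

omit hσ in
theorem aftL_mem (b : Fin n ⊕ Fin m) (l : List (Fin n ⊕ Fin m)) : aftL b l ∈ Fprime m n := by
  induction l with
  | nil => exact one_mem _
  | cons b' l ih =>
    rw [aftL]
    split_ifs
    · apply Subgroup.list_prod_mem
      intro w hw
      rw [List.mem_map] at hw
      obtain ⟨c, _, rfl⟩ := hw
      exact bw_mem c
    · exact ih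

omit hσ in
theorem kap_mem (q : Loop m n) : kap q ∈ Fprime m n := aftL_mem _ _

omit hσ in
theorem loopW_mem (q : Loop m n) : loopW q ∈ Fprime m n := by
  refine mul_mem (mul_mem (inv_mem (kap_mem q)) ?_) (kap_mem q)
  rcases q with j | ⟨i, b⟩
  · exact gC_mem j
  · cases b
    · exact mul_mem (mul_mem (gB_mem _) (inv_mem (gA_mem i))) (inv_mem (gB_mem _))
    · exact inv_mem (gB_mem _)

omit hσ in
/-- Homomorphisms which agree on the generators except `a_m` agree on `Fprime`. -/
theorem eq_on_Fprime {G : Type} [Group G] (x y : FF (m + 1) n →* G)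
    (h : ∀ k : Gen (m + 1) n, k ≠ Sum.inl (Fin.last m, false) →
      x (FreeGroup.of k) = y (FreeGroup.of k)) {w : FF (m + 1) n} (hw : w ∈ Fprime m n) :
    x w = y w := by
  have : Fprime m n ≤ x.eqLocus y := by
    rw [Fprime, Subgroup.closure_le]
    rintro w ⟨k, hk, rfl⟩
    exact h k hk
  exact this hw

theorem slp_mem {G : Type} [Group G] (x : FF (m + 1) n →* G) (hx : x (gB (Fin.last m)) = 1)
    (p : List (Loop m n)) {w : FF (m + 1) n} (hw : w ∈ Fprime m n) :
    x (slp σ p w) = x w :=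
  eq_on_Fprime (x.comp (slp σ p).toMonoidHom) x (fun k hk => slp_of hσ x hx p k hk) hw

omit hσ in
/-- Product of loops. -/
def wordL : List (Loop m n) → FF (m + 1) n
  | [] => 1
  | q :: p => loopW q * wordL p

omit hσ in
theorem wordL_mem (p : List (Loop m n)) : wordL p ∈ Fprime m n := by
  induction p with
  | nil => exact one_mem _
  | cons q p ih => exact mul_mem (loopW_mem q) ih

theorem slp_gA {G : Type} [Group G] (x : FF (m + 1) n →* G) (hx : x (gB (Fin.last m)) = 1)
    (p : List (Loop m n)) :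
    x (slp σ p (gA (Fin.last m))) = x (wordL p) * x (gA (Fin.last m)) := by
  induction p with
  | nil => simp [slp_nil, wordL]
  | cons q p ih =>
    have hy : (x.comp (slp σ p).toMonoidHom) (gB (Fin.last m)) = 1 := by
      change x (slp σ p (gB (Fin.last m))) = 1
      rw [slp_gB hσ, hx]
    have h1 := ((hσ q).2.2.2.1 (x.comp (slp σ p).toMonoidHom) hy).1
    change x (slp σ p (σ q (gA (Fin.last m)))) =
      x (slp σ p (loopW q)) * x (slp σ p (gA (Fin.last m))) at h1
    rw [slp_cons, h1, ih, slp_mem hσ x hx p (loopW_mem q), wordL, map_mul, mul_assoc]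

omit hσ in
theorem wP_wordL (x : FF (m + 1) n →* (Mat r ℂ)ˣ) (p : List (Loop m n)) :
    wP (fun q => x (loopW q)) p = x (wordL p) := by
  induction p with
  | nil => simp [wP, wordL]
  | cons q p ih => rw [wP, wordL, map_mul, ih]

omit hσ in
/-- The effect of a composite of slides on derivations. -/
noncomputable def Del (x : FF (m + 1) n →* (Mat r ℂ)ˣ) (Z : Mat r ℂ) (k : Gen (m + 1) n) :
    List (Loop m n) → Mat r ℂ
  | [] => 0
  | q :: p => Lam x q ((x (wordL (q :: p) * gA (Fin.last m)) : Mat r ℂ) * Z *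
      (((x (wordL (q :: p) * gA (Fin.last m)))⁻¹ : (Mat r ℂ)ˣ) : Mat r ℂ)) k + Del x Z k p

omit hσ in
theorem Lam_congr (x y : FF (m + 1) n →* (Mat r ℂ)ˣ)
    (h : ∀ k : Gen (m + 1) n, k ≠ Sum.inl (Fin.last m, false) →
      x (FreeGroup.of k) = y (FreeGroup.of k)) (q : Loop m n) (ε : Mat r ℂ)
    (k : Gen (m + 1) n) : Lam x q ε k = Lam y q ε k := by
  have h1 := eq_on_Fprime x y h (kap_mem q)
  have h2 : ∀ j, x (gD j) = y (gD j) := fun j => h _ (by simp)
  have h3 : ∀ i : Fin m, x (gB i.castSucc) = y (gB i.castSucc) := fun i => h _ (by simp)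
  have h4 : ∀ i : Fin m, x (gA i.castSucc) = y (gA i.castSucc) :=
    fun i => h _ (by simp [(Fin.castSucc_lt_last i).ne])
  unfold Lam
  rw [h1]
  rcases q with j | ⟨i, b⟩
  · simp only [h2]
  · cases b
    · simp only [h3]
    · simp only [h3, h4]

theorem der_slp (x : FF (m + 1) n →* (Mat r ℂ)ˣ) (hx : x (gB (Fin.last m)) = 1)
    (p : List (Loop m n)) (E : FF (m + 1) n → Mat r ℂ)
    (hE : IsDer (x.comp (slp σ p).toMonoidHom) E) (k : Gen (m + 1) n)
    (hk : k ≠ Sum.inl (Fin.last m, false)) :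
    E ((slp σ p).symm (FreeGroup.of k)) =
      E (FreeGroup.of k) + Del x (E (gB (Fin.last m))) k p := by
  induction p generalizing E with
  | nil =>
    rw [Del, add_zero]
    rfl
  | cons q p ih =>
    rw [slp_cons_symm]
    have hy : (x.comp (slp σ (q :: p)).toMonoidHom) (gB (Fin.last m)) = 1 := by
      change x (slp σ (q :: p) (gB (Fin.last m))) = 1
      rw [slp_gB hσ, hx]
    have hE' : IsDer (x.comp (slp σ p).toMonoidHom) (fun w => E ((σ q).symm w)) := by
      have h1 := hE.comp (σ q).symm.toMonoidHom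
      have h2 : (x.comp (slp σ (q :: p)).toMonoidHom).comp (σ q).symm.toMonoidHom =
          x.comp (slp σ p).toMonoidHom := by
        ext1 k
        change x (slp σ p (σ q ((σ q).symm (FreeGroup.of k)))) = x (slp σ p (FreeGroup.of k))
        rw [MulEquiv.apply_symm_apply]
      rw [h2] at h1
      exact h1
    have h3 := ih _ hE'
    have h4 : (σ q).symm (gB (Fin.last m)) = gB (Fin.last m) := by
      rw [MulEquiv.symm_apply_eq, (hσ q).2.2.1]
    have h5 := (hσ q).2.2.2.2 r (x.comp (slp σ (q :: p)).toMonoidHom) hy E hE k hk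
    have h6 : (x.comp (slp σ (q :: p)).toMonoidHom) (gA (Fin.last m)) =
        x (wordL (q :: p) * gA (Fin.last m)) := by
      rw [map_mul]
      exact slp_gA hσ x hx (q :: p)
    rw [h6, Lam_congr (x.comp (slp σ (q :: p)).toMonoidHom) x
      (fun k hk => slp_of hσ x hx (q :: p) k hk)] at h5
    rw [h3, h4, h5, Del, add_assoc]

end Vale.Agent.P002R
end

section

/-!
# P002R TASK H: the base representations lie in the Zariski closure
-/

namespace Vale.Agent.P002R

open Matrix

variable {m n r : ℕ}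

section reps

variable {S T : Type*} [CommRing S] [Algebra ℂ S] [CommRing T] [Algebra ℂ T]

theorem baseRep_inl (ρ : FF (m + 1) n →* (Mat r ℂ)ˣ) (B : (Mat r S)ˣ) (k : Fin n → (Mat r S)ˣ)
    (i : Fin (m + 1) × Bool) :
    baseRep ρ B k (FreeGroup.of (Sum.inl i)) = if i = (Fin.last m, false) then B
        else baseChange (algebraMap ℂ S) ρ (FreeGroup.of (Sum.inl i)) := by
  rw [baseRep, FreeGroup.lift_apply_of]

theorem baseRep_gD (ρ : FF (m + 1) n →* (Mat r ℂ)ˣ) (B : (Mat r S)ˣ) (k : Fin n → (Mat r S)ˣ)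
    (j : Fin n) : baseRep ρ B k (gD j) = k j := by
  rw [baseRep, gD, FreeGroup.lift_apply_of]

theorem baseRep_gE (ρ : FF (m + 1) n →* (Mat r ℂ)ˣ) (B : (Mat r S)ˣ) (k : Fin n → (Mat r S)ˣ)
    (j : Fin n) : baseRep ρ B k (gE j) = baseChange (algebraMap ℂ S) ρ (gE j) := by
  rw [baseRep, gE, FreeGroup.lift_apply_of]

theorem baseChange_baseRep (θ : S →ₐ[ℂ] T) (ρ : FF (m + 1) n →* (Mat r ℂ)ˣ) (B : (Mat r S)ˣ)
    (k : Fin n → (Mat r S)ˣ) (B' : (Mat r T)ˣ) (k' : Fin n → (Mat r T)ˣ)
    (hB : (B' : Mat r T) = (B : Mat r S).map θ)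
    (hk : ∀ j, (k' j : Mat r T) = (k j : Mat r S).map θ) :
    baseChange (θ : S →+* T) (baseRep ρ B k) = baseRep ρ B' k' := by
  have hcc : ∀ w, baseChange (θ : S →+* T) (baseChange (algebraMap ℂ S) ρ) w =
      baseChange (algebraMap ℂ T) ρ w := by
    intro w
    ext a b
    rw [baseChange_apply, baseChange_apply, baseChange_apply, Matrix.map_apply, Matrix.map_apply,
      Matrix.map_apply]
    exact θ.commutes _
  refine FreeGroup.ext_hom _ _ fun l => ?_
  have h0 : ∀ w, baseChange (θ : S →+* T) (baseRep ρ B k) w =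
      Units.map (RingHom.mapMatrix (θ : S →+* T)).toMonoidHom (baseRep ρ B k w) := fun w => rfl
  rcases l with i | ⟨j, b⟩
  · rw [h0, baseRep_inl, baseRep_inl]
    split_ifs with h
    · ext1
      exact hB.symm
    · exact hcc _
  · cases b
    · have h1 := baseRep_gD ρ B k j
      have h2 := baseRep_gD ρ B' k' j
      rw [gD] at h1 h2
      rw [h0, h1, h2]
      ext1
      exact (hk j).symm
    · have h1 := baseRep_gE ρ B k j
      have h2 := baseRep_gE ρ B' k' j
      rw [gE] at h1 h2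
      rw [h0, h1, h2]
      exact hcc _

end reps

/-- Variables: entries of the matrix, and the parameters of the framings. -/
abbrev VarH (n r : ℕ) := (Fin r × Fin r) ⊕ Fin n

/-- The generic matrix. -/
noncomputable def hM (n r : ℕ) : Mat r (MvPolynomial (VarH n r) ℂ) :=
  Matrix.of fun a b => MvPolynomial.X (Sum.inl (a, b))

/-- The generic framings. -/
noncomputable def hK (κ : Fin n → Mat r ℂ) (j : Fin n) : Mat r (MvPolynomial (VarH n r) ℂ) :=
  1 + (MvPolynomial.X (Sum.inr j) : MvPolynomial (VarH n r) ℂ) •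
    (κ j).map (algebraMap ℂ (MvPolynomial (VarH n r) ℂ))

/-- The product of the determinants. -/
noncomputable def hdel (κ : Fin n → Mat r ℂ) : MvPolynomial (VarH n r) ℂ :=
  (hM n r).det * ∏ j, (hK κ j).det

/-- The universal ring. -/
abbrev HU (κ : Fin n → Mat r ℂ) : Type := Localization.Away (hdel κ)

theorem hM_isUnit (κ : Fin n → Mat r ℂ) :
    IsUnit ((hM n r).map (algebraMap (MvPolynomial (VarH n r) ℂ) (HU κ))) := by
  rw [Matrix.isUnit_iff_isUnit_det]
  have h1 : ((hM n r).map (algebraMap (MvPolynomial (VarH n r) ℂ) (HU κ))).det =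
      algebraMap _ (HU κ) (hM n r).det := by
    rw [RingHom.map_det]
    rfl
  rw [h1]
  exact IsLocalization.Away.isUnit_of_dvd (hdel κ) (dvd_mul_right _ _)

theorem hK_isUnit (κ : Fin n → Mat r ℂ) (j : Fin n) :
    IsUnit ((hK κ j).map (algebraMap (MvPolynomial (VarH n r) ℂ) (HU κ))) := by
  rw [Matrix.isUnit_iff_isUnit_det]
  have h1 : ((hK κ j).map (algebraMap (MvPolynomial (VarH n r) ℂ) (HU κ))).det =
      algebraMap _ (HU κ) (hK κ j).det := by
    rw [RingHom.map_det]
    rfl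
  rw [h1]
  refine IsLocalization.Away.isUnit_of_dvd (hdel κ) (Dvd.dvd.mul_left ?_ _)
  exact Finset.dvd_prod_of_mem _ (Finset.mem_univ j)

/-- The universal matrix. -/
noncomputable def hMu (κ : Fin n → Mat r ℂ) : (Mat r (HU κ))ˣ := (hM_isUnit κ).unit

/-- The universal framings. -/
noncomputable def hKu (κ : Fin n → Mat r ℂ) (j : Fin n) : (Mat r (HU κ))ˣ := (hK_isUnit κ j).unit

theorem h_univ (κ : Fin n → Mat r ℂ) {T : Type*} [CommRing T] [Algebra ℂ T] (B : (Mat r T)ˣ)
    (t : Fin n → T) (k : Fin n → (Mat r T)ˣ)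
    (hk : ∀ j, (k j : Mat r T) = 1 + t j • (κ j).map (algebraMap ℂ T))
    (ρ : FF (m + 1) n →* (Mat r ℂ)ˣ) :
    ∃ ψ : HU κ →ₐ[ℂ] T,
      (∀ p : MvPolynomial (VarH n r) ℂ, ψ (algebraMap _ (HU κ) p) =
        MvPolynomial.aeval (Sum.elim (fun q : Fin r × Fin r => (B : Mat r T) q.1 q.2) t) p) ∧
      ∀ f, evalW (baseRep ρ B k) f = ψ (evalW (baseRep ρ (hMu κ) (hKu κ)) f) := by
  obtain ⟨ev, hev⟩ : ∃ ev : MvPolynomial (VarH n r) ℂ →ₐ[ℂ] T, ev =
      MvPolynomial.aeval (Sum.elim (fun q : Fin r × Fin r => (B : Mat r T) q.1 q.2) t) := ⟨_, rfl⟩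
  have hevM : (hM n r).map ev = (B : Mat r T) := by
    ext a b
    simp [hM, hev]
  have hevK : ∀ j, (hK κ j).map ev = (k j : Mat r T) := by
    intro j
    rw [hk]
    ext a b
    simp only [hK, Matrix.map_apply, Matrix.add_apply, Matrix.smul_apply, smul_eq_mul, map_add,
      map_mul, AlgHom.commutes]
    congr 1
    · rw [Matrix.one_apply, Matrix.one_apply]
      split <;> simp
    · rw [hev, MvPolynomial.aeval_X, Sum.elim_inr]
  have hu : IsUnit (ev (hdel κ)) := by
    unfold hdel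
    rw [map_mul, map_prod]
    have h1 : ev (hM n r).det = (B : Mat r T).det := by
      rw [← hevM, AlgHom.map_det]
      rfl
    have h2 : ∀ j, ev (hK κ j).det = (k j : Mat r T).det := by
      intro j
      rw [← hevK, AlgHom.map_det]
      rfl
    rw [h1]
    refine IsUnit.mul ((Matrix.isUnit_iff_isUnit_det _).mp B.isUnit) ?_
    rw [IsUnit.prod_iff]
    intro j _
    rw [h2]
    exact (Matrix.isUnit_iff_isUnit_det _).mp (k j).isUnit
  have hlift : ∀ p : MvPolynomial (VarH n r) ℂ,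
      IsLocalization.Away.liftAlgHom (hdel κ) hu (algebraMap _ (HU κ) p) = ev p := by
    intro p
    rw [IsLocalization.Away.liftAlgHom_apply, IsLocalization.Away.lift_eq]
    rfl
  refine ⟨IsLocalization.Away.liftAlgHom (hdel κ) hu, fun p => ?_, fun f => ?_⟩
  · rw [hlift, hev]
  · rw [← evalW_baseChange]
    congr 2
    symm
    apply baseChange_baseRep
    · rw [← hevM]
      ext a b
      rw [Matrix.map_apply, Matrix.map_apply, ← hlift]
      rfl
    · intro j
      rw [← hevK]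
      ext a b
      rw [Matrix.map_apply, Matrix.map_apply, ← hlift]
      rfl

end Vale.Agent.P002R
end

section

/-!
# P002R: integral representations that are irreducible on the surface group
-/

namespace Vale.Agent.P002R

open Matrix

variable {m n r : ℕ}

/-- Integral (up to scalars) framed representations whose restriction to the surface group is
absolutely irreducible. -/
def DTop {R : Type*} [CommRing R] (φ : R →+* ℂ) (J : Fin n → (Mat r ℂ)ˣ) :
    Set (FF (m + 1) n →* (Mat r ℂ)ˣ) :=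
  {x | x ∈ DFr φ J ∧
    Algebra.adjoin ℂ {M : Mat r ℂ | ∃ w ∈ Fc (m + 1) n, M = (x w : Mat r ℂ)} = ⊤}

theorem mem_GR_of_Fc {g : ℕ} {R : Type*} [CommRing R] {φ : R →+* ℂ} {J : Fin n → (Mat r ℂ)ˣ}
    {x : FF g n →* (Mat r ℂ)ˣ} (hx : x ∈ DFr φ J) {w : FF g n} (hw : w ∈ Fc g n) :
    x w ∈ GR r φ := by
  have h : Fc g n ≤ (GR r φ).comap x := by
    rw [Fc, Subgroup.closure_le]
    rintro w (⟨k, rfl⟩ | ⟨j, rfl⟩)
    · exact hx.2.2.1 k
    · exact hx.2.2.2 j
  exact h hw

theorem gC_mem_Fc {g : ℕ} (j : Fin n) : (gC j : FF g n) ∈ Fc g n :=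
  Subgroup.subset_closure (Or.inr ⟨j, rfl⟩)

theorem DFr_adm {g : ℕ} {R : Type*} [CommRing R] {φ : R →+* ℂ} {J : Fin n → (Mat r ℂ)ˣ}
    {τ : FF g n ≃* FF g n} (h1 : Adm τ)
    {y : FF g n →* (Mat r ℂ)ˣ} (hy : y ∈ DFr φ J) : y.comp τ.toMonoidHom ∈ DFr φ J := by
  refine ⟨?_, fun j => ?_, fun k => ?_, fun j => ?_⟩
  · change y (τ (relator g n)) = 1
    rw [h1.rel]
    exact hy.1
  · change y (τ (gE j)) = J j
    rw [h1.he]
    exact hy.2.1 j
  · exact mem_GR_of_Fc hy (h1.hab k)
  · exact mem_GR_of_Fc hy (h1.map_Fc (gC_mem_Fc j))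

theorem DTop_adm {R : Type*} [CommRing R] (φ : R →+* ℂ) (J : Fin n → (Mat r ℂ)ˣ)
    (τ : FF (m + 1) n ≃* FF (m + 1) n) (h1 : Adm τ) (h2 : Adm τ.symm)
    (y : FF (m + 1) n →* (Mat r ℂ)ˣ) (hy : y ∈ DTop φ J) : y.comp τ.toMonoidHom ∈ DTop φ J := by
  refine ⟨DFr_adm h1 hy.1, ?_⟩
  rw [← hy.2]
  congr 1
  ext M
  constructor
  · rintro ⟨w, hw, rfl⟩
    exact ⟨τ w, h1.map_Fc hw, rfl⟩
  · rintro ⟨w, hw, rfl⟩
    refine ⟨τ.symm w, h2.map_Fc hw, ?_⟩
    change (y w : Mat r ℂ) = (y (τ (τ.symm w)) : Mat r ℂ)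
    rw [MulEquiv.apply_symm_apply]

/-- irreducible implies SS -/
theorem SS_of_adjoin {G : Type*} [Group G] (x : G →* (Mat r ℂ)ˣ)
    (h : Algebra.adjoin ℂ (Set.range fun w => (x w : Mat r ℂ)) = ⊤) : SS x := by
  intro W hW
  have hall : ∀ M : Mat r ℂ, ∀ v ∈ W, M *ᵥ v ∈ W := by
    intro M
    have hM : M ∈ Algebra.adjoin ℂ (Set.range fun w => (x w : Mat r ℂ)) := by
      rw [h]
      trivial
    induction hM using Algebra.adjoin_induction with
    | mem M hM =>
      obtain ⟨w, rfl⟩ := hM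
      exact hW w
    | algebraMap c =>
      intro v hv
      rw [Algebra.algebraMap_eq_smul_one, smul_mulVec, one_mulVec]
      exact W.smul_mem c hv
    | add M N _ _ hM hN =>
      intro v hv
      rw [add_mulVec]
      exact W.add_mem (hM v hv) (hN v hv)
    | mul M N _ _ hM hN =>
      intro v hv
      rw [← mulVec_mulVec]
      exact hM _ (hN v hv)
  by_cases hbot : W = ⊥
  · subst hbot
    exact ⟨⊤, fun _ _ _ => trivial, isCompl_bot_top⟩
  · obtain ⟨v, hv, hv0⟩ := (Submodule.ne_bot_iff W).1 hbot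
    have htop : W = ⊤ := by
      rw [eq_top_iff]
      intro u _
      obtain ⟨i, hi⟩ : ∃ i, v i ≠ 0 := by
        by_contra hcon
        push Not at hcon
        exact hv0 (funext hcon)
      have h1 : (Matrix.of fun a b => if b = i then u a * (v i)⁻¹ else 0 : Mat r ℂ) *ᵥ v = u := by
        ext a
        simp only [mulVec, dotProduct, Matrix.of_apply, ite_mul, zero_mul, Finset.sum_ite_eq',
          Finset.mem_univ, if_true]
        rw [mul_assoc, inv_mul_cancel₀ hi, mul_one]
      rw [← h1]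
      exact hall _ v hv
    subst htop
    exact ⟨⊥, fun _ v hv => by
      rw [Submodule.mem_bot] at hv
      rw [hv, mulVec_zero]
      exact Submodule.zero_mem _, isCompl_top_bot⟩

/-- A matrix with distinct eigenvalues and a matrix all of whose entries in the eigenbasis are
nonzero generate the matrix algebra. -/
theorem adjoin_top_of_pair (A : Subalgebra ℂ (Mat r ℂ)) (U : (Mat r ℂ)ˣ) (α : Fin r → ℂ)
    (hα : Function.Injective α)
    (hD : (U : Mat r ℂ) * diagonal α * ((U⁻¹ : (Mat r ℂ)ˣ) : Mat r ℂ) ∈ A)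
    (X : Mat r ℂ) (hX : X ∈ A)
    (hXe : ∀ i j, (((U⁻¹ : (Mat r ℂ)ˣ) : Mat r ℂ) * X * (U : Mat r ℂ)) i j ≠ 0) : A = ⊤ := by
  -- the conjugated algebra
  obtain ⟨B, hB⟩ : ∃ B : Subalgebra ℂ (Mat r ℂ), ∀ M, M ∈ B ↔
      (U : Mat r ℂ) * M * ((U⁻¹ : (Mat r ℂ)ˣ) : Mat r ℂ) ∈ A := by
    refine ⟨{ carrier := {M | (U : Mat r ℂ) * M * ((U⁻¹ : (Mat r ℂ)ˣ) : Mat r ℂ) ∈ A}
              mul_mem' := ?_, add_mem' := ?_, algebraMap_mem' := ?_ }, fun M => Iff.rfl⟩
    · intro M N hM hN
      have := A.mul_mem hM hN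
      have h2 : (U : Mat r ℂ) * M * ((U⁻¹ : (Mat r ℂ)ˣ) : Mat r ℂ) *
          ((U : Mat r ℂ) * N * ((U⁻¹ : (Mat r ℂ)ˣ) : Mat r ℂ)) =
          (U : Mat r ℂ) * (M * N) * ((U⁻¹ : (Mat r ℂ)ˣ) : Mat r ℂ) := by
        have h3 : ((U⁻¹ : (Mat r ℂ)ˣ) : Mat r ℂ) * (U : Mat r ℂ) = 1 := Units.inv_mul U
        calc _ = (U : Mat r ℂ) * M * (((U⁻¹ : (Mat r ℂ)ˣ) : Mat r ℂ) * (U : Mat r ℂ)) * N *
            ((U⁻¹ : (Mat r ℂ)ˣ) : Mat r ℂ) := by noncomm_ring
          _ = _ := by rw [h3, mul_one]; noncomm_ring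
      rw [h2] at this
      exact this
    · intro M N hM hN
      have := A.add_mem hM hN
      rw [← Matrix.add_mul, ← Matrix.mul_add] at this
      exact this
    · intro c
      have h3 : (U : Mat r ℂ) * ((U⁻¹ : (Mat r ℂ)ˣ) : Mat r ℂ) = 1 := Units.mul_inv U
      change (U : Mat r ℂ) * (algebraMap ℂ (Mat r ℂ) c) * ((U⁻¹ : (Mat r ℂ)ˣ) : Mat r ℂ) ∈ A
      rw [← Algebra.commutes, mul_assoc, h3, mul_one]
      exact A.algebraMap_mem c
  have hDB : (diagonal α : Mat r ℂ) ∈ B := (hB _).2 hD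
  have hXB : ((U⁻¹ : (Mat r ℂ)ˣ) : Mat r ℂ) * X * (U : Mat r ℂ) ∈ B := by
    rw [hB]
    have h3 : (U : Mat r ℂ) * ((U⁻¹ : (Mat r ℂ)ˣ) : Mat r ℂ) = 1 := Units.mul_inv U
    have : (U : Mat r ℂ) * (((U⁻¹ : (Mat r ℂ)ˣ) : Mat r ℂ) * X * (U : Mat r ℂ)) *
        ((U⁻¹ : (Mat r ℂ)ˣ) : Mat r ℂ) = X := by
      calc _ = ((U : Mat r ℂ) * ((U⁻¹ : (Mat r ℂ)ˣ) : Mat r ℂ)) * X *
          ((U : Mat r ℂ) * ((U⁻¹ : (Mat r ℂ)ˣ) : Mat r ℂ)) := by noncomm_ring
        _ = X := by rw [h3, one_mul, mul_one]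
    rw [this]
    exact hX
  have hs : ∀ i, Matrix.single i i (1 : ℂ) ∈ B := by
    intro i
    have h1 := P002.single_mem_adjoin α hα i
    refine (Algebra.adjoin_le ?_) h1
    rintro _ rfl
    exact hDB
  have hij : ∀ i j, Matrix.single i j (1 : ℂ) ∈ B := by
    intro i j
    obtain ⟨Y, hY⟩ : ∃ Y, Y = ((U⁻¹ : (Mat r ℂ)ˣ) : Mat r ℂ) * X * (U : Mat r ℂ) := ⟨_, rfl⟩
    have hYij : Y i j ≠ 0 := by
      rw [hY]
      exact hXe i j
    rw [← hY] at hXB
    have : Matrix.single i j (1 : ℂ) = (Y i j)⁻¹ •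
        (Matrix.single i i (1 : ℂ) * Y * Matrix.single j j 1) := by
      rw [Matrix.single_mul_mul_single, Matrix.smul_single]
      simp [hYij]
    rw [this]
    exact B.smul_mem (B.mul_mem (B.mul_mem (hs i) hXB) (hs j)) _
  have hBtop : ∀ M, M ∈ B := by
    intro M
    rw [matrix_eq_sum_single M]
    refine Subalgebra.sum_mem _ fun i _ => Subalgebra.sum_mem _ fun j _ => ?_
    have : Matrix.single i j (M i j) = M i j • Matrix.single i j (1 : ℂ) := by
      rw [Matrix.smul_single, smul_eq_mul, mul_one]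
    rw [this]
    exact Subalgebra.smul_mem _ (hij i j) _
  rw [eq_top_iff]
  intro M _
  have h3 : (U : Mat r ℂ) * ((U⁻¹ : (Mat r ℂ)ˣ) : Mat r ℂ) = 1 := Units.mul_inv U
  have h4 := (hB _).1 (hBtop (((U⁻¹ : (Mat r ℂ)ˣ) : Mat r ℂ) * M * (U : Mat r ℂ)))
  have : (U : Mat r ℂ) * (((U⁻¹ : (Mat r ℂ)ˣ) : Mat r ℂ) * M * (U : Mat r ℂ)) *
      ((U⁻¹ : (Mat r ℂ)ˣ) : Mat r ℂ) = M := by
    calc _ = ((U : Mat r ℂ) * ((U⁻¹ : (Mat r ℂ)ˣ) : Mat r ℂ)) * M *
        ((U : Mat r ℂ) * ((U⁻¹ : (Mat r ℂ)ˣ) : Mat r ℂ)) := by noncomm_ring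
      _ = M := by rw [h3, one_mul, mul_one]
  rw [this] at h4
  exact h4

/-- Complex representations with arbitrary integral `a_m` and `b_m ↦ 1` are in `DTop` if the matrix
`a_m` is generic. -/
theorem flow_mem_DTop {R : Type*} [CommRing R] (φ : R →+* ℂ) (J : Fin n → (Mat r ℂ)ˣ)
    (ρ : FF (m + 1) n →* (Mat r ℂ)ˣ) (hρ : ρ ∈ DFr φ J) (hb : ρ (gB (Fin.last m)) = 1)
    (w₀ : FF (m + 1) n) (hw₀ : w₀ ∈ Fc (m + 1) n) (hw₀' : w₀ ∈ Fprime m n)
    (U : (Mat r ℂ)ˣ) (α : Fin r → ℂ) (hα : Function.Injective α)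
    (hq : (ρ w₀ : Mat r ℂ) = (U : Mat r ℂ) * diagonal α * ((U⁻¹ : (Mat r ℂ)ˣ) : Mat r ℂ))
    (B : (Mat r ℂ)ˣ) (hB : B ∈ GR r φ)
    (hBe : ∀ i j, (((U⁻¹ : (Mat r ℂ)ˣ) : Mat r ℂ) * B * (U : Mat r ℂ)) i j ≠ 0)
    (y : FF (m + 1) n →* (Mat r ℂ)ˣ)
    (hy : ∀ k : Gen (m + 1) n, k ≠ Sum.inl (Fin.last m, false) →
      y (FreeGroup.of k) = ρ (FreeGroup.of k)) (hyB : y (gA (Fin.last m)) = B) :
    y ∈ DTop φ J := by
  have hF : ∀ w ∈ Fprime m n, y w = ρ w := fun w hw => eq_on_Fprime y ρ hy hw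
  have hyb : y (gB (Fin.last m)) = 1 := by rw [hF _ (gB_mem _), hb]
  have hH : ∀ i, y (hcomm i) = ρ (hcomm i) := by
    intro i
    refine Fin.lastCases ?_ (fun i => ?_) i
    · rw [hcomm, map_mul, map_mul, map_mul, map_inv, map_inv, hyb, map_mul, map_mul, map_mul,
        map_inv, map_inv, hb]
      simp
    · exact hF _ (bw_mem (Sum.inr i))
  have hDFr : y ∈ DFr φ J := by
    refine ⟨?_, fun j => ?_, fun k => ?_, fun j => ?_⟩
    · rw [← hρ.1, relator, map_mul, map_mul, map_list_prod, map_list_prod, map_list_prod,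
        map_list_prod, List.map_ofFn, List.map_ofFn, List.map_ofFn, List.map_ofFn]
      congr 3
      · funext j
        exact hF _ (gC_mem j)
      · funext i
        exact hH i
    · have h1 : (gE j : FF (m + 1) n) ∈ Fprime m n := of_mem_Fprime (by simp)
      rw [hF _ h1]
      exact hρ.2.1 j
    · by_cases hk : (Sum.inl k : Gen (m + 1) n) = Sum.inl (Fin.last m, false)
      · rw [hk]
        change y (gA (Fin.last m)) ∈ _
        rw [hyB]
        exact hB
      · rw [hF _ (of_mem_Fprime hk)]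
        exact hρ.2.2.1 k
    · rw [hF _ (gC_mem j)]
      exact hρ.2.2.2 j
  refine ⟨hDFr, ?_⟩
  refine adjoin_top_of_pair _ U α hα ?_ (B : Mat r ℂ) ?_ hBe
  · refine Algebra.subset_adjoin ⟨w₀, hw₀, ?_⟩
    rw [hF _ hw₀', hq]
  · refine Algebra.subset_adjoin ⟨gA (Fin.last m), Subgroup.subset_closure (Or.inl ⟨_, rfl⟩), ?_⟩
    rw [hyB]

theorem gD_eq_one_add (ρ : FF (m + 1) n →* (Mat r ℂ)ˣ) (T : Type*) [CommRing T] [Algebra ℂ T]
    (j : Fin n) :
    ((baseChange (algebraMap ℂ T) ρ (gD j) : (Mat r T)ˣ) : Mat r T) =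
      1 + (1 : T) • ((ρ (gD j) : Mat r ℂ) - 1).map (algebraMap ℂ T) := by
  rw [baseChange_apply, one_smul]
  ext a b
  simp only [Matrix.map_apply, Matrix.add_apply, Matrix.sub_apply, map_sub]
  rw [Matrix.one_apply, Matrix.one_apply]
  split <;> simp

/-- The polynomial at `t = 1`. -/
noncomputable def atOne (a : MvPolynomial (VarH n r) ℂ) : MvPolynomial (Fin r × Fin r) ℂ :=
  MvPolynomial.aeval (Sum.elim (fun q : Fin r × Fin r =>
    (MvPolynomial.X q : MvPolynomial (Fin r × Fin r) ℂ)) fun _ => 1) a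

theorem aeval_atOne (a : MvPolynomial (VarH n r) ℂ) {T : Type*} [CommRing T] [Algebra ℂ T]
    (v : Fin r × Fin r → T) :
    MvPolynomial.aeval v (atOne a) = MvPolynomial.aeval (Sum.elim v fun _ => (1 : T)) a := by
  unfold atOne
  induction a using MvPolynomial.induction_on with
  | C x => simp
  | add f g hf hg => simp only [map_add, hf, hg]
  | mul_X f p hf =>
    rw [map_mul, map_mul, map_mul, hf]
    congr 1
    rcases p with p | j <;> simp

theorem inZ_top {R : Type*} [CommRing R] (φ : R →+* ℂ) (J : Fin n → (Mat r ℂ)ˣ)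
    (ρ : FF (m + 1) n →* (Mat r ℂ)ˣ) (hρ : ρ ∈ DFr φ J) (hb : ρ (gB (Fin.last m)) = 1)
    (w₀ : FF (m + 1) n) (hw₀ : w₀ ∈ Fc (m + 1) n) (hw₀' : w₀ ∈ Fprime m n)
    (U : (Mat r ℂ)ˣ) (α : Fin r → ℂ) (hα : Function.Injective α)
    (hq : (ρ w₀ : Mat r ℂ) = (U : Mat r ℂ) * diagonal α * ((U⁻¹ : (Mat r ℂ)ˣ) : Mat r ℂ))
    {S : Type*} [CommRing S] [Algebra ℂ S] (z : (Mat r S)ˣ) :
    InZ (DTop φ J) (flow (baseChange (algebraMap ℂ S) ρ) (Sum.inl (Fin.last m, false)) z) := by
  intro f hf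
  obtain ⟨κ, hκ⟩ : ∃ κ : Fin n → Mat r ℂ, κ = fun j => (ρ (gD j) : Mat r ℂ) - 1 := ⟨_, rfl⟩
  obtain ⟨N, a, ha⟩ := IsLocalization.Away.surj (hdel κ)
    (evalW (baseRep ρ (hMu κ) (hKu κ)) f)
  have hbc : ∀ w, baseChange (algebraMap ℂ ℂ) ρ w = ρ w := by
    intro w
    ext a b
    rw [baseChange_apply]
    rfl
  -- the genericity polynomial
  obtain ⟨GM, hGM⟩ : ∃ GM : Mat r (MvPolynomial (Fin r × Fin r) ℂ), GM =
      (((U⁻¹ : (Mat r ℂ)ˣ) : Mat r ℂ).map MvPolynomial.C :
        Mat r (MvPolynomial (Fin r × Fin r) ℂ)) * mvPolynomialX (Fin r) (Fin r) ℂ *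
        ((U : Mat r ℂ).map MvPolynomial.C : Mat r (MvPolynomial (Fin r × Fin r) ℂ)) := ⟨_, rfl⟩
  obtain ⟨G, hG⟩ : ∃ G : MvPolynomial (Fin r × Fin r) ℂ, G = ∏ i, ∏ j, GM i j := ⟨_, rfl⟩
  have hGMe : ∀ (v : Fin r × Fin r → ℂ) (i j : Fin r), MvPolynomial.eval v (GM i j) =
      (((U⁻¹ : (Mat r ℂ)ˣ) : Mat r ℂ) * (Matrix.of fun a b => v (a, b)) * (U : Mat r ℂ)) i j := by
    intro v i j
    rw [hGM]
    simp only [Matrix.mul_apply, map_sum, map_mul, Matrix.map_apply, MvPolynomial.eval_C,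
      mvPolynomialX_apply, MvPolynomial.eval_X, Matrix.of_apply]
  have hGe : ∀ v : Fin r × Fin r → ℂ, MvPolynomial.eval v G = ∏ i, ∏ j,
      (((U⁻¹ : (Mat r ℂ)ˣ) : Mat r ℂ) * (Matrix.of fun a b => v (a, b)) * (U : Mat r ℂ)) i j := by
    intro v
    rw [hG, map_prod]
    refine Finset.prod_congr rfl fun i _ => ?_
    rw [map_prod]
    exact Finset.prod_congr rfl fun j _ => hGMe v i j
  have hG0 : G ≠ 0 := by
    rw [hG, Finset.prod_ne_zero_iff]
    intro i _
    rw [Finset.prod_ne_zero_iff]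
    intro j _ h0
    have h1 := congrArg (MvPolynomial.eval fun p : Fin r × Fin r =>
      ((U : Mat r ℂ) * Matrix.single i j (1 : ℂ) * ((U⁻¹ : (Mat r ℂ)ˣ) : Mat r ℂ)) p.1 p.2) h0
    rw [map_zero, hGMe] at h1
    have h2 : (((U⁻¹ : (Mat r ℂ)ˣ) : Mat r ℂ) * ((U : Mat r ℂ) * Matrix.single i j (1 : ℂ) *
        ((U⁻¹ : (Mat r ℂ)ˣ) : Mat r ℂ)) * (U : Mat r ℂ)) i j = 0 := h1
    have h3 : ((U⁻¹ : (Mat r ℂ)ˣ) : Mat r ℂ) * (U : Mat r ℂ) = 1 := Units.inv_mul U
    have h4 : ((U⁻¹ : (Mat r ℂ)ˣ) : Mat r ℂ) * ((U : Mat r ℂ) * Matrix.single i j (1 : ℂ) *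
        ((U⁻¹ : (Mat r ℂ)ˣ) : Mat r ℂ)) * (U : Mat r ℂ) = Matrix.single i j (1 : ℂ) := by
      calc _ = (((U⁻¹ : (Mat r ℂ)ˣ) : Mat r ℂ) * (U : Mat r ℂ)) * Matrix.single i j (1 : ℂ) *
          (((U⁻¹ : (Mat r ℂ)ˣ) : Mat r ℂ) * (U : Mat r ℂ)) := by noncomm_ring
        _ = _ := by rw [h3, one_mul, mul_one]
    rw [h4] at h2
    simp at h2
  have key : atOne a * G = 0 := by
    apply Vale.Agent.P002.scaledSL_dense
    intro c X
    rw [map_mul]
    by_cases h0 : MvPolynomial.eval (fun p => (c : ℂ) * ((X.1 p.1 p.2 : ℤ) : ℂ)) G = 0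
    · rw [h0, mul_zero]
    · obtain ⟨B, hB⟩ : ∃ B : (Mat r ℂ)ˣ, B =
          scalarU c * slU φ (Matrix.SpecialLinearGroup.map (Int.castRingHom R) X) := ⟨_, rfl⟩
      have hGR : B ∈ GR r φ := ⟨c, _, hB⟩
      have hBv : ∀ a b, (B : Mat r ℂ) a b = (c : ℂ) * ((X.1 a b : ℤ) : ℂ) := by
        intro a b
        rw [hB, Units.val_mul]
        change ((algebraMap ℂ (Mat r ℂ) (c : ℂ)) *
            (slU φ (Matrix.SpecialLinearGroup.map (Int.castRingHom R) X) : Mat r ℂ)) a b = _
        rw [← Algebra.smul_def, Matrix.smul_apply, smul_eq_mul]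
        congr 1
        change φ (Int.castRingHom R (X.1 a b)) = _
        simp
      have hBm : (Matrix.of fun a b => (c : ℂ) * ((X.1 a b : ℤ) : ℂ)) = (B : Mat r ℂ) := by
        ext a b
        rw [Matrix.of_apply, hBv]
      have hBe : ∀ i j, (((U⁻¹ : (Mat r ℂ)ˣ) : Mat r ℂ) * B * (U : Mat r ℂ)) i j ≠ 0 := by
        rw [hGe] at h0
        simp only [hBm] at h0
        intro i j h1
        exact h0 (Finset.prod_eq_zero (Finset.mem_univ i)
          (Finset.prod_eq_zero (Finset.mem_univ j) h1))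
      have hmem : baseRep ρ B (fun j => ρ (gD j)) ∈ DTop φ J := by
        refine flow_mem_DTop φ J ρ hρ hb w₀ hw₀ hw₀' U α hα hq B hGR hBe _ (fun k hk => ?_) ?_
        · rcases k with i | ⟨j, b⟩
          · rw [baseRep_inl, if_neg (by
              intro h
              exact hk (by rw [h])), hbc]
          · cases b
            · exact baseRep_gD ρ B _ j
            · have := baseRep_gE ρ B (fun j => ρ (gD j)) j
              rw [hbc] at this
              exact this
        · rw [gA, baseRep_inl, if_pos rfl]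
      have h1 := hf _ hmem
      obtain ⟨ψ, hψ1, hψ2⟩ := h_univ κ B (fun _ => (1 : ℂ)) (fun j => ρ (gD j)) (fun j => by
        have := gD_eq_one_add ρ ℂ j
        rw [hbc] at this
        rw [this, hκ]) ρ
      rw [hψ2] at h1
      have h2 := congrArg ψ ha
      rw [map_mul, h1, zero_mul, hψ1, ← aeval_atOne] at h2
      have h3 : MvPolynomial.eval (fun p => (c : ℂ) * ((X.1 p.1 p.2 : ℤ) : ℂ)) (atOne a) = 0 := by
        rw [h2, MvPolynomial.aeval_def, Algebra.algebraMap_self, ← MvPolynomial.eval₂_id]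
        congr 1
        funext q
        exact (hBv q.1 q.2).symm
      rw [h3, zero_mul]
  have ha0 : atOne a = 0 := (mul_eq_zero.1 key).resolve_right hG0
  -- the `S`-point
  obtain ⟨B, hB⟩ : ∃ B : (Mat r S)ˣ, B = baseChange (algebraMap ℂ S) ρ (gA (Fin.last m)) * z :=
    ⟨_, rfl⟩
  have hx : flow (baseChange (algebraMap ℂ S) ρ) (Sum.inl (Fin.last m, false)) z =
      baseRep ρ B (fun j => baseChange (algebraMap ℂ S) ρ (gD j)) := by
    refine FreeGroup.ext_hom _ _ fun k => ?_
    rw [flow_of]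
    rcases k with i | ⟨j, b⟩
    · rw [baseRep_inl]
      by_cases hi : i = (Fin.last m, false)
      · subst hi
        rw [if_pos rfl, if_pos rfl, hB]
        rfl
      · rw [if_neg hi, if_neg (by
          intro h
          exact hi (Sum.inl_injective h))]
    · rw [if_neg (by simp)]
      cases b
      · exact (baseRep_gD ρ B (fun j => baseChange (algebraMap ℂ S) ρ (gD j)) j).symm
      · exact (baseRep_gE ρ B (fun j => baseChange (algebraMap ℂ S) ρ (gD j)) j).symm
  rw [hx]
  obtain ⟨ψ, hψ1, hψ2⟩ := h_univ κ B (fun _ => (1 : S))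
    (fun j => baseChange (algebraMap ℂ S) ρ (gD j)) (fun j => by
      rw [gD_eq_one_add ρ S j, hκ]) ρ
  rw [hψ2]
  have h2 := congrArg ψ ha
  rw [map_mul, hψ1, ← aeval_atOne, ha0, map_zero, map_pow] at h2
  have hu : IsUnit (ψ (algebraMap (MvPolynomial (VarH n r) ℂ) (HU κ) (hdel κ)) ^ N) :=
    ((IsLocalization.Away.algebraMap_isUnit (hdel κ)).map ψ).pow N
  exact (hu.mul_left_eq_zero).mp h2

end Vale.Agent.P002R
end

section

/-!
# The dual lemma for block data, part F: a rigid linear system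
-/

namespace Vale.Agent.P002R

/-- A positive definite system. -/
theorem posdef_zero {k : ℕ} (s : ℕ → ℝ) (hs : ∀ l, 0 < s l) (z : Fin k → ℂ)
    (h : ∀ i : Fin k, ∑ j : Fin k, (z i + z j) / ((s i + s j : ℝ) : ℂ) = 0) (i : Fin k) :
    z i = 0 := by
  have h1 : ∑ i : Fin k, ∑ j : Fin k, (starRingEnd ℂ (z i)) * ((z i + z j) / ((s i + s j : ℝ) : ℂ)) = 0 := by
    apply Finset.sum_eq_zero
    intro i _
    rw [← Finset.mul_sum, h, mul_zero]
  have h2 : ∑ i : Fin k, ∑ j : Fin k, (starRingEnd ℂ (z j)) * ((z i + z j) / ((s i + s j : ℝ) : ℂ)) = 0 := by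
    rw [Finset.sum_comm, ← h1]
    refine Finset.sum_congr rfl fun i _ => Finset.sum_congr rfl fun j _ => ?_
    rw [add_comm (z j), add_comm (s j)]
  have h3 : ∑ i : Fin k, ∑ j : Fin k, Complex.normSq (z i + z j) / (s i + s j) = 0 := by
    have h4 : ((∑ i : Fin k, ∑ j : Fin k, Complex.normSq (z i + z j) / (s i + s j) : ℝ) : ℂ) = 0 := by
      push_cast
      have h5 := congrArg₂ (· + ·) h1 h2
      simp only [← Finset.sum_add_distrib, add_zero] at h5
      rw [← h5]
      refine Finset.sum_congr rfl fun i _ => Finset.sum_congr rfl fun j _ => ?_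
      rw [← Complex.mul_conj, map_add]
      push_cast
      ring
    exact_mod_cast h4
  have hnn : ∀ i j : Fin k, 0 ≤ Complex.normSq (z i + z j) / (s i + s j) := fun i j =>
    div_nonneg (Complex.normSq_nonneg _) (add_pos (hs _) (hs _)).le
  have h4 := (Finset.sum_eq_zero_iff_of_nonneg (fun i _ => Finset.sum_nonneg fun j _ => hnn i j)).1
    h3 i (Finset.mem_univ _)
  have h5 := (Finset.sum_eq_zero_iff_of_nonneg (fun j _ => hnn i j)).1 h4 i (Finset.mem_univ _)
  rw [div_eq_zero_iff] at h5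
  rcases h5 with h5 | h5
  · rw [Complex.normSq_eq_zero] at h5
    have : (2 : ℂ) * z i = 0 := by rw [two_mul]; exact h5
    simpa using this
  · exact absurd h5 (add_pos (hs _) (hs _)).ne'

theorem sum_expand {k : ℕ} (i j : ℕ) (hij : i ≠ j) (a b : ℂ) (f : Fin k → ℂ) :
    ∑ l : Fin k, (1 + if (l : ℕ) = j then a else 0) * (1 - if (l : ℕ) = i then b else 0) * f l =
      ∑ l : Fin k, f l + (if h : j < k then a * f ⟨j, h⟩ else 0) -
        (if h : i < k then b * f ⟨i, h⟩ else 0) := by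
  have h1 : ∀ (j : ℕ) (a : ℂ), ∑ l : Fin k, (if (l : ℕ) = j then a else 0) * f l =
      if h : j < k then a * f ⟨j, h⟩ else 0 := by
    intro j a
    split_ifs with h
    · rw [Finset.sum_eq_single (⟨j, h⟩ : Fin k)]
      · simp
      · intro l _ hl
        have : (l : ℕ) ≠ j := fun h' => hl (Fin.ext h')
        simp [this]
      · simp
    · apply Finset.sum_eq_zero
      intro l _
      have : (l : ℕ) ≠ j := fun h' => h (h' ▸ l.2)
      simp [this]
  rw [← h1 j a, ← h1 i b, ← Finset.sum_add_distrib, ← Finset.sum_sub_distrib]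
  refine Finset.sum_congr rfl fun l _ => ?_
  by_cases h2 : (l : ℕ) = j
  · have h3 : (l : ℕ) ≠ i := fun h => hij (h.symm.trans h2)
    simp only [h2, if_true, if_neg (fun h => hij (h.symm) : ¬ j = i)]
    ring
  · simp only [h2, if_false]
    ring

/-- The rigid linear system. -/
theorem rigid_system {k k' : ℕ} (hk : k ≤ k') (s : ℕ → ℝ) (hs : ∀ l, 0 < s l)
    (hinj : Function.Injective s) (M : Fin k → Fin k' → ℂ)
    (hb : ∀ i j : Fin k, i ≠ j → ∑ l : Fin k', (1 + if (l : ℕ) = j then (s j : ℂ) else 0) *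
      (1 - if (l : ℕ) = i then (s i : ℂ) else 0) * (M j l - M i l) = 0)
    (ha : ∀ i j : Fin k', i ≠ j → ∑ l : Fin k, (1 + if (l : ℕ) = j then (s j : ℂ) else 0) *
      (1 - if (l : ℕ) = i then (s i : ℂ) else 0) * (M l j - M l i) = 0) :
    ∀ i j i' j', M i j = M i' j' := by
  have hsc : ∀ l, (s l : ℂ) ≠ 0 := fun l => by exact_mod_cast (hs l).ne'
  have hssc : ∀ l l', (s l : ℂ) + (s l' : ℂ) ≠ 0 := fun l l' => by
    exact_mod_cast (add_pos (hs l) (hs l')).ne'
  obtain ⟨e, he⟩ : ∃ e : Fin k → Fin k', e = Fin.castLE hk := ⟨_, rfl⟩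
  have hev : ∀ i : Fin k, ((e i : Fin k') : ℕ) = i := fun i => by rw [he]; rfl
  have hemk : ∀ (i : Fin k) (h : (i : ℕ) < k'), (⟨i, h⟩ : Fin k') = e i := fun i h =>
    Fin.ext (hev i).symm
  have hne : ∀ {N : ℕ} {i j : Fin N}, i ≠ j → (i : ℕ) ≠ j := fun h h' => h (Fin.ext h')
  -- the equations
  have hb' : ∀ i j : Fin k, i ≠ j → ∑ l, (M j l - M i l) + (s j : ℂ) * (M j (e j) - M i (e j)) -
      (s i : ℂ) * (M j (e i) - M i (e i)) = 0 := by
    intro i j hij
    have h1 := hb i j hij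
    rw [sum_expand (i : ℕ) (j : ℕ) (hne hij)] at h1
    rw [dif_pos (lt_of_lt_of_le j.2 hk), dif_pos (lt_of_lt_of_le i.2 hk), hemk, hemk] at h1
    exact h1
  have ha' : ∀ i j : Fin k, i ≠ j → ∑ l, (M l (e j) - M l (e i)) +
      (s j : ℂ) * (M j (e j) - M j (e i)) - (s i : ℂ) * (M i (e j) - M i (e i)) = 0 := by
    intro i j hij
    have hij' : e i ≠ e j := fun h => hij (Fin.ext (by rw [← hev i, ← hev j, h]))
    have h1 := ha (e i) (e j) hij'
    simp only [hev] at h1
    rw [sum_expand (i : ℕ) (j : ℕ) (hne hij)] at h1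
    rw [dif_pos j.2, dif_pos i.2] at h1
    exact h1
  have ha'' : ∀ (i : Fin k) (j : Fin k'), k ≤ (j : ℕ) → ∑ l, (M l j - M l (e i)) -
      (s i : ℂ) * (M i j - M i (e i)) = 0 ∧ ∑ l, (M l (e i) - M l j) +
      (s i : ℂ) * (M i (e i) - M i j) = 0 := by
    intro i j hj
    have hij' : e i ≠ j := fun h => by
      have := hev i
      rw [h] at this
      have := i.2
      omega
    have hij : (i : ℕ) ≠ (j : ℕ) := by have := i.2; omega
    have h1 := ha (e i) j hij'
    have h2 := ha j (e i) hij'.symm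
    simp only [hev] at h1 h2
    rw [sum_expand (i : ℕ) (j : ℕ) hij] at h1
    rw [sum_expand (j : ℕ) (i : ℕ) hij.symm] at h2
    rw [dif_pos i.2, dif_neg (by omega)] at h1
    rw [dif_pos i.2, dif_neg (by omega)] at h2
    constructor
    · rw [← h1]; simp
    · rw [← h2]; simp
  -- symmetry
  have hneg : ∀ {N : ℕ} (f g : Fin N → ℂ), ∑ l, (f l - g l) = -∑ l, (g l - f l) := by
    intro N f g
    rw [← Finset.sum_neg_distrib]
    exact Finset.sum_congr rfl fun l _ => by ring
  have hsym : ∀ i j : Fin k, M i (e j) = M j (e i) := by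
    intro i j
    by_cases hij : i = j
    · rw [hij]
    have b1 := hb' i j hij
    have b2 := hb' j i (Ne.symm hij)
    have a1 := ha' i j hij
    have a2 := ha' j i (Ne.symm hij)
    rw [hneg (fun l => M i l) (fun l => M j l)] at b2
    rw [hneg (fun l => M l (e i)) (fun l => M l (e j))] at a2
    have hs' : (s j : ℂ) - (s i : ℂ) ≠ 0 := by
      rw [sub_ne_zero]
      intro h
      exact hne hij (hinj (by exact_mod_cast h)).symm
    have : ((s j : ℂ) - (s i : ℂ)) * (M i (e j) - M j (e i)) = 0 := by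
      linear_combination -(1 / 2 : ℂ) * b1 - (1 / 2 : ℂ) * b2 + (1 / 2 : ℂ) * a1 +
        (1 / 2 : ℂ) * a2
    rcases mul_eq_zero.1 this with h | h
    · exact absurd h hs'
    · exact sub_eq_zero.1 h
  have hmean : ∀ i j : Fin k, ((s i : ℂ) + (s j : ℂ)) * M i (e j) =
      (s i : ℂ) * M i (e i) + (s j : ℂ) * M j (e j) := by
    intro i j
    by_cases hij : i = j
    · rw [hij]; ring
    have b1 := hb' i j hij
    have b2 := hb' j i (Ne.symm hij)
    rw [hneg (fun l => M i l) (fun l => M j l)] at b2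
    have h1 := hsym i j
    linear_combination -(1 / 2 : ℂ) * b1 - (1 / 2 : ℂ) * b2 + (s i : ℂ) * h1
  have hcol : ∀ i j : Fin k, ∑ l, M l (e i) = ∑ l, M l (e j) := by
    intro i j
    by_cases hij : i = j
    · rw [hij]
    have a1 := ha' i j hij
    have h1 := hsym i j
    have h2 := hmean i j
    rw [Finset.sum_sub_distrib] at a1
    linear_combination -a1 - h2 + (s j : ℂ) * h1
  have hfar : ∀ (i : Fin k) (j : Fin k'), k ≤ (j : ℕ) → M i j = M i (e i) := by
    intro i j hj
    obtain ⟨h1, h2⟩ := ha'' i j hj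
    rw [hneg] at h2
    have h3 : (s i : ℂ) * (M i j - M i (e i)) = 0 := by
      linear_combination -(1 / 2 : ℂ) * h1 - (1 / 2 : ℂ) * h2
    rcases mul_eq_zero.1 h3 with h | h
    · exact absurd h (hsc _)
    · exact sub_eq_zero.1 h
  -- the diagonal is constant
  have hdiag : ∀ i : Fin k, M i (e i) = (∑ l, M l (e i)) / k := by
    intro i
    have hk0 : (k : ℂ) ≠ 0 := by
      have := i.2
      exact_mod_cast (by omega : k ≠ 0)
    obtain ⟨C, hC⟩ : ∃ C, C = ∑ l, M l (e i) := ⟨_, rfl⟩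
    have hCj : ∀ j, ∑ l, M l (e j) = C := fun j => by rw [hC]; exact hcol j i
    have hz := posdef_zero s hs (fun j => (s j : ℂ) * M j (e j) - C / k * s j) (by
      intro j
      have h1 : ∀ l : Fin k, ((s j : ℂ) * M j (e j) - C / k * s j +
          ((s l : ℂ) * M l (e l) - C / k * s l)) / ((s j + s l : ℝ) : ℂ) = M l (e j) - C / k := by
        intro l
        have h2 := hmean l j
        have h3 := hssc j l
        push_cast
        rw [div_eq_iff h3]
        linear_combination -h2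
      rw [Finset.sum_congr rfl fun l _ => h1 l, Finset.sum_sub_distrib, hCj, Finset.sum_const,
        Finset.card_univ, Fintype.card_fin, nsmul_eq_mul, mul_div_cancel₀ _ hk0, sub_self]) i
    rw [← hC]
    have h4 : (s i : ℂ) * (M i (e i) - C / k) = 0 := by
      linear_combination hz
    rcases mul_eq_zero.1 h4 with h | h
    · exact absurd h (hsc _)
    · exact sub_eq_zero.1 h
  have hall : ∀ (i : Fin k) (j : Fin k'), M i j = (∑ l, M l (e i)) / k := by
    intro i j
    by_cases hj : (j : ℕ) < k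
    · have hje : j = e ⟨j, hj⟩ := Fin.ext (hev ⟨j, hj⟩).symm
      rw [hje]
      have h1 := hmean i ⟨j, hj⟩
      have h2 := hdiag i
      have h3 := hdiag ⟨j, hj⟩
      rw [hcol _ i] at h3
      rw [h2, h3] at h1
      have h4 := hssc i (⟨j, hj⟩ : Fin k)
      apply mul_left_cancel₀ h4
      rw [h1]
      ring
    · rw [hfar i j (by omega), hdiag]
  intro i j i' j'
  rw [hall, hall, hcol i i']

end Vale.Agent.P002R
end
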