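import Mathlib
import Vale.Agent.P002.Bd3.B1
import Vale.Agent.P002.Bd3.B3
import Vale.Agent.P002.Bd3.B2

set_option linter.all false

@[reducible] def Vale.Agent.P002Fast.coeU6 {M : Type*} [Monoid M] (u : Mˣ) : CoeT Mˣ u M := ⟨Units.val u⟩
attribute [local instance] Vale.Agent.P002Fast.coeU6

section

namespace Vale.Agent.P002R

open Matrix

variable {m n r : ℕ}

section der

variable {κ : Type*} (ρ : FreeGroup κ →* (Mat r ℂ)ˣ) (E : FreeGroup κ → Mat r ℂ)

/-- The inverse as a matrix. -/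
noncomputable abbrev vi (x : (Mat r ℂ)ˣ) : Mat r ℂ := ((x⁻¹ : (Mat r ℂ)ˣ) : Mat r ℂ)

theorem vi_mul_self (x : (Mat r ℂ)ˣ) : vi x * (x : Mat r ℂ) = 1 := x.inv_mul

theorem mul_vi_self (x : (Mat r ℂ)ˣ) : (x : Mat r ℂ) * vi x = 1 := x.mul_inv

/-- Logarithmic derivative. -/
noncomputable def ld (w : FreeGroup κ) : Mat r ℂ := vi (ρ w) * E w

variable {ρ E}

theorem der_one (hE : IsDer ρ E) : E 1 = 0 := by
  have h := hE 1 1
  simp only [mul_one, map_one, Units.val_one, one_mul] at h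
  simpa using h

theorem der_inv (hE : IsDer ρ E) (w : FreeGroup κ) :
    E w⁻¹ = -(vi (ρ w) * E w * vi (ρ w)) := by
  have h := hE w⁻¹ w
  rw [inv_mul_cancel, der_one hE, map_inv] at h
  have h1 : E w⁻¹ * (ρ w : Mat r ℂ) = -(vi (ρ w) * E w) := by
    rw [eq_neg_iff_add_eq_zero]
    exact h.symm
  calc E w⁻¹ = E w⁻¹ * ((ρ w : Mat r ℂ) * vi (ρ w)) := by rw [mul_vi_self, mul_one]
    _ = _ := by rw [← mul_assoc, h1, neg_mul]

theorem ld_mul (hE : IsDer ρ E) (w w' : FreeGroup κ) :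
    ld ρ E (w * w') = vi (ρ w') * ld ρ E w * (ρ w' : Mat r ℂ) + ld ρ E w' := by
  unfold ld
  rw [hE, map_mul]
  simp only [vi, _root_.mul_inv_rev, Units.val_mul, mul_add]
  congr 1
  · simp only [mul_assoc]
  · have : vi (ρ w) * (ρ w : Mat r ℂ) = 1 := vi_mul_self _
    calc _ = vi (ρ w') * (vi (ρ w) * (ρ w : Mat r ℂ)) * E w' := by simp only [mul_assoc, vi]
      _ = _ := by rw [this, mul_one]

end der

/-- The logarithmic derivative of a product of blocks. -/
theorem ld_blocks (ρ : FF (m + 1) n →* (Mat r ℂ)ˣ) (E : FF (m + 1) n → Mat r ℂ) (hE : IsDer ρ E)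
    (l : List (Fin n ⊕ Fin m)) (hl : l.Nodup) :
    ld ρ E (l.map bw).prod =
      (l.map fun b => vi (ρ (aftL b l)) * ld ρ E (bw b) * (ρ (aftL b l) : Mat r ℂ)).sum := by
  induction l with
  | nil => simp [ld, der_one hE]
  | cons c l ih =>
    rw [List.nodup_cons] at hl
    rw [List.map_cons, List.prod_cons, ld_mul hE, ih hl.2, List.map_cons, List.sum_cons]
    have h1 : aftL c (c :: l) = (l.map bw).prod := by rw [aftL, if_pos rfl]
    rw [h1]
    congr 2
    apply List.map_congr_left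
    intro b hb
    have h2 : aftL b (c :: l) = aftL b l := by
      rw [aftL, if_neg]
      intro h
      exact hl.1 (h ▸ hb)
    rw [h2]

theorem nodup_blocks : (blocks m n).Nodup := by
  unfold blocks
  apply List.Nodup.append
  · exact (List.nodup_finRange n).map Sum.inl_injective
  · exact (List.nodup_finRange m).map Sum.inr_injective
  · intro x hx hy
    simp only [List.mem_map] at hx hy
    obtain ⟨a, _, rfl⟩ := hx
    obtain ⟨b, _, h⟩ := hy
    exact Sum.inr_ne_inl h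

theorem relator_eq_blocks : relator (m + 1) n = ((blocks m n).map bw).prod * hcomm (Fin.last m) := by
  unfold relator blocks
  rw [List.ofFn_succ', List.prod_concat, List.map_append, List.prod_append, List.map_map,
    List.map_map, List.ofFn_eq_map, List.ofFn_eq_map, mul_assoc]
  rfl

theorem sum_blocks {M : Type*} [AddCommMonoid M] (f : Fin n ⊕ Fin m → M) :
    ((blocks m n).map f).sum = ∑ j, f (Sum.inl j) + ∑ i, f (Sum.inr i) := by
  unfold blocks
  rw [List.map_append, List.sum_append, List.map_map, List.map_map, Fin.sum_univ_def,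
    Fin.sum_univ_def]
  rfl

theorem der_gC (ρ : FF (m + 1) n →* (Mat r ℂ)ˣ) (E : FF (m + 1) n → Mat r ℂ) (hE : IsDer ρ E)
    (hEe : ∀ j, E (gE j) = 0) (j : Fin n) (z : Mat r ℂ)
    (hz : E (gD j) = z * (ρ (gD j) : Mat r ℂ)) :
    E (gC j) = z * (ρ (gC j) : Mat r ℂ) - (ρ (gC j) : Mat r ℂ) * z := by
  obtain ⟨d, hd⟩ : ∃ d, d = ρ (gD j) := ⟨_, rfl⟩
  obtain ⟨e, he⟩ : ∃ e, e = ρ (gE j) := ⟨_, rfl⟩
  have h1 : (ρ (gC j) : Mat r ℂ) = (d : Mat r ℂ) * (e : Mat r ℂ) * vi d := by
    rw [hd, he]; simp [gC, vi]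
  have h2 : vi d * ((d : Mat r ℂ)) = 1 := vi_mul_self d
  have h3 : (d : Mat r ℂ) * vi d = 1 := mul_vi_self d
  rw [← hd] at hz
  have h4 : E (gC j) = E (gD j) * (e : Mat r ℂ) * vi d -
      (d : Mat r ℂ) * (e : Mat r ℂ) * (vi d * E (gD j) * vi d) := by
    unfold gC
    rw [hE, hE, der_inv hE, hEe, mul_zero, add_zero, map_mul, map_inv, ← hd, ← he, mul_neg,
      ← sub_eq_add_neg, Units.val_mul]
  rw [h4, h1, hz]
  have h5 : (d : Mat r ℂ) * (e : Mat r ℂ) * (vi d * (z * (d : Mat r ℂ)) * vi d) =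
      (d : Mat r ℂ) * (e : Mat r ℂ) * vi d * z * ((d : Mat r ℂ) * vi d) := by
    simp only [mul_assoc]
  rw [h5, h3, mul_one]
  simp only [mul_assoc]

theorem der_hcomm (ρ : FF (m + 1) n →* (Mat r ℂ)ˣ) (E : FF (m + 1) n → Mat r ℂ) (hE : IsDer ρ E)
    (i : Fin (m + 1)) (a b : (Mat r ℂ)ˣ) (ha : a = ρ (gA i)) (hb : b = ρ (gB i)) :
    ld ρ E (hcomm i) = (b : Mat r ℂ) * a * vi b * (vi a * E (gA i)) * b * vi a * vi b +
      (b : Mat r ℂ) * a * vi b * E (gB i) * vi a * vi b - (b : Mat r ℂ) * E (gA i) * vi a * vi b -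
        E (gB i) * vi b := by
  have hai : vi a * (a : Mat r ℂ) = 1 := vi_mul_self a
  have hbi : vi b * (b : Mat r ℂ) = 1 := vi_mul_self b
  have hia : (a : Mat r ℂ) * vi a = 1 := mul_vi_self a
  have hib : (b : Mat r ℂ) * vi b = 1 := mul_vi_self b
  have hai' : ∀ X : Mat r ℂ, vi a * ((a : Mat r ℂ) * X) = X := fun X => by
    rw [← mul_assoc, hai, one_mul]
  have hbi' : ∀ X : Mat r ℂ, vi b * ((b : Mat r ℂ) * X) = X := fun X => by
    rw [← mul_assoc, hbi, one_mul]
  have hia' : ∀ X : Mat r ℂ, (a : Mat r ℂ) * (vi a * X) = X := fun X => by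
    rw [← mul_assoc, hia, one_mul]
  have hib' : ∀ X : Mat r ℂ, (b : Mat r ℂ) * (vi b * X) = X := fun X => by
    rw [← mul_assoc, hib, one_mul]
  have hE1 : E (hcomm i) = E (gA i) * (b : Mat r ℂ) * vi a * vi b +
      (a : Mat r ℂ) * E (gB i) * vi a * vi b - (a : Mat r ℂ) * b * (vi a * E (gA i) * vi a) * vi b -
        (a : Mat r ℂ) * b * vi a * (vi b * E (gB i) * vi b) := by
    unfold hcomm
    rw [hE, hE, hE, der_inv hE, der_inv hE]
    simp only [map_mul, map_inv, ← ha, ← hb, Units.val_mul, vi, add_mul, mul_neg, neg_mul]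
    abel
  have hρ : vi (ρ (hcomm i)) = (b : Mat r ℂ) * a * vi b * vi a := by
    have : (ρ (hcomm i))⁻¹ = b * a * b⁻¹ * a⁻¹ := by
      simp only [hcomm, map_mul, map_inv, ← ha, ← hb]
      group
    rw [vi, this]
    simp only [Units.val_mul, vi]
  unfold ld
  rw [hρ, hE1]
  simp only [mul_sub, mul_add, mul_assoc, hai', hbi', hia', hib']

/-- Puncture step. -/
theorem ident_puncture (ρ : FF (m + 1) n →* (Mat r ℂ)ˣ) (s : Gen (m + 1) n → Mat r ℂ) (η : Mat r ℂ)
    (hR : ∀ q : Loop m n, ∀ ε : Mat r ℂ, ∑ k, trace (s k * Lam ρ q ε k) =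
      trace ((η - (ρ (loopW q) : Mat r ℂ) * η * (((ρ (loopW q))⁻¹ : (Mat r ℂ)ˣ) : Mat r ℂ)) * ε))
    (E : FF (m + 1) n → Mat r ℂ) (hE : IsDer ρ E) (hEe : ∀ j, E (gE j) = 0) (j : Fin n) :
    trace (s (Sum.inr (j, false)) * E (FreeGroup.of (Sum.inr (j, false)))) +
      trace (s (Sum.inr (j, true)) * E (FreeGroup.of (Sum.inr (j, true)))) =
      trace (η * (vi (ρ (aftL (Sum.inl j) (blocks m n))) * ld ρ E (bw (Sum.inl j)) *
        (ρ (aftL (Sum.inl j) (blocks m n)) : Mat r ℂ))) := by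
  classical
  obtain ⟨K, hK⟩ : ∃ K, K = ρ (aftL (Sum.inl j) (blocks m n)) := ⟨_, rfl⟩
  obtain ⟨d, hd⟩ : ∃ d, d = ρ (gD j) := ⟨_, rfl⟩
  obtain ⟨c, hc⟩ : ∃ c, c = ρ (gC j) := ⟨_, rfl⟩
  obtain ⟨z, hz⟩ : ∃ z, z = E (gD j) * vi d := ⟨_, rfl⟩
  have hEd : E (gD j) = z * (d : Mat r ℂ) := by
    rw [hz, mul_assoc, vi_mul_self, mul_one]
  have hee : E (FreeGroup.of (Sum.inr (j, true))) = 0 := hEe j
  have hdd : E (FreeGroup.of (Sum.inr (j, false))) = z * (d : Mat r ℂ) := hEd
  rw [hee, mul_zero, trace_zero, add_zero, hdd]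
  have hld : ld ρ E (bw (Sum.inl j)) = vi c * z * (c : Mat r ℂ) - z := by
    change ld ρ E (gC j) = _
    unfold ld
    rw [der_gC ρ E hE hEe j z (by rw [← hd]; exact hEd), ← hc, mul_sub, ← mul_assoc,
      ← mul_assoc, vi_mul_self, one_mul]
  rw [hld, ← hK]
  apply puncture_alg (K : Mat r ℂ) (vi K) d c (vi c) η _ (mul_vi_self K)
  intro ε
  have h2 := hR (Sum.inl j) ε
  rw [Finset.sum_eq_single (Sum.inr (j, false))] at h2
  · have h3 : ρ (loopW (Sum.inl j : Loop m n)) = K⁻¹ * c * K := by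
      rw [hK, hc]
      simp [loopW, loop0, kap, blk]
    have h4 : Lam ρ (Sum.inl j) ε (Sum.inr (j, false)) =
        -((K : Mat r ℂ) * ε * vi K * (d : Mat r ℂ)) := by
      simp only [Lam, kap, blk, if_true]
      rw [← hK, ← hd]
    rw [h3, h4] at h2
    rw [h2]
    congr 1
    simp [vi, mul_assoc]
  · intro k _ hk
    have : Lam ρ (Sum.inl j) ε k = 0 := by
      simp only [Lam]
      rw [if_neg hk]
    rw [this, mul_zero, trace_zero]
  · simp

/-- First handle relation. -/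
theorem ident_handle_a (ρ : FF (m + 1) n →* (Mat r ℂ)ˣ) (s : Gen (m + 1) n → Mat r ℂ) (η : Mat r ℂ)
    (hR : ∀ q : Loop m n, ∀ ε : Mat r ℂ, ∑ k, trace (s k * Lam ρ q ε k) =
      trace ((η - (ρ (loopW q) : Mat r ℂ) * η * (((ρ (loopW q))⁻¹ : (Mat r ℂ)ˣ) : Mat r ℂ)) * ε))
    (i : Fin m) (K a b : (Mat r ℂ)ˣ) (hK : K = ρ (aftL (Sum.inr i) (blocks m n)))
    (ha : a = ρ (gA i.castSucc)) (hb' : b = ρ (gB i.castSucc)) (ε : Mat r ℂ) :
    trace (s (Sum.inl (i.castSucc, true)) * -((K : Mat r ℂ) * ε * vi K * (b : Mat r ℂ))) =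
      trace ((η - (vi K * ((b : Mat r ℂ) * vi a * vi b) * (K : Mat r ℂ)) * η *
        (vi K * ((b : Mat r ℂ) * (a : Mat r ℂ) * vi b) * (K : Mat r ℂ))) * ε) := by
  classical
  have h2 := hR (Sum.inr (i, false)) ε
  rw [Finset.sum_eq_single (Sum.inl (i.castSucc, true))] at h2
  · have h3 : ρ (loopW (Sum.inr (i, false) : Loop m n)) = K⁻¹ * (b * a⁻¹ * b⁻¹) * K := by
      rw [hK, ha, hb']
      simp [loopW, loop0, kap, blk]
    have h4 : Lam ρ (Sum.inr (i, false)) ε (Sum.inl (i.castSucc, true)) =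
        -((K : Mat r ℂ) * ε * vi K * (b : Mat r ℂ)) := by
      simp only [Lam, kap, blk, if_true]
      rw [← hK, ← hb']
    rw [h3, h4] at h2
    rw [h2]
    congr 1
    simp [vi, mul_assoc]
  · intro k _ hk
    have : Lam ρ (Sum.inr (i, false)) ε k = 0 := by
      simp only [Lam]
      rw [if_neg hk]
    rw [this, mul_zero, trace_zero]
  · simp

/-- Second handle relation. -/
theorem ident_handle_b (ρ : FF (m + 1) n →* (Mat r ℂ)ˣ) (s : Gen (m + 1) n → Mat r ℂ) (η : Mat r ℂ)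
    (hR : ∀ q : Loop m n, ∀ ε : Mat r ℂ, ∑ k, trace (s k * Lam ρ q ε k) =
      trace ((η - (ρ (loopW q) : Mat r ℂ) * η * (((ρ (loopW q))⁻¹ : (Mat r ℂ)ˣ) : Mat r ℂ)) * ε))
    (i : Fin m) (K a b : (Mat r ℂ)ˣ) (hK : K = ρ (aftL (Sum.inr i) (blocks m n)))
    (ha : a = ρ (gA i.castSucc)) (hb' : b = ρ (gB i.castSucc)) (ε : Mat r ℂ) :
    trace (s (Sum.inl (i.castSucc, false)) * ((a : Mat r ℂ) * ((K : Mat r ℂ) * ε * vi K))) +
    trace (s (Sum.inl (i.castSucc, true)) * ((b : Mat r ℂ) * ((K : Mat r ℂ) * ε * vi K) -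
              ((K : Mat r ℂ) * ε * vi K) * (b : Mat r ℂ))) =
      trace ((η - (vi K * vi b * (K : Mat r ℂ)) * η * (vi K * (b : Mat r ℂ) * (K : Mat r ℂ))) *
        ε) := by
  classical
  have hne : (Sum.inl (i.castSucc, true) : Gen (m + 1) n) ≠ Sum.inl (i.castSucc, false) := by
    simp
  have h2 := hR (Sum.inr (i, true)) ε
  rw [Fintype.sum_eq_add (Sum.inl (i.castSucc, false)) (Sum.inl (i.castSucc, true))
    hne.symm] at h2
  · have h3 : ρ (loopW (Sum.inr (i, true) : Loop m n)) = K⁻¹ * b⁻¹ * K := by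
      rw [hK, hb']
      simp [loopW, loop0, kap, blk]
    have h4 : Lam ρ (Sum.inr (i, true)) ε (Sum.inl (i.castSucc, false)) =
        (a : Mat r ℂ) * ((K : Mat r ℂ) * ε * vi K) := by
      simp only [Lam, kap, blk, if_true]
      rw [← hK, ← ha]
    have h5 : Lam ρ (Sum.inr (i, true)) ε (Sum.inl (i.castSucc, true)) =
        (b : Mat r ℂ) * ((K : Mat r ℂ) * ε * vi K) -
          ((K : Mat r ℂ) * ε * vi K) * (b : Mat r ℂ) := by
      simp only [Lam, kap, blk]
      rw [if_neg hne]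
      simp only [if_true]
      rw [← hK, ← hb']
    rw [h3, h4, h5] at h2
    rw [h2]
    congr 1
    simp [vi, mul_assoc]
  · intro k hk
    have : Lam ρ (Sum.inr (i, true)) ε k = 0 := by
      simp only [Lam]
      rw [if_neg hk.1, if_neg hk.2]
    rw [this, mul_zero, trace_zero]

/-- Handle step. -/
theorem ident_handle (ρ : FF (m + 1) n →* (Mat r ℂ)ˣ) (s : Gen (m + 1) n → Mat r ℂ) (η : Mat r ℂ)
    (hR : ∀ q : Loop m n, ∀ ε : Mat r ℂ, ∑ k, trace (s k * Lam ρ q ε k) =
      trace ((η - (ρ (loopW q) : Mat r ℂ) * η * (((ρ (loopW q))⁻¹ : (Mat r ℂ)ˣ) : Mat r ℂ)) * ε))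
    (E : FF (m + 1) n → Mat r ℂ) (hE : IsDer ρ E) (i : Fin m) :
    trace (s (Sum.inl (i.castSucc, false)) * E (FreeGroup.of (Sum.inl (i.castSucc, false)))) +
      trace (s (Sum.inl (i.castSucc, true)) * E (FreeGroup.of (Sum.inl (i.castSucc, true)))) =
      trace (η * (vi (ρ (aftL (Sum.inr i) (blocks m n))) * ld ρ E (bw (Sum.inr i)) *
        (ρ (aftL (Sum.inr i) (blocks m n)) : Mat r ℂ))) := by
  obtain ⟨K, hK⟩ : ∃ K, K = ρ (aftL (Sum.inr i) (blocks m n)) := ⟨_, rfl⟩
  obtain ⟨a, ha⟩ : ∃ a, a = ρ (gA i.castSucc) := ⟨_, rfl⟩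
  obtain ⟨b, hb'⟩ : ∃ b, b = ρ (gB i.castSucc) := ⟨_, rfl⟩
  have hld : ld ρ E (bw (Sum.inr i)) = (b : Mat r ℂ) * a * vi b * (vi a * E (gA i.castSucc)) * b *
      vi a * vi b + (b : Mat r ℂ) * a * vi b * E (gB i.castSucc) * vi a * vi b -
      (b : Mat r ℂ) * E (gA i.castSucc) * vi a * vi b - E (gB i.castSucc) * vi b :=
    der_hcomm ρ E hE i.castSucc a b ha hb'
  rw [hld, ← hK]
  have h1 := ident_handle_a ρ s η hR i K a b hK ha hb'
  have h2 := ident_handle_b ρ s η hR i K a b hK ha hb'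
  exact handle_alg (K : Mat r ℂ) (vi K) (a : Mat r ℂ) (vi a) (b : Mat r ℂ) (vi b) η
    (s (Sum.inl (i.castSucc, false))) (s (Sum.inl (i.castSucc, true))) (mul_vi_self K)
    (mul_vi_self a) (vi_mul_self b) (mul_vi_self b) h1 h2 (E (gA i.castSucc)) (E (gB i.castSucc))

/-- The derivation on the relator. -/
theorem der_relator (ρ : FF (m + 1) n →* (Mat r ℂ)ˣ) (hrel : ρ (relator (m + 1) n) = 1)
    (hb : ρ (gB (Fin.last m)) = 1) (A : (Mat r ℂ)ˣ) (hA : A = ρ (gA (Fin.last m)))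
    (E : FF (m + 1) n → Mat r ℂ) (hE : IsDer ρ E) :
    E (relator (m + 1) n) = ld ρ E ((blocks m n).map bw).prod +
      ((A : Mat r ℂ) * E (gB (Fin.last m)) * vi A - E (gB (Fin.last m))) := by
  have hc1 : ρ (hcomm (Fin.last m)) = 1 := by
    simp only [hcomm, map_mul, map_inv, hb]
    group
  have hP1 : ρ ((blocks m n).map bw).prod = 1 := by
    rw [relator_eq_blocks, map_mul, hc1, mul_one] at hrel
    exact hrel
  have hEc : E (hcomm (Fin.last m)) = (A : Mat r ℂ) * E (gB (Fin.last m)) * vi A -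
      E (gB (Fin.last m)) := by
    have h1 := der_hcomm ρ E hE (Fin.last m) A 1 hA hb.symm
    have h2 : ld ρ E (hcomm (Fin.last m)) = E (hcomm (Fin.last m)) := by
      unfold ld
      rw [hc1]
      simp [vi]
    rw [← h2, h1]
    have h3 : vi (1 : (Mat r ℂ)ˣ) = 1 := by simp [vi]
    rw [h3]
    simp only [Units.val_one, one_mul, mul_one]
    have h4 : (A : Mat r ℂ) * (vi A * E (gA (Fin.last m))) = E (gA (Fin.last m)) := by
      rw [← mul_assoc, mul_vi_self, one_mul]
    rw [h4]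
    abel
  rw [relator_eq_blocks, hE, hP1, hc1, hEc]
  unfold ld
  rw [hP1]
  simp [vi]

/-- TASK F2. -/
theorem identify (ρ : FF (m + 1) n →* (Mat r ℂ)ˣ) (hrel : ρ (relator (m + 1) n) = 1)
    (hb : ρ (gB (Fin.last m)) = 1) (s : Gen (m + 1) n → Mat r ℂ) (η : Mat r ℂ)
    (hlast : s (Sum.inl (Fin.last m, false)) = 0)
    (hQ : s (Sum.inl (Fin.last m, true)) =
      (((ρ (gA (Fin.last m)))⁻¹ : (Mat r ℂ)ˣ) : Mat r ℂ) * η * (ρ (gA (Fin.last m)) : Mat r ℂ) - η)
    (hR : ∀ q : Loop m n, ∀ ε : Mat r ℂ, ∑ k, trace (s k * Lam ρ q ε k) =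
      trace ((η - (ρ (loopW q) : Mat r ℂ) * η * (((ρ (loopW q))⁻¹ : (Mat r ℂ)ˣ) : Mat r ℂ)) * ε))
    (E : FF (m + 1) n → Mat r ℂ) (hE : IsDer ρ E) (hEe : ∀ j, E (gE j) = 0) :
    ∑ k, trace (s k * E (FreeGroup.of k)) = trace (η * E (relator (m + 1) n)) := by
  obtain ⟨A, hA⟩ : ∃ A, A = ρ (gA (Fin.last m)) := ⟨_, rfl⟩
  have hErel := der_relator ρ hrel hb A hA E hE
  have hpun := ident_puncture ρ s η hR E hE hEe
  have hhan := ident_handle ρ s η hR E hE
  -- the last handle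
  have hlastB : trace (s (Sum.inl (Fin.last m, true)) * E (FreeGroup.of (Sum.inl (Fin.last m, true))))
      = trace (η * ((A : Mat r ℂ) * E (gB (Fin.last m)) * vi A - E (gB (Fin.last m)))) := by
    rw [hQ, ← hA]
    change trace ((vi A * η * (A : Mat r ℂ) - η) * E (gB (Fin.last m))) = _
    rw [sub_mul, mul_sub, trace_sub, trace_sub]
    congr 1
    rw [mul_assoc (vi A) η, mul_assoc (vi A), Matrix.trace_mul_comm (vi A)]
    simp only [mul_assoc]
  rw [hErel, ld_blocks ρ E hE _ nodup_blocks, sum_blocks, mul_add, mul_add, trace_add, trace_add,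
    Finset.mul_sum, Finset.mul_sum, trace_sum, trace_sum, ← hlastB]
  rw [Fintype.sum_sum_type, Fintype.sum_prod_type, Fintype.sum_prod_type]
  simp only [Fintype.sum_bool]
  rw [Fin.sum_univ_castSucc, hlast, zero_mul, trace_zero]
  have e1 : ∀ j : Fin n, trace (s (Sum.inr (j, true)) * E (FreeGroup.of (Sum.inr (j, true)))) +
      trace (s (Sum.inr (j, false)) * E (FreeGroup.of (Sum.inr (j, false)))) =
      trace (η * (vi (ρ (aftL (Sum.inl j) (blocks m n))) * ld ρ E (bw (Sum.inl j)) *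
        (ρ (aftL (Sum.inl j) (blocks m n)) : Mat r ℂ))) := fun j => by
    rw [add_comm]; exact hpun j
  have e2 : ∀ i : Fin m,
      trace (s (Sum.inl (i.castSucc, true)) * E (FreeGroup.of (Sum.inl (i.castSucc, true)))) +
      trace (s (Sum.inl (i.castSucc, false)) * E (FreeGroup.of (Sum.inl (i.castSucc, false)))) =
      trace (η * (vi (ρ (aftL (Sum.inr i) (blocks m n))) * ld ρ E (bw (Sum.inr i)) *
        (ρ (aftL (Sum.inr i) (blocks m n)) : Mat r ℂ))) := fun i => by
    rw [add_comm]; exact hhan i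
  rw [Finset.sum_congr rfl fun j _ => e1 j, Finset.sum_congr rfl fun i _ => e2 i]
  ring

end Vale.Agent.P002R
end

section

namespace Vale.Agent.P002

open Matrix

variable {r : ℕ} {R : Type*} [CommRing R]

/-- `τ - M` with `τ` a natural number. -/
def tm (n : ℕ) (M : Mat r R) : Mat r R := (n : R) • (1 : Mat r R) - M

/-- Matrix of the linear system; `C` stands for the inverse of the commutator. -/
def sysM (C Y : Mat r R) : Mat r R :=
  Matrix.of fun i j => if (i : ℕ) = 0 then ((1 : Fin r → R) ᵥ* adjugate Y) j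
    else ((1 : Fin r → R) ᵥ* (adjugate (tm i Y) - adjugate (tm i (C * Y)) * C)) j

/-- Right-hand side of the linear system. -/
def sysR (C Y : Mat r R) (θ : R) : Fin r → R :=
  fun i => if (i : ℕ) = 0 then θ - det Y else det (tm i Y) - det (tm i (C * Y))

theorem tm_add (n : ℕ) (Y : Mat r R) (c : Fin r → R) :
    tm n (Y + vecMulVec c 1) = tm n Y + vecMulVec (-c) 1 := by
  unfold tm
  ext i j
  simp
  ring

theorem sys_tm (C Y : Mat r R) (θ : R) (c : Fin r → R)
    (h : sysM C Y *ᵥ c = sysR C Y θ) (i : Fin r) (hi : (i : ℕ) ≠ 0) :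
    det (tm i (Y + vecMulVec c 1)) = det (tm i (C * (Y + vecMulVec c 1))) := by
  have h0 := congrFun h i
  simp only [sysM, sysR, mulVec, dotProduct, Matrix.of_apply, if_neg hi] at h0
  have e1 : C * (Y + vecMulVec c 1) = C * Y + vecMulVec (C *ᵥ c) 1 := by
    rw [mul_add, mul_vecMulVec]
  rw [e1, tm_add, tm_add, det_add_vecMulVec', det_add_vecMulVec']
  have h1 : ∑ x, ((1 : Fin r → R) ᵥ* (adjugate (tm i Y) - adjugate (tm i (C * Y)) * C)) x * c x
      = (1 : Fin r → R) ⬝ᵥ adjugate (tm i Y) *ᵥ c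
        - (1 : Fin r → R) ⬝ᵥ adjugate (tm i (C * Y)) *ᵥ (C *ᵥ c) := by
    rw [mulVec_mulVec, ← dotProduct_sub, ← sub_mulVec, dotProduct_mulVec]
    rfl
  rw [h1] at h0
  simp only [mulVec_neg, dotProduct_neg]
  linear_combination -h0

theorem eval_charpoly_tm (M : Mat r R) (n : ℕ) :
    M.charpoly.eval (n : R) = det (tm n M) := by
  rw [Matrix.eval_charpoly]
  congr 1
  unfold tm
  rw [scalar_apply]
  ext i j
  by_cases hij : i = j
  · subst hij; simp
  · simp [hij]

theorem charpoly_eq_of_tm [IsDomain R] [CharZero R] (A A' : Mat r R)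
    (h0 : det A = det A') (h : ∀ i : Fin r, (i : ℕ) ≠ 0 → det (tm i A) = det (tm i A')) :
    A.charpoly = A'.charpoly := by
  have hdeg : (A.charpoly - A'.charpoly).degree < ((Finset.univ : Finset (Fin r)).card : ℕ) := by
    rw [Finset.card_univ, Fintype.card_fin]
    have e1 : A.charpoly.degree = (r : WithBot ℕ) := by
      rw [Matrix.charpoly_degree_eq_dim, Fintype.card_fin]
    have e2 : A'.charpoly.degree = (r : WithBot ℕ) := by
      rw [Matrix.charpoly_degree_eq_dim, Fintype.card_fin]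
    have := Polynomial.degree_sub_lt_left (p := A.charpoly) (q := A'.charpoly) (by rw [e1, e2])
      (Matrix.charpoly_monic A).ne_zero
      (by rw [(Matrix.charpoly_monic A).leadingCoeff, (Matrix.charpoly_monic A').leadingCoeff])
    rwa [e1] at this
  refine Polynomial.eq_of_degree_sub_lt_of_eval_index_eq (v := fun i : Fin r => ((i : ℕ) : R))
    (s := Finset.univ) ?_ hdeg ?_
  · intro i _ j _ hij
    simp only [Nat.cast_inj] at hij
    exact Fin.ext hij
  · intro i _
    rw [eval_charpoly_tm, eval_charpoly_tm]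
    by_cases hi : (i : ℕ) = 0
    · have e : ∀ M : Mat r R, det (tm (i : ℕ) M) = (-1) ^ r * det M := by
        intro M
        rw [hi]
        have : tm 0 M = -M := by simp [tm]
        rw [this, det_neg, Fintype.card_fin]
      rw [e, e, h0]
    · exact h i hi

/-- Naturality. -/
theorem sysM_map {S : Type*} [CommRing S] (φ : R →+* S) (C Y : Mat r R) :
    (sysM C Y).map φ = sysM (C.map φ) (Y.map φ) := by
  have ht : ∀ (n : ℕ) (M : Mat r R), (tm n M).map φ = tm n (M.map φ) := by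
    intro n M
    unfold tm
    ext i j
    simp [one_apply, apply_ite φ]
  have hadj : ∀ M : Mat r R, (adjugate M).map φ = adjugate (M.map φ) := fun M =>
    RingHom.map_adjugate φ M
  have hmul : ∀ M N : Mat r R, (M * N).map φ = M.map φ * N.map φ := fun M N => Matrix.map_mul
  ext i j
  simp only [sysM, Matrix.map_apply, Matrix.of_apply]
  have hv : ∀ M : Mat r R, φ (((1 : Fin r → R) ᵥ* M) j) = ((1 : Fin r → S) ᵥ* (M.map φ)) j := by
    intro M
    simp [vecMul, dotProduct]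
  split_ifs
  · rw [hv, hadj]
  · rw [hv]
    congr 1
    have h2 : (adjugate (tm i Y) - adjugate (tm i (C * Y)) * C).map φ =
        (adjugate (tm i Y)).map φ - (adjugate (tm i (C * Y)) * C).map φ :=
      map_sub (RingHom.mapMatrix φ) _ _
    rw [h2, hmul, hadj, hadj, ht, ht, hmul]

theorem sysR_map {S : Type*} [CommRing S] (φ : R →+* S) (C Y : Mat r R) (θ : R) :
    (fun i => φ (sysR C Y θ i)) = sysR (C.map φ) (Y.map φ) (φ θ) := by
  have ht : ∀ (n : ℕ) (M : Mat r R), (tm n M).map φ = tm n (M.map φ) := by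
    intro n M
    unfold tm
    ext i j
    simp [one_apply, apply_ite φ]
  have hmul : ∀ M N : Mat r R, (M * N).map φ = M.map φ * N.map φ := fun M N => Matrix.map_mul
  have hdet : ∀ M : Mat r R, φ (det M) = det (M.map φ) := fun M => RingHom.map_det φ M
  funext i
  simp only [sysR]
  split_ifs
  · rw [map_sub, hdet]
  · rw [map_sub, hdet, hdet, ht, ht, hmul]

theorem kry_map {S : Type*} [CommRing S] (φ : R →+* S) (A : Mat r R) (v : Fin r → R) :
    (kry A v).map φ = kry (A.map φ) (fun i => φ (v i)) := by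
  have hpow : ∀ n : ℕ, (A ^ n).map φ = (A.map φ) ^ n := fun n =>
    map_pow (RingHom.mapMatrix φ) A n
  ext i j
  simp only [kry, Matrix.map_apply, Matrix.of_apply, mulVec, dotProduct, map_sum, map_mul]
  apply Finset.sum_congr rfl
  intro k _
  rw [← hpow]
  rfl

end Vale.Agent.P002
end

section

namespace Vale.Agent.P002

open Matrix

/-- The relation of the surface group for a tuple of matrices with explicit inverses. -/
def relI {g r : ℕ} {R : Type*} [CommRing R] (X Y : Fin g × Bool → Mat r R) : Mat r R :=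
  (List.ofFn fun i : Fin g => X (i, false) * X (i, true) * Y (i, false) * Y (i, true)).prod

theorem relT_eq_relI {g r : ℕ} (X : Fin g × Bool → Mat r ℂ) :
    relT X = relI X (fun k => (X k)⁻¹) := rfl

end Vale.Agent.P002
end

section

namespace Vale.Agent.P002

open Matrix

variable {n r : ℕ}

section
variable {R : Type*}

/-- Add a last handle. -/
def addH (y : Fin n × Bool → Mat r R) (A B : Mat r R) : Fin (n + 1) × Bool → Mat r R :=
  fun k => Fin.lastCases (motive := fun _ => Mat r R) (if k.2 = true then B else A)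
    (fun i => y (i, k.2)) k.1

@[simp] theorem addH_last_false (y : Fin n × Bool → Mat r R) (A B : Mat r R) :
    addH y A B (Fin.last n, false) = A := by simp [addH]

@[simp] theorem addH_last_true (y : Fin n × Bool → Mat r R) (A B : Mat r R) :
    addH y A B (Fin.last n, true) = B := by simp [addH]

@[simp] theorem addH_castSucc (y : Fin n × Bool → Mat r R) (A B : Mat r R) (i : Fin n)
    (b : Bool) : addH y A B (i.castSucc, b) = y (i, b) := by simp [addH]

theorem addH_forall (p : Mat r R → Prop) (y : Fin n × Bool → Mat r R) (A B : Mat r R)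
    (hy : ∀ k, p (y k)) (hA : p A) (hB : p B) : ∀ k, p (addH y A B k) := by
  rintro ⟨i, b⟩
  refine Fin.lastCases ?_ (fun i => ?_) i
  · cases b
    · rw [addH_last_false]; exact hA
    · rw [addH_last_true]; exact hB
  · rw [addH_castSucc]; exact hy _

end

variable {R : Type*} [CommRing R]

theorem relI_addH (y y' : Fin n × Bool → Mat r R) (A B A' B' : Mat r R) :
    relI (addH y A B) (addH y' A' B') = relI y y' * (A * B * A' * B') := by
  unfold relI
  rw [List.ofFn_succ', List.prod_concat]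
  simp

/-- Good pairs. -/
def Good (A B : Mat r ℂ) : Prop :=
  IsUnit A ∧ IsUnit B ∧ IsUnit (kry A 1) ∧ IsUnit (sysM (B * A * B⁻¹ * A⁻¹) A)

theorem map_inv_of_unit {S : Type*} [CommRing S] (φ : R →+* S) (M : Mat r R) (h : IsUnit M) :
    (M⁻¹).map φ = (M.map φ)⁻¹ := by
  rw [Matrix.isUnit_iff_isUnit_det] at h
  symm
  apply Matrix.inv_eq_right_inv
  have := Matrix.mul_nonsing_inv M h
  have h2 := congrArg (fun N : Mat r R => N.map φ) this
  beta_reduce at h2
  rw [Matrix.map_mul, Matrix.map_one _ (map_zero φ) (map_one φ)] at h2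
  exact h2

/-- The inverse of the commutator, from the relation. -/
theorem rel_inv {W A B : Mat r ℂ} (hA : IsUnit A) (hB : IsUnit B)
    (h : W * (A * B * A⁻¹ * B⁻¹) = 1) : W = B * A * B⁻¹ * A⁻¹ := by
  rw [Matrix.isUnit_iff_isUnit_det] at hA hB
  have h2 : (A * B * A⁻¹ * B⁻¹) * (B * A * B⁻¹ * A⁻¹) = 1 := by
    have e1 : (A * B * A⁻¹ * B⁻¹) * (B * A * B⁻¹ * A⁻¹) =
        A * B * A⁻¹ * (B⁻¹ * B) * A * B⁻¹ * A⁻¹ := by
      simp only [mul_assoc]
    rw [e1, Matrix.nonsing_inv_mul _ hB, mul_one, mul_assoc (A * B), Matrix.nonsing_inv_mul _ hA,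
      mul_one, mul_assoc A, Matrix.mul_nonsing_inv _ hB, mul_one, Matrix.mul_nonsing_inv _ hA]
  calc W = W * ((A * B * A⁻¹ * B⁻¹) * (B * A * B⁻¹ * A⁻¹)) := by rw [h2, mul_one]
    _ = B * A * B⁻¹ * A⁻¹ := by rw [← mul_assoc, h, one_mul]

theorem sysR_zero {A B : Mat r ℂ} (hA : IsUnit A) (hB : IsUnit B) :
    sysR (B * A * B⁻¹ * A⁻¹) A (det A) = 0 := by
  rw [Matrix.isUnit_iff_isUnit_det] at hA hB
  have e : B * A * B⁻¹ * A⁻¹ * A = B * A * B⁻¹ := by
    rw [mul_assoc, Matrix.nonsing_inv_mul _ hA, mul_one]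
  funext i
  simp only [sysR, Pi.zero_apply]
  split_ifs
  · rw [sub_self]
  · rw [e]
    have : tm (i : ℕ) (B * A * B⁻¹) = B * tm (i : ℕ) A * B⁻¹ := by
      unfold tm
      rw [mul_sub, sub_mul, Matrix.mul_smul, mul_one, Matrix.smul_mul,
        Matrix.mul_nonsing_inv _ hB]
    rw [this, det_mul, det_mul, mul_right_comm, ← det_mul, Matrix.mul_nonsing_inv _ hB, det_one,
      one_mul, sub_self]

end Vale.Agent.P002
end

section

namespace Vale.Agent.P002

open Matrix

variable {r : ℕ}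

/-- The system matrix with cleared denominators. -/
def sysHat {R : Type*} [CommRing R] (A B : Mat r R) : Mat r R :=
  Matrix.of fun i j => if (i : ℕ) = 0 then ((1 : Fin r → R) ᵥ* adjugate A) j
    else ((1 : Fin r → R) ᵥ* ((det A * det B) • adjugate (tm i A)
      - B * adjugate (tm i A) * A * adjugate B * adjugate A)) j

/-- Polynomial detecting good pairs. -/
def Ghat {R : Type*} [CommRing R] (A B : Mat r R) : R :=
  det A * det B * det (kry A 1) * det (sysHat A B)

theorem Ghat_map {R S : Type*} [CommRing R] [CommRing S] (φ : R →+* S) (A B : Mat r R) :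
    φ (Ghat A B) = Ghat (A.map φ) (B.map φ) := by
  have ht : ∀ (n : ℕ) (M : Mat r R), (tm n M).map φ = tm n (M.map φ) := by
    intro n M
    unfold tm
    ext i j
    simp [one_apply, apply_ite φ]
  have hadj : ∀ M : Mat r R, (adjugate M).map φ = adjugate (M.map φ) := fun M =>
    RingHom.map_adjugate φ M
  have hmul : ∀ M N : Mat r R, (M * N).map φ = M.map φ * N.map φ := fun M N => Matrix.map_mul
  have hdet : ∀ M : Mat r R, φ (det M) = det (M.map φ) := fun M => RingHom.map_det φ M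
  have hsub : ∀ M N : Mat r R, (M - N).map φ = M.map φ - N.map φ := fun M N =>
    map_sub (RingHom.mapMatrix φ) _ _
  have hsmul : ∀ (c : R) (M : Mat r R), (c • M).map φ = φ c • M.map φ := by
    intro c M; ext i j; simp
  have h1 : (fun i => φ ((1 : Fin r → R) i)) = (1 : Fin r → S) := by
    funext i; simp
  have hv : ∀ (M : Mat r R) j, φ (((1 : Fin r → R) ᵥ* M) j) = ((1 : Fin r → S) ᵥ* (M.map φ)) j := by
    intro M j
    simp [vecMul, dotProduct]
  have hsys : (sysHat A B).map φ = sysHat (A.map φ) (B.map φ) := by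
    ext i j
    simp only [sysHat, Matrix.map_apply, Matrix.of_apply]
    split_ifs
    · rw [hv, hadj]
    · rw [hv, hsub, hsmul, hmul, hmul, hmul, hmul, hadj, hadj, hadj, ht, map_mul, hdet, hdet]
  unfold Ghat
  rw [map_mul, map_mul, map_mul, hdet, hdet, hdet, hdet, kry_map, hsys, h1]

theorem adjugate_conj_unit (B : Mat r ℂ) (hB : IsUnit B.det) (M : Mat r ℂ) :
    adjugate (B * M * B⁻¹) = B * adjugate M * B⁻¹ := by
  have h2 : det B ≠ 0 := isUnit_iff_ne_zero.1 hB
  have hadjB : adjugate B = det B • B⁻¹ := by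
    rw [Matrix.inv_def, smul_smul, Ring.inverse_eq_inv', mul_inv_cancel₀ h2, one_smul]
  have hBi : adjugate B⁻¹ = (det B)⁻¹ • B := by
    calc adjugate B⁻¹ = adjugate B⁻¹ * (B⁻¹ * B) := by
          rw [Matrix.nonsing_inv_mul _ hB, mul_one]
      _ = (adjugate B⁻¹ * B⁻¹) * B := by rw [mul_assoc]
      _ = (det B)⁻¹ • B := by
          rw [adjugate_mul, Matrix.smul_mul, one_mul, det_nonsing_inv, Ring.inverse_eq_inv']
  rw [adjugate_mul_distrib, adjugate_mul_distrib, hBi, hadjB, Matrix.smul_mul, Matrix.mul_smul,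
    Matrix.mul_smul, smul_smul, inv_mul_cancel₀ h2, one_smul, mul_assoc]

theorem clear_identity (A B P Ai Bi : Mat r ℂ) (a b : ℂ) (h : Bi * B = 1) :
    (a * b) • P - B * P * A * (b • Bi) * (a • Ai) =
      (a * b) • (P - B * P * Bi * (B * A * Bi * Ai)) := by
  have h6 : B * P * Bi * (B * A * Bi * Ai) = B * P * (Bi * B) * A * Bi * Ai := by
    simp only [mul_assoc]
  rw [h6, h, mul_one, smul_sub, Matrix.mul_smul, Matrix.mul_smul, Matrix.smul_mul, smul_smul]

theorem good_of_Ghat {A B : Mat r ℂ} (h : Ghat A B ≠ 0) : Good A B := by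
  unfold Ghat at h
  have h4 : det (sysHat A B) ≠ 0 := right_ne_zero_of_mul h
  have h3 : det (kry A 1) ≠ 0 := right_ne_zero_of_mul (left_ne_zero_of_mul h)
  have h2 : det B ≠ 0 := right_ne_zero_of_mul (left_ne_zero_of_mul (left_ne_zero_of_mul h))
  have h1 : det A ≠ 0 := left_ne_zero_of_mul (left_ne_zero_of_mul (left_ne_zero_of_mul h))
  have hA : IsUnit A.det := isUnit_iff_ne_zero.2 h1
  have hB : IsUnit B.det := isUnit_iff_ne_zero.2 h2
  refine ⟨(Matrix.isUnit_iff_isUnit_det _).2 hA, (Matrix.isUnit_iff_isUnit_det _).2 hB,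
    (Matrix.isUnit_iff_isUnit_det _).2 (isUnit_iff_ne_zero.2 h3), ?_⟩
  rw [Matrix.isUnit_iff_isUnit_det, isUnit_iff_ne_zero]
  have hadjA : adjugate A = det A • A⁻¹ := by
    rw [Matrix.inv_def, smul_smul, Ring.inverse_eq_inv', mul_inv_cancel₀ h1, one_smul]
  have hadjB : adjugate B = det B • B⁻¹ := by
    rw [Matrix.inv_def, smul_smul, Ring.inverse_eq_inv', mul_inv_cancel₀ h2, one_smul]
  have e : B * A * B⁻¹ * A⁻¹ * A = B * A * B⁻¹ := by
    rw [mul_assoc, Matrix.nonsing_inv_mul _ hA, mul_one]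
  have hconj := adjugate_conj_unit B hB
  have htm : ∀ i : ℕ, tm i (B * A * B⁻¹) = B * tm i A * B⁻¹ := by
    intro i
    unfold tm
    rw [mul_sub, sub_mul, Matrix.mul_smul, mul_one, Matrix.smul_mul,
      Matrix.mul_nonsing_inv _ hB]
  have key : sysHat A B = diagonal (fun i : Fin r => if (i : ℕ) = 0 then 1 else det A * det B) *
      sysM (B * A * B⁻¹ * A⁻¹) A := by
    ext i j
    rw [diagonal_mul]
    simp only [sysHat, sysM, Matrix.of_apply]
    split_ifs
    · rw [one_mul]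
    · rw [e, htm, hconj, hadjA, hadjB]
      have h5 := clear_identity A B (adjugate (tm i A)) A⁻¹ B⁻¹ (det A) (det B)
        (Matrix.nonsing_inv_mul _ hB)
      rw [h5, vecMul_smul]
      rfl
  rw [key, det_mul] at h4
  exact right_ne_zero_of_mul h4

/-- Example: the diagonal part. -/
def exA (r : ℕ) : Mat r ℂ := diagonal fun i : Fin r => ((i : ℕ) : ℂ) + 1

/-- Example: all ones plus identity. -/
def exB (r : ℕ) : Mat r ℂ := vecMulVec 1 1 + 1

theorem exB_mulVec (z : Fin r → ℂ) (i : Fin r) : (exB r *ᵥ z) i = (∑ j, z j) + z i := by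
  simp [exB, mulVec, dotProduct, one_apply, add_mul, Finset.sum_add_distrib]

theorem one_vecMul_exB (i : Fin r) : ((1 : Fin r → ℂ) ᵥ* exB r) i = r + 1 := by
  simp [exB, vecMul, dotProduct, one_apply, Finset.sum_add_distrib]

/-- The Lagrange type argument. -/
theorem lagrange_zero (a : Fin r → ℂ) (ha : Function.Injective a) (x : Fin r → ℂ)
    (h : ∀ i : Fin r, ∑ k, (∏ j ∈ Finset.univ.erase k, (((i : ℕ) : ℂ) - a j)) * x k = 0) :
    x = 0 := by
  classical
  let q : Polynomial ℂ := ∑ k, Polynomial.C (x k) *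
    ∏ j ∈ Finset.univ.erase k, (Polynomial.X - Polynomial.C (a j))
  have heval : ∀ t : ℂ, q.eval t = ∑ k, (∏ j ∈ Finset.univ.erase k, (t - a j)) * x k := by
    intro t
    simp only [q, Polynomial.eval_finsetSum, Polynomial.eval_mul, Polynomial.eval_C,
      Polynomial.eval_prod, Polynomial.eval_sub, Polynomial.eval_X]
    apply Finset.sum_congr rfl
    intro k _
    ring
  rcases Nat.eq_zero_or_pos r with hr | hr
  · subst hr
    exact Subsingleton.elim _ _
  have hdeg : q.degree < ((Finset.univ : Finset (Fin r)).card : ℕ) := by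
    rw [Finset.card_univ, Fintype.card_fin]
    refine lt_of_le_of_lt (Polynomial.degree_sum_le _ _) ?_
    rw [Finset.sup_lt_iff (by exact_mod_cast WithBot.bot_lt_coe r)]
    intro k _
    have h1 : (∏ j ∈ Finset.univ.erase k, (Polynomial.X - Polynomial.C (a j))).degree
        = ((r - 1 : ℕ) : WithBot ℕ) := by
      rw [Polynomial.degree_prod]
      simp only [Polynomial.degree_X_sub_C]
      rw [Finset.sum_const, Finset.card_erase_of_mem (Finset.mem_univ k), Finset.card_univ,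
        Fintype.card_fin]
      simp
    calc (Polynomial.C (x k) * ∏ j ∈ Finset.univ.erase k, (Polynomial.X - Polynomial.C (a j))).degree
        ≤ (Polynomial.C (x k)).degree +
          (∏ j ∈ Finset.univ.erase k, (Polynomial.X - Polynomial.C (a j))).degree :=
          Polynomial.degree_mul_le _ _
      _ ≤ 0 + ((r - 1 : ℕ) : WithBot ℕ) := by
          rw [h1]
          gcongr
          exact Polynomial.degree_C_le
      _ < (r : WithBot ℕ) := by
          rw [zero_add]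
          exact_mod_cast Nat.sub_lt hr one_pos
  have hq : q = 0 := by
    refine Polynomial.eq_zero_of_degree_lt_of_eval_index_eq_zero
      (v := fun i : Fin r => ((i : ℕ) : ℂ)) (s := Finset.univ) ?_ hdeg ?_
    · intro i _ j _ hij
      simp only [Nat.cast_inj] at hij
      exact Fin.ext hij
    · intro i _
      rw [heval]
      exact h i
  funext k
  have h1 := heval (a k)
  rw [hq, Polynomial.eval_zero, Finset.sum_eq_single k] at h1
  · have h2 : (∏ j ∈ Finset.univ.erase k, (a k - a j)) ≠ 0 := by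
      rw [Finset.prod_ne_zero_iff]
      intro j hj
      rw [sub_ne_zero]
      intro he
      exact (Finset.ne_of_mem_erase hj) (ha he).symm
    simpa [h2] using h1.symm
  · intro b _ hb
    have : (∏ j ∈ Finset.univ.erase b, (a k - a j)) = 0 := by
      apply Finset.prod_eq_zero (i := k)
      · simp [Ne.symm hb]
      · simp
    rw [this, zero_mul]
  · simp

theorem exA_det_ne : det (exA r) ≠ 0 := by
  unfold exA
  rw [det_diagonal, Finset.prod_ne_zero_iff]
  intro i _
  exact_mod_cast Nat.succ_ne_zero (i : ℕ)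

theorem exB_det_ne : det (exB r) ≠ 0 := by
  intro h
  rw [← exists_mulVec_eq_zero_iff] at h
  obtain ⟨v, hv, h0⟩ := h
  apply hv
  have h1 : ∀ i, (∑ j, v j) + v i = 0 := by
    intro i
    rw [← exB_mulVec, h0]
    rfl
  have h2 : (r + 1 : ℂ) * ∑ j, v j = 0 := by
    have := Finset.sum_congr rfl fun i (_ : i ∈ (Finset.univ : Finset (Fin r))) => h1 i
    rw [Finset.sum_add_distrib, Finset.sum_const, Finset.card_univ, Fintype.card_fin,
      nsmul_eq_mul, Finset.sum_const_zero] at this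
    linear_combination this
  have h3 : (r + 1 : ℂ) ≠ 0 := by exact_mod_cast Nat.succ_ne_zero r
  have h4 : ∑ j, v j = 0 := (mul_eq_zero.1 h2).resolve_left h3
  funext i
  have := h1 i
  rw [h4, zero_add] at this
  exact this

theorem ex_kry_ne : det (kry (exA r) 1) ≠ 0 := by
  have h : kry (exA r) 1 = vandermonde (fun i : Fin r => ((i : ℕ) : ℂ) + 1) := by
    ext i j
    simp only [kry, exA, Matrix.of_apply, vandermonde_apply]
    rw [diagonal_pow, mulVec_diagonal]
    simp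
  rw [h, det_vandermonde_ne_zero_iff]
  intro i j hij
  simp only [add_left_inj, Nat.cast_inj] at hij
  exact Fin.ext hij

theorem ex_sysHat_ne (hr : 0 < r) : det (sysHat (exA r) (exB r)) ≠ 0 := by
  intro hdet
  rw [← exists_mulVec_eq_zero_iff] at hdet
  obtain ⟨δ, hδ, h0⟩ := hdet
  apply hδ
  set A := exA r with hA
  set B := exB r with hB
  have hAn : det A ≠ 0 := exA_det_ne
  have hBn : det B ≠ 0 := exB_det_ne
  have hAu : IsUnit (det A) := isUnit_iff_ne_zero.2 hAn
  have hBu : IsUnit (det B) := isUnit_iff_ne_zero.2 hBn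
  obtain ⟨z, hz⟩ : ∃ z : Fin r → ℂ, δ = A *ᵥ (B *ᵥ z) := by
    refine ⟨B⁻¹ *ᵥ (A⁻¹ *ᵥ δ), ?_⟩
    rw [mulVec_mulVec _ B, Matrix.mul_nonsing_inv _ hBu, one_mulVec, mulVec_mulVec,
      Matrix.mul_nonsing_inv _ hAu, one_mulVec]
  let a : Fin r → ℂ := fun i => ((i : ℕ) : ℂ) + 1
  have ha : Function.Injective a := by
    intro i j hij
    simp only [a, add_left_inj, Nat.cast_inj] at hij
    exact Fin.ext hij
  have hmulA : ∀ v : Fin r → ℂ, ∀ i, (A *ᵥ v) i = a i * v i := by
    intro v i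
    rw [hA, exA, mulVec_diagonal]
  have hone : ∀ v : Fin r → ℂ, (1 : Fin r → ℂ) ⬝ᵥ v = ∑ i, v i := by
    intro v; simp [dotProduct]
  have hr0 : (r : ℂ) + 1 ≠ 0 := by exact_mod_cast Nat.succ_ne_zero r
  have hsum : ∑ i, (B *ᵥ z) i = (r + 1) * ∑ i, z i := by
    simp only [hB, exB_mulVec]
    rw [Finset.sum_add_distrib, Finset.sum_const, Finset.card_univ, Fintype.card_fin,
      nsmul_eq_mul]
    ring
  -- rows
  have hrow : ∀ i : Fin r, (i : ℕ) ≠ 0 →
      ∑ k, (∏ j ∈ Finset.univ.erase k, (((i : ℕ) : ℂ) - a j)) *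
        (a k * ((B *ᵥ z) k - (r + 1) * z k)) = 0 := by
    intro i hi
    have h1 := congrFun h0 i
    simp only [sysHat, mulVec, dotProduct, Matrix.of_apply, if_neg hi, Pi.zero_apply] at h1
    have h2 : ∀ M : Mat r ℂ, ∑ x, ((1 : Fin r → ℂ) ᵥ* M) x * δ x = (1 : Fin r → ℂ) ⬝ᵥ (M *ᵥ δ) := by
      intro M
      rw [dotProduct_mulVec]
      rfl
    rw [h2, sub_mulVec, dotProduct_sub] at h1
    have h3 : (B * adjugate (tm i A) * A * adjugate B * adjugate A) *ᵥ δ =
        (det A * det B) • (B *ᵥ (adjugate (tm i A) *ᵥ (A *ᵥ z))) := by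
      rw [hz]
      simp only [← mulVec_mulVec]
      have e1 : adjugate A *ᵥ A *ᵥ B *ᵥ z = det A • (B *ᵥ z) := by
        rw [mulVec_mulVec _ (adjugate A) A, adjugate_mul, smul_mulVec, one_mulVec]
      rw [e1, mulVec_smul, mulVec_mulVec _ (adjugate B) B, adjugate_mul, smul_mulVec, one_mulVec]
      simp only [mulVec_smul, smul_smul]
    have h4 : tm (i : ℕ) A = diagonal fun j => ((i : ℕ) : ℂ) - a j := by
      unfold tm
      rw [hA, exA]
      ext p q
      by_cases hpq : p = q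
      · subst hpq; simp [a]
      · simp [hpq]
    rw [h3, h4, adjugate_diagonal, smul_mulVec, dotProduct_smul, dotProduct_smul, ← smul_sub,
      smul_eq_mul, mul_eq_zero] at h1
    have h5 := h1.resolve_left (mul_ne_zero hAn hBn)
    rw [dotProduct_mulVec _ B] at h5
    simp only [dotProduct, mulVec_diagonal, hz, hmulA, hB, one_vecMul_exB, Pi.one_apply,
      one_mul] at h5
    rw [← Finset.sum_sub_distrib] at h5
    rw [← h5]
    apply Finset.sum_congr rfl
    intro k _
    ring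
  have hrow0 : ∑ k, (∏ j ∈ Finset.univ.erase k, ((0 : ℂ) - a j)) *
        (a k * ((B *ᵥ z) k - (r + 1) * z k)) = 0 := by
    have h1 : ∀ k, (∏ j ∈ Finset.univ.erase k, ((0 : ℂ) - a j)) *
        (a k * ((B *ᵥ z) k - (r + 1) * z k)) =
        -(∏ j, ((0 : ℂ) - a j)) * ((B *ᵥ z) k - (r + 1) * z k) := by
      intro k
      rw [← Finset.prod_erase_mul (Finset.univ) (fun j => (0 : ℂ) - a j) (Finset.mem_univ k)]
      ring
    simp only [h1]
    rw [← Finset.mul_sum, Finset.sum_sub_distrib, hsum, ← Finset.mul_sum, sub_self, mul_zero]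
  have hx := lagrange_zero a ha (fun k => a k * ((B *ᵥ z) k - (r + 1) * z k)) (by
    intro i
    by_cases hi : (i : ℕ) = 0
    · rw [hi, Nat.cast_zero]
      exact hrow0
    · exact hrow i hi)
  have hak : ∀ k, a k ≠ 0 := fun k => by
    simp only [a]
    exact_mod_cast Nat.succ_ne_zero (k : ℕ)
  have hBz : ∀ k, (∑ j, z j) = r * z k := by
    intro k
    have h1 := congrFun hx k
    simp only [Pi.zero_apply] at h1
    have h2 := (mul_eq_zero.1 h1).resolve_left (hak k)
    rw [hB, exB_mulVec] at h2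
    linear_combination h2
  have hz0 : ∑ j, z j = 0 := by
    have h1 := congrFun h0 ⟨0, hr⟩
    simp only [sysHat, mulVec, dotProduct, Matrix.of_apply, if_true, Pi.zero_apply] at h1
    have h2 : ∑ x, ((1 : Fin r → ℂ) ᵥ* adjugate A) x * δ x =
        (1 : Fin r → ℂ) ⬝ᵥ (adjugate A *ᵥ δ) := by
      rw [dotProduct_mulVec]
      rfl
    rw [h2, hz, mulVec_mulVec, adjugate_mul, smul_mulVec, one_mulVec, dotProduct_smul, hone,
      hsum, smul_eq_mul] at h1
    have h3 := (mul_eq_zero.1 h1).resolve_left hAn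
    exact (mul_eq_zero.1 h3).resolve_left hr0
  have hrn : (r : ℂ) ≠ 0 := by exact_mod_cast hr.ne'
  have hzk : z = 0 := by
    funext k
    have h1 := hBz k
    rw [hz0] at h1
    exact (mul_eq_zero.1 h1.symm).resolve_left hrn
  rw [hz, hzk, mulVec_zero, mulVec_zero]

theorem ex_Ghat_ne (hr : 0 < r) : Ghat (exA r) (exB r) ≠ 0 := by
  unfold Ghat
  exact mul_ne_zero (mul_ne_zero (mul_ne_zero exA_det_ne exB_det_ne) ex_kry_ne) (ex_sysHat_ne hr)

/-- Good pairs are dense. -/
theorem good_dense (hr : 0 < r) (A B : Mat r ℂ) (U : Set (Mat r ℂ × Mat r ℂ))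
    (hU : U ∈ nhds (A, B)) : ∃ p ∈ U, Good p.1 p.2 := by
  let AX : Mat r (Polynomial ℂ) := Matrix.of fun i j =>
    Polynomial.C (A i j) + Polynomial.X * Polynomial.C (exA r i j - A i j)
  let BX : Mat r (Polynomial ℂ) := Matrix.of fun i j =>
    Polynomial.C (B i j) + Polynomial.X * Polynomial.C (exB r i j - B i j)
  let P : Polynomial ℂ := Ghat AX BX
  have hP : ∀ t : ℂ, P.eval t = Ghat (A + t • (exA r - A)) (B + t • (exB r - B)) := by
    intro t
    have h1 := Ghat_map (Polynomial.evalRingHom t) AX BX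
    simp only [Polynomial.coe_evalRingHom] at h1
    rw [show P.eval t = Polynomial.eval t (Ghat AX BX) from rfl, h1]
    congr 1
    · ext i j; simp [AX]
    · ext i j; simp [BX]
  have hP0 : P ≠ 0 := by
    intro h
    have h1 := hP 1
    rw [h, Polynomial.eval_zero] at h1
    simp only [one_smul, add_sub_cancel] at h1
    exact ex_Ghat_ne hr h1.symm
  have hfin : {t : ℂ | P.eval t = 0}.Finite := by
    refine (P.roots.toFinset.finite_toSet).subset ?_
    intro t ht
    simp only [Finset.mem_coe, Multiset.mem_toFinset, Polynomial.mem_roots hP0,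
      Polynomial.IsRoot]
    exact ht
  have hcont : Continuous fun t : ℂ => (A + t • (exA r - A), B + t • (exB r - B)) := by
    fun_prop
  have hV : (fun t : ℂ => (A + t • (exA r - A), B + t • (exB r - B))) ⁻¹' U ∈ nhds (0 : ℂ) := by
    apply hcont.continuousAt.preimage_mem_nhds
    simpa using hU
  have hdense := hfin.countable.dense_compl ℂ
  obtain ⟨t, ht1, ht2⟩ := hdense.inter_nhds_nonempty hV
  refine ⟨_, ht2, ?_⟩
  apply good_of_Ghat
  rw [← hP]
  exact ht1

end Vale.Agent.P002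
end

section

namespace Vale.Agent.P002

open Matrix

variable {n r : ℕ}

theorem eq_addH (X : Fin (n + 1) × Bool → Mat r ℂ) :
    X = addH (fun k => X (k.1.castSucc, k.2)) (X (Fin.last n, false)) (X (Fin.last n, true)) := by
  funext k
  obtain ⟨i, b⟩ := k
  refine Fin.lastCases ?_ (fun i => ?_) i
  · cases b
    · simp
    · simp
  · simp

theorem relT_addH (y : Fin n × Bool → Mat r ℂ) (A B : Mat r ℂ) :
    relT (addH y A B) = relT y * (A * B * A⁻¹ * B⁻¹) := by
  rw [relT_eq_relI, relT_eq_relI]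
  have e : (fun k => (addH y A B k)⁻¹) = addH (fun k => (y k)⁻¹) A⁻¹ B⁻¹ := by
    funext k
    obtain ⟨i, b⟩ := k
    refine Fin.lastCases ?_ (fun i => ?_) i
    · cases b
      · simp
      · simp
    · simp
  rw [e, relI_addH]

theorem continuousAt_matInv {M : Mat r ℂ} (hM : IsUnit M) :
    ContinuousAt (fun N : Mat r ℂ => N⁻¹) M := by
  have h1 : (fun N : Mat r ℂ => N⁻¹) =
      (fun N : Mat r ℂ => (det N)⁻¹) • fun N : Mat r ℂ => adjugate N := by
    funext N
    rw [Matrix.inv_def, Ring.inverse_eq_inv']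
    rfl
  rw [h1]
  rw [Matrix.isUnit_iff_isUnit_det, isUnit_iff_ne_zero] at hM
  apply ContinuousAt.smul
  · apply ContinuousAt.inv₀ _ hM
    exact (Continuous.matrix_det continuous_id).continuousAt
  · exact (Continuous.matrix_adjugate continuous_id).continuousAt

theorem isOpen_isUnit : IsOpen {M : Mat r ℂ | IsUnit M} := by
  have h : {M : Mat r ℂ | IsUnit M} = det ⁻¹' {0}ᶜ := by
    ext M
    simp [Matrix.isUnit_iff_isUnit_det]
  rw [h]
  exact isOpen_compl_singleton.preimage (Continuous.matrix_det continuous_id)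

end Vale.Agent.P002
end

section

namespace Vale.Agent.P002R

open Matrix
open Vale.Agent.P002 (T01 ev0 ev1 lin ev0_lin ev1_lin ev0_C ev1_C isUnit_mat Good sysM sysR kry
  sysM_map sysR_map kry_map mul_kry krylov_comm sys_tm charpoly_eq_of_tm map_inv_of_unit rel_inv
  sysR_zero good_dense open_relT relT continuousAt_matInv isOpen_isUnit)

variable {m n r : ℕ}

/-- The relation in terms of the last handle. -/
theorem relM_eq_last (X : Gen (m + 1) n → Mat r ℂ) :
    relM X = relW X (fun k => (X k)⁻¹) *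
      (X (Sum.inl (Fin.last m, false)) * X (Sum.inl (Fin.last m, true)) *
        (X (Sum.inl (Fin.last m, false)))⁻¹ * (X (Sum.inl (Fin.last m, true)))⁻¹) := by
  rw [relM_eq_relR, relR_eq]

/-- Two points with good last handles are joined by a rational curve. -/
theorem rpath_lemma
    (f h : MvPolynomial (Gen (m + 1) n × Bool × Fin r × Fin r) ℂ) (J : Fin n → Mat r ℂ)
    (hfh : ∀ X : Gen (m + 1) n → Mat r ℂ, (∀ k, IsUnit (X k)) → (∀ j, X (Sum.inr (j, true)) = J j) →
      relM X = 1 → evalM X h * evalM X f = 0)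
    (X0 X1 : Gen (m + 1) n → Mat r ℂ) (hX0 : ∀ k, IsUnit (X0 k)) (hX1 : ∀ k, IsUnit (X1 k))
    (hJ0 : ∀ j, X0 (Sum.inr (j, true)) = J j) (hJ1 : ∀ j, X1 (Sum.inr (j, true)) = J j)
    (hg0 : Good (X0 (Sum.inl (Fin.last m, false))) (X0 (Sum.inl (Fin.last m, true))))
    (hg1 : Good (X1 (Sum.inl (Fin.last m, false))) (X1 (Sum.inl (Fin.last m, true))))
    (hrel0 : relM X0 = 1) (hrel1 : relM X1 = 1)
    (hh : evalM X0 h ≠ 0) : evalM X1 f = 0 := by
  classical
  set a : Gen (m + 1) n := Sum.inl (Fin.last m, false) with ha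
  set b : Gen (m + 1) n := Sum.inl (Fin.last m, true) with hb
  have hab : a ≠ b := by simp [ha, hb]
  obtain ⟨hA0, hB0, hK0, hS0⟩ := hg0
  obtain ⟨hA1, hB1, hK1, hS1⟩ := hg1
  have hW : ∀ X : Gen (m + 1) n → Mat r ℂ, IsUnit (X a) → IsUnit (X b) → relM X = 1 →
      relW X (fun k => (X k)⁻¹) = X b * X a * (X b)⁻¹ * (X a)⁻¹ := by
    intro X hA hB hrel
    apply rel_inv hA hB
    rw [relM_eq_last] at hrel
    exact hrel
  have hW0 := hW X0 hA0 hB0 hrel0
  have hW1 := hW X1 hA1 hB1 hrel1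
  -- the path
  let L : Mat r ℂ → Mat r ℂ → Mat r T01 := fun M N => Matrix.of fun i j => lin (M i j) (N i j)
  have hL0 : ∀ M N, (L M N).map ev0 = M := by intro M N; ext i j; simp [L]
  have hL1 : ∀ M N, (L M N).map ev1 = N := by intro M N; ext i j; simp [L]
  have hLc : ∀ M, L M M = M.map (algebraMap ℂ T01) := by
    intro M; ext i j
    simp [L, lin, Vale.Agent.P002.algebraMap_T01]
  let y : Gen (m + 1) n → Mat r T01 := fun k => L (X0 k) (X1 k)
  have hyu : ∀ k, IsUnit (y k) := fun k =>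
    isUnit_mat _ (by rw [hL0]; exact hX0 k) (by rw [hL1]; exact hX1 k)
  have hyd : ∀ k, IsUnit (y k).det := fun k => (Matrix.isUnit_iff_isUnit_det _).1 (hyu k)
  have hyJ : ∀ j, y (Sum.inr (j, true)) = (J j).map (algebraMap ℂ T01) := by
    intro j
    change L (X0 (Sum.inr (j, true))) (X1 (Sum.inr (j, true))) = _
    rw [hJ0, hJ1, hLc]
  let W : Mat r T01 := relW y (fun k => (y k)⁻¹)
  have hWdet : det W = 1 := by
    have h1 := relW_det y (fun k => (y k)⁻¹) fun k => Matrix.mul_nonsing_inv _ (hyd k)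
    have h2 := relW_det X0 (fun k => (X0 k)⁻¹) fun k =>
      Matrix.mul_nonsing_inv _ ((Matrix.isUnit_iff_isUnit_det _).1 (hX0 k))
    have h3 : det (relW X0 (fun k => (X0 k)⁻¹)) = 1 := by
      rw [hW0]
      have e1 := isUnit_iff_ne_zero.1 ((Matrix.isUnit_iff_isUnit_det _).1 hA0)
      have e2 := isUnit_iff_ne_zero.1 ((Matrix.isUnit_iff_isUnit_det _).1 hB0)
      rw [det_mul, det_mul, det_mul, det_nonsing_inv, det_nonsing_inv, Ring.inverse_eq_inv']
      field_simp
    change det (relW y (fun k => (y k)⁻¹)) = 1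
    rw [h1]
    rw [h3] at h2
    simp only [hJ0] at h2
    have h4 : ∀ j, det (y (Sum.inr (j, true))) = algebraMap ℂ T01 (det (J j)) := by
      intro j
      rw [hyJ]
      exact (RingHom.map_det (algebraMap ℂ T01) (J j)).symm
    simp only [h4]
    rw [← map_prod, ← h2, map_one]
  have hWev0 : W.map ev0 = X0 b * X0 a * (X0 b)⁻¹ * (X0 a)⁻¹ := by
    rw [← hW0]
    change (relW y (fun k => (y k)⁻¹)).map ev0 = _
    rw [relW_map]
    congr 1
    · funext k; exact hL0 _ _
    · funext k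
      rw [map_inv_of_unit _ _ (hyu k), hL0]
  have hWev1 : W.map ev1 = X1 b * X1 a * (X1 b)⁻¹ * (X1 a)⁻¹ := by
    rw [← hW1]
    change (relW y (fun k => (y k)⁻¹)).map ev1 = _
    rw [relW_map]
    congr 1
    · funext k; exact hL1 _ _
    · funext k
      rw [map_inv_of_unit _ _ (hyu k), hL1]
  let Y : Mat r T01 := L (X0 a) (X1 a)
  let θ : T01 := lin (det (X0 a)) (det (X1 a))
  have hMu : IsUnit (sysM W Y) := by
    apply isUnit_mat
    · rw [sysM_map, hWev0, hL0]; exact hS0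
    · rw [sysM_map, hWev1, hL1]; exact hS1
  have hMd := (Matrix.isUnit_iff_isUnit_det _).1 hMu
  let c : Fin r → T01 := (sysM W Y)⁻¹ *ᵥ sysR W Y θ
  have hc : sysM W Y *ᵥ c = sysR W Y θ := by
    simp only [c]
    rw [mulVec_mulVec, Matrix.mul_nonsing_inv _ hMd, one_mulVec]
  have hcφ : ∀ φ : T01 →+* ℂ, sysR (W.map φ) (Y.map φ) (φ θ) = 0 → ∀ i, φ (c i) = 0 := by
    intro φ hφ i
    have h1 := sysR_map φ W Y θ
    rw [hφ] at h1
    simp only [c, mulVec, dotProduct, map_sum, map_mul]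
    apply Finset.sum_eq_zero
    intro j _
    have h2 := congrFun h1 j
    simp only [Pi.zero_apply] at h2
    rw [h2, mul_zero]
  have hc0 : ∀ i, ev0 (c i) = 0 := by
    apply hcφ
    rw [hWev0, hL0, ev0_lin]
    exact sysR_zero hA0 hB0
  have hc1 : ∀ i, ev1 (c i) = 0 := by
    apply hcφ
    rw [hWev1, hL1, ev1_lin]
    exact sysR_zero hA1 hB1
  let A : Mat r T01 := Y + vecMulVec c 1
  have hAφ : ∀ φ : T01 →+* ℂ, (∀ i, φ (c i) = 0) → A.map φ = Y.map φ := by
    intro φ hφ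
    ext i j
    simp [A, hφ]
  have hAev0 : A.map ev0 = X0 a := by rw [hAφ _ hc0, hL0]
  have hAev1 : A.map ev1 = X1 a := by rw [hAφ _ hc1, hL1]
  have hAu : IsUnit A := isUnit_mat _ (by rw [hAev0]; exact hA0) (by rw [hAev1]; exact hA1)
  have hAd := (Matrix.isUnit_iff_isUnit_det _).1 hAu
  let A' : Mat r T01 := W * A
  have : CharZero T01 := by
    refine charZero_of_injective_algebraMap (R := ℂ) ?_
    exact FaithfulSMul.algebraMap_injective ℂ T01
  have hchar : A.charpoly = A'.charpoly := by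
    apply charpoly_eq_of_tm
    · simp only [A']
      rw [det_mul, hWdet, one_mul]
    · intro i hi
      exact sys_tm W Y θ c hc i hi
  have hKu : IsUnit (kry A 1) := by
    apply isUnit_mat
    · rw [kry_map, hAev0]
      have h7 : (fun i => ev0 ((1 : Fin r → T01) i)) = (1 : Fin r → ℂ) := by
        funext i; simp
      rw [h7]
      exact hK0
    · rw [kry_map, hAev1]
      have h7 : (fun i => ev1 ((1 : Fin r → T01) i)) = (1 : Fin r → ℂ) := by
        funext i; simp
      rw [h7]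
      exact hK1
  have hKd := (Matrix.isUnit_iff_isUnit_det _).1 hKu
  let v : Fin r → T01 := fun i => lin ((X0 b *ᵥ 1) i) ((X1 b *ᵥ 1) i)
  let B : Mat r T01 := kry A' v * (kry A 1)⁻¹
  have hBK : B * kry A 1 = kry A' v := by
    simp only [B]
    rw [mul_assoc, Matrix.nonsing_inv_mul _ hKd, mul_one]
  have hBev : ∀ (φ : T01 →+* ℂ) (A2 B2 : Mat r ℂ), IsUnit A2 → IsUnit B2 → IsUnit (kry A2 1) →
      A.map φ = A2 → W.map φ = B2 * A2 * B2⁻¹ * A2⁻¹ → (fun i => φ (v i)) = B2 *ᵥ 1 →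
      B.map φ = B2 := by
    intro φ A2 B2 hA2 hB2 hK2 h1 h2 h3
    have h4 := congrArg (fun N : Mat r T01 => N.map φ) hBK
    beta_reduce at h4
    rw [Matrix.map_mul, kry_map, kry_map, h1, h3] at h4
    have h5 : A'.map φ = B2 * A2 * B2⁻¹ := by
      simp only [A']
      rw [Matrix.map_mul, h1, h2, mul_assoc _ A2⁻¹ A2,
        Matrix.nonsing_inv_mul _ ((Matrix.isUnit_iff_isUnit_det _).1 hA2), mul_one]
    rw [h5] at h4
    have h6 : B2 * kry A2 1 = kry (B2 * A2 * B2⁻¹) (B2 *ᵥ 1) := by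
      apply mul_kry
      rw [mul_assoc (B2 * A2), Matrix.nonsing_inv_mul _ ((Matrix.isUnit_iff_isUnit_det _).1 hB2),
        mul_one]
    have h7 : (fun i => φ ((1 : Fin r → T01) i)) = (1 : Fin r → ℂ) := by
      funext i; simp
    rw [h7, ← h6] at h4
    exact hK2.mul_right_cancel h4
  have hBev0 : B.map ev0 = X0 b :=
    hBev ev0 _ _ hA0 hB0 hK0 hAev0 hWev0 (by funext i; simp [v])
  have hBev1 : B.map ev1 = X1 b :=
    hBev ev1 _ _ hA1 hB1 hK1 hAev1 hWev1 (by funext i; simp [v])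
  have hBu : IsUnit B := isUnit_mat _ (by rw [hBev0]; exact hB0) (by rw [hBev1]; exact hB1)
  have hBd := (Matrix.isUnit_iff_isUnit_det _).1 hBu
  have hcomm : B * A = A' * B := krylov_comm A A' 1 v hchar B hBK hKu
  -- the point over `T01`
  let Z : Gen (m + 1) n → Mat r T01 := fun k => if k = a then A else if k = b then B else y k
  have hZa : Z a = A := by simp [Z]
  have hZb : Z b = B := by simp [Z, Ne.symm hab]
  have hZk : ∀ k, k ≠ a → k ≠ b → Z k = y k := by
    intro k h1 h2; simp [Z, h1, h2]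
  have hZd : ∀ k, IsUnit (Z k).det := by
    intro k
    by_cases h1 : k = a
    · rw [h1, hZa]; exact hAd
    · by_cases h2 : k = b
      · rw [h2, hZb]; exact hBd
      · rw [hZk k h1 h2]; exact hyd k
  have hZu : ∀ k, IsUnit (Z k) := fun k => (Matrix.isUnit_iff_isUnit_det _).2 (hZd k)
  have hXY : ∀ k, Z k * (Z k)⁻¹ = 1 := fun k => Matrix.mul_nonsing_inv _ (hZd k)
  have hZJ : ∀ j, Z (Sum.inr (j, true)) = (J j).map (algebraMap ℂ T01) := by
    intro j
    rw [hZk _ (by simp [ha]) (by simp [hb])]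
    exact hyJ j
  have hrel : relR Z (fun k => (Z k)⁻¹) = 1 := by
    rw [relR_eq]
    change relW Z (fun k => (Z k)⁻¹) * (Z a * Z b * (Z a)⁻¹ * (Z b)⁻¹) = 1
    rw [hZa, hZb]
    have e0 : relW Z (fun k => (Z k)⁻¹) = W := by
      apply relW_congr
      intro k h1 h2
      rw [hZk k h1 h2]
      exact ⟨rfl, rfl⟩
    rw [e0]
    have e1 : W * (A * B * A⁻¹ * B⁻¹) = (A' * B) * A⁻¹ * B⁻¹ := by
      simp only [A', mul_assoc]
    rw [e1, ← hcomm, mul_assoc B, Matrix.mul_nonsing_inv _ hAd, mul_one,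
      Matrix.mul_nonsing_inv _ hBd]
  have hzero := rtransfer (T := T01) J (h * f) (by
    intro X hX hJX hrelX
    rw [map_mul]
    exact hfh X hX hJX hrelX) _ _ hXY hZJ hrel
  rw [map_mul, mul_eq_zero] at hzero
  have hend : ∀ (φ : T01 →+* ℂ) (_ : ∀ c : ℂ, φ (algebraMap ℂ T01 c) = c)
      (F : MvPolynomial (Gen (m + 1) n × Bool × Fin r × Fin r) ℂ)
      (X2 : Gen (m + 1) n → Mat r ℂ), (∀ k, (y k).map φ = X2 k) →
      A.map φ = X2 a → B.map φ = X2 b →
      φ (evalR Z (fun k => (Z k)⁻¹) F) = evalM X2 F := by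
    intro φ hφ F X2 h1 h2 h3
    have hZφ : ∀ k, (Z k).map φ = X2 k := by
      intro k
      by_cases h4 : k = a
      · rw [h4, hZa, h2]
      · by_cases h5 : k = b
        · rw [h5, hZb, h3]
        · rw [hZk k h4 h5]
          exact h1 k
    rw [evalR_map φ hφ, evalM_eq_evalR]
    congr 2
    · funext k; exact hZφ k
    · funext k
      rw [map_inv_of_unit _ _ (hZu k), hZφ]
  rcases hzero with hz | hz
  · exfalso
    apply hh
    rw [← hend ev0 ev0_C h X0 (fun k => hL0 _ _) hAev0 hBev0, hz, map_zero]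
  · rw [← hend ev1 ev1_C f X1 (fun k => hL1 _ _) hAev1 hBev1, hz, map_zero]

open Vale.Agent.P002 (addH addH_last_false addH_last_true addH_castSucc relT_addH)

/-- The product of the puncture words. -/
noncomputable def puncW (X : Gen (m + 1) n → Mat r ℂ) : Mat r ℂ :=
  (List.ofFn fun j : Fin n =>
    X (Sum.inr (j, false)) * X (Sum.inr (j, true)) * (X (Sum.inr (j, false)))⁻¹).prod

theorem relM_eq_relT (X : Gen (m + 1) n → Mat r ℂ) :
    relM X = puncW X * relT fun k => X (Sum.inl k) := rfl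

/-- Replace the handles. -/
def setH (X : Gen (m + 1) n → Mat r ℂ) (y : Fin m × Bool → Mat r ℂ) (A B : Mat r ℂ) :
    Gen (m + 1) n → Mat r ℂ := Sum.elim (addH y A B) fun p => X (Sum.inr p)

theorem eq_setH (X : Gen (m + 1) n → Mat r ℂ) :
    X = setH X (fun k => X (Sum.inl (k.1.castSucc, k.2))) (X (Sum.inl (Fin.last m, false)))
      (X (Sum.inl (Fin.last m, true))) := by
  have h := Vale.Agent.P002.eq_addH fun k => X (Sum.inl k)
  funext k
  rcases k with k | k
  · exact congrFun h k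
  · rfl

theorem relM_setH (X : Gen (m + 1) n → Mat r ℂ) (y : Fin m × Bool → Mat r ℂ) (A B : Mat r ℂ) :
    relM (setH X y A B) = puncW X * (relT y * (A * B * A⁻¹ * B⁻¹)) := by
  rw [relM_eq_relT]
  have : (fun k => setH X y A B (Sum.inl k)) = addH y A B := rfl
  rw [this, relT_addH]
  rfl

/-- Points whose first handles have scalar centralizer are limits of points with a good last
handle. -/
theorem near_good_rel (hr : 0 < r) (X : Gen (m + 1) n → Mat r ℂ) (hX : ∀ k, IsUnit (X k))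
    (hrel : relM X = 1)
    (hc : ∀ N : Mat r ℂ, (∀ (i : Fin m) (b : Bool), Commute N (X (Sum.inl (i.castSucc, b)))) →
      ∃ c : ℂ, N = c • (1 : Mat r ℂ))
    (U : Set (Gen (m + 1) n → Mat r ℂ)) (hU : U ∈ nhds X) :
    ∃ X' ∈ U, (∀ k, IsUnit (X' k)) ∧ (∀ p, X' (Sum.inr p) = X (Sum.inr p)) ∧ relM X' = 1 ∧
      Good (X' (Sum.inl (Fin.last m, false))) (X' (Sum.inl (Fin.last m, true))) := by
  classical
  obtain ⟨y, hy0⟩ : ∃ y : Fin m × Bool → Mat r ℂ, y = fun k => X (Sum.inl (k.1.castSucc, k.2)) :=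
    ⟨_, rfl⟩
  obtain ⟨A, hA0⟩ : ∃ A, A = X (Sum.inl (Fin.last m, false)) := ⟨_, rfl⟩
  obtain ⟨B, hB0⟩ : ∃ B, B = X (Sum.inl (Fin.last m, true)) := ⟨_, rfl⟩
  have hXe : X = setH X y A B := by rw [hy0, hA0, hB0]; exact eq_setH X
  have hy : ∀ k, IsUnit (y k) := fun k => by rw [hy0]; exact hX _
  have hA : IsUnit A := by rw [hA0]; exact hX _
  have hB : IsUnit B := by rw [hB0]; exact hX _
  have hcy : ∀ N : Mat r ℂ, (∀ k, Commute N (y k)) → ∃ c : ℂ, N = c • (1 : Mat r ℂ) := by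
    intro N hN
    apply hc N
    intro i b
    have := hN (i, b)
    rw [hy0] at this
    exact this
  rw [hXe, relM_setH] at hrel
  obtain ⟨P, hP⟩ : ∃ P, P = puncW X := ⟨_, rfl⟩
  rw [← hP] at hrel
  have hAd := (Matrix.isUnit_iff_isUnit_det _).1 hA
  have hBd := (Matrix.isUnit_iff_isUnit_det _).1 hB
  have hPd : IsUnit P.det := Matrix.isUnit_det_of_right_inverse hrel
  have hP' : IsUnit P := (Matrix.isUnit_iff_isUnit_det _).2 hPd
  -- the value of `relT y`
  have hW : P * relT y = B * A * B⁻¹ * A⁻¹ := by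
    apply rel_inv hA hB
    rw [mul_assoc]
    exact hrel
  have hWy : relT y = P⁻¹ * (B * A * B⁻¹ * A⁻¹) := by
    rw [← hW, ← mul_assoc, Matrix.nonsing_inv_mul _ hPd, one_mul]
  have hcomm : ∀ A B : Mat r ℂ, IsUnit A.det → IsUnit B.det → (B * A * B⁻¹ * A⁻¹).det = 1 := by
    intro A B hA hB
    have e1 := isUnit_iff_ne_zero.1 hA
    have e2 := isUnit_iff_ne_zero.1 hB
    rw [det_mul, det_mul, det_mul, det_nonsing_inv, det_nonsing_inv, Ring.inverse_eq_inv']
    field_simp
  have hPdet : P.det = 1 := by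
    have h1 : (P * relT y).det = 1 := by rw [hW]; exact hcomm A B hAd hBd
    rw [det_mul, Vale.Agent.P002.det_relT hy, mul_one] at h1
    exact h1
  -- product neighbourhoods
  have hcont : Continuous fun q : (Fin m × Bool → Mat r ℂ) × (Mat r ℂ × Mat r ℂ) =>
      setH X q.1 q.2.1 q.2.2 := by
    apply continuous_pi
    rintro (⟨i, b⟩ | p)
    · refine Fin.lastCases ?_ (fun i => ?_) i
      · cases b
        · simp only [setH, Sum.elim_inl, addH_last_false]; fun_prop
        · simp only [setH, Sum.elim_inl, addH_last_true]; fun_prop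
      · simp only [setH, Sum.elim_inl, addH_castSucc]; fun_prop
    · simp only [setH, Sum.elim_inr]; fun_prop
  have h1 : (fun q : (Fin m × Bool → Mat r ℂ) × (Mat r ℂ × Mat r ℂ) =>
      setH X q.1 q.2.1 q.2.2) ⁻¹' U ∈ nhds (y, (A, B)) := by
    apply hcont.continuousAt.preimage_mem_nhds
    rw [← hXe]
    exact hU
  rw [nhds_prod_eq, Filter.mem_prod_iff] at h1
  obtain ⟨Uy, hUy, Up, hUp, hsub⟩ := h1
  have h2 : {y' : Fin m × Bool → Mat r ℂ | ∀ k, IsUnit (y' k)} ∈ nhds y := by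
    have : {y' : Fin m × Bool → Mat r ℂ | ∀ k, IsUnit (y' k)} =
        ⋂ k, (fun y' : Fin m × Bool → Mat r ℂ => y' k) ⁻¹' {M : Mat r ℂ | IsUnit M} := by
      ext y'; simp
    rw [this]
    apply (isOpen_iInter_of_finite fun k => isOpen_isUnit.preimage (continuous_apply k)).mem_nhds
    simp only [Set.mem_iInter, Set.mem_preimage]
    exact hy
  obtain ⟨V, hV, hV2⟩ := open_relT y hy hcy (Uy ∩ {y' | ∀ k, IsUnit (y' k)})
    (Filter.inter_mem hUy h2)
  have hcc : ContinuousAt (fun p : Mat r ℂ × Mat r ℂ => P⁻¹ * (p.2 * p.1 * p.2⁻¹ * p.1⁻¹))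
      (A, B) := by
    apply ContinuousAt.mul continuousAt_const
    apply ContinuousAt.mul
    · apply ContinuousAt.mul
      · exact (continuous_snd.mul continuous_fst).continuousAt
      · exact ContinuousAt.comp (f := Prod.snd) (x := (A, B)) (continuousAt_matInv hB)
          continuous_snd.continuousAt
    · exact ContinuousAt.comp (f := Prod.fst) (x := (A, B)) (continuousAt_matInv hA)
          continuous_fst.continuousAt
  have h3 : (fun p : Mat r ℂ × Mat r ℂ => P⁻¹ * (p.2 * p.1 * p.2⁻¹ * p.1⁻¹)) ⁻¹' V ∈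
      nhds (A, B) := by
    apply hcc.preimage_mem_nhds
    simp only
    rw [← hWy]
    exact hV
  obtain ⟨⟨A', B'⟩, ⟨hp1, hp2⟩, hgood⟩ := good_dense hr A B _ (Filter.inter_mem hUp h3)
  simp only [Set.mem_preimage] at hp2
  have hA' := hgood.1
  have hB' := hgood.2.1
  have hAd' := (Matrix.isUnit_iff_isUnit_det _).1 hA'
  have hBd' := (Matrix.isUnit_iff_isUnit_det _).1 hB'
  have hdet : (P⁻¹ * (B' * A' * B'⁻¹ * A'⁻¹)).det = 1 := by
    rw [det_mul, hcomm A' B' hAd' hBd', det_nonsing_inv, hPdet, Ring.inverse_one, mul_one]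
  obtain ⟨y', ⟨hy1, hy2⟩, hy3⟩ := hV2 _ hp2 hdet
  refine ⟨setH X y' A' B', hsub (Set.mk_mem_prod hy1 hp1), ?_, fun p => rfl, ?_, ?_⟩
  · rintro (k | p)
    · exact Vale.Agent.P002.addH_forall (fun M => IsUnit M) y' A' B' hy2 hA' hB' k
    · exact hX _
  · rw [relM_setH, hy3, ← hP]
    simp only at hAd' hBd' ⊢
    have e1 : P * (P⁻¹ * (B' * A' * B'⁻¹ * A'⁻¹) * (A' * B' * A'⁻¹ * B'⁻¹)) =
        P * P⁻¹ * B' * A' * B'⁻¹ * (A'⁻¹ * A') * B' * A'⁻¹ * B'⁻¹ := by
      simp only [mul_assoc]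
    rw [e1, Matrix.mul_nonsing_inv _ hPd, one_mul, Matrix.nonsing_inv_mul _ hAd', mul_one,
      mul_assoc (B' * A') B'⁻¹ B', Matrix.nonsing_inv_mul _ hBd', mul_one, mul_assoc B' A' A'⁻¹,
      Matrix.mul_nonsing_inv _ hAd', mul_one, Matrix.mul_nonsing_inv _ hBd']
  · simpa [setH] using hgood

theorem evalM_continuousAt {κ : Type*} [Finite κ]
    (f : MvPolynomial (κ × Bool × Fin r × Fin r) ℂ) (X : κ → Mat r ℂ)
    (hX : ∀ k, IsUnit (X k)) : ContinuousAt (fun X : κ → Mat r ℂ => evalM X f) X := by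
  have h : (fun X : κ → Mat r ℂ => evalM X f) =
      (fun v => MvPolynomial.eval v f) ∘ fun X : κ → Mat r ℂ =>
        fun p : κ × Bool × Fin r × Fin r => if p.2.1 then (X p.1)⁻¹ p.2.2.1 p.2.2.2
          else X p.1 p.2.2.1 p.2.2.2 := by
    funext X
    simp [evalM]
  rw [h]
  apply ContinuousAt.comp
  · exact (MvPolynomial.continuous_eval f).continuousAt
  · rw [continuousAt_pi]
    rintro ⟨k, b, i, j⟩
    cases b
    · simp only [Bool.false_eq_true, if_false]
      exact ((continuous_apply j).comp ((continuous_apply i).comp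
        (continuous_apply k))).continuousAt
    · simp only [if_true]
      have h1 : ContinuousAt (fun X : κ → Mat r ℂ => (X k)⁻¹) X :=
        ContinuousAt.comp (f := fun X : κ → Mat r ℂ => X k) (x := X)
          (continuousAt_matInv (hX k)) (continuous_apply k).continuousAt
      have h2 : Continuous fun M : Mat r ℂ => M i j :=
        (continuous_apply j).comp (continuous_apply i)
      exact ContinuousAt.comp (f := fun X : κ → Mat r ℂ => (X k)⁻¹) (x := X)
        (g := fun M : Mat r ℂ => M i j) h2.continuousAt h1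

/-- TASK J. -/
theorem partII (hr : 1 ≤ r) (hm : 1 ≤ m)
    (f h : MvPolynomial (Gen (m + 1) n × Bool × Fin r × Fin r) ℂ) (J : Fin n → Mat r ℂ)
    (hJ : ∀ j, IsUnit (J j))
    (hfh : ∀ X : Gen (m + 1) n → Mat r ℂ, (∀ k, IsUnit (X k)) → (∀ j, X (Sum.inr (j, true)) = J j) →
      relM X = 1 → evalM X h * evalM X f = 0)
    (X₀ : Gen (m + 1) n → Mat r ℂ) (hX₀ : ∀ k, IsUnit (X₀ k))
    (hJ₀ : ∀ j, X₀ (Sum.inr (j, true)) = J j) (hrel₀ : relM X₀ = 1)
    (hc₀ : ∀ N : Mat r ℂ, (∀ (i : Fin m) (b : Bool), Commute N (X₀ (Sum.inl (i.castSucc, b)))) →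
      ∃ c : ℂ, N = c • (1 : Mat r ℂ))
    (hh₀ : evalM X₀ h ≠ 0)
    (X₁ : Gen (m + 1) n → Mat r ℂ) (hX₁ : ∀ k, IsUnit (X₁ k))
    (hJ₁ : ∀ j, X₁ (Sum.inr (j, true)) = J j) (hrel₁ : relM X₁ = 1)
    (hc₁ : ∀ N : Mat r ℂ, (∀ (i : Fin m) (b : Bool), Commute N (X₁ (Sum.inl (i.castSucc, b)))) →
      ∃ c : ℂ, N = c • (1 : Mat r ℂ)) :
    evalM X₁ f = 0 := by
  have _ := hm
  have _ := hJ
  obtain ⟨X0, hU0, hX0, hp0, hr0, hg0⟩ := near_good_rel hr X₀ hX₀ hrel₀ hc₀
    {X | evalM X h ≠ 0} ((evalM_continuousAt h X₀ hX₀).preimage_mem_nhds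
      (isOpen_compl_singleton.mem_nhds hh₀))
  by_contra hf
  obtain ⟨X1, hU1, hX1, hp1, hr1, hg1⟩ := near_good_rel hr X₁ hX₁ hrel₁ hc₁
    {X | evalM X f ≠ 0} ((evalM_continuousAt f X₁ hX₁).preimage_mem_nhds
      (isOpen_compl_singleton.mem_nhds hf))
  exact hU1 (rpath_lemma f h J hfh X0 X1 hX0 hX1 (fun j => by rw [hp0, hJ₀])
    (fun j => by rw [hp1, hJ₁]) hg0 hg1 hr0 hr1 hU0)

end Vale.Agent.P002R
end

section

/-!
# The fibre of the second handle matrix: the genus zero tuple and polynomials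
-/

namespace Vale.Agent.P002R

open Matrix

section tuple

variable {G : Type*} [Group G] {m : ℕ}

/-- The genus zero tuple attached to a genus one tuple. -/
def zT (a b : G) (c : Fin (m + 1) → G) : Fin (m + 3) → G :=
  Fin.cons (α := fun _ => G) b⁻¹ (Fin.snoc (α := fun _ => G) c (a * b * a⁻¹))

theorem zT_zero (a b : G) (c : Fin (m + 1) → G) : zT a b c 0 = b⁻¹ := rfl

theorem zT_mid (a b : G) (c : Fin (m + 1) → G) (j : Fin (m + 1)) :
    zT a b c ⟨j + 1, by omega⟩ = c j := by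
  have h : (⟨j + 1, by omega⟩ : Fin (m + 3)) = Fin.succ (Fin.castSucc j) := rfl
  rw [h, zT, Fin.cons_succ, Fin.snoc_castSucc]

theorem zT_last (a b : G) (c : Fin (m + 1) → G) : zT a b c (Fin.last (m + 2)) = a * b * a⁻¹ := by
  rw [← Fin.succ_last, zT, Fin.cons_succ, Fin.snoc_last]

theorem fin_cases3 {p : Fin (m + 3) → Prop} (h0 : p 0)
    (h1 : ∀ j : Fin (m + 1), p ⟨j + 1, by omega⟩) (h2 : p (Fin.last (m + 2))) : ∀ j, p j := by
  intro j
  refine Fin.cases h0 (fun j => ?_) j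
  refine Fin.lastCases ?_ (fun j => ?_) j
  · rwa [Fin.succ_last]
  · exact h1 j

theorem prod_ofFn3 (d : Fin (m + 3) → G) : (List.ofFn d).prod =
    d 0 * (List.ofFn fun j : Fin (m + 1) => d ⟨j + 1, by omega⟩).prod * d (Fin.last (m + 2)) := by
  rw [List.ofFn_succ, List.ofFn_succ', List.prod_cons, List.concat_eq_append, List.prod_append,
    List.prod_singleton, Fin.succ_last, mul_assoc]
  rfl

end tuple

theorem relU0_units {n r : ℕ} (y : FU 0 n →* (Mat r ℂ)ˣ) : y (relatorU 0 n) =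
    (List.ofFn fun j : Fin n => y (FreeGroup.of (Sum.inr j))).prod := by
  rw [relatorU_eqn, List.ofFn_zero, List.prod_nil, mul_one, map_list_prod, List.map_ofFn]
  rfl

theorem relU1_units {n r : ℕ} (x : FU 1 n →* (Mat r ℂ)ˣ) : x (relatorU 1 n) =
    (List.ofFn fun j : Fin n => x (FreeGroup.of (Sum.inr j))).prod *
      (x (FreeGroup.of (Sum.inl (0, false))) * x (FreeGroup.of (Sum.inl (0, true))) *
        (x (FreeGroup.of (Sum.inl (0, false))))⁻¹ * (x (FreeGroup.of (Sum.inl (0, true))))⁻¹) := by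
  rw [relatorU_eqn, map_mul, map_list_prod, List.map_ofFn]
  simp only [List.ofFn_succ (n := 0), List.ofFn_zero, List.prod_nil, List.prod_cons, mul_one,
    map_mul, map_inv]
  rfl

section evMat

variable {κ : Type*} {r : ℕ} {S T : Type*} [CommRing S] [Algebra ℂ S] [CommRing T] [Algebra ℂ T]

/-- Evaluation of a polynomial at matrices. -/
noncomputable def evMat (c : κ → Mat r S) (f : MvPolynomial (κ × Fin r × Fin r) ℂ) : S :=
  MvPolynomial.aeval (fun p => c p.1 p.2.1 p.2.2) f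

theorem evalG_eq_evMat (y : FreeGroup κ →* (Mat r ℂ)ˣ) (f : MvPolynomial (κ × Fin r × Fin r) ℂ) :
    evalG y f = evMat (fun k => (y (FreeGroup.of k) : Mat r ℂ)) f := evalG_eqn y f

theorem evMat_map (ψ : S →ₐ[ℂ] T) (c : κ → Mat r S) (f : MvPolynomial (κ × Fin r × Fin r) ℂ) :
    ψ (evMat c f) = evMat (fun k => (c k).map ψ) f := by
  rw [evMat, evMat, ← AlgHom.comp_apply, MvPolynomial.comp_aeval]
  rfl

/-- The matrices of the handle and of the boundary components. -/
noncomputable def hMat {m : ℕ} (a b : Mat r S) (c : Fin (m + 1) → Mat r S) :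
    GenU 1 (m + 1) → Mat r S :=
  Sum.elim (fun k => if k.2 then b else a) c

theorem hMat_map {m : ℕ} (ψ : S →ₐ[ℂ] T) (a b : Mat r S) (c : Fin (m + 1) → Mat r S) :
    (fun k => (hMat a b c k).map ψ) = hMat (a.map ψ) (b.map ψ) fun j => (c j).map ψ := by
  funext k
  rcases k with ⟨k, _ | _⟩ | k <;> rfl

theorem map_aevalMat (ψ : S →ₐ[ℂ] T) (A : Mat r S) (p : Polynomial ℂ) :
    (Polynomial.aeval A p).map ψ = Polynomial.aeval (A.map ψ) p :=
  (Polynomial.aeval_algHom_apply ψ.mapMatrix A p).symm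

end evMat

/-- The polynomial in the matrices of genus zero. -/
theorem exists_fib_poly2 {m r : ℕ} (p : Fin r → Polynomial ℂ) (δ : ℂ) (B : Mat r ℂ)
    (f : MvPolynomial (GenU 1 (m + 1) × Fin r × Fin r) ℂ) :
    ∃ F : MvPolynomial (GenU 0 (m + 3) × Fin r × Fin r) ℂ, ∀ c : GenU 0 (m + 3) → Mat r ℂ,
      evMat c F = evMat (hMat (∑ i, Polynomial.aeval (c (Sum.inr (Fin.last (m + 2)))) (p i) * B *
          Polynomial.aeval (δ • (c (Sum.inr 0)).adjugate) (p i))
        (δ • (c (Sum.inr 0)).adjugate)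
        fun j : Fin (m + 1) => c (Sum.inr ⟨j + 1, by omega⟩)) f := by
  obtain ⟨cg, hcg⟩ : ∃ cg : GenU 0 (m + 3) →
      Mat r (MvPolynomial (GenU 0 (m + 3) × Fin r × Fin r) ℂ),
    cg = fun k => Matrix.of fun i j => MvPolynomial.X (k, (i, j)) := ⟨_, rfl⟩
  refine ⟨evMat (hMat (∑ i, Polynomial.aeval (cg (Sum.inr (Fin.last (m + 2)))) (p i) *
          B.map (algebraMap ℂ _) *
          Polynomial.aeval (δ • (cg (Sum.inr 0)).adjugate) (p i))
        (δ • (cg (Sum.inr 0)).adjugate)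
        fun j : Fin (m + 1) => cg (Sum.inr ⟨j + 1, by omega⟩)) f, fun c => ?_⟩
  obtain ⟨ev, hev⟩ : ∃ ev : MvPolynomial (GenU 0 (m + 3) × Fin r × Fin r) ℂ →ₐ[ℂ] ℂ,
    ev = MvPolynomial.aeval (fun p => c p.1 p.2.1 p.2.2) := ⟨_, rfl⟩
  have h1 : ∀ k, (cg k).map ev = c k := by
    intro k
    ext i j
    rw [hcg, Matrix.map_apply, hev]
    exact MvPolynomial.aeval_X _ _
  have h2 : ∀ F, evMat c F = ev F := fun F => by rw [hev]; rfl
  have h4 : (δ • (cg (Sum.inr 0)).adjugate).map ev = δ • (c (Sum.inr 0)).adjugate := by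
    have h5 : (cg (Sum.inr 0)).adjugate.map ev = (c (Sum.inr 0)).adjugate := by
      rw [← h1]
      exact RingHom.map_adjugate (ev : _ →+* ℂ) (cg (Sum.inr 0))
    rw [← h5]
    ext i j
    exact map_smul ev δ ((cg (Sum.inr 0)).adjugate i j)
  rw [h2, evMat_map, hMat_map, h4]
  simp only [h1]
  congr 2
  have h3 : ∀ M : Mat r (MvPolynomial (GenU 0 (m + 3) × Fin r × Fin r) ℂ),
      M.map ev = ev.mapMatrix M := fun M => rfl
  rw [h3, map_sum]
  refine Finset.sum_congr rfl fun i _ => ?_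
  rw [map_mul, map_mul]
  congr 1
  · congr 1
    · rw [← h3, map_aevalMat, h1]
    · ext i j
      rw [← h3, Matrix.map_apply, Matrix.map_apply]
      exact ev.commutes _
  · rw [← h3, map_aevalMat, h4]

/-- The polynomial in the torus. -/
theorem exists_torus_poly2 {r m : ℕ} (b P Q : Mat r ℂ)
    (c : Fin (m + 1) → Mat r ℂ) (f : MvPolynomial (GenU 1 (m + 1) × Fin r × Fin r) ℂ) :
    ∃ G : MvPolynomial (Fin r) ℂ, ∀ t : Fin r → ℂ, MvPolynomial.eval t G =
      evMat (hMat (P * diagonal t * Q) b c) f := by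
  refine ⟨evMat (hMat (P.map (algebraMap ℂ _) *
    diagonal (fun j => (MvPolynomial.X j : MvPolynomial (Fin r) ℂ)) * Q.map (algebraMap ℂ _))
    (b.map (algebraMap ℂ _)) fun j => (c j).map (algebraMap ℂ _)) f, fun t => ?_⟩
  obtain ⟨ev, hev⟩ : ∃ ev : MvPolynomial (Fin r) ℂ →ₐ[ℂ] ℂ, ev = MvPolynomial.aeval t := ⟨_, rfl⟩
  have h1 : ∀ F, MvPolynomial.eval t F = ev F := fun F => by
    rw [hev, ← MvPolynomial.coe_aeval_eq_eval]
    rfl
  have h2 : ∀ M : Mat r ℂ, (M.map (algebraMap ℂ (MvPolynomial (Fin r) ℂ))).map ev = M := by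
    intro M
    ext i j
    exact ev.commutes _
  have h3 : ∀ M : Mat r (MvPolynomial (Fin r) ℂ), M.map ev = ev.mapMatrix M := fun M => rfl
  rw [h1, evMat_map, hMat_map, h2]
  simp only [h2]
  congr 2
  rw [h3, map_mul, map_mul, ← h3, ← h3, ← h3, h2, h2]
  congr 2
  rw [Matrix.diagonal_map (map_zero ev)]
  congr 1
  funext j
  rw [hev, MvPolynomial.aeval_X]

end Vale.Agent.P002R
end
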