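import Mathlib
import Vale.Agent.P002.Bd3.B5
import Vale.Agent.P002.Bd3.B9
import Vale.Agent.P002.Bd3.B1
import Vale.Agent.P002.Bd3.B7
import Vale.Agent.P002.Bd3.B6
import Vale.Agent.P002.Bd3.B4

set_option linter.all false

section

/-!
# The flow lemma
-/

namespace Vale.Agent.P002R

open Matrix

variable {κ : Type*} {r : ℕ} {K : Type*} [Field K]

/-- Diagonal invertible matrices. -/
def dgU : (Fin r → Kˣ) →* (Mat r K)ˣ where
  toFun s := ⟨diagonal fun i => (s i : K), diagonal fun i => ((s i)⁻¹ : Kˣ), by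
    rw [diagonal_mul_diagonal]; simp, by rw [diagonal_mul_diagonal]; simp⟩
  map_one' := by ext1; simp
  map_mul' s t := by
    ext1
    simp [diagonal_mul_diagonal]

theorem dgU_val (s : Fin r → Kˣ) : (dgU s : Mat r K) = diagonal fun i => (s i : K) := rfl

theorem dgU_inv_val (s : Fin r → Kˣ) :
    ((dgU s)⁻¹ : (Mat r K)ˣ).val = diagonal fun i => ((s i)⁻¹ : Kˣ).val := rfl

/-- The algebra homomorphism from Laurent polynomials to functions on the torus. -/
noncomputable def torusHom (r : ℕ) (K : Type*) [Field K] :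
    MonoidAlgebra K (Multiplicative (Fin r → ℤ)) →ₐ[K] ((Fin r → Kˣ) → K) :=
  MonoidAlgebra.lift K _ _
    { toFun := fun e s => ((∏ i, s i ^ (e.toAdd i) : Kˣ) : K)
      map_one' := by funext s; simp
      map_mul' := by
        intro a b
        funext s
        simp only [toAdd_mul, Pi.add_apply, _root_.zpow_add, Finset.prod_mul_distrib,
          Pi.mul_apply, Units.val_mul] }

theorem torusHom_single (e : Multiplicative (Fin r → ℤ)) (s : Fin r → Kˣ) :
    torusHom r K (MonoidAlgebra.single e 1) s = ((∏ i, s i ^ (e.toAdd i) : Kˣ) : K) := by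
  simp only [torusHom, Units.coe_prod, Units.val_zpow_eq_zpow_val, MonoidAlgebra.lift_single, MonoidHom.coe_mk, OneHom.coe_mk, Pi.smul_apply, smul_eq_mul, one_mul]

/-- Functions on the torus that are Laurent polynomials. -/
noncomputable def torusAlg (r : ℕ) (K : Type*) [Field K] : Subalgebra K ((Fin r → Kˣ) → K) :=
  (torusHom r K).range

theorem coord_mem (i : Fin r) : (fun s : Fin r → Kˣ => (s i : K)) ∈ torusAlg r K := by
  refine ⟨MonoidAlgebra.single (Multiplicative.ofAdd (Pi.single i 1)) 1, ?_⟩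
  funext s
  change torusHom r K _ s = _
  rw [torusHom_single]
  simp only [toAdd_ofAdd]
  rw [Finset.prod_eq_single i]
  · simp
  · intro b _ hb
    simp [Pi.single_eq_of_ne hb]
  · simp only [Finset.mem_univ, not_true_eq_false, Pi.single_eq_same, zpow_ofNat, pow_one, IsEmpty.forall_iff]

theorem coord_inv_mem (i : Fin r) :
    (fun s : Fin r → Kˣ => (((s i)⁻¹ : Kˣ) : K)) ∈ torusAlg r K := by
  refine ⟨MonoidAlgebra.single (Multiplicative.ofAdd (Pi.single i (-1))) 1, ?_⟩
  funext s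
  change torusHom r K _ s = _
  rw [torusHom_single]
  simp only [toAdd_ofAdd]
  rw [Finset.prod_eq_single i]
  · simp
  · intro b _ hb
    simp [Pi.single_eq_of_ne hb]
  · simp only [Finset.mem_univ, not_true_eq_false, Int.reduceNeg, Pi.single_eq_same, _root_.zpow_neg, zpow_ofNat, pow_one, inv_eq_one, IsEmpty.forall_iff]

/-- A matrix valued function whose entries are Laurent polynomials. -/
def EntA (M : (Fin r → Kˣ) → Mat r K) : Prop := ∀ i j, (fun s => M s i j) ∈ torusAlg r K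

theorem EntA.mul {M N : (Fin r → Kˣ) → Mat r K} (hM : EntA M) (hN : EntA N) :
    EntA fun s => M s * N s := by
  intro i j
  have : (fun s => (M s * N s) i j) = ∑ k, (fun s => M s i k) * (fun s => N s k j) := by
    funext s
    simp only [Matrix.mul_apply, Finset.sum_apply, Pi.mul_apply]
  rw [this]
  exact Subalgebra.sum_mem _ fun k _ => Subalgebra.mul_mem _ (hM i k) (hN k j)

theorem EntA.const (M : Mat r K) : EntA fun _ : Fin r → Kˣ => M := by
  intro i j
  have : (fun _ : Fin r → Kˣ => M i j) = algebraMap K ((Fin r → Kˣ) → K) (M i j) := rfl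
  rw [this]
  exact Subalgebra.algebraMap_mem _ _

theorem entA_dg : EntA fun s : Fin r → Kˣ => (dgU s : Mat r K) := by
  intro i j
  by_cases h : i = j
  · subst h
    simpa [dgU_val] using coord_mem (K := K) i
  · have : (fun s : Fin r → Kˣ => (dgU s : Mat r K) i j) = 0 := by
      funext s
      simp [dgU_val, Matrix.diagonal_apply_ne _ h]
    rw [this]
    exact Subalgebra.zero_mem _

theorem entA_dg_inv : EntA fun s : Fin r → Kˣ => (((dgU s)⁻¹ : (Mat r K)ˣ) : Mat r K) := by
  intro i j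
  by_cases h : i = j
  · subst h
    have : (fun s : Fin r → Kˣ => (((dgU s)⁻¹ : (Mat r K)ˣ) : Mat r K) i i) =
        fun s : Fin r → Kˣ => (((s i)⁻¹ : Kˣ) : K) := by
      funext s
      rw [dgU_inv_val]
      simp only [Matrix.diagonal_apply_eq]
    rw [this]
    exact coord_inv_mem (K := K) i
  · have : (fun s : Fin r → Kˣ => (((dgU s)⁻¹ : (Mat r K)ˣ) : Mat r K) i j) = 0 := by
      funext s
      rw [dgU_inv_val]
      simp only [Units.val_inv_eq_inv_val, Matrix.diagonal_apply_ne _ h, Pi.zero_apply]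
    rw [this]
    exact Subalgebra.zero_mem _

theorem EntA.word [DecidableEq κ] (x : FreeGroup κ →* (Mat r K)ˣ) (j : κ) (P : (Mat r K)ˣ)
    (w : FreeGroup κ) :
    EntA (fun s : Fin r → Kˣ => (flow x j (P * dgU s * P⁻¹) w : Mat r K)) ∧
    EntA (fun s : Fin r → Kˣ => (((flow x j (P * dgU s * P⁻¹) w)⁻¹ : (Mat r K)ˣ) : Mat r K)) := by
  induction w using FreeGroup.induction_on with
  | C1 =>
    constructor
    · simpa only [map_one, Units.val_one] using EntA.const (K := K) (1 : Mat r K)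
    · simpa only [map_one, inv_one, Units.val_one] using EntA.const (K := K) (1 : Mat r K)
  | of k =>
    by_cases hk : k = j
    · constructor
      · simp only [flow_of, hk, if_true, Units.val_mul]
        exact (EntA.const _).mul (((EntA.const _).mul entA_dg).mul (EntA.const _))
      · simp only [hk, flow_of, if_true, _root_.mul_inv_rev, inv_inv, Units.val_mul]
        exact ((EntA.const _).mul (entA_dg_inv.mul (EntA.const _))).mul (EntA.const _)
    · constructor
      · simp only [flow_of, hk, if_false]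
        exact EntA.const _
      · simp only [flow_of, hk, if_false]
        exact EntA.const _
  | inv_of k h =>
    constructor
    · simp only [map_inv]
      exact h.2
    · simp only [map_inv, inv_inv]
      exact h.1
  | mul a b ha hb =>
    constructor
    · simp only [map_mul, Units.val_mul]
      exact ha.1.mul hb.1
    · simp only [map_mul, _root_.mul_inv_rev, Units.val_mul]
      exact hb.2.mul ha.2

/-- evaluation over a field extension -/
noncomputable def evalK (α : ℂ →+* K) (x : FreeGroup κ →* (Mat r K)ˣ)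
    (f : MvPolynomial (FreeGroup κ × Fin r × Fin r) ℂ) : K :=
  MvPolynomial.eval₂ α (fun p => (x p.1 : Mat r K) p.2.1 p.2.2) f

theorem evalK_mem [DecidableEq κ] (α : ℂ →+* K) (x : FreeGroup κ →* (Mat r K)ˣ) (j : κ)
    (P : (Mat r K)ˣ) (f : MvPolynomial (FreeGroup κ × Fin r × Fin r) ℂ) :
    (fun s : Fin r → Kˣ => evalK α (flow x j (P * dgU s * P⁻¹)) f) ∈ torusAlg r K := by
  let β : ℂ →+* ((Fin r → Kˣ) → K) := (algebraMap K ((Fin r → Kˣ) → K)).comp α
  let v : FreeGroup κ × Fin r × Fin r → ((Fin r → Kˣ) → K) :=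
    fun p s => (flow x j (P * dgU s * P⁻¹) p.1 : Mat r K) p.2.1 p.2.2
  have h1 : (fun s : Fin r → Kˣ => evalK α (flow x j (P * dgU s * P⁻¹)) f) =
      MvPolynomial.eval₂ β v f := by
    funext s
    have := MvPolynomial.map_eval₂Hom (Pi.evalRingHom (fun _ : Fin r → Kˣ => K) s) 
      (f := β) (g := v) (p := f)
    simp only [MvPolynomial.coe_eval₂Hom, Pi.evalRingHom_apply] at this
    rw [this]
    rfl
  rw [h1]
  apply MvPolynomial.eval₂_mem
  · intro i _
    exact Subalgebra.algebraMap_mem _ _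
  · intro p
    exact (EntA.word x j P p.1).1 p.2.1 p.2.2

theorem zpow_prod_injective {l : Fin r → Kˣ}
    (hl : AlgebraicIndependent ℤ fun i => (l i : K)) :
    Function.Injective fun e : Fin r → ℤ => ∏ i, l i ^ e i := by
  intro e e' h
  simp only at h
  -- exponents p, q natural
  let p : Fin r →₀ ℕ := Finsupp.equivFunOnFinite.symm fun i => (e i - e' i).toNat
  let q : Fin r →₀ ℕ := Finsupp.equivFunOnFinite.symm fun i => (e' i - e i).toNat
  have h1 : ∏ i, (l i : K) ^ p i = ∏ i, (l i : K) ^ q i := by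
    have h2 : ∏ i, l i ^ (e i - e' i) = 1 := by
      simp only [_root_.zpow_sub, Finset.prod_mul_distrib, Finset.prod_inv_distrib]
      rw [h]; simp only [mul_inv_cancel]
    have h3 : ∏ i, l i ^ p i = ∏ i, l i ^ q i := by
      rw [← div_eq_one, ← Finset.prod_div_distrib, ← h2]
      apply Finset.prod_congr rfl
      intro i _
      rw [div_eq_mul_inv, ← zpow_natCast, ← zpow_natCast, ← _root_.zpow_neg, ← _root_.zpow_add]
      congr 1
      simp only [p, q, Finsupp.equivFunOnFinite_symm_apply_apply]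
      (clear * -; omega)
    have h4 := congrArg (Units.val) h3
    simpa only [Units.coe_prod, Units.val_pow_eq_pow_val] using h4
  have h5 : MvPolynomial.aeval (fun i => (l i : K))
      (MvPolynomial.monomial p (1 : ℤ) - MvPolynomial.monomial q 1) = 0 := by
    rw [map_sub, MvPolynomial.aeval_monomial, MvPolynomial.aeval_monomial]
    simp only [map_one, one_mul]
    rw [Finsupp.prod_fintype _ _ (by simp), Finsupp.prod_fintype _ _ (by simp), h1, sub_self]
  have h6 := (injective_iff_map_eq_zero _).1 hl _ h5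
  rw [sub_eq_zero, MvPolynomial.monomial_left_inj one_ne_zero] at h6
  funext i
  have h7 := DFunLike.congr_fun h6 i
  simp only [p, q, Finsupp.equivFunOnFinite_symm_apply_apply] at h7
  (clear * - h7; omega)

theorem torusHom_eq_zero {l : Fin r → Kˣ}
    (hl : AlgebraicIndependent ℤ fun i => (l i : K))
    (γ : MonoidAlgebra K (Multiplicative (Fin r → ℤ)))
    (h : ∀ n : ℕ, torusHom r K γ (l ^ n) = 0) : γ = 0 := by
  let ψ : Multiplicative (Fin r → ℤ) → (Multiplicative ℕ →* K) := fun e =>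
    (Units.coeHom K).comp (powersHom Kˣ (∏ i, l i ^ (e.toAdd i)))
  have hψ : Function.Injective ψ := by
    intro e e' hee
    have h1 := DFunLike.congr_fun hee (Multiplicative.ofAdd 1)
    simp only [ψ, MonoidHom.comp_apply, powersHom_apply, toAdd_ofAdd, pow_one, Units.coeHom_apply,
      Units.val_inj] at h1
    have h2 := zpow_prod_injective hl h1
    exact Multiplicative.toAdd.injective h2
  have hlin := (linearIndependent_monoidHom (Multiplicative ℕ) K).comp ψ hψ
  rw [linearIndependent_iff] at hlin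
  have hc : γ.coeff = 0 := by
    apply hlin γ.coeff
    funext n
    have hn := h n.toAdd
    rw [Finsupp.linearCombination_apply]
    rw [torusHom, MonoidAlgebra.lift_apply] at hn
    simp only [Finsupp.sum, Finset.sum_apply, Pi.smul_apply, Pi.zero_apply] at hn ⊢
    rw [← hn]
    apply Finset.sum_congr rfl
    intro e _
    simp only [Function.comp, MonoidHom.comp_apply, powersHom_apply, Units.coeHom_apply, smul_eq_mul, MonoidHom.coe_mk, OneHom.coe_mk, Pi.pow_apply, ψ]
    congr 2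
    rw [← Finset.prod_pow]
    apply Finset.prod_congr rfl
    intro i _
    rw [← zpow_natCast, ← zpow_natCast, ← _root_.zpow_mul, ← _root_.zpow_mul, mul_comm]
  ext e
  rw [hc]
  rfl

theorem evalK_eq_zero [DecidableEq κ] (α : ℂ →+* K) (x : FreeGroup κ →* (Mat r K)ˣ) (j : κ)
    (P : (Mat r K)ˣ) (f : MvPolynomial (FreeGroup κ × Fin r × Fin r) ℂ) {l : Fin r → Kˣ}
    (hl : AlgebraicIndependent ℤ fun i => (l i : K))
    (h : ∀ n : ℕ, evalK α (flow x j (P * dgU (l ^ n) * P⁻¹)) f = 0) (s : Fin r → Kˣ) :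
    evalK α (flow x j (P * dgU s * P⁻¹)) f = 0 := by
  obtain ⟨γ, hγ⟩ := evalK_mem α x j P f
  have hγ' : ∀ s, torusHom r K γ s = evalK α (flow x j (P * dgU s * P⁻¹)) f := fun s =>
    congrFun hγ s
  have h0 : γ = 0 := by
    apply torusHom_eq_zero hl
    intro n
    rw [hγ', h]
  rw [← hγ', h0, map_zero, Pi.zero_apply]

theorem adjoin_diag {S : Type*} [CommRing S] (ι : S →+* K) (A : Mat r S) (P : (Mat r K)ˣ)
    (l : Fin r → K)
    (hA : A.map ι = (P : Mat r K) * diagonal l * ((P⁻¹ : (Mat r K)ˣ) : Mat r K))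
    (z : Mat r S) (hz : z ∈ Algebra.adjoin S {A}) :
    ∃ d : Fin r → K, z.map ι = (P : Mat r K) * diagonal d * ((P⁻¹ : (Mat r K)ˣ) : Mat r K) := by
  have hP : ((P⁻¹ : (Mat r K)ˣ) : Mat r K) * (P : Mat r K) = 1 := by
    rw [← Units.val_mul, inv_mul_cancel, Units.val_one]
  have hP' : (P : Mat r K) * ((P⁻¹ : (Mat r K)ˣ) : Mat r K) = 1 := by
    rw [← Units.val_mul, mul_inv_cancel, Units.val_one]
  induction hz using Algebra.adjoin_induction with
  | mem x hx =>
    rw [Set.mem_singleton_iff] at hx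
    subst hx
    exact ⟨l, hA⟩
  | algebraMap s =>
    refine ⟨fun _ => ι s, ?_⟩
    have : (algebraMap S (Mat r S) s).map ι = (algebraMap K (Mat r K) (ι s)) := by
      rw [Algebra.algebraMap_eq_smul_one, Algebra.algebraMap_eq_smul_one]
      ext i j
      by_cases h : i = j
      · subst h; simp
      · simp only [map_apply, Matrix.smul_apply, Matrix.one_apply_ne h, smul_eq_mul, mul_zero, map_zero]
    rw [this, show (diagonal fun _ : Fin r => ι s) = algebraMap K (Mat r K) (ι s) from ?_,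
      ← Algebra.commutes, Matrix.mul_assoc, hP', Matrix.mul_one]
    rw [Matrix.algebraMap_eq_diagonal]
    rfl
  | add x y _ _ hx hy =>
    obtain ⟨d, hd⟩ := hx
    obtain ⟨d', hd'⟩ := hy
    refine ⟨d + d', ?_⟩
    rw [Matrix.map_add ι (map_add ι), hd, hd', ← Matrix.add_mul, ← Matrix.mul_add, diagonal_add]
    rfl
  | mul x y _ _ hx hy =>
    obtain ⟨d, hd⟩ := hx
    obtain ⟨d', hd'⟩ := hy
    refine ⟨d * d', ?_⟩
    rw [Matrix.map_mul, hd, hd']
    calc _ = (P : Mat r K) * diagonal d * (((P⁻¹ : (Mat r K)ˣ) : Mat r K) * (P : Mat r K)) *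
        diagonal d' * ((P⁻¹ : (Mat r K)ˣ) : Mat r K) := by simp only [Matrix.mul_assoc]
      _ = _ := by
        rw [hP, Matrix.mul_one, Matrix.mul_assoc (P : Mat r K), diagonal_mul_diagonal]
        rfl

theorem diag_ne_zero {S : Type*} [CommRing S] (ι : S →+* K) (P : (Mat r K)ˣ) (d : Fin r → K)
    (z : (Mat r S)ˣ)
    (hd : (z : Mat r S).map ι = (P : Mat r K) * diagonal d * ((P⁻¹ : (Mat r K)ˣ) : Mat r K)) :
    ∀ i, d i ≠ 0 := by
  have hu : IsUnit (((z : Mat r S).map ι).det) := by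
    have h1 : ((z : Mat r S).map ι).det = ι (z : Mat r S).det := (RingHom.map_det ι _).symm
    rw [h1]
    exact ((Matrix.isUnit_iff_isUnit_det _).1 z.isUnit).map ι
  rw [hd, det_mul, det_mul, det_diagonal, mul_right_comm, ← det_mul, ← Units.val_mul,
    mul_inv_cancel, Units.val_one, det_one, one_mul, isUnit_iff_ne_zero] at hu
  intro i hi
  exact hu (Finset.prod_eq_zero (Finset.mem_univ i) hi)

theorem units_map_dg {S : Type*} [CommRing S] (ι : S →+* K) (P : (Mat r K)ˣ) (d : Fin r → Kˣ)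
    (z : (Mat r S)ˣ)
    (hd : (z : Mat r S).map ι = (P : Mat r K) * diagonal (fun i => (d i : K)) *
      ((P⁻¹ : (Mat r K)ˣ) : Mat r K)) :
    (Units.map (RingHom.mapMatrix ι).toMonoidHom) z = P * dgU d * P⁻¹ := by
  ext1
  rw [Units.val_mul, Units.val_mul, dgU_val]
  exact hd

theorem evalK_baseChange {S : Type*} [CommRing S] [Algebra ℂ S] (ι : S →+* K)
    (y : FreeGroup κ →* (Mat r S)ˣ) (f : MvPolynomial (FreeGroup κ × Fin r × Fin r) ℂ) :
    evalK (ι.comp (algebraMap ℂ S)) (baseChange ι y) f = ι (evalW y f) := by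
  rw [evalK, evalW, MvPolynomial.aeval_def, MvPolynomial.eval₂_comp_left ι]
  rfl

theorem flow_aux [DecidableEq κ] [IsAlgClosed K] [CharZero K]
    {D : Set (FreeGroup κ →* (Mat r ℂ)ˣ)} {k l : κ}
    (hD : ∀ y ∈ D, ∀ n : ℤ, y.comp (twist k l n) ∈ D) {S : Type*} [CommRing S]
    [Algebra ℂ S] (ι : S →+* K) (hι : Function.Injective ι)
    {x : FreeGroup κ →* (Mat r S)ˣ} (hx : InZ D x)
    (hA : AlgebraicIndependent ℤ fun p : Fin r × Fin r =>
      (x (FreeGroup.of l) : Mat r S) p.1 p.2)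
    (z : (Mat r S)ˣ) (hz : (z : Mat r S) ∈ Algebra.adjoin S {(x (FreeGroup.of l) : Mat r S)}) :
    InZ D (flow x k z) := by
  intro f hf
  have hAK : AlgebraicIndependent ℤ fun p : Fin r × Fin r =>
      ((x (FreeGroup.of l) : Mat r S).map ι) p.1 p.2 :=
    hA.map' (f := ι.toIntAlgHom) hι
  obtain ⟨P, l', hP, hl'⟩ := P002.exists_diag _ hAK
  have hl0 : ∀ i, l' i ≠ 0 := fun i => hl'.ne_zero i
  obtain ⟨lu, hlu'⟩ : ∃ lu : Fin r → Kˣ, ∀ i, (lu i : K) = l' i :=
    ⟨fun i => Units.mk0 (l' i) (hl0 i), fun i => rfl⟩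
  have hlu'' : l' = fun i => (lu i : K) := funext fun i => (hlu' i).symm
  rw [hlu''] at hl' hP
  have hxK := units_map_dg ι P lu (x (FreeGroup.of l)) hP
  have hpow : ∀ n : ℕ, evalK (ι.comp (algebraMap ℂ S))
      (flow (baseChange ι x) k (P * dgU (lu ^ n) * P⁻¹)) f = 0 := by
    intro n
    have h1 : P * dgU (lu ^ n) * P⁻¹ = (Units.map (RingHom.mapMatrix ι).toMonoidHom)
        (x (FreeGroup.of l) ^ (n : ℤ)) := by
      rw [map_zpow, hxK, zpow_natCast, map_pow, conj_pow]
    rw [h1, ← baseChange_flow, flow_pow, evalK_baseChange]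
    rw [hx.comp' (twist k l n) (fun y hy => hD y hy n) f hf, map_zero]
  have hall := evalK_eq_zero (ι.comp (algebraMap ℂ S)) (baseChange ι x) k P f hl' hpow
  obtain ⟨d, hd⟩ := adjoin_diag ι _ P _ hP (z : Mat r S) hz
  have hd0 := diag_ne_zero ι P d z hd
  obtain ⟨du, hdu'⟩ : ∃ du : Fin r → Kˣ, d = fun i => (du i : K) :=
    ⟨fun i => Units.mk0 (d i) (hd0 i), rfl⟩
  rw [hdu'] at hd
  have h3 := hall du
  rw [← units_map_dg ι P du z hd, ← baseChange_flow, evalK_baseChange] at h3
  exact hι (by rw [h3, map_zero])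

/-- FLOW LEMMA. -/
theorem InZ.flow [DecidableEq κ] {D : Set (FreeGroup κ →* (Mat r ℂ)ˣ)} {k l : κ}
    (hD : ∀ y ∈ D, ∀ n : ℤ, y.comp (twist k l n) ∈ D) {S : Type*} [CommRing S] [IsDomain S]
    [Algebra ℂ S] {x : FreeGroup κ →* (Mat r S)ˣ} (hx : InZ D x)
    (hA : AlgebraicIndependent ℤ fun p : Fin r × Fin r =>
      (x (FreeGroup.of l) : Mat r S) p.1 p.2)
    (z : (Mat r S)ˣ) (hz : (z : Mat r S) ∈ Algebra.adjoin S {(x (FreeGroup.of l) : Mat r S)}) :
    InZ D (P002R.flow x k z) := by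
  have hι : Function.Injective ((algebraMap (FractionRing S) (AlgebraicClosure (FractionRing S))).comp
      (algebraMap S (FractionRing S))) :=
    (algebraMap (FractionRing S) (AlgebraicClosure (FractionRing S))).injective.comp
      (IsFractionRing.injective S (FractionRing S))
  have : CharZero (AlgebraicClosure (FractionRing S)) := charZero_of_injective_ringHom
    ((((algebraMap (FractionRing S) (AlgebraicClosure (FractionRing S))).comp
      (algebraMap S (FractionRing S))).comp (algebraMap ℂ S)).injective)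
  exact flow_aux hD _ hι hx hA z hz

end Vale.Agent.P002R
end

section

/-!
# P002R TASK S: slides of the last handle
-/

namespace Vale.Agent.P002R

namespace Slides

open Matrix

variable {m n r : ℕ}

theorem relator_eq_blocks (m n : ℕ) :
    relator (m + 1) n = ((blocks m n).map bw).prod * hcomm (Fin.last m) := by
  unfold relator blocks
  rw [List.ofFn_succ', List.concat_eq_append, List.prod_append, List.map_append,
    List.prod_append, List.map_map, List.map_map, List.prod_singleton, ← mul_assoc,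
    List.ofFn_eq_map, List.ofFn_eq_map]
  rfl

theorem blocks_nodup (m n : ℕ) : (blocks m n).Nodup := by
  unfold blocks
  rw [List.nodup_append]
  refine ⟨(List.nodup_finRange n).map Sum.inl_injective,
    (List.nodup_finRange m).map Sum.inr_injective, ?_⟩
  intro a ha b hb
  rw [List.mem_map] at ha hb
  obtain ⟨i, -, rfl⟩ := ha
  obtain ⟨j, -, rfl⟩ := hb
  exact Sum.inl_ne_inr

theorem mem_blocks (b : Fin n ⊕ Fin m) : b ∈ blocks m n := by
  unfold blocks
  rw [List.mem_append, List.mem_map, List.mem_map]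
  rcases b with j | i
  · exact Or.inl ⟨j, List.mem_finRange j, rfl⟩
  · exact Or.inr ⟨i, List.mem_finRange i, rfl⟩

theorem blocks_split (b : Fin n ⊕ Fin m) : ∃ l₁ l₂ : List (Fin n ⊕ Fin m),
    blocks m n = l₁ ++ b :: l₂ ∧ b ∉ l₁ ∧ b ∉ l₂ := by
  obtain ⟨s, t, hst⟩ := List.append_of_mem (mem_blocks b)
  have hnd := blocks_nodup m n
  rw [hst, List.nodup_append] at hnd
  obtain ⟨_, h2, h3⟩ := hnd
  rw [List.nodup_cons] at h2
  exact ⟨s, t, hst, fun h => h3 b h b List.mem_cons_self rfl, h2.1⟩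

theorem aftL_append (b : Fin n ⊕ Fin m) (l₁ l₂ : List (Fin n ⊕ Fin m)) (h : b ∉ l₁) :
    aftL b (l₁ ++ b :: l₂) = (l₂.map bw).prod := by
  induction l₁ with
  | nil => simp [aftL]
  | cons a l ih =>
    rw [List.mem_cons, not_or] at h
    rw [List.cons_append, aftL, if_neg fun hh => h.1 hh.symm, ih h.2]

/-- The homomorphism `σ` fixes the generators outside the block `b` and the last handle, and
`b_m`. -/
structure Fix (b : Fin n ⊕ Fin m) (σ : FF (m + 1) n →* FF (m + 1) n) : Prop where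
  hd : ∀ j, b ≠ Sum.inl j → σ (gD j) = gD j
  he : ∀ j, σ (gE j) = gE j
  ha : ∀ i : Fin m, b ≠ Sum.inr i → σ (gA i.castSucc) = gA i.castSucc
  hb : ∀ i : Fin m, b ≠ Sum.inr i → σ (gB i.castSucc) = gB i.castSucc
  hl : σ (gB (Fin.last m)) = gB (Fin.last m)

theorem Fix.bw_eq {b : Fin n ⊕ Fin m} {σ : FF (m + 1) n →* FF (m + 1) n} (hσ : Fix b σ)
    (b' : Fin n ⊕ Fin m) (h : b ≠ b') : σ (bw b') = bw b' := by
  rcases b' with j | i
  · rw [bw, gC, map_mul, map_mul, map_inv, hσ.hd j h, hσ.he j]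
  · rw [bw, Vale.Agent.P002R.hcomm, map_mul, map_mul, map_mul, map_inv, map_inv, hσ.ha i h,
      hσ.hb i h]

theorem Fix.prod_eq {b : Fin n ⊕ Fin m} {σ : FF (m + 1) n →* FF (m + 1) n} (hσ : Fix b σ)
    (l : List (Fin n ⊕ Fin m)) (h : b ∉ l) : σ (l.map bw).prod = (l.map bw).prod := by
  induction l with
  | nil => simp only [List.map_nil, List.prod_nil, map_one]
  | cons a l ih =>
    rw [List.mem_cons, not_or] at h
    rw [List.map_cons, List.prod_cons, map_mul, ih h.2, hσ.bw_eq a h.1]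

theorem gC_mem (j : Fin n) : gC j ∈ Fc (m + 1) n :=
  Subgroup.subset_closure (Or.inr ⟨j, rfl⟩)

theorem inl_mem (k : Fin (m + 1) × Bool) : FreeGroup.of (Sum.inl k) ∈ Fc (m + 1) n :=
  Subgroup.subset_closure (Or.inl ⟨k, rfl⟩)

theorem bw_mem (b : Fin n ⊕ Fin m) : bw b ∈ Fc (m + 1) n := by
  rcases b with j | i
  · exact gC_mem j
  · exact mul_mem (mul_mem (mul_mem (inl_mem _) (inl_mem _)) (inv_mem (inl_mem _)))
      (inv_mem (inl_mem _))

theorem prod_mem' (l : List (Fin n ⊕ Fin m)) : (l.map bw).prod ∈ Fc (m + 1) n := by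
  refine list_prod_mem fun w hw => ?_
  rw [List.mem_map] at hw
  obtain ⟨b, -, rfl⟩ := hw
  exact bw_mem b

/-- The part of the block of `q` before `loop0 q`. -/
def preW : Loop m n → FF (m + 1) n
  | Sum.inl _ => 1
  | Sum.inr (i, false) => gA i.castSucc
  | Sum.inr (i, true) => gA i.castSucc * gB i.castSucc * (gA i.castSucc)⁻¹

theorem bw_blk (q : Loop m n) : bw (blk q) = preW q * loop0 q := by
  rcases q with j | ⟨i, b⟩
  · rw [preW, one_mul]
    rfl
  · cases b
    · show Vale.Agent.P002R.hcomm i.castSucc = gA i.castSucc *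
        (gB i.castSucc * (gA i.castSucc)⁻¹ * (gB i.castSucc)⁻¹)
      rw [Vale.Agent.P002R.hcomm]
      group
    · show Vale.Agent.P002R.hcomm i.castSucc = gA i.castSucc * gB i.castSucc *
        (gA i.castSucc)⁻¹ * (gB i.castSucc)⁻¹
      rw [Vale.Agent.P002R.hcomm]

theorem loop0_mem (q : Loop m n) : loop0 q ∈ Fc (m + 1) n := by
  rcases q with j | ⟨i, b⟩
  · exact gC_mem j
  · cases b
    · exact mul_mem (mul_mem (inl_mem _) (inv_mem (inl_mem _))) (inv_mem (inl_mem _))
    · exact inv_mem (inl_mem _)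

/-- The conjugate of `b_m` used in the slide. -/
def Xt (q : Loop m n) : FF (m + 1) n :=
  kap q * (gA (Fin.last m) * gB (Fin.last m) * (gA (Fin.last m))⁻¹) * (kap q)⁻¹

theorem kap_mem (q : Loop m n) : kap q ∈ Fc (m + 1) n := by
  obtain ⟨l₁, l₂, h1, h2, _⟩ := blocks_split (blk q)
  rw [kap, h1, aftL_append _ _ _ h2]
  exact prod_mem' l₂

theorem Xt_mem (q : Loop m n) : Xt q ∈ Fc (m + 1) n :=
  mul_mem (mul_mem (kap_mem q) (mul_mem (mul_mem (inl_mem _) (inl_mem _)) (inv_mem (inl_mem _))))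
    (inv_mem (kap_mem q))

theorem Fix.kap_eq {q : Loop m n} {σ : FF (m + 1) n →* FF (m + 1) n} (hσ : Fix (blk q) σ) :
    σ (kap q) = kap q := by
  obtain ⟨l₁, l₂, h1, h2, h3⟩ := blocks_split (blk q)
  rw [kap, h1, aftL_append _ _ _ h2, hσ.prod_eq l₂ h3]

theorem relator_split (q : Loop m n) : ∃ w : FF (m + 1) n,
    relator (m + 1) n = w * preW q * loop0 q * Xt q * kap q * (gB (Fin.last m))⁻¹ ∧
      ∀ σ, Fix (blk q) σ → σ w = w := by
  obtain ⟨l₁, l₂, h1, h2, h3⟩ := blocks_split (blk q)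
  refine ⟨(l₁.map bw).prod, ?_, fun σ hσ => hσ.prod_eq l₁ h2⟩
  have hk : kap q = (l₂.map bw).prod := by rw [kap, h1, aftL_append _ _ _ h2]
  rw [relator_eq_blocks, h1, List.map_append, List.map_cons, List.prod_append, List.prod_cons,
    bw_blk, ← hk, Xt, Vale.Agent.P002R.hcomm]
  group

theorem slide_rel {q : Loop m n} {σ : FF (m + 1) n →* FF (m + 1) n} (hσ : Fix (blk q) σ)
    (hC : σ (gA (Fin.last m)) = (kap q)⁻¹ * loop0 q * kap q * gA (Fin.last m))
    (hq : σ (loop0 q) = loop0 q * Xt q * loop0 q * (Xt q)⁻¹ * (loop0 q)⁻¹)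
    (hp : σ (preW q) = preW q) :
    σ (Xt q) = loop0 q * Xt q * (loop0 q)⁻¹ ∧ σ (relator (m + 1) n) = relator (m + 1) n := by
  have hX : σ (Xt q) = loop0 q * Xt q * (loop0 q)⁻¹ := by
    rw [Xt]
    simp only [map_mul, hσ.kap_eq, hC, hσ.hl, map_inv]
    group
  refine ⟨hX, ?_⟩
  obtain ⟨w, hw, hw'⟩ := relator_split q
  rw [hw]
  simp only [map_mul, hw' σ hσ, hp, hq, hX, hσ.kap_eq, map_inv, hσ.hl]
  group

theorem slide_rel_inv {q : Loop m n} {τ : FF (m + 1) n →* FF (m + 1) n} (hτ : Fix (blk q) τ)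
    (hC : τ (gA (Fin.last m)) =
      (kap q)⁻¹ * (Xt q)⁻¹ * (loop0 q)⁻¹ * Xt q * kap q * gA (Fin.last m))
    (hq : τ (loop0 q) = (Xt q)⁻¹ * loop0 q * Xt q)
    (hp : τ (preW q) = preW q) :
    τ (Xt q) = (Xt q)⁻¹ * (loop0 q)⁻¹ * Xt q * loop0 q * Xt q ∧
      τ (relator (m + 1) n) = relator (m + 1) n := by
  have hX : τ (Xt q) = (Xt q)⁻¹ * (loop0 q)⁻¹ * Xt q * loop0 q * Xt q := by
    have h1 : τ (Xt q) = (Xt q)⁻¹ * (loop0 q)⁻¹ * Xt q * (kap q *
        (gA (Fin.last m) * gB (Fin.last m) * (gA (Fin.last m))⁻¹) * (kap q)⁻¹) *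
        ((Xt q)⁻¹ * loop0 q * Xt q) := by
      have h2 : τ (Xt q) = τ (kap q * (gA (Fin.last m) * gB (Fin.last m) *
        (gA (Fin.last m))⁻¹) * (kap q)⁻¹) := rfl
      rw [h2]
      simp only [map_mul, hτ.kap_eq, hC, hτ.hl, map_inv]
      group
    rw [h1]
    show (Xt q)⁻¹ * (loop0 q)⁻¹ * Xt q * Xt q * ((Xt q)⁻¹ * loop0 q * Xt q) = _
    group
  refine ⟨hX, ?_⟩
  obtain ⟨w, hw, hw'⟩ := relator_split q
  rw [hw]
  simp only [map_mul, hw' τ hτ, hp, hq, hX, hτ.kap_eq, map_inv, hτ.hl]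
  group

/-- General construction of the slide from formulas on the block. -/
theorem slide_build (q : Loop m n) (σ τ : FF (m + 1) n →* FF (m + 1) n)
    (hσ : Fix (blk q) σ) (hτ : Fix (blk q) τ)
    (σC : σ (gA (Fin.last m)) = (kap q)⁻¹ * loop0 q * kap q * gA (Fin.last m))
    (τC : τ (gA (Fin.last m)) =
      (kap q)⁻¹ * (Xt q)⁻¹ * (loop0 q)⁻¹ * Xt q * kap q * gA (Fin.last m))
    (σq : σ (loop0 q) = loop0 q * Xt q * loop0 q * (Xt q)⁻¹ * (loop0 q)⁻¹)
    (τq : τ (loop0 q) = (Xt q)⁻¹ * loop0 q * Xt q)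
    (σp : σ (preW q) = preW q) (τp : τ (preW q) = preW q)
    (σd : ∀ j, ∃ u ∈ Fc (m + 1) n, σ (gD j) = u * gD j)
    (τd : ∀ j, ∃ u ∈ Fc (m + 1) n, τ (gD j) = u * gD j)
    (σab : ∀ k, σ (FreeGroup.of (Sum.inl k)) ∈ Fc (m + 1) n)
    (τab : ∀ k, τ (FreeGroup.of (Sum.inl k)) ∈ Fc (m + 1) n)
    (hτσ : ∀ k, k ≠ Sum.inl (Fin.last m, false) → τ (σ (FreeGroup.of k)) = FreeGroup.of k)
    (hστ : ∀ k, k ≠ Sum.inl (Fin.last m, false) → σ (τ (FreeGroup.of k)) = FreeGroup.of k) :
    ∃ e : FF (m + 1) n ≃* FF (m + 1) n, (∀ w, e w = σ w) ∧ (∀ w, e.symm w = τ w) ∧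
      Adm e ∧ Adm e.symm := by
  obtain ⟨σX, σR⟩ := slide_rel hσ σC σq σp
  obtain ⟨τX, τR⟩ := slide_rel_inv hτ τC τq τp
  have h1 : τ.comp σ = MonoidHom.id _ := by
    refine FreeGroup.ext_hom _ _ fun k => ?_
    rw [MonoidHom.comp_apply, MonoidHom.id_apply]
    by_cases hk : k = Sum.inl (Fin.last m, false)
    · subst hk
      show τ (σ (gA (Fin.last m))) = gA (Fin.last m)
      rw [σC]
      simp only [map_mul, map_inv, hτ.kap_eq, τq, τC]
      group
    · exact hτσ k hk
  have h2 : σ.comp τ = MonoidHom.id _ := by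
    refine FreeGroup.ext_hom _ _ fun k => ?_
    rw [MonoidHom.comp_apply, MonoidHom.id_apply]
    by_cases hk : k = Sum.inl (Fin.last m, false)
    · subst hk
      show σ (τ (gA (Fin.last m))) = gA (Fin.last m)
      rw [τC]
      simp only [map_mul, map_inv, hσ.kap_eq, σX, σq, σC]
      group
    · exact hστ k hk
  refine ⟨MonoidHom.toMulEquiv σ τ h1 h2, fun w => rfl, fun w => rfl, ?_, ?_⟩
  · exact ⟨σR, hσ.he, σd, σab⟩
  · exact ⟨τR, hτ.he, τd, τab⟩

section der

variable {κ : Type*} {x : FreeGroup κ →* (Mat r ℂ)ˣ} {E : FreeGroup κ → Mat r ℂ}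

theorem der_one (hE : IsDer x E) : E 1 = 0 := by
  have h := hE 1 1
  rw [mul_one, map_one, Units.val_one, Matrix.mul_one, Matrix.one_mul] at h
  exact (add_eq_left.1 h.symm)

/-- Derivation of a conjugate of an element of the kernel. -/
theorem der_conj (hE : IsDer x E) (w c : FreeGroup κ) (hc : x c = 1) :
    E (w * c * w⁻¹) = (x w : Mat r ℂ) * E c * (((x w)⁻¹ : (Mat r ℂ)ˣ) : Mat r ℂ) := by
  have h0 : E w * (((x w)⁻¹ : (Mat r ℂ)ˣ) : Mat r ℂ) + (x w : Mat r ℂ) * E w⁻¹ = 0 := by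
    have h := hE w w⁻¹
    rw [mul_inv_cancel, der_one hE, map_inv] at h
    exact h.symm
  have h3 : E (w * c) = E w + (x w : Mat r ℂ) * E c := by
    rw [hE, hc, Units.val_one, Matrix.mul_one]
  rw [hE, h3, map_mul, hc, mul_one, map_inv, Matrix.add_mul]
  rw [add_right_comm, h0, zero_add]

theorem der_inv_mul (hE : IsDer x E) (c w : FreeGroup κ) (hc : x c = 1) :
    E (c⁻¹ * w) = E w - E c * (x w : Mat r ℂ) := by
  have h1 : E (c⁻¹) = - E c := by
    have h := hE c c⁻¹
    rw [mul_inv_cancel, der_one hE, map_inv, hc, inv_one, Units.val_one, Matrix.mul_one,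
      Matrix.one_mul] at h
    exact (neg_eq_of_add_eq_zero_right h.symm).symm
  rw [hE, h1, map_inv, hc, inv_one, Units.val_one, Matrix.one_mul, Matrix.neg_mul]
  abel

theorem der_mul_ker (hE : IsDer x E) (w c : FreeGroup κ) (hc : x c = 1) :
    E (w * c) = E w + (x w : Mat r ℂ) * E c := by
  rw [hE, hc, Units.val_one, Matrix.mul_one]

end der

theorem x_Xt {G : Type*} [Group G] (x : FF (m + 1) n →* G) (hx : x (gB (Fin.last m)) = 1)
    (q : Loop m n) : x (Xt q) = 1 := by
  rw [Xt]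
  simp only [map_mul, hx, map_inv]
  group

theorem E_Xt (x : FF (m + 1) n →* (Mat r ℂ)ˣ) (hx : x (gB (Fin.last m)) = 1)
    {E : FF (m + 1) n → Mat r ℂ} (hE : IsDer x E) (q : Loop m n) :
    E (Xt q) = (x (kap q) : Mat r ℂ) * ((x (gA (Fin.last m)) : Mat r ℂ) *
      E (gB (Fin.last m)) * (((x (gA (Fin.last m)))⁻¹ : (Mat r ℂ)ˣ) : Mat r ℂ)) *
        (((x (kap q))⁻¹ : (Mat r ℂ)ˣ) : Mat r ℂ) := by
  rw [Xt, der_conj hE _ _ (by simp [hx]), der_conj hE _ _ hx]

theorem exists_hom2 {κ G : Type*} [DecidableEq κ] [Group G] (f : κ → G) (k₁ k₂ : κ)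
    (h : k₂ ≠ k₁) (v₁ v₂ : G) : ∃ σ : FreeGroup κ →* G, σ (FreeGroup.of k₁) = v₁ ∧
      σ (FreeGroup.of k₂) = v₂ ∧ ∀ k, k ≠ k₁ → k ≠ k₂ → σ (FreeGroup.of k) = f k := by
  refine ⟨FreeGroup.lift fun k => if k = k₁ then v₁ else if k = k₂ then v₂ else f k,
    ?_, ?_, ?_⟩
  · rw [FreeGroup.lift_apply_of, if_pos rfl]
  · rw [FreeGroup.lift_apply_of, if_neg h, if_pos rfl]
  · intro k h1 h2
    rw [FreeGroup.lift_apply_of, if_neg h1, if_neg h2]

theorem exists_hom3 {κ G : Type*} [DecidableEq κ] [Group G] (f : κ → G) (k₁ k₂ k₃ : κ)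
    (h : k₂ ≠ k₁) (h' : k₃ ≠ k₁) (h'' : k₃ ≠ k₂) (v₁ v₂ v₃ : G) :
    ∃ σ : FreeGroup κ →* G, σ (FreeGroup.of k₁) = v₁ ∧
      σ (FreeGroup.of k₂) = v₂ ∧ σ (FreeGroup.of k₃) = v₃ ∧
        ∀ k, k ≠ k₁ → k ≠ k₂ → k ≠ k₃ → σ (FreeGroup.of k) = f k := by
  refine ⟨FreeGroup.lift fun k => if k = k₁ then v₁ else if k = k₂ then v₂ else
    if k = k₃ then v₃ else f k, ?_, ?_, ?_, ?_⟩
  · rw [FreeGroup.lift_apply_of, if_pos rfl]
  · rw [FreeGroup.lift_apply_of, if_neg h, if_pos rfl]
  · rw [FreeGroup.lift_apply_of, if_neg h', if_neg h'', if_pos rfl]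
  · intro k h1 h2 h3
    rw [FreeGroup.lift_apply_of, if_neg h1, if_neg h2, if_neg h3]

/-- The statement about the slide around the loop `q`. -/
def SlideStatement (q : Loop m n) : Prop :=
    ∃ σ : FF (m + 1) n ≃* FF (m + 1) n, Adm σ ∧ Adm σ.symm ∧
      σ (gB (Fin.last m)) = gB (Fin.last m) ∧
      (∀ {G : Type} [Group G] (x : FF (m + 1) n →* G), x (gB (Fin.last m)) = 1 →
        x (σ (gA (Fin.last m))) = x (loopW q) * x (gA (Fin.last m)) ∧
          ∀ k, k ≠ Sum.inl (Fin.last m, false) →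
            x (σ (FreeGroup.of k)) = x (FreeGroup.of k)) ∧
      (∀ (r : ℕ) (x : FF (m + 1) n →* (Mat r ℂ)ˣ), x (gB (Fin.last m)) = 1 →
        ∀ E : FF (m + 1) n → Mat r ℂ, IsDer x E → ∀ k, k ≠ Sum.inl (Fin.last m, false) →
          E (σ.symm (FreeGroup.of k)) = E (FreeGroup.of k) +
            Lam x q ((x (gA (Fin.last m)) : Mat r ℂ) * E (gB (Fin.last m)) *
              (((x (gA (Fin.last m)))⁻¹ : (Mat r ℂ)ˣ) : Mat r ℂ)) k)

theorem slide_puncture (j : Fin n) : SlideStatement (m := m) (Sum.inl j) := by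
  obtain ⟨q, hq⟩ : ∃ q : Loop m n, q = Sum.inl j := ⟨_, rfl⟩
  rw [← hq]
  have hne : (Sum.inl (Fin.last m, false) : Gen (m + 1) n) ≠ Sum.inr (j, false) := Sum.inl_ne_inr
  have hq0 : loop0 q = gC j := by rw [hq]; rfl
  have hpre : preW q = 1 := by rw [hq]; rfl
  have hblk : blk q = Sum.inl j := by rw [hq]; rfl
  obtain ⟨σ, σd, σC, σo⟩ := exists_hom2 (FreeGroup.of : Gen (m + 1) n → FF (m + 1) n)
    (Sum.inr (j, false)) (Sum.inl (Fin.last m, false)) hne
    (gC j * Xt q * (gC j)⁻¹ * gD j) ((kap q)⁻¹ * loop0 q * kap q * gA (Fin.last m))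
  obtain ⟨τ, τd, τC, τo⟩ := exists_hom2 (FreeGroup.of : Gen (m + 1) n → FF (m + 1) n)
    (Sum.inr (j, false)) (Sum.inl (Fin.last m, false)) hne
    ((Xt q)⁻¹ * gD j) ((kap q)⁻¹ * (Xt q)⁻¹ * (loop0 q)⁻¹ * Xt q * kap q * gA (Fin.last m))
  have hfix : ∀ ρ : FF (m + 1) n →* FF (m + 1) n, (∀ k, k ≠ Sum.inr (j, false) →
      k ≠ Sum.inl (Fin.last m, false) → ρ (FreeGroup.of k) = FreeGroup.of k) →
        Fix (blk q) ρ := by
    intro ρ hρ
    rw [hblk]
    refine ⟨fun j' hj' => hρ _ ?_ Sum.inr_ne_inl, fun j' => hρ _ (by simp) Sum.inr_ne_inl,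
      fun i _ => hρ _ Sum.inl_ne_inr ?_, fun i _ => hρ _ Sum.inl_ne_inr (by simp only [ne_eq, Sum.inl.injEq, Prod.mk.injEq, Fin.castSucc_ne_last, Bool.true_eq_false, and_self, not_false_eq_true]),
      hρ _ Sum.inl_ne_inr (by simp)⟩
    · intro h
      apply hj'
      simp only [Sum.inr.injEq, Prod.mk.injEq, and_true] at h
      rw [h]
    · intro h
      simp only [Sum.inl.injEq, Prod.mk.injEq, and_true] at h
      exact (Fin.castSucc_lt_last i).ne h
  have σF := hfix σ σo
  have τF := hfix τ τo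
  have σd' : σ (gD j) = gC j * Xt q * (gC j)⁻¹ * gD j := σd
  have τd' : τ (gD j) = (Xt q)⁻¹ * gD j := τd
  have σq : σ (loop0 q) = loop0 q * Xt q * loop0 q * (Xt q)⁻¹ * (loop0 q)⁻¹ := by
    rw [hq0]
    conv_lhs => rw [gC]
    simp only [map_mul, σd', σF.he, map_inv]
    have : (gC j : FF (m + 1) n) = gD j * gE j * (gD j)⁻¹ := rfl
    rw [this]
    group
  have τq : τ (loop0 q) = (Xt q)⁻¹ * loop0 q * Xt q := by
    rw [hq0]
    conv_lhs => rw [gC]
    simp only [map_mul, τd', τF.he, map_inv]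
    have : (gC j : FF (m + 1) n) = gD j * gE j * (gD j)⁻¹ := rfl
    rw [this]
    group
  have σp : σ (preW q) = preW q := by rw [hpre, map_one]
  have τp : τ (preW q) = preW q := by rw [hpre, map_one]
  have hdd : ∀ ρ : FF (m + 1) n →* FF (m + 1) n, Fix (blk q) ρ → ∀ u ∈ Fc (m + 1) n,
      ρ (gD j) = u * gD j → ∀ j', ∃ u ∈ Fc (m + 1) n, ρ (gD j') = u * gD j' := by
    intro ρ hρ u hu h j'
    by_cases hj : j' = j
    · subst hj
      exact ⟨u, hu, h⟩
    · refine ⟨1, one_mem _, ?_⟩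
      rw [one_mul]
      refine hρ.hd j' ?_
      rw [hblk]
      intro h1
      exact hj (Sum.inl_injective h1).symm
  have hab : ∀ ρ : FF (m + 1) n →* FF (m + 1) n, (∀ k, k ≠ Sum.inr (j, false) →
      k ≠ Sum.inl (Fin.last m, false) → ρ (FreeGroup.of k) = FreeGroup.of k) →
      ρ (gA (Fin.last m)) ∈ Fc (m + 1) n →
        ∀ k, ρ (FreeGroup.of (Sum.inl k)) ∈ Fc (m + 1) n := by
    intro ρ hρ h k
    by_cases hk : k = (Fin.last m, false)
    · subst hk
      exact h
    · rw [hρ _ Sum.inl_ne_inr fun h1 => hk (Sum.inl_injective h1)]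
      exact inl_mem k
  have hCm : gA (Fin.last m) ∈ Fc (m + 1) n := inl_mem _
  obtain ⟨e, he, he', hA, hA'⟩ := slide_build q σ τ σF τF σC τC σq τq σp τp
    (hdd σ σF _ (mul_mem (mul_mem (gC_mem j) (Xt_mem q)) (inv_mem (gC_mem j))) σd')
    (hdd τ τF _ (inv_mem (Xt_mem q)) τd')
    (hab σ σo (by
      rw [show σ (gA (Fin.last m)) = _ from σC]
      exact mul_mem (mul_mem (mul_mem (inv_mem (kap_mem q)) (loop0_mem q)) (kap_mem q)) hCm))
    (hab τ τo (by
      rw [show τ (gA (Fin.last m)) = _ from τC]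
      exact mul_mem (mul_mem (mul_mem (mul_mem (mul_mem (inv_mem (kap_mem q))
        (inv_mem (Xt_mem q))) (inv_mem (loop0_mem q))) (Xt_mem q)) (kap_mem q)) hCm))
    (by
      intro k hk
      by_cases hk1 : k = Sum.inr (j, false)
      · subst hk1
        rw [σd]
        have hX := (slide_rel_inv τF τC τq τp).1
        have hg : τ (gC j) = (Xt q)⁻¹ * gC j * Xt q := by rw [← hq0]; exact τq
        simp only [map_mul, hg, hX, hq0, map_inv, τd']
        show _ = gD j
        group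
      · rw [σo k hk1 hk, τo k hk1 hk])
    (by
      intro k hk
      by_cases hk1 : k = Sum.inr (j, false)
      · subst hk1
        rw [τd]
        have hX := (slide_rel σF σC σq σp).1
        simp only [map_mul, map_inv, hX, hq0, σd']
        show _ = gD j
        group
      · rw [τo k hk1 hk, σo k hk1 hk])
  refine ⟨e, hA, hA', ?_, ?_, ?_⟩
  · rw [he]; exact σF.hl
  · intro G _ x hx
    constructor
    · rw [he, show σ (gA (Fin.last m)) = _ from σC, loopW]
      simp only [map_mul]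
    · intro k hk
      rw [he]
      by_cases hk1 : k = Sum.inr (j, false)
      · subst hk1
        rw [σd]
        simp only [map_mul, x_Xt x hx, map_inv]
        show _ = x (gD j)
        group
      · rw [σo k hk1 hk]
  · intro r x hx E hE k hk
    rw [he', hq]
    by_cases hk1 : k = Sum.inr (j, false)
    · subst hk1
      rw [τd, der_inv_mul hE _ _ (x_Xt x hx q), E_Xt x hx hE]
      simp only [Lam, if_true]
      rw [sub_eq_add_neg, hq]
      rfl
    · rw [τo k hk1 hk]
      simp only [Lam, if_neg hk1, add_zero]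

/-- For slides around loops of the handle `i`. -/
theorem fix_handle (i : Fin m) (ρ : FF (m + 1) n →* FF (m + 1) n)
    (hρ : ∀ k : Gen (m + 1) n, k ≠ Sum.inl (i.castSucc, false) → k ≠ Sum.inl (i.castSucc, true) →
      k ≠ Sum.inl (Fin.last m, false) → ρ (FreeGroup.of k) = FreeGroup.of k) :
    Fix (Sum.inr i) ρ := by
  have hlt : ∀ i : Fin m, i.castSucc ≠ Fin.last m := fun i => (Fin.castSucc_lt_last i).ne
  refine ⟨fun j' _ => hρ _ Sum.inr_ne_inl Sum.inr_ne_inl Sum.inr_ne_inl,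
    fun j' => hρ _ Sum.inr_ne_inl Sum.inr_ne_inl Sum.inr_ne_inl,
    fun i' hi => hρ _ ?_ (by simp only [ne_eq, Sum.inl.injEq, Prod.mk.injEq, Fin.castSucc_inj, Bool.false_eq_true, and_false, not_false_eq_true]) ?_, fun i' hi => hρ _ (by simp) ?_ (by simp),
    hρ _ (by simp) ?_ (by simp)⟩
  · intro h
    simp only [Sum.inl.injEq, Prod.mk.injEq, and_true] at h
    exact hi (congrArg Sum.inr (Fin.castSucc_injective m h).symm)
  · intro h
    simp only [Sum.inl.injEq, Prod.mk.injEq, and_true] at h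
    exact hlt i' h
  · intro h
    simp only [Sum.inl.injEq, Prod.mk.injEq, and_true] at h
    exact hi (congrArg Sum.inr (Fin.castSucc_injective m h).symm)
  · intro h
    simp only [Sum.inl.injEq, Prod.mk.injEq, and_true] at h
    exact hlt i h.symm

theorem ab_handle (i : Fin m) (ρ : FF (m + 1) n →* FF (m + 1) n)
    (hρ : ∀ k : Gen (m + 1) n, k ≠ Sum.inl (i.castSucc, false) → k ≠ Sum.inl (i.castSucc, true) →
      k ≠ Sum.inl (Fin.last m, false) → ρ (FreeGroup.of k) = FreeGroup.of k)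
    (ha : ρ (gA i.castSucc) ∈ Fc (m + 1) n) (hb : ρ (gB i.castSucc) ∈ Fc (m + 1) n)
    (hC : ρ (gA (Fin.last m)) ∈ Fc (m + 1) n) (k : Fin (m + 1) × Bool) :
    ρ (FreeGroup.of (Sum.inl k)) ∈ Fc (m + 1) n := by
  by_cases h1 : k = (i.castSucc, false)
  · subst h1
    exact ha
  · by_cases h2 : k = (i.castSucc, true)
    · subst h2
      exact hb
    · by_cases h3 : k = (Fin.last m, false)
      · subst h3
        exact hC
      · rw [hρ _ (fun h => h1 (Sum.inl_injective h)) (fun h => h2 (Sum.inl_injective h))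
          fun h => h3 (Sum.inl_injective h)]
        exact inl_mem k

theorem d_handle (i : Fin m) (ρ : FF (m + 1) n →* FF (m + 1) n)
    (hρ : ∀ k : Gen (m + 1) n, k ≠ Sum.inl (i.castSucc, false) → k ≠ Sum.inl (i.castSucc, true) →
      k ≠ Sum.inl (Fin.last m, false) → ρ (FreeGroup.of k) = FreeGroup.of k) (j : Fin n) :
    ∃ u ∈ Fc (m + 1) n, ρ (gD j) = u * gD j := by
  refine ⟨1, one_mem _, ?_⟩
  rw [one_mul]
  exact hρ _ Sum.inr_ne_inl Sum.inr_ne_inl Sum.inr_ne_inl

theorem slide_handle₁ (i : Fin m) : SlideStatement (n := n) (Sum.inr (i, false)) := by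
  obtain ⟨q, hq⟩ : ∃ q : Loop m n, q = Sum.inr (i, false) := ⟨_, rfl⟩
  rw [← hq]
  have hne : (Sum.inl (Fin.last m, false) : Gen (m + 1) n) ≠ Sum.inl (i.castSucc, true) := by
    simp
  obtain ⟨a, ha⟩ : ∃ a : FF (m + 1) n, a = gA i.castSucc := ⟨_, rfl⟩
  obtain ⟨b, hb⟩ : ∃ b : FF (m + 1) n, b = gB i.castSucc := ⟨_, rfl⟩
  have hq0 : loop0 q = b * a⁻¹ * b⁻¹ := by rw [hq, ha, hb]; rfl
  have hpre : preW q = a := by rw [hq, ha]; rfl
  have hblk : blk q = Sum.inr i := by rw [hq]; rfl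
  obtain ⟨σ, σb, σC, σo⟩ := exists_hom2 (FreeGroup.of : Gen (m + 1) n → FF (m + 1) n)
    (Sum.inl (i.castSucc, true)) (Sum.inl (Fin.last m, false)) hne
    (loop0 q * Xt q * b * a) ((kap q)⁻¹ * loop0 q * kap q * gA (Fin.last m))
  obtain ⟨τ, τb, τC, τo⟩ := exists_hom2 (FreeGroup.of : Gen (m + 1) n → FF (m + 1) n)
    (Sum.inl (i.castSucc, true)) (Sum.inl (Fin.last m, false)) hne
    ((Xt q)⁻¹ * b) ((kap q)⁻¹ * (Xt q)⁻¹ * (loop0 q)⁻¹ * Xt q * kap q * gA (Fin.last m))
  have σF : Fix (blk q) σ := by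
    rw [hblk]; exact fix_handle i σ fun k _ h2 h3 => σo k h2 h3
  have τF : Fix (blk q) τ := by
    rw [hblk]; exact fix_handle i τ fun k _ h2 h3 => τo k h2 h3
  have hane : (Sum.inl (i.castSucc, false) : Gen (m + 1) n) ≠ Sum.inl (Fin.last m, false) := by
    intro h
    simp only [Sum.inl.injEq, Prod.mk.injEq, and_true] at h
    exact (Fin.castSucc_lt_last i).ne h
  have σa : σ a = a := by rw [ha]; exact σo _ (by simp) hane
  have τa : τ a = a := by rw [ha]; exact τo _ (by simp) hane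
  have σb' : σ b = loop0 q * Xt q * b * a := by conv_lhs => rw [hb]; exact σb
  have τb' : τ b = (Xt q)⁻¹ * b := by conv_lhs => rw [hb]; exact τb
  have σq : σ (loop0 q) = loop0 q * Xt q * loop0 q * (Xt q)⁻¹ * (loop0 q)⁻¹ := by
    have h1 : σ (loop0 q) = σ (b * a⁻¹ * b⁻¹) := by rw [hq0]
    rw [h1]
    simp only [map_mul, σb', map_inv, σa]
    rw [hq0]
    group
  have τq : τ (loop0 q) = (Xt q)⁻¹ * loop0 q * Xt q := by
    have h1 : τ (loop0 q) = τ (b * a⁻¹ * b⁻¹) := by rw [hq0]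
    rw [h1]
    simp only [map_mul, τb', map_inv, τa]
    rw [hq0]
    group
  have σp : σ (preW q) = preW q := by rw [hpre, σa]
  have τp : τ (preW q) = preW q := by rw [hpre, τa]
  have hCm : gA (Fin.last m) ∈ Fc (m + 1) n := inl_mem _
  have ham : a ∈ Fc (m + 1) n := by rw [ha]; exact inl_mem _
  have hbm : b ∈ Fc (m + 1) n := by rw [hb]; exact inl_mem _
  obtain ⟨e, he, he', hA, hA'⟩ := slide_build q σ τ σF τF σC τC σq τq σp τp
    (d_handle i σ fun k _ h2 h3 => σo k h2 h3)
    (d_handle i τ fun k _ h2 h3 => τo k h2 h3)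
    (ab_handle i σ (fun k _ h2 h3 => σo k h2 h3) (by rw [← ha, σa]; exact ham)
      (by
        rw [← hb, σb']
        exact mul_mem (mul_mem (mul_mem (loop0_mem q) (Xt_mem q)) hbm) ham)
      (by
        rw [show σ (gA (Fin.last m)) = _ from σC]
        exact mul_mem (mul_mem (mul_mem (inv_mem (kap_mem q)) (loop0_mem q)) (kap_mem q)) hCm))
    (ab_handle i τ (fun k _ h2 h3 => τo k h2 h3) (by rw [← ha, τa]; exact ham)
      (by
        rw [← hb, τb']
        exact mul_mem (inv_mem (Xt_mem q)) hbm)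
      (by
        rw [show τ (gA (Fin.last m)) = _ from τC]
        exact mul_mem (mul_mem (mul_mem (mul_mem (mul_mem (inv_mem (kap_mem q))
          (inv_mem (Xt_mem q))) (inv_mem (loop0_mem q))) (Xt_mem q)) (kap_mem q)) hCm))
    (by
      intro k hk
      by_cases hk1 : k = Sum.inl (i.castSucc, true)
      · subst hk1
        rw [σb]
        have hX := (slide_rel_inv τF τC τq τp).1
        simp only [map_mul, hX, τq, τb', τa]
        have h2 : (FreeGroup.of (Sum.inl (i.castSucc, true)) : FF (m + 1) n) = b := by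
          rw [hb]; rfl
        rw [h2, hq0]
        group
      · rw [σo k hk1 hk, τo k hk1 hk])
    (by
      intro k hk
      by_cases hk1 : k = Sum.inl (i.castSucc, true)
      · subst hk1
        rw [τb]
        have hX := (slide_rel σF σC σq σp).1
        simp only [map_mul, map_inv, hX, σb']
        have h2 : (FreeGroup.of (Sum.inl (i.castSucc, true)) : FF (m + 1) n) = b := by
          rw [hb]; rfl
        rw [h2, hq0]
        group
      · rw [τo k hk1 hk, σo k hk1 hk])
  refine ⟨e, hA, hA', ?_, ?_, ?_⟩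
  · rw [he]; exact σF.hl
  · intro G _ x hx
    constructor
    · rw [he, show σ (gA (Fin.last m)) = _ from σC, loopW]
      simp only [map_mul]
    · intro k hk
      rw [he]
      by_cases hk1 : k = Sum.inl (i.castSucc, true)
      · subst hk1
        rw [σb, hq0]
        simp only [map_mul, map_inv, x_Xt x hx]
        have h2 : (FreeGroup.of (Sum.inl (i.castSucc, true)) : FF (m + 1) n) = b := by
          rw [hb]; rfl
        rw [h2]
        group
      · rw [σo k hk1 hk]
  · intro r x hx E hE k hk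
    rw [he', hq]
    by_cases hk1 : k = Sum.inl (i.castSucc, true)
    · subst hk1
      rw [τb, der_inv_mul hE _ _ (x_Xt x hx q), E_Xt x hx hE]
      simp only [Lam, if_true]
      rw [sub_eq_add_neg, hq, hb]
      rfl
    · rw [τo k hk1 hk]
      simp only [Lam, if_neg hk1, add_zero]

theorem slide_handle₂ (i : Fin m) : SlideStatement (n := n) (Sum.inr (i, true)) := by
  obtain ⟨q, hq⟩ : ∃ q : Loop m n, q = Sum.inr (i, true) := ⟨_, rfl⟩
  rw [← hq]
  have hne : (Sum.inl (Fin.last m, false) : Gen (m + 1) n) ≠ Sum.inl (i.castSucc, true) := by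
    simp only [ne_eq, Sum.inl.injEq, Prod.mk.injEq, Bool.false_eq_true, and_false, not_false_eq_true]
  have hne' : (Sum.inl (Fin.last m, false) : Gen (m + 1) n) ≠ Sum.inl (i.castSucc, false) := by
    intro h
    simp only [Sum.inl.injEq, Prod.mk.injEq, and_true] at h
    exact (Fin.castSucc_lt_last i).ne h.symm
  have hne'' : (Sum.inl (i.castSucc, true) : Gen (m + 1) n) ≠ Sum.inl (i.castSucc, false) := by
    simp
  obtain ⟨a, ha⟩ : ∃ a : FF (m + 1) n, a = gA i.castSucc := ⟨_, rfl⟩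
  obtain ⟨b, hb⟩ : ∃ b : FF (m + 1) n, b = gB i.castSucc := ⟨_, rfl⟩
  have hq0 : loop0 q = b⁻¹ := by rw [hq, hb]; rfl
  have hpre : preW q = a * b * a⁻¹ := by rw [hq, ha, hb]; rfl
  have hblk : blk q = Sum.inr i := by rw [hq]; rfl
  obtain ⟨σ, σa, σb, σC, σo⟩ := exists_hom3 (FreeGroup.of : Gen (m + 1) n → FF (m + 1) n)
    (Sum.inl (i.castSucc, false)) (Sum.inl (i.castSucc, true)) (Sum.inl (Fin.last m, false))
    hne'' hne' hne
    (a * b⁻¹ * (b⁻¹ * Xt q)⁻¹) ((b⁻¹ * Xt q) * b * (b⁻¹ * Xt q)⁻¹)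
    ((kap q)⁻¹ * loop0 q * kap q * gA (Fin.last m))
  obtain ⟨τ, τa, τb, τC, τo⟩ := exists_hom3 (FreeGroup.of : Gen (m + 1) n → FF (m + 1) n)
    (Sum.inl (i.castSucc, false)) (Sum.inl (i.castSucc, true)) (Sum.inl (Fin.last m, false))
    hne'' hne' hne
    (a * Xt q) ((Xt q)⁻¹ * (b * Xt q))
    ((kap q)⁻¹ * (Xt q)⁻¹ * (loop0 q)⁻¹ * Xt q * kap q * gA (Fin.last m))
  have σF : Fix (blk q) σ := by
    rw [hblk]; exact fix_handle i σ σo
  have τF : Fix (blk q) τ := by
    rw [hblk]; exact fix_handle i τ τo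
  have σa' : σ a = a * b⁻¹ * (b⁻¹ * Xt q)⁻¹ := by conv_lhs => rw [ha]; exact σa
  have τa' : τ a = a * Xt q := by conv_lhs => rw [ha]; exact τa
  have σb' : σ b = (b⁻¹ * Xt q) * b * (b⁻¹ * Xt q)⁻¹ := by conv_lhs => rw [hb]; exact σb
  have τb' : τ b = (Xt q)⁻¹ * (b * Xt q) := by conv_lhs => rw [hb]; exact τb
  have σq : σ (loop0 q) = loop0 q * Xt q * loop0 q * (Xt q)⁻¹ * (loop0 q)⁻¹ := by
    have h1 : σ (loop0 q) = σ (b⁻¹) := by rw [hq0]
    rw [h1]
    simp only [map_inv, σb']
    rw [hq0]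
    group
  have τq : τ (loop0 q) = (Xt q)⁻¹ * loop0 q * Xt q := by
    have h1 : τ (loop0 q) = τ (b⁻¹) := by rw [hq0]
    rw [h1]
    simp only [map_inv, τb']
    rw [hq0]
    group
  have σp : σ (preW q) = preW q := by
    rw [hpre]
    simp only [map_mul, σa', σb', map_inv]
    group
  have τp : τ (preW q) = preW q := by
    rw [hpre]
    simp only [map_mul, τa', τb', map_inv]
    group
  have hCm : gA (Fin.last m) ∈ Fc (m + 1) n := inl_mem _
  have ham : a ∈ Fc (m + 1) n := by rw [ha]; exact inl_mem _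
  have hbm : b ∈ Fc (m + 1) n := by rw [hb]; exact inl_mem _
  have hum : b⁻¹ * Xt q ∈ Fc (m + 1) n := mul_mem (inv_mem hbm) (Xt_mem q)
  have hga : (FreeGroup.of (Sum.inl (i.castSucc, false)) : FF (m + 1) n) = a := by
    rw [ha]; rfl
  have hgb : (FreeGroup.of (Sum.inl (i.castSucc, true)) : FF (m + 1) n) = b := by
    rw [hb]; rfl
  obtain ⟨e, he, he', hA, hA'⟩ := slide_build q σ τ σF τF σC τC σq τq σp τp
    (d_handle i σ σo) (d_handle i τ τo)
    (ab_handle i σ σo
      (by
        rw [← ha, σa']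
        exact mul_mem (mul_mem ham (inv_mem hbm)) (inv_mem hum))
      (by
        rw [← hb, σb']
        exact mul_mem (mul_mem hum hbm) (inv_mem hum))
      (by
        rw [show σ (gA (Fin.last m)) = _ from σC]
        exact mul_mem (mul_mem (mul_mem (inv_mem (kap_mem q)) (loop0_mem q)) (kap_mem q)) hCm))
    (ab_handle i τ τo
      (by
        rw [← ha, τa']
        exact mul_mem ham (Xt_mem q))
      (by
        rw [← hb, τb']
        exact mul_mem (inv_mem (Xt_mem q)) (mul_mem hbm (Xt_mem q)))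
      (by
        rw [show τ (gA (Fin.last m)) = _ from τC]
        exact mul_mem (mul_mem (mul_mem (mul_mem (mul_mem (inv_mem (kap_mem q))
          (inv_mem (Xt_mem q))) (inv_mem (loop0_mem q))) (Xt_mem q)) (kap_mem q)) hCm))
    (by
      intro k hk
      have hX := (slide_rel_inv τF τC τq τp).1
      rw [hq0] at hX
      by_cases hk0 : k = Sum.inl (i.castSucc, false)
      · subst hk0
        rw [σa]
        simp only [map_mul, τa', map_inv, τb', hX, hga]
        group
      · by_cases hk1 : k = Sum.inl (i.castSucc, true)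
        · subst hk1
          rw [σb]
          simp only [map_mul, map_inv, hX, τb', hgb]
          group
        · rw [σo k hk0 hk1 hk, τo k hk0 hk1 hk])
    (by
      intro k hk
      have hX := (slide_rel σF σC σq σp).1
      rw [hq0] at hX
      by_cases hk0 : k = Sum.inl (i.castSucc, false)
      · subst hk0
        rw [τa]
        simp only [map_mul, σa', hX, hga]
        group
      · by_cases hk1 : k = Sum.inl (i.castSucc, true)
        · subst hk1
          rw [τb]
          simp only [map_mul, map_inv, hX, σb', hgb]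
          group
        · rw [τo k hk0 hk1 hk, σo k hk0 hk1 hk])
  refine ⟨e, hA, hA', ?_, ?_, ?_⟩
  · rw [he]; exact σF.hl
  · intro G _ x hx
    constructor
    · rw [he, show σ (gA (Fin.last m)) = _ from σC, loopW]
      simp only [map_mul]
    · intro k hk
      rw [he]
      by_cases hk0 : k = Sum.inl (i.castSucc, false)
      · subst hk0
        rw [σa]
        simp only [map_mul, map_inv, x_Xt x hx, hga]
        group
      · by_cases hk1 : k = Sum.inl (i.castSucc, true)
        · subst hk1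
          rw [σb]
          simp only [map_mul, map_inv, x_Xt x hx, hgb]
          group
        · rw [σo k hk0 hk1 hk]
  · intro r x hx E hE k hk
    rw [he', hq]
    by_cases hk0 : k = Sum.inl (i.castSucc, false)
    · subst hk0
      rw [τa, der_mul_ker hE _ _ (x_Xt x hx q), E_Xt x hx hE]
      simp only [Lam, if_true]
      rw [hq, ha]
      rfl
    · by_cases hk1 : k = Sum.inl (i.castSucc, true)
      · subst hk1
        rw [τb, der_inv_mul hE _ _ (x_Xt x hx q), der_mul_ker hE _ _ (x_Xt x hx q), E_Xt x hx hE]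
        have hxb : x (b * Xt q) = x b := by rw [map_mul, x_Xt x hx, mul_one]
        rw [hxb]
        simp only [Lam, if_true, if_neg hk0]
        rw [hq, hb, add_sub_assoc]
        rfl
      · rw [τo k hk0 hk1 hk]
        simp only [Lam, if_neg hk0, if_neg hk1, add_zero]

end Slides

variable {m n : ℕ}

open Slides in
/-- TASK S -/
theorem exists_slide (q : Loop m n) :
    ∃ σ : FF (m + 1) n ≃* FF (m + 1) n, Adm σ ∧ Adm σ.symm ∧
      σ (gB (Fin.last m)) = gB (Fin.last m) ∧
      (∀ {G : Type} [Group G] (x : FF (m + 1) n →* G), x (gB (Fin.last m)) = 1 →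
        x (σ (gA (Fin.last m))) = x (loopW q) * x (gA (Fin.last m)) ∧
          ∀ k, k ≠ Sum.inl (Fin.last m, false) →
            x (σ (FreeGroup.of k)) = x (FreeGroup.of k)) ∧
      (∀ (r : ℕ) (x : FF (m + 1) n →* (Mat r ℂ)ˣ), x (gB (Fin.last m)) = 1 →
        ∀ E : FF (m + 1) n → Mat r ℂ, IsDer x E → ∀ k, k ≠ Sum.inl (Fin.last m, false) →
          E (σ.symm (FreeGroup.of k)) = E (FreeGroup.of k) +
            Lam x q ((x (gA (Fin.last m)) : Mat r ℂ) * E (gB (Fin.last m)) *
              (((x (gA (Fin.last m)))⁻¹ : (Mat r ℂ)ˣ) : Mat r ℂ)) k) := by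
  rcases q with j | ⟨i, b⟩
  · exact slide_puncture j
  · cases b
    · exact slide_handle₁ i
    · exact slide_handle₂ i

end Vale.Agent.P002R
end

section

/-!
# The local theorem
-/

namespace Vale.Agent.P002R

open Matrix

variable {g m n r : ℕ}

/-- Derivations with prescribed values on the generators. -/
theorem exists_der {κ : Type*} (x : FreeGroup κ →* (Mat r ℂ)ˣ) (u : κ → Mat r ℂ) :
    ∃ E : FreeGroup κ → Mat r ℂ, IsDer x E ∧ ∀ k, E (FreeGroup.of k) = u k := by
  have hY : ∀ k, ∃ y : (Mat r (PowerSeries ℂ))ˣ, (y : Mat r (PowerSeries ℂ)) =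
      lin1 (x (FreeGroup.of k) : Mat r ℂ) (u k) := by
    intro k
    have : IsUnit (lin1 (x (FreeGroup.of k) : Mat r ℂ) (u k)) := by
      apply isUnit_of_const
      rw [lin1_const]
      exact (x (FreeGroup.of k)).isUnit
    exact this
  choose Y hY using hY
  have h0 : rep0 (FreeGroup.lift Y) = x := by
    apply FreeGroup.ext_hom
    intro k
    ext1
    rw [rep0, baseChange_apply, FreeGroup.lift_apply_of, hY, lin1_const]
  refine ⟨der1 (FreeGroup.lift Y), ?_, fun k => ?_⟩
  · rw [← h0]; exact isDer_der1 _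
  · rw [der1, FreeGroup.lift_apply_of, hY, lin1_one]

/-! ### The functional -/

theorem Lam_add (x : FF (m + 1) n →* (Mat r ℂ)ˣ) (q : Loop m n) (ε ε' : Mat r ℂ)
    (k : Gen (m + 1) n) : Lam x q (ε + ε') k = Lam x q ε k + Lam x q ε' k := by
  rcases q with j | ⟨i, b⟩
  · simp only [Lam]
    split_ifs
    · noncomm_ring
    · simp
  · cases b
    · simp only [Lam]
      split_ifs
      · noncomm_ring
      · simp only [add_zero]
    · simp only [Lam]
      split_ifs
      · noncomm_ring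
      · noncomm_ring
      · simp only [add_zero]

theorem Lam_smul (x : FF (m + 1) n →* (Mat r ℂ)ˣ) (q : Loop m n) (c : ℂ) (ε : Mat r ℂ)
    (k : Gen (m + 1) n) : Lam x q (c • ε) k = c • Lam x q ε k := by
  rcases q with j | ⟨i, b⟩
  · simp only [Lam]
    split_ifs
    · simp only [Algebra.mul_smul_comm, coe_units_inv, Algebra.smul_mul_assoc, smul_neg]
    · simp
  · cases b
    · simp only [Lam]
      split_ifs
      · simp only [Algebra.mul_smul_comm, coe_units_inv, Algebra.smul_mul_assoc, smul_neg]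
      · simp
    · simp only [Lam]
      split_ifs
      · simp only [Algebra.mul_smul_comm, coe_units_inv, Algebra.smul_mul_assoc]
      · simp only [Algebra.mul_smul_comm, coe_units_inv, Algebra.smul_mul_assoc, smul_sub]
      · simp

theorem exists_trace_repr (ψ : Mat r ℂ →ₗ[ℂ] ℂ) : ∃ R : Mat r ℂ, ∀ ε, ψ ε = trace (R * ε) := by
  refine ⟨Matrix.of fun i j => ψ (Matrix.single j i 1), fun ε => ?_⟩
  conv_lhs => rw [Matrix.matrix_eq_sum_single ε]
  simp only [map_sum, Matrix.trace, Matrix.diag_apply, Matrix.mul_apply, Matrix.of_apply]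
  rw [Finset.sum_comm]
  refine Finset.sum_congr rfl fun i _ => Finset.sum_congr rfl fun j _ => ?_
  have : Matrix.single j i (ε j i) = (ε j i) • Matrix.single j i (1 : ℂ) := by
    rw [Matrix.smul_single, smul_eq_mul, mul_one]
  rw [this, map_smul, smul_eq_mul, mul_comm]

theorem sum_Del (x : FF (m + 1) n →* (Mat r ℂ)ˣ) (s : Gen (m + 1) n → Mat r ℂ)
    (R : Loop m n → Mat r ℂ)
    (hR : ∀ q ε, ∑ k, trace (s k * Lam x q ε k) = trace (R q * ε)) (Z : Mat r ℂ)
    (p : List (Loop m n)) :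
    ∑ k, trace (s k * Del x Z k p) =
      trace ((((x (wordL p * gA (Fin.last m)))⁻¹ : (Mat r ℂ)ˣ) : Mat r ℂ) *
        theta (fun q => x (loopW q)) R p * (x (wordL p * gA (Fin.last m)) : Mat r ℂ) * Z) := by
  induction p with
  | nil => simp only [Del, mul_zero, trace_zero, Finset.sum_const_zero, map_mul, _root_.mul_inv_rev, Units.val_mul, coe_units_inv, theta, zero_mul]
  | cons q p ih =>
    simp only [Del, Matrix.mul_add, trace_add, Finset.sum_add_distrib, hR, ih, theta]
    have e1 : x (wordL (q :: p) * gA (Fin.last m)) =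
        x (loopW q) * x (wordL p * gA (Fin.last m)) := by
      rw [wordL, mul_assoc, map_mul]
    obtain ⟨Y, hY⟩ : ∃ Y, Y = x (wordL p * gA (Fin.last m)) := ⟨_, rfl⟩
    obtain ⟨P, hP⟩ : ∃ P, P = x (loopW q) := ⟨_, rfl⟩
    rw [e1, ← hY, ← hP]
    have e2 : (((P * Y)⁻¹ : (Mat r ℂ)ˣ) : Mat r ℂ) = ((Y⁻¹ : (Mat r ℂ)ˣ) : Mat r ℂ) *
        ((P⁻¹ : (Mat r ℂ)ˣ) : Mat r ℂ) := by
      rw [_root_.mul_inv_rev, Units.val_mul]
    have e3 : ((P⁻¹ : (Mat r ℂ)ˣ) : Mat r ℂ) * (P : Mat r ℂ) = 1 := by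
      rw [← Units.val_mul, inv_mul_cancel, Units.val_one]
    rw [e2, Units.val_mul]
    have e4 : trace (R q * ((P : Mat r ℂ) * (Y : Mat r ℂ) * Z *
        (((Y⁻¹ : (Mat r ℂ)ˣ) : Mat r ℂ) * ((P⁻¹ : (Mat r ℂ)ˣ) : Mat r ℂ)))) =
        trace (((Y⁻¹ : (Mat r ℂ)ˣ) : Mat r ℂ) * ((P⁻¹ : (Mat r ℂ)ˣ) : Mat r ℂ) * R q *
          ((P : Mat r ℂ) * (Y : Mat r ℂ)) * Z) := by
      rw [← Matrix.mul_assoc, Matrix.trace_mul_comm]
      simp only [Matrix.mul_assoc]
    rw [e4, ← Matrix.trace_add]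
    congr 1
    have e5 : ((Y⁻¹ : (Mat r ℂ)ˣ) : Mat r ℂ) * ((P⁻¹ : (Mat r ℂ)ˣ) : Mat r ℂ) *
        ((P : Mat r ℂ) * theta (fun q => x (loopW q)) R p * ((P⁻¹ : (Mat r ℂ)ˣ) : Mat r ℂ)) *
          ((P : Mat r ℂ) * (Y : Mat r ℂ)) =
        ((Y⁻¹ : (Mat r ℂ)ˣ) : Mat r ℂ) * theta (fun q => x (loopW q)) R p * (Y : Mat r ℂ) := by
      calc _ = ((Y⁻¹ : (Mat r ℂ)ˣ) : Mat r ℂ) * ((((P⁻¹ : (Mat r ℂ)ˣ) : Mat r ℂ) *
          (P : Mat r ℂ)) * theta (fun q => x (loopW q)) R p *
            ((((P⁻¹ : (Mat r ℂ)ˣ) : Mat r ℂ) * (P : Mat r ℂ)) * (Y : Mat r ℂ))) := by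
            simp only [Matrix.mul_assoc]
        _ = _ := by rw [e3, Matrix.one_mul, Matrix.one_mul, Matrix.mul_assoc]
    rw [Matrix.add_mul, Matrix.add_mul, e5]

/-! ### Realized tangent vectors -/

/-- The tangent vectors which are 1-jets of formal arcs in the closure of `D`. -/
def RealSet {κ : Type*} (D : Set (FreeGroup κ →* (Mat r ℂ)ˣ)) (ρ : FreeGroup κ →* (Mat r ℂ)ˣ) :
    Set (κ → Mat r ℂ) :=
  {u | ∃ x : FreeGroup κ →* (Mat r (PowerSeries ℂ))ˣ, InZ D x ∧ rep0 x = ρ ∧
    ∀ k, der1 x (FreeGroup.of k) = u k}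

theorem isUnit_one_add (T : Mat r (PowerSeries ℂ)) (τ : ℂ) :
    IsUnit (1 + (PowerSeries.X * PowerSeries.C (R := ℂ) τ) • T) := by
  apply isUnit_of_const
  have : (1 + (PowerSeries.X * PowerSeries.C (R := ℂ) τ) • T).map
      PowerSeries.constantCoeff = 1 := by
    ext i j
    by_cases h : i = j
    · subst h; simp
    · simp [Matrix.one_apply_ne h]
  rw [this]
  exact isUnit_one

theorem jet_one_add (T : Mat r (PowerSeries ℂ)) (τ : ℂ) :
    (1 + (PowerSeries.X * PowerSeries.C (R := ℂ) τ) • T).map (PowerSeries.coeff 1) =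
      τ • T.map PowerSeries.constantCoeff := by
  ext i j
  by_cases h : i = j
  · subst h
    simp only [map_apply, Matrix.add_apply, one_apply_eq, Matrix.smul_apply, smul_eq_mul, mul_assoc, map_add, PowerSeries.coeff_one, one_ne_zero, ↓reduceIte, PowerSeries.coeff_succ_X_mul, PowerSeries.coeff_C_mul, PowerSeries.coeff_zero_eq_constantCoeff, zero_add]
  · simp only [map_apply, Matrix.add_apply, Matrix.one_apply_ne h, Matrix.smul_apply, smul_eq_mul, mul_assoc, zero_add, PowerSeries.coeff_succ_X_mul, PowerSeries.coeff_C_mul, PowerSeries.coeff_zero_eq_constantCoeff]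

theorem jet0_one_add (T : Mat r (PowerSeries ℂ)) (τ : ℂ) :
    (1 + (PowerSeries.X * PowerSeries.C (R := ℂ) τ) • T).map
      PowerSeries.constantCoeff = 1 := by
  ext i j
  by_cases h : i = j
  · subst h; simp only [map_apply, Matrix.add_apply, one_apply_eq, Matrix.smul_apply, smul_eq_mul, map_add, PowerSeries.constantCoeff_one, map_mul, PowerSeries.constantCoeff_X, PowerSeries.constantCoeff_C, zero_mul, add_zero]
  · simp [Matrix.one_apply_ne h]

/-- One step: adding a flow. -/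
theorem realSet_flow {κ : Type*} [DecidableEq κ] (D : Set (FreeGroup κ →* (Mat r ℂ)ˣ))
    (ρ : FreeGroup κ →* (Mat r ℂ)ˣ) (kA kB : κ)
    (hDt : ∀ y ∈ D, ∀ n : ℤ, y.comp (twist kB kA n) ∈ D) (σ : FreeGroup κ ≃* FreeGroup κ)
    (hD1 : ∀ y ∈ D, y.comp σ.toMonoidHom ∈ D) (hD2 : ∀ y ∈ D, y.comp σ.symm.toMonoidHom ∈ D)
    (hgen : AlgebraicIndependent ℤ fun p : Fin r × Fin r =>
      (ρ (σ (FreeGroup.of kA)) : Mat r ℂ) p.1 p.2) (e : ℕ)
    (Δ : FreeGroup κ → Mat r ℂ) (hΔ : IsDer (ρ.comp σ.toMonoidHom) Δ)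
    (hΔk : ∀ k, Δ (FreeGroup.of k) = if k = kB then (ρ (σ (FreeGroup.of kB)) : Mat r ℂ) *
      (ρ (σ (FreeGroup.of kA)) : Mat r ℂ) ^ e else 0)
    (u : κ → Mat r ℂ) (hu : u ∈ RealSet D ρ) (τ : ℂ) :
    (fun k => u k + τ • Δ (σ.symm (FreeGroup.of k))) ∈ RealSet D ρ := by
  obtain ⟨x, hx1, hx2, hx3⟩ := hu
  obtain ⟨y, hy⟩ : ∃ y, y = x.comp σ.toMonoidHom := ⟨_, rfl⟩
  have hy1 : InZ D y := by rw [hy]; exact hx1.comp' _ hD1
  have hy0 : rep0 y = ρ.comp σ.toMonoidHom := by rw [hy, ← hx2]; rfl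
  obtain ⟨T, hT⟩ : ∃ T : Mat r (PowerSeries ℂ), T = (y (FreeGroup.of kA) : Mat r (PowerSeries ℂ)) :=
    ⟨_, rfl⟩
  have hT0 : T.map PowerSeries.constantCoeff = (ρ (σ (FreeGroup.of kA)) : Mat r ℂ) := by
    have := congrArg (fun z : FreeGroup κ →* (Mat r ℂ)ˣ => (z (FreeGroup.of kA) : Mat r ℂ)) hy0
    rw [hT]
    exact this
  have hTalg := P002.generic_lift (PowerSeries.constantCoeff (R := ℂ)) T
    (by rw [hT0]; exact hgen)
  obtain ⟨z, hz⟩ := isUnit_one_add (T ^ e) τ
  have hzadj : (z : Mat r (PowerSeries ℂ)) ∈ Algebra.adjoin (PowerSeries ℂ) {T} := by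
    rw [hz]
    refine Subalgebra.add_mem _ (Subalgebra.one_mem _) (Subalgebra.smul_mem _ ?_ _)
    exact Subalgebra.pow_mem _ (Algebra.subset_adjoin (Set.mem_singleton _)) e
  have hflow : InZ D (flow y kB z) := by
    apply InZ.flow hDt hy1 (l := kA)
    · rw [← hT]; exact hTalg
    · rw [← hT]; exact hzadj
  have hz0 : (z : Mat r (PowerSeries ℂ)).map PowerSeries.constantCoeff = 1 := by
    rw [hz, jet0_one_add]
  have hz1 : (z : Mat r (PowerSeries ℂ)).map (PowerSeries.coeff 1) =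
      τ • (ρ (σ (FreeGroup.of kA)) : Mat r ℂ) ^ e := by
    rw [hz, jet_one_add]
    congr 1
    have : (T ^ e).map PowerSeries.constantCoeff = (T.map PowerSeries.constantCoeff) ^ e :=
      map_pow (RingHom.mapMatrix (PowerSeries.constantCoeff (R := ℂ))) T e
    rw [this, hT0]
  have hf0 : rep0 (flow y kB z) = ρ.comp σ.toMonoidHom := by
    rw [← hy0]
    apply FreeGroup.ext_hom
    intro k
    ext1
    rw [rep0, baseChange_apply, rep0, baseChange_apply, flow_of]
    split_ifs with h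
    · rw [Units.val_mul, Matrix.map_mul, hz0, Matrix.mul_one, h]
    · rfl
  have hder : der1 (flow y kB z) = fun w => der1 y w + τ • Δ w := by
    have h1 : IsDer (ρ.comp σ.toMonoidHom) (der1 (flow y kB z)) := by
      rw [← hf0]; exact isDer_der1 _
    have h2 : IsDer (ρ.comp σ.toMonoidHom) (der1 y) := by rw [← hy0]; exact isDer_der1 _
    refine IsDer.ext h1 (h2.add (hΔ.smul τ)) fun k => ?_
    rw [hΔk]
    rw [der1, flow_of]
    split_ifs with h
    · rw [Units.val_mul, map_coeff_one_mul, hz0, hz1, Matrix.mul_one, h]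
      have h3 : (y (FreeGroup.of kB) : Mat r (PowerSeries ℂ)).map PowerSeries.constantCoeff =
          (ρ (σ (FreeGroup.of kB)) : Mat r ℂ) := by
        have := congrArg (fun z : FreeGroup κ →* (Mat r ℂ)ˣ => (z (FreeGroup.of kB) : Mat r ℂ)) hy0
        exact this
      rw [h3, Matrix.mul_smul]
      rfl
    · rw [smul_zero, add_zero]
      rfl
  refine ⟨(flow y kB z).comp σ.symm.toMonoidHom, hflow.comp' _ hD2, ?_, fun k => ?_⟩
  · have h1 : rep0 ((flow y kB z).comp σ.symm.toMonoidHom) =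
        (rep0 (flow y kB z)).comp σ.symm.toMonoidHom := rfl
    rw [h1, hf0]
    ext1 k
    change ρ (σ (σ.symm (FreeGroup.of k))) = ρ (FreeGroup.of k)
    rw [MulEquiv.apply_symm_apply]
  · change der1 (flow y kB z) (σ.symm (FreeGroup.of k)) =
      u k + τ • Δ (σ.symm (FreeGroup.of k))
    rw [hder, ← hx3 k]
    have h2 : der1 y (σ.symm (FreeGroup.of k)) = der1 x (FreeGroup.of k) := by
      rw [hy]
      change der1 x (σ (σ.symm (FreeGroup.of k))) = _
      rw [MulEquiv.apply_symm_apply]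
    simp only [h2]

/-- Start arcs: moving the value at the generator `kA`. -/
theorem realSet_start {κ : Type*} [DecidableEq κ] (D : Set (FreeGroup κ →* (Mat r ℂ)ˣ))
    (ρ : FreeGroup κ →* (Mat r ℂ)ˣ) (kA : κ)
    (hbase : ∀ z : (Mat r (PowerSeries ℂ))ˣ,
      InZ D (flow (baseChange (algebraMap ℂ (PowerSeries ℂ)) ρ) kA z)) (α : Mat r ℂ) :
    (fun k => if k = kA then α else 0) ∈ RealSet D ρ := by
  obtain ⟨Y, hY⟩ : ∃ y : (Mat r (PowerSeries ℂ))ˣ, (y : Mat r (PowerSeries ℂ)) =
      lin1 (ρ (FreeGroup.of kA) : Mat r ℂ) α := by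
    have : IsUnit (lin1 (ρ (FreeGroup.of kA) : Mat r ℂ) α) := by
      apply isUnit_of_const
      rw [lin1_const]
      exact (ρ (FreeGroup.of kA)).isUnit
    exact this
  obtain ⟨x, hx⟩ : ∃ x, x = baseChange (algebraMap ℂ (PowerSeries ℂ)) ρ := ⟨_, rfl⟩
  have hxk : ∀ k, (flow x kA ((x (FreeGroup.of kA))⁻¹ * Y)) (FreeGroup.of k) =
      if k = kA then Y else x (FreeGroup.of k) := by
    intro k
    rw [flow_of]
    split_ifs
    · rw [mul_inv_cancel_left]
    · rfl
  refine ⟨flow x kA ((x (FreeGroup.of kA))⁻¹ * Y), ?_, ?_, ?_⟩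
  · rw [hx]; exact hbase _
  · apply FreeGroup.ext_hom
    intro k
    ext1
    rw [rep0, baseChange_apply, hxk]
    split_ifs with h
    · rw [hY, lin1_const, h]
    · rw [hx, baseChange_apply]
      ext i j
      simp only [PowerSeries.algebraMap_eq, map_apply, PowerSeries.constantCoeff_C]
  · intro k
    change _ = if k = kA then α else 0
    rw [der1, hxk]
    by_cases h : k = kA
    · rw [if_pos h, if_pos h, hY, lin1_one]
    · rw [if_neg h, if_neg h, hx, baseChange_apply]
      ext i j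
      rw [Matrix.map_apply, Matrix.map_apply, ← PowerSeries.C_eq_algebraMap, PowerSeries.coeff_C]
      simp only [one_ne_zero, ↓reduceIte, Matrix.zero_apply]

/-! ### The Dehn twist along the last handle is admissible -/

theorem twist_relator (z : ℤ) :
    twist (Sum.inl (Fin.last m, true)) (Sum.inl (Fin.last m, false)) z (relator (m + 1) n) =
      relator (m + 1) n := by
  have hd : ∀ j : Fin n, twist (Sum.inl (Fin.last m, true)) (Sum.inl (Fin.last m, false)) z
      (gC j : FF (m + 1) n) = gC j := by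
    intro j
    simp only [gC, gD, gE, map_mul, twist_of, reduceCtorEq, ↓reduceIte, map_inv]
  have hh : ∀ i : Fin (m + 1), twist (Sum.inl (Fin.last m, true))
      (Sum.inl (Fin.last m, false)) z (hcomm i : FF (m + 1) n) = hcomm i := by
    intro i
    by_cases hi : i = Fin.last m
    · subst hi
      simp only [hcomm, gA, gB, map_mul, twist_of, if_true, map_inv]
      simp only [Sum.inl.injEq, Prod.mk.injEq, Bool.false_eq_true, true_and, if_false]
      group
    · simp only [hcomm, gA, gB, map_mul, twist_of, Sum.inl.injEq, Prod.mk.injEq, hi, Bool.false_eq_true, and_self, ↓reduceIte, and_true, map_inv]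
  unfold relator
  have e1 : (⇑(twist (Sum.inl (Fin.last m, true)) (Sum.inl (Fin.last m, false)) z) ∘
      fun j : Fin n => (gC j : FF (m + 1) n)) = fun j => gC j := funext hd
  have e2 : (⇑(twist (Sum.inl (Fin.last m, true)) (Sum.inl (Fin.last m, false)) z) ∘
      fun i : Fin (m + 1) => (hcomm i : FF (m + 1) n)) = fun i => hcomm i := funext hh
  rw [map_mul, map_list_prod, map_list_prod, List.map_ofFn, List.map_ofFn, e1, e2]

theorem dehn_adm (h : (Sum.inl (Fin.last m, true) : Gen (m + 1) n) ≠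
    Sum.inl (Fin.last m, false)) (z : ℤ) : Adm (dehn h z) where
  rel := twist_relator z
  he j := by
    change twist (Sum.inl (Fin.last m, true)) (Sum.inl (Fin.last m, false)) z (gE j) = gE j
    simp only [gE, twist_of, reduceCtorEq, ↓reduceIte]
  hd j := by
    refine ⟨1, one_mem _, ?_⟩
    change twist (Sum.inl (Fin.last m, true)) (Sum.inl (Fin.last m, false)) z (gD j) = _
    simp only [gD, twist_of, reduceCtorEq, ↓reduceIte, one_mul]
  hab k := by
    change twist (Sum.inl (Fin.last m, true)) (Sum.inl (Fin.last m, false)) z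
      (FreeGroup.of (Sum.inl k)) ∈ Fc (m + 1) n
    rw [twist_of]
    have hmem : ∀ k' : Fin (m + 1) × Bool, (FreeGroup.of (Sum.inl k') : FF (m + 1) n) ∈
        Fc (m + 1) n := fun k' => Subgroup.subset_closure (Or.inl ⟨k', rfl⟩)
    split_ifs
    · exact mul_mem (hmem _) (Subgroup.zpow_mem _ (hmem _) z)
    · exact hmem _

theorem dehn_symm_adm (h : (Sum.inl (Fin.last m, true) : Gen (m + 1) n) ≠
    Sum.inl (Fin.last m, false)) (z : ℤ) : Adm (dehn h z).symm := by
  have h1 : (dehn h z).symm = dehn h (-z) := by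
    ext w
    change twist _ _ (-z) w = twist _ _ (-z) w
    rfl
  rw [h1]
  exact dehn_adm h (-z)

/-- LOCAL THEOREM: all tangent vectors at the base point are realized. -/
theorem all_realized
    (D : Set (FF (m + 1) n →* (Mat r ℂ)ˣ))
    (hadm : ∀ τ : FF (m + 1) n ≃* FF (m + 1) n, Adm τ → Adm τ.symm →
      ∀ y ∈ D, y.comp τ.toMonoidHom ∈ D)
    (ρ : FF (m + 1) n →* (Mat r ℂ)ˣ) (hρB : ρ (gB (Fin.last m)) = 1)
    (hρrel : ρ (relator (m + 1) n) = 1)
    (hbase : ∀ z : (Mat r (PowerSeries ℂ))ˣ,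
      InZ D (flow (baseChange (algebraMap ℂ (PowerSeries ℂ)) ρ) (Sum.inl (Fin.last m, false)) z))
    (hgen : ∀ p : List (Loop m n), AlgebraicIndependent ℤ fun q : Fin r × Fin r =>
      (ρ (wordL p * gA (Fin.last m)) : Mat r ℂ) q.1 q.2)
    (hdual : DualProp (fun q : Loop m n => ρ (loopW q)) (ρ (gA (Fin.last m))))
    (E : FF (m + 1) n → Mat r ℂ) (hE : IsDer ρ E) (hEe : ∀ j, E (gE j) = 0)
    (hErel : E (relator (m + 1) n) = 0) :
    (fun k => E (FreeGroup.of k)) ∈ RealSet D ρ := by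
  classical
  -- slides
  have hsl : ∀ q : Loop m n, ∃ σ : FF (m + 1) n ≃* FF (m + 1) n, IsSlide q σ :=
    fun q => exists_slide q
  choose σ hσ using hsl
  obtain ⟨kA, hkA⟩ : ∃ kA : Gen (m + 1) n, kA = Sum.inl (Fin.last m, false) := ⟨_, rfl⟩
  obtain ⟨kB, hkB⟩ : ∃ kB : Gen (m + 1) n, kB = Sum.inl (Fin.last m, true) := ⟨_, rfl⟩
  have hAB : kB ≠ kA := by rw [hkA, hkB]; simp
  have hgA : (gA (Fin.last m) : FF (m + 1) n) = FreeGroup.of kA := by rw [hkA]; rfl
  have hgB : (gB (Fin.last m) : FF (m + 1) n) = FreeGroup.of kB := by rw [hkB]; rfl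
  have hDt : ∀ y ∈ D, ∀ z : ℤ, y.comp (twist kB kA z) ∈ D := by
    intro y hy z
    subst hkA hkB
    exact hadm (dehn hAB z) (dehn_adm hAB z) (dehn_symm_adm hAB z) y hy
  -- the vectors
  have hv : ∀ (p : List (Loop m n)) (e : ℕ), ∃ Δ : FF (m + 1) n → Mat r ℂ,
      IsDer (ρ.comp (slp σ p).toMonoidHom) Δ ∧ ∀ k, Δ (FreeGroup.of k) =
        if k = kB then (ρ (wordL p * gA (Fin.last m)) : Mat r ℂ) ^ e else 0 :=
    fun p e => exists_der _ _
  choose Δ hΔ hΔk using hv
  let v : List (Loop m n) × ℕ → Gen (m + 1) n → Mat r ℂ :=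
    fun c k => Δ c.1 c.2 ((slp σ c.1).symm (FreeGroup.of k))
  have hslA : ∀ p, ρ (slp σ p (FreeGroup.of kA)) = ρ (wordL p * gA (Fin.last m)) := by
    intro p
    rw [← hgA, slp_gA hσ ρ hρB p, map_mul]
  have hslB : ∀ p, ρ (slp σ p (FreeGroup.of kB)) = 1 := by
    intro p
    rw [← hgB, slp_gB hσ, hρB]
  -- adding the vectors `v`
  have hstep : ∀ w ∈ Submodule.span ℂ (Set.range v), ∀ u ∈ RealSet D ρ, ∀ τ : ℂ,
      u + τ • w ∈ RealSet D ρ := by
    intro w hw
    induction hw using Submodule.span_induction with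
    | mem w hw =>
      obtain ⟨⟨p, e⟩, rfl⟩ := hw
      intro u hu τ
      refine realSet_flow D ρ kA kB hDt (slp σ p) (hadm _ (slp_adm hσ p) (slp_symm_adm hσ p))
        (hadm _ (slp_symm_adm hσ p) (slp_adm hσ p)) ?_ e (Δ p e) (hΔ p e) ?_ u hu τ
      · simp only [hslA]; exact hgen p
      · intro k
        rw [hΔk, hslA, hslB, Units.val_one, Matrix.one_mul]
    | zero => intro u hu τ; simpa using hu
    | add a b _ _ ha hb =>
      intro u hu τ
      rw [smul_add, ← add_assoc]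
      exact hb _ (ha u hu τ) τ
    | smul c a _ ha =>
      intro u hu τ
      rw [smul_smul]
      exact ha u hu (τ * c)
  have hstart := realSet_start D ρ kA (by rw [hkA]; exact hbase)
  obtain ⟨u, hu⟩ : ∃ u : Gen (m + 1) n → Mat r ℂ, u = fun k => E (FreeGroup.of k) := ⟨_, rfl⟩
  -- the space of realized vectors
  let N₁ : Submodule ℂ (Gen (m + 1) n → Mat r ℂ) :=
    LinearMap.range (LinearMap.single ℂ (fun _ : Gen (m + 1) n => Mat r ℂ) kA)
  let N : Submodule ℂ (Gen (m + 1) n → Mat r ℂ) := N₁ ⊔ Submodule.span ℂ (Set.range v)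
  have hmem : u ∈ N := by
    by_contra hcon
    obtain ⟨φ, hφu, hφN⟩ := Submodule.exists_dual_map_eq_bot_of_notMem hcon inferInstance
    have hφ0 : ∀ w ∈ N, φ w = 0 := by
      intro w hw
      have : φ w ∈ N.map φ := Submodule.mem_map_of_mem hw
      rw [hφN] at this
      simpa only [Submodule.mem_bot] using this
    -- representation of the functional
    have hs : ∀ k, ∃ s : Mat r ℂ, ∀ ε, (φ ∘ₗ
        (LinearMap.single ℂ (fun _ : Gen (m + 1) n => Mat r ℂ) k)) ε = trace (s * ε) :=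
      fun k => exists_trace_repr _
    choose s hs using hs
    have hφs : ∀ w : Gen (m + 1) n → Mat r ℂ, φ w = ∑ k, trace (s k * w k) := by
      intro w
      have h1 : w = ∑ k, LinearMap.single ℂ (fun _ : Gen (m + 1) n => Mat r ℂ) k (w k) := by
        simp only [LinearMap.coe_single]
        rw [Finset.univ_sum_single]
      conv_lhs => rw [h1]
      rw [map_sum]
      exact Finset.sum_congr rfl fun k _ => by rw [← hs k (w k)]; rfl
    have hsA : s kA = 0 := by
      have h1 : ∀ ε : Mat r ℂ, trace (s kA * ε) = 0 := by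
        intro ε
        rw [← hs kA ε]
        exact hφ0 _ (Submodule.mem_sup_left ⟨ε, rfl⟩)
      ext i j
      have h2 := h1 (Matrix.single j i 1)
      rw [Matrix.trace_mul_single] at h2
      simpa only [Matrix.zero_apply, MulOpposite.op_one, one_smul] using h2
    -- the matrices R
    have hR : ∀ q : Loop m n, ∃ R : Mat r ℂ, ∀ ε, ∑ k, trace (s k * Lam ρ q ε k) =
        trace (R * ε) := by
      intro q
      obtain ⟨R, hR⟩ := exists_trace_repr
        ({ toFun := fun ε => ∑ k, trace (s k * Lam ρ q ε k)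
           map_add' := fun ε ε' => by
            simp only [Lam_add, Matrix.mul_add, Matrix.trace_add, Finset.sum_add_distrib]
           map_smul' := fun c ε => by
            simp only [Lam_smul, Matrix.mul_smul, Matrix.trace_smul, RingHom.id_apply,
              Finset.smul_sum] } : Mat r ℂ →ₗ[ℂ] ℂ)
      exact ⟨R, hR⟩
    choose R hR using hR
    have hH : ∀ p : List (Loop m n), ∀ e : ℕ, 1 ≤ e →
        trace ((s kB + theta (fun q => ρ (loopW q)) R p) *
          ((wP (fun q => ρ (loopW q)) p * ρ (gA (Fin.last m)) : (Mat r ℂ)ˣ) : Mat r ℂ) ^ e)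
            = 0 := by
      intro p e _
      have h1 : φ (v (p, e)) = 0 :=
        hφ0 _ (Submodule.mem_sup_right (Submodule.subset_span ⟨(p, e), rfl⟩))
      obtain ⟨T, hT⟩ : ∃ T, T = ρ (wordL p * gA (Fin.last m)) := ⟨_, rfl⟩
      have h2 : ∀ k, trace (s k * v (p, e) k) =
          (if k = kB then trace (s kB * (T : Mat r ℂ) ^ e) else 0) +
            trace (s k * Del ρ ((T : Mat r ℂ) ^ e) k p) := by
        intro k
        by_cases hk : k = kA
        · rw [hk, hsA, Matrix.zero_mul, Matrix.zero_mul, Matrix.trace_zero, if_neg hAB.symm,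
            zero_add]
        · have h3 := der_slp hσ ρ hρB p (Δ p e) (hΔ p e) k (by rw [← hkA]; exact hk)
          have h4 : Δ p e (gB (Fin.last m)) = (T : Mat r ℂ) ^ e := by
            rw [hgB, hΔk, if_pos rfl, hT]
          change trace (s k * Δ p e ((slp σ p).symm (FreeGroup.of k))) = _
          rw [h3, h4, Matrix.mul_add, Matrix.trace_add, hΔk]
          by_cases hkB' : k = kB
          · rw [if_pos hkB', if_pos hkB', hkB', hT]
          · rw [if_neg hkB', if_neg hkB', Matrix.mul_zero, Matrix.trace_zero]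
      rw [hφs] at h1
      simp only [h2, Finset.sum_add_distrib, Finset.sum_ite_eq', Finset.mem_univ, if_true] at h1
      rw [sum_Del ρ s R hR, ← hT] at h1
      rw [wP_wordL, ← map_mul, ← hT, Matrix.add_mul, Matrix.trace_add, ← h1]
      have h5 : (T : Mat r ℂ) * (T : Mat r ℂ) ^ e * ((T⁻¹ : (Mat r ℂ)ˣ) : Mat r ℂ) =
          (T : Mat r ℂ) ^ e := by
        rw [← pow_succ', pow_succ, Matrix.mul_assoc, ← Units.val_mul, mul_inv_cancel,
          Units.val_one, Matrix.mul_one]
      have h6 : trace (((T⁻¹ : (Mat r ℂ)ˣ) : Mat r ℂ) * theta (fun q => ρ (loopW q)) R p *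
          (T : Mat r ℂ) * (T : Mat r ℂ) ^ e) =
            trace (theta (fun q => ρ (loopW q)) R p * (T : Mat r ℂ) ^ e) := by
        rw [Matrix.mul_assoc, Matrix.mul_assoc, Matrix.trace_mul_comm, Matrix.mul_assoc, h5]
      rw [h6]
    obtain ⟨η, hη1, hη2⟩ := hdual R (s kB) hH
    have hid := identify ρ hρrel hρB s η (by rw [← hkA]; exact hsA)
      (by rw [← hkB]; exact hη2) (fun q ε => by rw [hR, hη1]) E hE hEe
    apply hφu
    rw [hφs, hu]
    simp only
    rw [hid, hErel, Matrix.mul_zero, Matrix.trace_zero]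
  obtain ⟨w₁, ⟨α', rfl⟩, w₂, hw₂, hw⟩ := Submodule.mem_sup.1 hmem
  rw [← hu, ← hw]
  have h1 : (LinearMap.single ℂ (fun _ : Gen (m + 1) n => Mat r ℂ) kA) α' ∈ RealSet D ρ := by
    have h2 := hstart α'
    have h3 : (fun k => if k = kA then α' else 0) =
        (LinearMap.single ℂ (fun _ : Gen (m + 1) n => Mat r ℂ) kA) α' := by
      funext k
      rw [LinearMap.coe_single]
      by_cases hk : k = kA
      · subst hk; simp
      · simp only [hk, ↓reduceIte, ne_eq, not_false_eq_true, Pi.single_eq_of_ne]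
    rwa [h3] at h2
  have h4 := hstep w₂ hw₂ _ h1 1
  rwa [one_smul] at h4

/-- LOCAL THEOREM, with the dual property as a hypothesis. -/
theorem local_theorem_dual
    (D : Set (FF (m + 1) n →* (Mat r ℂ)ˣ)) (J : Fin n → (Mat r ℂ)ˣ)
    (hrel : ∀ y ∈ D, y (relator (m + 1) n) = 1) (hJ : ∀ y ∈ D, ∀ j, y (gE j) = J j)
    (hadm : ∀ τ : FF (m + 1) n ≃* FF (m + 1) n, Adm τ → Adm τ.symm →
      ∀ y ∈ D, y.comp τ.toMonoidHom ∈ D)
    (ρ : FF (m + 1) n →* (Mat r ℂ)ˣ) (hρB : ρ (gB (Fin.last m)) = 1)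
    (hρrel : ρ (relator (m + 1) n) = 1) (hρJ : ∀ j, ρ (gE j) = J j)
    (hbase : ∀ z : (Mat r (PowerSeries ℂ))ˣ,
      InZ D (flow (baseChange (algebraMap ℂ (PowerSeries ℂ)) ρ) (Sum.inl (Fin.last m, false)) z))
    (hgen : ∀ p : List (Loop m n), AlgebraicIndependent ℤ fun q : Fin r × Fin r =>
      (ρ (wordL p * gA (Fin.last m)) : Mat r ℂ) q.1 q.2)
    (hdual : DualProp (fun q : Loop m n => ρ (loopW q)) (ρ (gA (Fin.last m))))
    (f : MvPolynomial (FF (m + 1) n × Fin r × Fin r) ℂ) (hf : ∀ y ∈ D, evalW y f = 0) :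
    ∃ h : MvPolynomial (Gen (m + 1) n × Bool × Fin r × Fin r) ℂ,
      evalP (fun k => ρ (FreeGroup.of k)) h ≠ 0 ∧
      ∀ X : Gen (m + 1) n → (Mat r ℂ)ˣ, (∀ j, X (Sum.inr (j, true)) = J j) →
        FreeGroup.lift X (relator (m + 1) n) = 1 →
        evalP X h * evalW (FreeGroup.lift X) f = 0 := by
  let W : Option (Fin n) → FF (m + 1) n := fun o => o.elim (relator (m + 1) n) gE
  let M : Option (Fin n) → Mat r ℂ := fun o => o.elim 1 fun j => (J j : Mat r ℂ)
  have hW : ∀ x : FF (m + 1) n →* (Mat r ℂ)ˣ, (∀ o, (x (W o) : Mat r ℂ) = M o) ↔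
      (x (relator (m + 1) n) = 1 ∧ ∀ j, x (gE j) = J j) := by
    intro x
    constructor
    · intro h
      exact ⟨Units.ext (h none), fun j => Units.ext (h (some j))⟩
    · rintro ⟨h1, h2⟩ (_ | j)
      · change (x (relator (m + 1) n) : Mat r ℂ) = 1
        rw [h1]; rfl
      · change (x (gE j) : Mat r ℂ) = J j
        rw [h2]
  obtain ⟨h, hh1, hh2⟩ := arc_application W M D (fun y hy => (hW y).2 ⟨hrel y hy, hJ y hy⟩) ρ
    ((hW ρ).2 ⟨hρrel, hρJ⟩) (fun E hE hEW => by
      obtain ⟨x, hx1, hx2, hx3⟩ := all_realized D hadm ρ hρB hρrel hbase hgen hdual E hE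
        (fun j => hEW (some j)) (hEW none)
      exact ⟨x, hx1, hx2, hx3⟩) f hf
  refine ⟨h, hh1, fun X hX hrelX => hh2 X ((hW _).2 ⟨hrelX, fun j => ?_⟩)⟩
  rw [gE, FreeGroup.lift_apply_of, hX]

end Vale.Agent.P002R
end

section

/-!
# The dual lemma for block data, part D: consequences of the limit conditions
-/

namespace Vale.Agent.P002R

open Matrix

variable {r : ℕ}

/-- The bilinear functional. -/
def T2 (V B u v : Mat r ℂ) : ℂ := trace (V * u * (B * v))

theorem add_pow_of_mul_zero {x y : Mat r ℂ} (h1 : x * y = 0) (h2 : y * x = 0) (s : ℕ) :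
    (x + y) ^ (s + 1) = x ^ (s + 1) + y ^ (s + 1) := by
  induction s with
  | zero => simp
  | succ s ih =>
    rw [pow_succ, ih, add_mul, mul_add, mul_add, pow_succ x s, mul_assoc _ x y, h1,
      pow_succ y s, mul_assoc _ y x, h2, mul_zero, mul_zero, add_zero, zero_add]
    rw [← pow_succ x s, ← pow_succ y s, ← pow_succ, ← pow_succ]

/-- Separation of the bidegrees. -/
theorem T2_separate (V B x y : Mat r ℂ) (h1 : x * y = 0) (h2 : y * x = 0) (k : ℕ)
    (h : ∀ a : ℂ, ∑ l ∈ Finset.range k, T2 V B ((a • x + y) ^ (l + 1)) ((a • x + y) ^ (k - l)) = 0)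
    (s : ℕ) (hs1 : 1 ≤ s) (hsk : s ≤ k) :
    T2 V B (x ^ s) (y ^ (k + 1 - s)) + T2 V B (y ^ (k + 1 - s)) (x ^ s) = 0 := by
  have hpow : ∀ (a : ℂ) (s : ℕ), 1 ≤ s → (a • x + y) ^ s = a ^ s • x ^ s + y ^ s := by
    intro a s hs
    obtain ⟨s, rfl⟩ : ∃ s', s = s' + 1 := ⟨s - 1, by omega⟩
    rw [add_pow_of_mul_zero (by rw [Matrix.smul_mul, h1, smul_zero])
      (by rw [Matrix.mul_smul, h2, smul_zero]), smul_pow]
  obtain ⟨p, hp⟩ : ∃ p : Polynomial ℂ, p = ∑ l ∈ Finset.range k,
    (Polynomial.monomial (k + 1) (T2 V B (x ^ (l + 1)) (x ^ (k - l))) +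
      Polynomial.monomial (l + 1) (T2 V B (x ^ (l + 1)) (y ^ (k - l))) +
      Polynomial.monomial (k - l) (T2 V B (y ^ (l + 1)) (x ^ (k - l))) +
      Polynomial.monomial 0 (T2 V B (y ^ (l + 1)) (y ^ (k - l)))) := ⟨_, rfl⟩
  have hp0 : p = 0 := by
    apply Polynomial.funext
    intro a
    rw [Polynomial.eval_zero, ← h a, hp, Polynomial.eval_finsetSum]
    refine Finset.sum_congr rfl fun l hl => ?_
    have hl' := Finset.mem_range.1 hl
    simp only [Polynomial.eval_add, Polynomial.eval_monomial]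
    rw [hpow a (l + 1) (by omega), hpow a (k - l) (by omega)]
    have e : a ^ (k + 1) = a ^ (l + 1) * a ^ (k - l) := by
      rw [← pow_add]; congr 1; omega
    unfold T2
    simp only [mul_add, add_mul, Matrix.mul_smul, Matrix.smul_mul, trace_add, trace_smul,
      smul_eq_mul, smul_smul, pow_zero]
    rw [e]
    ring
  have h3 := congrArg (fun q : Polynomial ℂ => q.coeff s) hp0
  simp only [hp, Polynomial.coeff_zero, Polynomial.finsetSum_coeff, Polynomial.coeff_add,
    Polynomial.coeff_monomial, Finset.sum_add_distrib] at h3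
  have e1 : (∑ l ∈ Finset.range k, if k + 1 = s then T2 V B (x ^ (l + 1)) (x ^ (k - l)) else 0) =
      0 := Finset.sum_eq_zero fun l _ => if_neg (by (clear * - hsk; omega))
  have e4 : (∑ l ∈ Finset.range k, if 0 = s then T2 V B (y ^ (l + 1)) (y ^ (k - l)) else 0) =
      0 := Finset.sum_eq_zero fun l _ => if_neg (by omega)
  have e2 : (∑ l ∈ Finset.range k, if l + 1 = s then T2 V B (x ^ (l + 1)) (y ^ (k - l)) else 0) =
      T2 V B (x ^ s) (y ^ (k + 1 - s)) := by
    rw [Finset.sum_eq_single (s - 1)]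
    · rw [if_pos (by (clear * - hs1; omega))]
      congr 2
      · (clear * - hs1; omega)
      · omega
    · intro l _ hl
      exact if_neg (by (clear * - hs1 hl; omega))
    · intro hl
      exact absurd (Finset.mem_range.2 (by omega)) hl
  have e3 : (∑ l ∈ Finset.range k, if k - l = s then T2 V B (y ^ (l + 1)) (x ^ (k - l)) else 0) =
      T2 V B (y ^ (k + 1 - s)) (x ^ s) := by
    rw [Finset.sum_eq_single (k - s)]
    · rw [if_pos (by (clear * - hs1 hsk; omega))]
      congr 2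
      · omega
      · (clear * - hs1 hsk; omega)
    · intro l hl hl'
      have := Finset.mem_range.1 hl
      exact if_neg (by omega)
    · intro hl
      exact absurd (Finset.mem_range.2 (by omega)) hl
  rw [e1, e2, e3, e4] at h3
  linear_combination h3

theorem eb_comm_BD {c : Fin r → Fin r} {X : Mat r ℂ} (hX : BD c X) (b : Fin r) :
    eb c b * X = X * eb c b := by
  ext i j
  rw [eb, diagonal_mul, mul_diagonal]
  by_cases h : c i = c j
  · rw [h, mul_comm]
  · rw [hX i j h]; ring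

theorem eb_idem (c : Fin r → Fin r) (b : Fin r) : eb c b * eb c b = eb c b := by
  rw [eb, diagonal_mul_diagonal]
  congr 1
  funext i
  split_ifs <;> simp

theorem eb_mul_pow {c : Fin r → Fin r} {X : Mat r ℂ} (hX : BD c X) (b : Fin r) (s : ℕ) :
    (eb c b * X) ^ (s + 1) = eb c b * X ^ (s + 1) := by
  induction s with
  | zero => simp only [zero_add, pow_one]
  | succ s ih =>
    rw [pow_succ, ih, pow_succ X (s + 1)]
    calc eb c b * X ^ (s + 1) * (eb c b * X) = eb c b * (X ^ (s + 1) * eb c b) * X := by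
          simp only [mul_assoc]
      _ = (eb c b * eb c b) * X ^ (s + 1) * X := by
          rw [← eb_comm_BD (hX.pow _)]; simp only [mul_assoc]
      _ = _ := by rw [eb_idem]; simp only [mul_assoc]

section

variable {L : Type*} (P : L → (Mat r ℂ)ˣ)

/-- The bidegree relations. -/
theorem LimOK.bideg {P : L → (Mat r ℂ)ˣ} {c : Fin r → Fin r} {D : ℕ} {μ B : Mat r ℂ}
    (hL : LimOK P c D μ B) (p : List L) {b b' : Fin r} (hb : b ≠ b') (s t : ℕ) (hs : 1 ≤ s)
    (ht : 1 ≤ t) (hst : s + t ≤ D) :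
    T2 (μᵀ ⊙ B) B (eb c b * blkD c (wP P p : Mat r ℂ) ^ s)
      (eb c b' * blkD c (wP P p : Mat r ℂ) ^ t) +
    T2 (μᵀ ⊙ B) B (eb c b' * blkD c (wP P p : Mat r ℂ) ^ t)
      (eb c b * blkD c (wP P p : Mat r ℂ) ^ s) = 0 := by
  obtain ⟨X, hX⟩ : ∃ X, X = blkD c (wP P p : Mat r ℂ) := ⟨_, rfl⟩
  have hXBD : BD c X := by rw [hX]; exact BD.blkD c _
  rw [← hX]
  have h12 : (eb c b * X) * (eb c b' * X) = 0 := by
    calc (eb c b * X) * (eb c b' * X) = eb c b * (X * eb c b') * X := by simp only [mul_assoc]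
      _ = (eb c b * eb c b') * X * X := by rw [← eb_comm_BD hXBD]; simp only [mul_assoc]
      _ = 0 := by rw [eb_mul_eb hb, zero_mul, zero_mul]
  have h21 : (eb c b' * X) * (eb c b * X) = 0 := by
    calc (eb c b' * X) * (eb c b * X) = eb c b' * (X * eb c b) * X := by simp only [mul_assoc]
      _ = (eb c b' * eb c b) * X * X := by rw [← eb_comm_BD hXBD]; simp only [mul_assoc]
      _ = 0 := by rw [eb_mul_eb hb.symm, zero_mul, zero_mul]
  have h := T2_separate (μᵀ ⊙ B) B (eb c b * X) (eb c b' * X) h12 h21 (s + t - 1) (by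
    intro a
    have h1 := hL.two p (s + t - 1) (by omega) (fun d => if d = b then a else if d = b' then 1 else 0)
    rw [← hX] at h1
    have h2 : (diagonal fun i => if c i = b then a else if c i = b' then (1 : ℂ) else 0) * X =
        a • (eb c b * X) + eb c b' * X := by
      rw [eb, eb, ← Matrix.smul_mul, ← add_mul, ← diagonal_smul, diagonal_add]
      congr 2
      funext i
      simp only [Pi.smul_apply, smul_eq_mul]
      by_cases h3 : c i = b
      · rw [if_pos h3, if_pos h3, if_neg (fun h4 => hb (h3.symm.trans h4))]; ring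
      · rw [if_neg h3, if_neg h3]; ring
    rw [h2] at h1
    rw [← h1]
    unfold Gk T2
    refine Finset.sum_congr rfl fun l _ => ?_
    rw [zero_smul, add_zero, one_mul, pow_succ']
    simp only [mul_assoc]) s hs (by (clear * - hs ht; omega))
  have e : s + t - 1 + 1 - s = t := by omega
  rw [e] at h
  obtain ⟨s, rfl⟩ : ∃ s', s = s' + 1 := ⟨s - 1, by (clear * - hs; omega)⟩
  obtain ⟨t, rfl⟩ : ∃ t', t = t' + 1 := ⟨t - 1, by omega⟩
  rwa [eb_mul_pow hXBD, eb_mul_pow hXBD] at h

theorem vander_zero {α : Fin r → ℂ} (hα : Function.Injective α) (h0 : ∀ i, α i ≠ 0)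
    (v : Fin r → ℂ) (h : ∀ s : ℕ, 1 ≤ s → s ≤ r → ∑ i, v i * α i ^ s = 0) (i : Fin r) :
    v i = 0 := by
  have h1 := Matrix.eq_zero_of_forall_pow_sum_mul_pow_eq_zero (v := fun i => v i * α i) hα (by
    intro s
    rw [← h (s + 1) (by omega) (by have := s.2; omega)]
    refine Finset.sum_congr rfl fun j _ => ?_
    rw [pow_succ]; ring)
  have h2 := congrFun h1 i
  simp only [Pi.zero_apply] at h2
  exact (mul_eq_zero.1 h2).resolve_right (h0 i)

/-- Antisymmetry. -/
theorem LimOK.anti {P : L → (Mat r ℂ)ˣ} {c : Fin r → Fin r} {D : ℕ} {μ B : Mat r ℂ}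
    (hL : LimOK P c D μ B) (hD : 2 * r ≤ D) (q₀ : L) (α : Fin r → ℂ)
    (hα : Function.Injective α) (hq₀ : (P q₀ : Mat r ℂ) = diagonal α) (i j : Fin r)
    (hij : c i ≠ c j) : B i j * B j i * (μ i j + μ j i) = 0 := by
  have h0 := alpha_ne_zero P q₀ α hq₀
  have hX : blkD c (wP P [q₀] : Mat r ℂ) = diagonal α := by
    rw [wP, wP, mul_one, hq₀]
    ext a b
    rw [blkD, Matrix.of_apply]
    split_ifs with h
    · rfl
    · exact (BD.diagonal c α a b h).symm
  obtain ⟨b, hb⟩ : ∃ b, b = c i := ⟨_, rfl⟩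
  obtain ⟨b', hb'⟩ : ∃ b', b' = c j := ⟨_, rfl⟩
  have hbb : b ≠ b' := by rw [hb, hb']; exact hij
  have key : ∀ s t : ℕ, 1 ≤ s → s ≤ r → 1 ≤ t → t ≤ r →
      ∑ i, (∑ j, (if c i = b then (if c j = b' then B i j * B j i * (μ i j + μ j i) else 0) else 0) *
        α j ^ t) * α i ^ s = 0 := by
    intro s t hs hs' ht ht'
    have h1 := hL.bideg [q₀] hbb s t hs ht (by omega)
    rw [hX, diagonal_pow, diagonal_pow, eb, eb, diagonal_mul_diagonal, diagonal_mul_diagonal] at h1
    have h2 : ∀ u v : Fin r → ℂ, T2 (μᵀ ⊙ B) B (diagonal u) (diagonal v) =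
        ∑ i, ∑ j, μ i j * B j i * B i j * u i * v j := by
      intro u v
      have h3 := trace_diag_mul (μᵀ ⊙ B) B u v
      unfold T2
      rw [mul_assoc, ← mul_assoc (diagonal u), h3]
      refine Finset.sum_congr rfl fun i _ => Finset.sum_congr rfl fun j _ => ?_
      rw [Matrix.hadamard_apply, Matrix.transpose_apply]
    rw [h2, h2] at h1
    rw [Finset.sum_comm (f := fun i j => μ i j * B j i * B i j *
      ((if c i = b' then (1 : ℂ) else 0) * (α ^ t) i) *
      ((if c j = b then (1 : ℂ) else 0) * (α ^ s) j))] at h1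
    rw [← Finset.sum_add_distrib] at h1
    refine Eq.trans ?_ h1
    refine Finset.sum_congr rfl fun i _ => ?_
    rw [Finset.sum_mul, ← Finset.sum_add_distrib]
    refine Finset.sum_congr rfl fun j _ => ?_
    simp only [Pi.pow_apply]
    by_cases h4 : c i = b
    · by_cases h5 : c j = b'
      · simp only [h4, h5, if_true]; ring
      · simp only [h4, h5, if_false, if_true]; ring
    · simp only [h4, if_false]; ring
  have h1 : ∀ t : ℕ, 1 ≤ t → t ≤ r → ∑ j', (if c i = b then
      (if c j' = b' then B i j' * B j' i * (μ i j' + μ j' i) else 0) else 0) * α j' ^ t = 0 :=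
    fun t ht ht' => vander_zero hα h0 (fun i => ∑ j, (if c i = b then
      (if c j = b' then B i j * B j i * (μ i j + μ j i) else 0) else 0) * α j ^ t)
      (fun s hs hs' => key s t hs hs' ht ht') i
  have h2 := vander_zero hα h0 _ h1 j
  rwa [if_pos hb.symm, if_pos hb'.symm] at h2

/-- A functional which vanishes at the positive powers of an invertible matrix. -/
theorem functional_one (X : Mat r ℂ) (hX : X.det ≠ 0) (f : Mat r ℂ →ₗ[ℂ] ℂ)
    (h : ∀ t : ℕ, 1 ≤ t → t ≤ r → f (X ^ t) = 0) : f 1 = 0 := by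
  rcases Nat.eq_zero_or_pos r with hr | hr
  · subst hr
    have : (1 : Mat 0 ℂ) = 0 := Subsingleton.elim _ _
    rw [this, map_zero]
  have h1 := Matrix.aeval_self_charpoly X
  have h2 : f (Polynomial.aeval X X.charpoly) = X.charpoly.coeff 0 * f 1 := by
    rw [Polynomial.aeval_eq_sum_range, map_sum, Finset.sum_range_succ', Finset.sum_eq_zero]
    · rw [zero_add, map_smul, pow_zero, smul_eq_mul]
    · intro t ht
      have ht' := Finset.mem_range.1 ht
      rw [Matrix.charpoly_natDegree_eq_dim, Fintype.card_fin] at ht'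
      rw [map_smul, h (t + 1) (by (clear * -; omega)) (by omega), smul_zero]
  rw [h1, map_zero] at h2
  have h3 : X.charpoly.coeff 0 ≠ 0 := by
    intro h4
    apply hX
    rw [Matrix.det_eq_sign_charpoly_coeff, h4, mul_zero]
  exact (mul_eq_zero.1 h2.symm).resolve_left h3

theorem det_blkD {c : Fin r → Fin r} {X : Mat r ℂ} (hX : ∀ i j, c j < c i → X i j = 0) :
    (blkD c X).det = X.det := by
  have h1 : BlockTriangular X c := fun i j h => hX i j h
  have h2 : BlockTriangular (blkD c X) c := fun i j h => by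
    rw [blkD, Matrix.of_apply, if_neg (ne_of_gt h)]
  rw [h1.det, h2.det]
  refine Finset.prod_congr rfl fun k _ => ?_
  congr 1
  ext ⟨i, hi⟩ ⟨j, hj⟩
  simp only [toSquareBlock, toSquareBlockProp, blkD, toBlock_apply, of_apply, hi, hj, ↓reduceIte]

/-- The linear relations between two blocks. -/
theorem LimOK.rel {P : L → (Mat r ℂ)ˣ} {c : Fin r → Fin r} {D : ℕ} {μ B : Mat r ℂ}
    (hL : LimOK P c D μ B) (hD : r + 1 ≤ D) (q₀ : L) (α : Fin r → ℂ)
    (hα : Function.Injective α) (hq₀ : (P q₀ : Mat r ℂ) = diagonal α)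
    (htri : ∀ q i j, c j < c i → (P q : Mat r ℂ) i j = 0) (i j b' : Fin r)
    (hij : c i = c j) (hib : c i ≠ b') (p : List L) (hp : (wP P p : Mat r ℂ) i j ≠ 0) :
    ∑ l, (if c l = b' then B j l * B l i * (μ i l + μ l j) else 0) = 0 := by
  obtain ⟨b, hb⟩ : ∃ b, b = c i := ⟨_, rfl⟩
  have hbb : b ≠ b' := by rw [hb]; exact hib
  have h1 : ∀ p : List L, T2 (μᵀ ⊙ B) B (eb c b * blkD c (wP P p : Mat r ℂ)) (eb c b') +
      T2 (μᵀ ⊙ B) B (eb c b') (eb c b * blkD c (wP P p : Mat r ℂ)) = 0 := by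
    intro p
    obtain ⟨X, hX⟩ : ∃ X, X = blkD c (wP P p : Mat r ℂ) := ⟨_, rfl⟩
    have hdet : X.det ≠ 0 := by
      rw [hX, det_blkD (wP_tri P c htri p)]
      have := (wP P p).isUnit
      rw [Matrix.isUnit_iff_isUnit_det, isUnit_iff_ne_zero] at this
      exact this
    have h2 := functional_one X hdet
      { toFun := fun Z => T2 (μᵀ ⊙ B) B (eb c b * X) (eb c b' * Z) +
          T2 (μᵀ ⊙ B) B (eb c b' * Z) (eb c b * X)
        map_add' := fun Z Z' => by
          unfold T2
          simp only [mul_add, add_mul, trace_add]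
          ring
        map_smul' := fun a Z => by
          unfold T2
          simp only [Matrix.mul_smul, Matrix.smul_mul, trace_smul, smul_eq_mul, RingHom.id_apply]
          ring } (by
        intro t ht ht'
        have h3 := hL.bideg p hbb 1 t le_rfl ht (by omega)
        rw [← hX, pow_one] at h3
        exact h3)
    simp only [LinearMap.coe_mk, AddHom.coe_mk, mul_one] at h2
    rw [← hX]
    exact h2
  obtain ⟨W, hW⟩ : ∃ W : Mat r ℂ, W = B * eb c b' * (μᵀ ⊙ B) + (μᵀ ⊙ B) * eb c b' * B := ⟨_, rfl⟩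
  have h2 : ∀ p : List L, trace (W * (eb c b * blkD c (wP P p : Mat r ℂ))) = 0 := by
    intro p
    rw [← h1 p, hW, add_mul, trace_add]
    unfold T2
    congr 1
    · rw [Matrix.trace_mul_comm ((μᵀ ⊙ B) * (eb c b * blkD c (wP P p : Mat r ℂ))) (B * eb c b')]
      simp only [mul_assoc]
    · simp only [mul_assoc]
  have h3 := double_interp hα (fun i j => W j i * (eb c b * blkD c (wP P p : Mat r ℂ)) i j) (by
    intro n n'
    have h4 := h2 (List.replicate n q₀ ++ (p ++ List.replicate n' q₀))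
    rw [wP_append, wP_append, Units.val_mul, Units.val_mul, wP_replicate P q₀ α hq₀,
      wP_replicate P q₀ α hq₀] at h4
    have h5 : eb c b * blkD c ((diagonal fun i => α i ^ n) * ((wP P p : Mat r ℂ) *
        diagonal fun i => α i ^ n')) = (diagonal fun i => α i ^ n) *
        (eb c b * blkD c (wP P p : Mat r ℂ)) * (diagonal fun i => α i ^ n') := by
      ext i j
      rw [eb, diagonal_mul, mul_diagonal, diagonal_mul, diagonal_mul, blkD, blkD, Matrix.of_apply,
        Matrix.of_apply, diagonal_mul, mul_diagonal]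
      split_ifs <;> ring
    rw [h5, trace_diag_mul] at h4
    exact h4) i j
  have h4 : (eb c b * blkD c (wP P p : Mat r ℂ)) i j = (wP P p : Mat r ℂ) i j := by
    rw [eb, diagonal_mul, blkD, Matrix.of_apply, if_pos hb.symm, if_pos hij, one_mul]
  simp only [h4] at h3
  have h5 := (mul_eq_zero.1 h3).resolve_right hp
  rw [hW, Matrix.add_apply, eb, Matrix.mul_assoc, Matrix.mul_assoc, Matrix.mul_apply,
    Matrix.mul_apply, ← Finset.sum_add_distrib] at h5
  refine Eq.trans ?_ h5
  refine Finset.sum_congr rfl fun l _ => ?_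
  rw [diagonal_mul, diagonal_mul, Matrix.hadamard_apply, Matrix.hadamard_apply,
    Matrix.transpose_apply, Matrix.transpose_apply]
  split_ifs <;> ring

end

end Vale.Agent.P002R
end

section

/-!
# The dual lemma for block data, part E: the special matrix `B`
-/

namespace Vale.Agent.P002R

open Matrix

variable {r : ℕ}

/-- Size of a block. -/
def bk (c : Fin r → Fin r) (b : Fin r) : ℕ := Fintype.card {i : Fin r // c i = b}

/-- Enumeration of a block. -/
noncomputable def be (c : Fin r → Fin r) (b : Fin r) : {i : Fin r // c i = b} ≃ Fin (bk c b) :=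
  Fintype.equivFin _

/-- Labels. -/
noncomputable def lab (c : Fin r → Fin r) (i : Fin r) : ℕ := (be c (c i) ⟨i, rfl⟩ : ℕ)

/-- The element of a block with a given label. -/
noncomputable def bi (c : Fin r → Fin r) (b : Fin r) (l : Fin (bk c b)) : Fin r :=
  ((be c b).symm l : {i : Fin r // c i = b})

theorem c_bi (c : Fin r → Fin r) (b : Fin r) (l : Fin (bk c b)) : c (bi c b l) = b :=
  ((be c b).symm l).2

theorem lab_bi (c : Fin r → Fin r) (b : Fin r) (l : Fin (bk c b)) : lab c (bi c b l) = l := by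
  have h : ∀ (i : Fin r) (b : Fin r) (h : c i = b), lab c i = (be c b ⟨i, h⟩ : ℕ) := by
    rintro i b rfl
    rfl
  rw [h (bi c b l) b (c_bi c b l)]
  have : (⟨bi c b l, c_bi c b l⟩ : {i : Fin r // c i = b}) = (be c b).symm l := rfl
  rw [this, Equiv.apply_symm_apply]

theorem exists_bi (c : Fin r → Fin r) (b : Fin r) (i : Fin r) (h : c i = b) :
    ∃ l, bi c b l = i := ⟨be c b ⟨i, h⟩, by rw [bi, Equiv.symm_apply_apply]⟩

theorem bi_injective (c : Fin r → Fin r) (b : Fin r) : Function.Injective (bi c b) := by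
  intro l l' h
  exact (be c b).symm.injective (Subtype.ext h)

theorem sum_block (c : Fin r → Fin r) (b : Fin r) (f : Fin r → ℂ) :
    ∑ l, (if c l = b then f l else 0) = ∑ l : Fin (bk c b), f (bi c b l) := by
  rw [← Finset.sum_filter]
  symm
  apply Finset.sum_bij (fun l _ => bi c b l)
  · intro l _
    simp only [Finset.mem_filter, Finset.mem_univ, c_bi, and_self]
  · intro l _ l' _ h
    exact bi_injective c b h
  · intro i hi
    obtain ⟨l, hl⟩ := exists_bi c b i (Finset.mem_filter.1 hi).2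
    exact ⟨l, Finset.mem_univ _, hl⟩
  · intro l _
    rfl

/-- The weights. -/
noncomputable def sw (l : ℕ) : ℝ := 1 / ((l : ℝ) + 2)

theorem sw_pos (l : ℕ) : 0 < sw l := by
  unfold sw
  (clear * -; positivity)

theorem sw_le (l : ℕ) : sw l ≤ 1 / 2 := by
  unfold sw
  apply one_div_le_one_div_of_le (by norm_num)
  have : (0 : ℝ) ≤ l := Nat.cast_nonneg l
  linarith

theorem sw_injective : Function.Injective sw := by
  intro l l' h
  unfold sw at h
  have h1 : (l : ℝ) + 2 = (l' : ℝ) + 2 := by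
    have := congrArg (fun x : ℝ => x⁻¹) h
    simpa using this
  have : (l : ℝ) = l' := by linarith only [h1]
  exact_mod_cast this

/-- The weight of a pair. -/
noncomputable def wt (c : Fin r → Fin r) (i j : Fin r) : ℝ :=
  if lab c i = lab c j then sw (lab c i) else 0

theorem wt_nonneg (c : Fin r → Fin r) (i j : Fin r) : 0 ≤ wt c i j := by
  unfold wt
  split_ifs
  · exact (sw_pos _).le
  · exact le_rfl

theorem wt_le (c : Fin r → Fin r) (i j : Fin r) : wt c i j ≤ 1 / 2 := by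
  unfold wt
  split_ifs
  · exact sw_le _
  · (clear * -; norm_num)

theorem wt_symm (c : Fin r → Fin r) (i j : Fin r) : wt c i j = wt c j i := by
  unfold wt
  by_cases h : lab c i = lab c j
  · rw [if_pos h, if_pos h.symm, h]
  · rw [if_neg h, if_neg (Ne.symm h)]

/-- The special matrix (real entries). -/
noncomputable def Br (c : Fin r → Fin r) (i j : Fin r) : ℝ :=
  if c i < c j then 4 * (1 + wt c i j) else if c j < c i then 1 - wt c i j else 1

/-- The special matrix. -/
noncomputable def Bsp (c : Fin r → Fin r) : Mat r ℂ := Matrix.of fun i j => (Br c i j : ℂ)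

theorem Br_pos (c : Fin r → Fin r) (i j : Fin r) : 0 < Br c i j := by
  have h1 := wt_nonneg c i j
  have h2 := wt_le c i j
  unfold Br
  split_ifs
  · linarith only [h1]
  · linarith
  · norm_num

theorem Br_lt {c : Fin r → Fin r} {i j : Fin r} (h : c i < c j) :
    Br c i j = 4 * (1 + wt c i j) := by
  unfold Br
  rw [if_pos h]

theorem Br_gt {c : Fin r → Fin r} {i j : Fin r} (h : c j < c i) : Br c i j = 1 - wt c i j := by
  unfold Br
  rw [if_neg (not_lt.2 h.le), if_pos h]

section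

variable {L : Type*} {P : L → (Mat r ℂ)ˣ} {c : Fin r → Fin r} {D : ℕ} {μ : Mat r ℂ}

theorem LimOK.anti' (hL : LimOK P c D μ (Bsp c)) (hD : 2 * r ≤ D) (q₀ : L) (α : Fin r → ℂ)
    (hα : Function.Injective α) (hq₀ : (P q₀ : Mat r ℂ) = diagonal α) (i j : Fin r) :
    μ i j = - μ j i := by
  by_cases h : c i = c j
  · rw [hL.zero i j h, hL.zero j i h.symm, neg_zero]
  · have h1 := hL.anti hD q₀ α hα hq₀ i j h
    have h2 : Bsp c i j * Bsp c j i ≠ 0 := by
      rw [Bsp, Matrix.of_apply, Matrix.of_apply, ← Complex.ofReal_mul]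
      exact_mod_cast (mul_pos (Br_pos c i j) (Br_pos c j i)).ne'
    have h3 := (mul_eq_zero.1 h1).resolve_left h2
    linear_combination h3

/-- One half of the hypotheses of the rigid system. -/
theorem LimOK.half (hL : LimOK P c D μ (Bsp c)) (hD : 2 * r ≤ D) (hD' : r + 1 ≤ D) (q₀ : L)
    (α : Fin r → ℂ) (hα : Function.Injective α) (hq₀ : (P q₀ : Mat r ℂ) = diagonal α)
    (htri : ∀ q i j, c j < c i → (P q : Mat r ℂ) i j = 0)
    (hconn : ∀ i j, c i = c j → ∃ p, (wP P p : Mat r ℂ) i j ≠ 0) (b b' : Fin r) (hb : b ≠ b')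
    (i j : Fin (bk c b)) (_hij : i ≠ j) :
    ∑ l : Fin (bk c b'), (1 + if (l : ℕ) = j then (sw j : ℂ) else 0) *
      (1 - if (l : ℕ) = i then (sw i : ℂ) else 0) *
        (μ (bi c b j) (bi c b' l) - μ (bi c b i) (bi c b' l)) = 0 := by
  have hrel : ∀ i j : Fin (bk c b), ∑ l : Fin (bk c b'), Bsp c (bi c b j) (bi c b' l) *
      Bsp c (bi c b' l) (bi c b i) * (μ (bi c b i) (bi c b' l) - μ (bi c b j) (bi c b' l)) = 0 := by
    intro i j
    obtain ⟨p, hp⟩ := hconn (bi c b i) (bi c b j) (by rw [c_bi c, c_bi c])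
    have h1 := hL.rel hD' q₀ α hα hq₀ htri (bi c b i) (bi c b j) b' (by rw [c_bi c, c_bi c])
      (by rw [c_bi c]; exact hb) p hp
    rw [sum_block c b' (fun l => Bsp c (bi c b j) l * Bsp c l (bi c b i) *
      (μ (bi c b i) l + μ l (bi c b j)))] at h1
    refine Eq.trans ?_ h1
    refine Finset.sum_congr rfl fun l _ => ?_
    rw [hL.anti' hD q₀ α hα hq₀ (bi c b' l) (bi c b j)]
    ring
  have hw : ∀ (i : Fin (bk c b)) (l : Fin (bk c b')), ((wt c (bi c b i) (bi c b' l) : ℝ) : ℂ) =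
      if (l : ℕ) = i then (sw i : ℂ) else 0 := by
    intro i l
    unfold wt
    rw [lab_bi, lab_bi]
    by_cases h : (l : ℕ) = i
    · rw [if_pos h.symm, if_pos h]
    · rw [if_neg (Ne.symm h), if_neg h]; simp
  have hw' : ∀ (i : Fin (bk c b)) (l : Fin (bk c b')), ((wt c (bi c b' l) (bi c b i) : ℝ) : ℂ) =
      if (l : ℕ) = i then (sw i : ℂ) else 0 := by
    intro i l
    rw [wt_symm, hw]
  rcases lt_or_gt_of_ne hb with hlt | hlt
  · have h1 := hrel i j
    have h2 : ∀ l : Fin (bk c b'), Bsp c (bi c b j) (bi c b' l) *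
      Bsp c (bi c b' l) (bi c b i) * (μ (bi c b i) (bi c b' l) - μ (bi c b j) (bi c b' l)) =
      -4 * ((1 + if (l : ℕ) = j then (sw j : ℂ) else 0) *
      (1 - if (l : ℕ) = i then (sw i : ℂ) else 0) *
        (μ (bi c b j) (bi c b' l) - μ (bi c b i) (bi c b' l))) := by
      intro l
      rw [Bsp, Matrix.of_apply, Matrix.of_apply,
        Br_lt (by rw [c_bi c, c_bi c]; exact hlt : c (bi c b j) < c (bi c b' l)),
        Br_gt (by rw [c_bi c, c_bi c]; exact hlt : c (bi c b i) < c (bi c b' l))]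
      rw [← hw j l, ← hw' i l]
      push_cast
      ring
    rw [Finset.sum_congr rfl fun l _ => h2 l, ← Finset.mul_sum] at h1
    exact (mul_eq_zero.1 h1).resolve_left (by norm_num)
  · have h1 := hrel j i
    have h2 : ∀ l : Fin (bk c b'), Bsp c (bi c b i) (bi c b' l) *
      Bsp c (bi c b' l) (bi c b j) * (μ (bi c b j) (bi c b' l) - μ (bi c b i) (bi c b' l)) =
      4 * ((1 + if (l : ℕ) = j then (sw j : ℂ) else 0) *
      (1 - if (l : ℕ) = i then (sw i : ℂ) else 0) *
        (μ (bi c b j) (bi c b' l) - μ (bi c b i) (bi c b' l))) := by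
      intro l
      rw [Bsp, Matrix.of_apply, Matrix.of_apply,
        Br_gt (by rw [c_bi c, c_bi c]; exact hlt : c (bi c b' l) < c (bi c b i)),
        Br_lt (by rw [c_bi c, c_bi c]; exact hlt : c (bi c b' l) < c (bi c b j))]
      rw [← hw i l, ← hw' j l]
      push_cast
      ring
    rw [Finset.sum_congr rfl fun l _ => h2 l, ← Finset.mul_sum] at h1
    exact (mul_eq_zero.1 h1).resolve_left (by norm_num)

/-- `μ` is constant on pairs of blocks. -/
theorem LimOK.const (hL : LimOK P c D μ (Bsp c)) (hD : 2 * r ≤ D) (hD' : r + 1 ≤ D) (q₀ : L)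
    (α : Fin r → ℂ) (hα : Function.Injective α) (hq₀ : (P q₀ : Mat r ℂ) = diagonal α)
    (htri : ∀ q i j, c j < c i → (P q : Mat r ℂ) i j = 0)
    (hconn : ∀ i j, c i = c j → ∃ p, (wP P p : Mat r ℂ) i j ≠ 0) (i j i' j' : Fin r)
    (hi : c i = c i') (hj : c j = c j') : μ i j = μ i' j' := by
  by_cases hij : c i = c j
  · rw [hL.zero i j hij, hL.zero i' j' (by rw [← hi, ← hj, hij])]
  have hanti := hL.anti' hD q₀ α hα hq₀
  have key : ∀ b b' : Fin r, b ≠ b' → bk c b ≤ bk c b' → ∀ (i i' : Fin (bk c b))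
      (j j' : Fin (bk c b')), μ (bi c b i) (bi c b' j) = μ (bi c b i') (bi c b' j') := by
    intro b b' hb hk i i' j j'
    apply rigid_system hk sw sw_pos sw_injective (fun i j => μ (bi c b i) (bi c b' j))
    · intro i j hij
      exact hL.half hD hD' q₀ α hα hq₀ htri hconn b b' hb i j hij
    · intro i j hij
      have h1 := hL.half hD hD' q₀ α hα hq₀ htri hconn b' b hb.symm i j hij
      rw [← neg_eq_zero, ← Finset.sum_neg_distrib] at h1
      refine Eq.trans ?_ h1
      refine Finset.sum_congr rfl fun l _ => ?_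
      rw [hanti (bi c b' j) (bi c b l), hanti (bi c b' i) (bi c b l)]
      ring
  obtain ⟨l₁, h1⟩ := exists_bi c (c i) i rfl
  obtain ⟨l₂, h2⟩ := exists_bi c (c i) i' hi.symm
  obtain ⟨l₃, h3⟩ := exists_bi c (c j) j rfl
  obtain ⟨l₄, h4⟩ := exists_bi c (c j) j' hj.symm
  rcases le_total (bk c (c i)) (bk c (c j)) with hk | hk
  · have := key (c i) (c j) hij hk l₁ l₂ l₃ l₄
    rwa [h1, h2, h3, h4] at this
  · have := key (c j) (c i) (Ne.symm hij) hk l₃ l₄ l₁ l₂
    rw [h1, h2, h3, h4] at this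
    rw [hanti i j, hanti i' j', this]

theorem Tri_eq (B : Mat r ℂ) (b₁ b₂ b₃ : Fin r) :
    Tri μ B (eb c b₁) (eb c b₂) (eb c b₃) =
      ∑ k, ∑ i, ∑ j, (if c k = b₃ then (1 : ℂ) else 0) * (if c i = b₁ then (1 : ℂ) else 0) *
        (if c j = b₂ then (1 : ℂ) else 0) * (μ i k * (B k i * B i j * B j k)) := by
  unfold Tri
  rw [Matrix.trace]
  refine Finset.sum_congr rfl fun k _ => ?_
  rw [Matrix.diag_apply, eb, eb, eb, mul_diagonal]
  have h1 : ((μᵀ ⊙ B) * (diagonal fun i => if c i = b₁ then (1 : ℂ) else 0) * B *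
      (diagonal fun i => if c i = b₂ then (1 : ℂ) else 0) * B) k k =
      ∑ i, ∑ j, (μᵀ ⊙ B) k i * (if c i = b₁ then (1 : ℂ) else 0) * B i j *
        (if c j = b₂ then (1 : ℂ) else 0) * B j k := by
    rw [Matrix.mul_apply, Finset.sum_comm]
    refine Finset.sum_congr rfl fun j _ => ?_
    rw [mul_diagonal, Matrix.mul_apply, Finset.sum_mul, Finset.sum_mul]
    refine Finset.sum_congr rfl fun i _ => ?_
    rw [mul_diagonal]
  rw [h1, Finset.sum_mul]
  refine Finset.sum_congr rfl fun i _ => ?_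
  rw [Finset.sum_mul]
  refine Finset.sum_congr rfl fun j _ => ?_
  rw [Matrix.hadamard_apply, Matrix.transpose_apply]
  ring

end

end Vale.Agent.P002R
end

section

/-!
# The dual lemma for block data, part G: the cocycle relation between three blocks
-/

namespace Vale.Agent.P002R

open Matrix

variable {r : ℕ}

theorem Tri_ones (B : Mat r ℂ) (U₁ U₂ U₃ : Mat r ℂ) :
    Tri (Matrix.of fun _ _ => 1) B U₁ U₂ U₃ = trace (B * U₁ * B * U₂ * B * U₃) := by
  unfold Tri
  have : (Matrix.of fun _ _ => (1 : ℂ) : Mat r ℂ)ᵀ ⊙ B = B := by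
    ext i j
    rw [Matrix.hadamard_apply, Matrix.transpose_apply, Matrix.of_apply, one_mul]
  rw [this]

theorem trace_cyc (B e₁ e₂ e₃ : Mat r ℂ) : trace (B * e₂ * B * e₃ * B * e₁) =
    trace (B * e₁ * B * e₂ * B * e₃) := by
  have h : B * e₁ * B * e₂ * B * e₃ = (B * e₁) * (B * e₂ * B * e₃) := by simp only [mul_assoc]
  rw [h, Matrix.trace_mul_comm (B * e₁) (B * e₂ * B * e₃)]
  simp only [mul_assoc]

theorem beta_diff_pos {c : Fin r → Fin r} (i j k : Fin r) (h1 : c i < c j) (h2 : c j < c k) :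
    0 < Br c k i * Br c i j * Br c j k - Br c j i * Br c i k * Br c k j := by
  have h3 : c i < c k := h1.trans h2
  rw [Br_gt h3, Br_lt h1, Br_lt h2, Br_gt h1, Br_lt h3, Br_gt h2]
  have a0 := wt_nonneg c i j
  have a1 := wt_le c i j
  have b0 := wt_nonneg c j k
  have b1 := wt_le c j k
  have d0 := wt_nonneg c i k
  have d1 := wt_le c i k
  rw [wt_symm c k i, wt_symm c j i, wt_symm c k j]
  obtain ⟨a, ha⟩ : ∃ a, a = wt c i j := ⟨_, rfl⟩
  obtain ⟨b, hb⟩ : ∃ b, b = wt c j k := ⟨_, rfl⟩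
  obtain ⟨d, hd⟩ : ∃ d, d = wt c i k := ⟨_, rfl⟩
  rw [← ha] at a0 a1 ⊢
  rw [← hb] at b0 b1 ⊢
  rw [← hd] at d0 d1 ⊢
  have e1 : 1 ≤ (1 + a) * (1 + b) := by nlinarith only [a0, b0]
  have e2 : (1 / 2 : ℝ) ≤ (1 - d) * ((1 + a) * (1 + b)) := by nlinarith only [d1, e1]
  have e3 : (1 - a) * (1 - b) ≤ 1 := by nlinarith only [a0, b0, a1]
  have e4 : 0 ≤ (1 - a) * (1 - b) := mul_nonneg (by linarith only [a1]) (by linarith only [b1])
  have e5 : (1 + d) * ((1 - a) * (1 - b)) ≤ 3 / 2 := by nlinarith only [a0, b0, a1, d0, b1, d1, e1]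
  nlinarith only [e2, e5]

theorem beta_ne {c : Fin r → Fin r} (i₀ j₀ k₀ : Fin r) (h1 : c i₀ < c j₀) (h2 : c j₀ < c k₀) :
    trace (Bsp c * eb c (c i₀) * Bsp c * eb c (c j₀) * Bsp c * eb c (c k₀)) ≠
      trace (Bsp c * eb c (c i₀) * Bsp c * eb c (c k₀) * Bsp c * eb c (c j₀)) := by
  intro h
  rw [← Tri_ones, ← Tri_ones, Tri_eq, Tri_eq] at h
  -- reorder the second sum
  have hre : ∀ F : Fin r → Fin r → Fin r → ℂ, ∑ k, ∑ i, ∑ j, F k i j = ∑ j, ∑ i, ∑ k, F k i j := by
    intro F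
    calc ∑ k, ∑ i, ∑ j, F k i j = ∑ k, ∑ j, ∑ i, F k i j :=
          Finset.sum_congr rfl fun k _ => Finset.sum_comm
      _ = ∑ j, ∑ k, ∑ i, F k i j := Finset.sum_comm
      _ = ∑ j, ∑ i, ∑ k, F k i j := Finset.sum_congr rfl fun k _ => Finset.sum_comm
  rw [hre (fun k i j => (if c k = c j₀ then (1 : ℂ) else 0) * (if c i = c i₀ then (1 : ℂ) else 0) *
        (if c j = c k₀ then (1 : ℂ) else 0) * ((Matrix.of fun _ _ => 1 : Mat r ℂ) i k *
          (Bsp c k i * Bsp c i j * Bsp c j k)))] at h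
  have h3 : ∑ k, ∑ i, ∑ j, (if c k = c k₀ then (if c i = c i₀ then (if c j = c j₀ then
      (Br c k i * Br c i j * Br c j k - Br c j i * Br c i k * Br c k j) else 0) else 0) else 0) =
        0 := by
    rw [← sub_eq_zero, ← Finset.sum_sub_distrib] at h
    have h4 : ((∑ k, ∑ i, ∑ j, (if c k = c k₀ then (if c i = c i₀ then (if c j = c j₀ then
      (Br c k i * Br c i j * Br c j k - Br c j i * Br c i k * Br c k j) else 0) else 0) else 0) :
        ℝ) : ℂ) = 0 := by
      push_cast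
      refine Eq.trans ?_ h
      refine Finset.sum_congr rfl fun k _ => ?_
      rw [← Finset.sum_sub_distrib]
      refine Finset.sum_congr rfl fun i _ => ?_
      rw [← Finset.sum_sub_distrib]
      refine Finset.sum_congr rfl fun j _ => ?_
      simp only [of_apply, Bsp]
      by_cases hk : c k = c k₀
      · by_cases hi : c i = c i₀
        · by_cases hj : c j = c j₀
          · simp only [hk, hi, hj, if_true]
            push_cast
            ring
          · simp only [hk, hi, hj, if_true, if_false]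
            push_cast
            ring
        · simp only [hk, hi, if_true, if_false]
          push_cast
          ring
      · simp only [hk, if_false]
        push_cast
        ring
    exact_mod_cast h4
  have hnn : ∀ k i j, 0 ≤ (if c k = c k₀ then (if c i = c i₀ then (if c j = c j₀ then
      (Br c k i * Br c i j * Br c j k - Br c j i * Br c i k * Br c k j) else 0) else 0) else 0) := by
    intro k i j
    split_ifs with hk hi hj
    · exact (beta_diff_pos i j k (by rw [hi, hj]; exact h1) (by rw [hj, hk]; exact h2)).le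
    · exact le_rfl
    · exact le_rfl
    · exact le_rfl
  have h5 := (Finset.sum_eq_zero_iff_of_nonneg (fun k _ => Finset.sum_nonneg fun i _ =>
    Finset.sum_nonneg fun j _ => hnn k i j)).1 h3 k₀ (Finset.mem_univ _)
  have h6 := (Finset.sum_eq_zero_iff_of_nonneg (fun i _ =>
    Finset.sum_nonneg fun j _ => hnn k₀ i j)).1 h5 i₀ (Finset.mem_univ _)
  have h7 := (Finset.sum_eq_zero_iff_of_nonneg (fun j _ => hnn k₀ i₀ j)).1 h6 j₀
    (Finset.mem_univ _)
  rw [if_pos rfl, if_pos rfl, if_pos rfl] at h7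
  exact (beta_diff_pos i₀ j₀ k₀ h1 h2).ne' h7

section

variable {L : Type*} {P : L → (Mat r ℂ)ˣ} {c : Fin r → Fin r} {D : ℕ} {μ : Mat r ℂ}

theorem Tri_const (B : Mat r ℂ)
    (hc : ∀ i j i' j', c i = c i' → c j = c j' → μ i j = μ i' j') (i₁ k₃ : Fin r) (b₂ : Fin r) :
    Tri μ B (eb c (c i₁)) (eb c b₂) (eb c (c k₃)) =
      μ i₁ k₃ * trace (B * eb c (c i₁) * B * eb c b₂ * B * eb c (c k₃)) := by
  have h1 : eb c (c k₃) * (μᵀ ⊙ B) * eb c (c i₁) = μ i₁ k₃ • (eb c (c k₃) * B * eb c (c i₁)) := by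
    ext k i
    rw [Matrix.smul_apply, eb, eb, mul_diagonal, mul_diagonal, diagonal_mul, diagonal_mul,
      Matrix.hadamard_apply, Matrix.transpose_apply, smul_eq_mul]
    by_cases hk : c k = c k₃
    · by_cases hi : c i = c i₁
      · rw [hc i k i₁ k₃ hi hk]
        ring
      · rw [if_neg hi]; ring
    · rw [if_neg hk]; ring
  have h2 : ∀ V : Mat r ℂ, trace (V * eb c (c i₁) * B * eb c b₂ * B * eb c (c k₃)) =
      trace (eb c (c k₃) * V * eb c (c i₁) * (B * eb c b₂ * B)) := by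
    intro V
    rw [Matrix.trace_mul_comm (V * eb c (c i₁) * B * eb c b₂ * B)]
    simp only [mul_assoc]
  unfold Tri
  rw [h2, h2, h1, Matrix.smul_mul, trace_smul, smul_eq_mul]

/-- The cocycle relation for three different blocks in increasing order. -/
theorem LimOK.sorted (hL : LimOK P c D μ (Bsp c)) (hanti : ∀ i j, μ i j = -μ j i)
    (hc : ∀ i j i' j', c i = c i' → c j = c j' → μ i j = μ i' j') (i j k : Fin r)
    (h1 : c i < c j) (h2 : c j < c k) : μ i j + μ j k + μ k i = 0 := by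
  have h3 := hL.three (c i) (c j) (c k) h1.ne h2.ne (h1.trans h2).ne
  unfold Six at h3
  rw [Tri_const (Bsp c) hc, Tri_const (Bsp c) hc, Tri_const (Bsp c) hc, Tri_const (Bsp c) hc,
    Tri_const (Bsp c) hc, Tri_const (Bsp c) hc] at h3
  have e1 := trace_cyc (Bsp c) (eb c (c i)) (eb c (c j)) (eb c (c k))
  have e2 := trace_cyc (Bsp c) (eb c (c j)) (eb c (c k)) (eb c (c i))
  have e3 := trace_cyc (Bsp c) (eb c (c i)) (eb c (c k)) (eb c (c j))
  have e4 := trace_cyc (Bsp c) (eb c (c k)) (eb c (c j)) (eb c (c i))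
  have hne := beta_ne (c := c) i j k h1 h2
  obtain ⟨β₁, hβ₁⟩ : ∃ β, β = trace (Bsp c * eb c (c i) * Bsp c * eb c (c j) * Bsp c * eb c (c k)) :=
    ⟨_, rfl⟩
  obtain ⟨β₂, hβ₂⟩ : ∃ β, β = trace (Bsp c * eb c (c i) * Bsp c * eb c (c k) * Bsp c * eb c (c j)) :=
    ⟨_, rfl⟩
  rw [← hβ₁, ← hβ₂] at hne
  rw [e2, e1] at h3
  rw [e1] at e2
  rw [e4, e3] at h3
  rw [← hβ₁, ← hβ₂] at h3
  have h4 : (μ i j + μ j k + μ k i) * (β₂ - β₁) = 0 := by
    rw [hanti i k, hanti j i, hanti k j] at h3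
    linear_combination h3
  rcases mul_eq_zero.1 h4 with h | h
  · exact h
  · exact absurd (sub_eq_zero.1 h).symm hne

/-- The cocycle relation. -/
theorem LimOK.cocycle (hL : LimOK P c D μ (Bsp c)) (hD : 2 * r ≤ D) (hD' : r + 1 ≤ D) (q₀ : L)
    (α : Fin r → ℂ) (hα : Function.Injective α) (hq₀ : (P q₀ : Mat r ℂ) = diagonal α)
    (htri : ∀ q i j, c j < c i → (P q : Mat r ℂ) i j = 0)
    (hconn : ∀ i j, c i = c j → ∃ p, (wP P p : Mat r ℂ) i j ≠ 0) (i j k : Fin r) :
    μ i k = μ i j + μ j k := by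
  have hanti := hL.anti' hD q₀ α hα hq₀
  have hc := hL.const hD hD' q₀ α hα hq₀ htri hconn
  have hs := hL.sorted hanti hc
  by_cases hij : c i = c j
  · rw [hL.zero i j hij, zero_add]
    exact hc i k j k hij rfl
  by_cases hjk : c j = c k
  · rw [hL.zero j k hjk, add_zero]
    exact hc i k i j rfl hjk.symm
  by_cases hik : c i = c k
  · rw [hL.zero i k hik, hc j k j i rfl hik.symm, hanti j i]
    ring
  have key : μ i j + μ j k + μ k i = 0 := by
    rcases lt_or_gt_of_ne hij with h1 | h1 <;> rcases lt_or_gt_of_ne hjk with h2 | h2 <;>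
      rcases lt_or_gt_of_ne hik with h3 | h3
    · exact hs i j k h1 h2
    · exact absurd (h1.trans h2) (not_lt.2 h3.le)
    · have := hs i k j h3 h2
      rw [hanti i k, hanti k j, hanti j i] at this
      linear_combination -this
    · have := hs k i j h3 h1
      linear_combination this
    · have := hs j i k h1 h3
      rw [hanti j i, hanti i k, hanti k j] at this
      linear_combination -this
    · have := hs j k i h2 h3
      linear_combination this
    · exact absurd (h2.trans h1) (not_lt.2 h3.le)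
    · have := hs k j i h2 h1
      rw [hanti k j, hanti j i, hanti i k] at this
      linear_combination -this
  rw [hanti k i] at key
  linear_combination -key

end

end Vale.Agent.P002R
end

section

/-!
# P002: rational families in the cell with prescribed diagonal and characteristic polynomial
-/

namespace Vale.Agent.P002R

open Matrix

end Vale.Agent.P002R
end

section

/-!
# P002, genus 1: density of the integral points in the space of parameters of the chart
-/

namespace Vale.Agent.P002R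

open Matrix

/-- Fibrewise density with units in `V` and congruences. -/
def FibV {R : Type*} [CommRing R] (φ : R →+* ℂ) (V : Subgroup Rˣ) (n : ℕ) : Prop :=
  ∀ D : R, D ≠ 0 → ∀ (q : Fin (n + 1) → Rˣ) (χ : Polynomial R), χ.Monic → χ.natDegree = n + 1 →
  ∀ F : MvPolynomial (Fin (n + 1) × Fin (n + 1)) ℂ,
    (∀ X : Mat (n + 1) R, (∀ i, X i i = q i) → P002G.Bi D X → (zZ X).charpoly = χ →
      (∃ w ∈ V, (w : R) = (P002.kry (zZ X) (P002G.e0 n R)).det) →
      MvPolynomial.eval (fun p => φ (X p.1 p.2)) F = 0) →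
    ∀ X : Mat (n + 1) ℂ, (∀ i, X i i = φ (q i)) → (zZ X).charpoly = χ.map φ →
      P002G.Cyc (zZ X) (P002G.e0 n ℂ) → MvPolynomial.eval (fun p => X p.1 p.2) F = 0

/-- The integral cyclic vectors are dense, for triangular matrices with diagonal `ν` which are
congruent to bidiagonal ones modulo `D`. -/
def GoodD {R : Type*} [CommRing R] (φ : R →+* ℂ) (V : Subgroup Rˣ) {r : ℕ} (ν : Fin r → Rˣ)
    (D : R) : Prop :=
  ∀ A : Mat r R, LoT A →
    (∀ i, A i i = ν i) → (∀ i j : Fin r, (j : ℕ) + 1 < i → D ∣ A i j) →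
    (∀ i j : Fin r, (i : ℕ) = j + 1 → ∃ s ∈ V, D ∣ A i j - (s : R)) →
    ∀ G : MvPolynomial (Fin r) ℂ,
      (∀ y : Fin r → R, (∃ w ∈ V, (w : R) = (P002.kry A y).det) →
        MvPolynomial.eval (fun i => φ (y i)) G = 0) →
      ∀ y : Fin r → ℂ, MvPolynomial.eval y G = 0

/-- Density of the cyclic vectors of triangular matrices. -/
def VecV {R : Type*} [CommRing R] (φ : R →+* ℂ) (V : Subgroup Rˣ) (r : ℕ) : Prop :=
  ∀ ν : Fin r → Rˣ, Function.Injective ν → (∀ i, ν i ∈ V) → ∃ D : R, D ≠ 0 ∧ GoodD φ V ν D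

section congr

variable {R : Type*} [CommRing R] {r : ℕ}

end congr

section coreOne

variable {R : Type*} [CommRing R]

end coreOne

end Vale.Agent.P002R
end
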