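import Mathlib
import Vale.Agent.P002.Bd3.B5
import Vale.Agent.P002.Bd3.B6
import Vale.Agent.P002.Bd3.B1
import Vale.Agent.P002.Bd3.B4
import Vale.Agent.P002.Bd3.B8
import Vale.Agent.P002.Bd3.B3
import Vale.Agent.P002.Bd3.B7
import Vale.Agent.P002.Bd3.B2
import Vale.Agent.P002.Bd3.B9

set_option linter.all false

@[reducible] def Vale.Agent.P002Fast.coeU13 {M : Type*} [Monoid M] (u : Mˣ) : CoeT Mˣ u M := ⟨Units.val u⟩
attribute [local instance] Vale.Agent.P002Fast.coeU13

section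

/-!
# Irreducible representations are limits of integral ones
-/

namespace Vale.Agent.P002R

open Matrix

variable {g m n r : ℕ}

/-! ### Entries in a subfield -/

/-- The group of invertible matrices with entries (and entries of the inverse) in `K₀`. -/
def GLK (r : ℕ) (K₀ : Subfield ℂ) : Subgroup (Mat r ℂ)ˣ where
  carrier := {x | (∀ i j, (x : Mat r ℂ) i j ∈ K₀) ∧
    ∀ i j, ((x⁻¹ : (Mat r ℂ)ˣ) : Mat r ℂ) i j ∈ K₀}
  mul_mem' := by
    rintro a b ⟨ha, ha'⟩ ⟨hb, hb'⟩
    constructor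
    · intro i j
      rw [Units.val_mul, Matrix.mul_apply]
      exact Subfield.sum_mem _ fun k _ => mul_mem (ha i k) (hb k j)
    · intro i j
      rw [_root_.mul_inv_rev, Units.val_mul, Matrix.mul_apply]
      exact Subfield.sum_mem _ fun k _ => mul_mem (hb' i k) (ha' k j)
  one_mem' := by
    constructor
    · intro i j
      rw [Units.val_one, Matrix.one_apply]
      split_ifs
      · exact one_mem _
      · exact zero_mem _
    · intro i j
      rw [inv_one, Units.val_one, Matrix.one_apply]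
      split_ifs
      · exact one_mem _
      · exact zero_mem _
  inv_mem' := by
    rintro a ⟨ha, ha'⟩
    exact ⟨ha', by simpa using ha⟩

/-- Every finite family of invertible matrices lies in some `GLK` with `K₀` countable. -/
theorem exists_GLK {ι : Type*} [Finite ι] (x : ι → (Mat r ℂ)ˣ) :
    ∃ K₀ : Subfield ℂ, Countable K₀ ∧ ∀ i, x i ∈ GLK r K₀ := by
  obtain ⟨K₀, hK₀, hs⟩ := exists_countable_subfield
    (Set.range (fun p : ι × Fin r × Fin r => (x p.1 : Mat r ℂ) p.2.1 p.2.2) ∪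
      Set.range (fun p : ι × Fin r × Fin r =>
        (((x p.1)⁻¹ : (Mat r ℂ)ˣ) : Mat r ℂ) p.2.1 p.2.2))
    ((Set.countable_range _).union (Set.countable_range _))
  exact ⟨K₀, hK₀, fun i => ⟨fun a b => hs (Or.inl ⟨(i, a, b), rfl⟩),
    fun a b => hs (Or.inr ⟨(i, a, b), rfl⟩)⟩⟩

theorem map_mem_GLK {κ : Type*} {K₀ : Subfield ℂ} (x : FreeGroup κ →* (Mat r ℂ)ˣ)
    (h : ∀ k, x (FreeGroup.of k) ∈ GLK r K₀) (w : FreeGroup κ) : x w ∈ GLK r K₀ := by
  have : (⊤ : Subgroup (FreeGroup κ)) ≤ (GLK r K₀).comap x := by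
    rw [← FreeGroup.closure_range_of, Subgroup.closure_le]
    rintro _ ⟨k, rfl⟩
    exact h k
  exact this (Subgroup.mem_top w)

/-! ### The unframed representation -/

/-- The map from the unframed to the framed free group. -/
def iotaU (g n : ℕ) : FU g n →* FF g n :=
  FreeGroup.lift fun k => match k with
    | Sum.inl k => FreeGroup.of (Sum.inl k)
    | Sum.inr j => gC j

theorem iotaU_inl (k : Fin g × Bool) :
    iotaU g n (FreeGroup.of (Sum.inl k)) = FreeGroup.of (Sum.inl k) := by simp only [iotaU, FreeGroup.lift_apply_of]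

theorem iotaU_inr (j : Fin n) : iotaU g n (FreeGroup.of (Sum.inr j)) = gC j := by simp [iotaU]

theorem iotaU_relator : iotaU g n (relatorU g n) = relator g n := by
  unfold relatorU relator
  rw [map_mul, map_list_prod, map_list_prod, List.map_ofFn, List.map_ofFn]
  have e1 : (⇑(iotaU g n) ∘ fun j : Fin n => (FreeGroup.of (Sum.inr j) : FU g n)) =
      fun j => gC j := by
    funext j
    exact iotaU_inr j
  have e2 : (⇑(iotaU g n) ∘ fun i : Fin g => (FreeGroup.of (Sum.inl (i, false)) *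
      FreeGroup.of (Sum.inl (i, true)) * (FreeGroup.of (Sum.inl (i, false)))⁻¹ *
      (FreeGroup.of (Sum.inl (i, true)))⁻¹ : FU g n)) = fun i => hcomm i := by
    funext i
    simp only [Function.comp, map_mul, map_inv, iotaU_inl]
    rfl
  rw [e1, e2]

theorem iotaU_mem (w : FU g n) : iotaU g n w ∈ Fc g n := by
  have : (⊤ : Subgroup (FU g n)) ≤ (Fc g n).comap (iotaU g n) := by
    rw [← FreeGroup.closure_range_of, Subgroup.closure_le]
    rintro _ ⟨k, rfl⟩
    rw [SetLike.mem_coe, Subgroup.mem_comap]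
    rcases k with k | j
    · rw [iotaU_inl]; exact Subgroup.subset_closure (Or.inl ⟨k, rfl⟩)
    · rw [iotaU_inr]; exact Subgroup.subset_closure (Or.inr ⟨j, rfl⟩)
  exact this (Subgroup.mem_top w)

theorem exists_iotaU {w : FF g n} (hw : w ∈ Fc g n) : ∃ v, iotaU g n v = w := by
  have : Fc g n ≤ (iotaU g n).range := by
    rw [Fc, Subgroup.closure_le]
    rintro w (⟨k, rfl⟩ | ⟨j, rfl⟩)
    · exact ⟨_, iotaU_inl k⟩
    · exact ⟨_, iotaU_inr j⟩
  exact this hw

/-- The polynomial in the entries of words attached to a polynomial in the entries of the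
generators of the unframed group. -/
noncomputable def liftU (f : MvPolynomial (GenU g n × Fin r × Fin r) ℂ) :
    MvPolynomial (FF g n × Fin r × Fin r) ℂ :=
  MvPolynomial.rename (fun p => (iotaU g n (FreeGroup.of p.1), p.2)) f

theorem evalW_liftU (y : FF g n →* (Mat r ℂ)ˣ) (f : MvPolynomial (GenU g n × Fin r × Fin r) ℂ) :
    evalW y (liftU f) = evalG (y.comp (iotaU g n)) f := by
  rw [liftU, evalW, MvPolynomial.aeval_rename, evalG]
  rfl

theorem comp_iotaU_mem_DU {R : Type*} [CommRing R] (φ : R →+* ℂ) (C J : Fin n → (Mat r ℂ)ˣ)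
    (hJ : ∀ j, IsConj (C j) (J j)) (y : FF (m + 1) n →* (Mat r ℂ)ˣ) (hy : y ∈ DTop φ J) :
    y.comp (iotaU (m + 1) n) ∈ DU (m + 1) φ C := by
  obtain ⟨⟨h1, h2, h3, h4⟩, h5⟩ := hy
  refine ⟨⟨?_, fun j => ?_, ?_⟩, fun k => ?_⟩
  · rw [MonoidHom.comp_apply, iotaU_relator, h1]
  · rw [MonoidHom.comp_apply, iotaU_inr]
    refine (hJ j).trans ?_
    rw [isConj_iff]
    refine ⟨y (gD j), ?_⟩
    rw [gC_def, map_mul, map_mul, map_inv, h2]
  · apply SS_of_adjoin
    rw [← h5]
    congr 1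
    ext M
    constructor
    · rintro ⟨w, rfl⟩
      exact ⟨iotaU (m + 1) n w, iotaU_mem w, rfl⟩
    · rintro ⟨w, hw, rfl⟩
      obtain ⟨v, rfl⟩ := exists_iotaU hw
      exact ⟨v, rfl⟩
  · rw [MonoidHom.comp_apply]
    rcases k with k | j
    · rw [iotaU_inl]; exact h3 k
    · rw [iotaU_inr]; exact h4 j

/-! ### Tuples of matrices and units -/

theorem evalM_eq_evalP {κ : Type*} (X : κ → (Mat r ℂ)ˣ)
    (f : MvPolynomial (κ × Bool × Fin r × Fin r) ℂ) :
    evalM (fun k => (X k : Mat r ℂ)) f = evalP X f := by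
  rw [evalM, evalP]
  congr 2
  funext p
  simp only [Matrix.coe_units_inv]

theorem relM_eq (X : Gen g n → (Mat r ℂ)ˣ) :
    relM (fun k => (X k : Mat r ℂ)) = (FreeGroup.lift X (relator g n) : Mat r ℂ) := by
  unfold relM relator
  have h : ∀ {N : ℕ} (a : Fin N → (Mat r ℂ)ˣ) (b : Fin N → Mat r ℂ), (∀ i, (a i : Mat r ℂ) = b i) →
      ((List.ofFn a).prod : Mat r ℂ) = (List.ofFn b).prod := by
    intro N a b hab
    have h1 : ((List.ofFn a).prod : Mat r ℂ) = ((List.ofFn a).map (Units.coeHom (Mat r ℂ))).prod :=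
      (map_list_prod (Units.coeHom (Mat r ℂ)) _)
    rw [h1, List.map_ofFn]
    congr 2
    funext i
    exact hab i
  rw [map_mul, Units.val_mul, map_list_prod, map_list_prod, List.map_ofFn, List.map_ofFn]
  congr 1
  · symm
    apply h
    intro j
    simp only [gC, gD, gE, Function.comp_apply, map_mul, FreeGroup.lift_apply_of, map_inv, Units.val_mul, coe_units_inv]
  · symm
    apply h
    intro i
    simp only [hcomm, gA, gB, Function.comp_apply, map_mul, FreeGroup.lift_apply_of, map_inv, Units.val_mul, coe_units_inv]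

theorem relM_eq_one_iff (X : Gen g n → (Mat r ℂ)ˣ) :
    relM (fun k => (X k : Mat r ℂ)) = 1 ↔ FreeGroup.lift X (relator g n) = 1 := by
  rw [relM_eq, Units.val_eq_one]

end Vale.Agent.P002R
end

section

/-! Elementary lemmas for the final statement: orders of quasi-unipotent matrices and number fields
with enough roots of unity and units. -/

namespace Vale.Agent.P002R

open Matrix Polynomial NumberField

section nilp

variable {r n : ℕ}

end nilp

section field

variable {L : Type*} [Field L]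

/-- The embedding of the ring of integers of a subfield of the complex numbers. -/
noncomputable def phiO (σ : L →+* ℂ) : 𝓞 L →+* ℂ := σ.comp (algebraMap (𝓞 L) L)

theorem phiO_injective (σ : L →+* ℂ) : Function.Injective (phiO σ) := by
  unfold phiO
  rw [RingHom.coe_comp]
  exact σ.injective.comp RingOfIntegers.coe_injective

/-- If the unit group is infinite, there is a unit of infinite order. -/
theorem exists_unit_infinite_order [NumberField L] (σ : L →+* ℂ) [Infinite (𝓞 L)ˣ] :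
    ∃ u : (𝓞 L)ˣ, ∀ k : ℕ, 0 < k → phiO σ (u : 𝓞 L) ^ k ≠ 1 := by
  by_contra hcon
  push Not at hcon
  have hfin : Finite (CommGroup.torsion (𝓞 L)ˣ) :=
    inferInstanceAs (Finite (NumberField.Units.torsion L))
  have htop : CommGroup.torsion (𝓞 L)ˣ = ⊤ := by
    rw [eq_top_iff]
    intro u _
    rw [CommGroup.mem_torsion, isOfFinOrder_iff_pow_eq_one]
    obtain ⟨k, hk, hk'⟩ := hcon u
    refine ⟨k, hk, ?_⟩
    ext1
    apply phiO_injective σ
    rw [Units.val_pow_eq_pow_val, map_pow, hk', Units.val_one, map_one]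
  have : Finite (𝓞 L)ˣ := by
    rw [htop] at hfin
    exact Finite.of_equiv _ (Subgroup.topEquiv (G := (𝓞 L)ˣ)).toEquiv
  exact not_finite (𝓞 L)ˣ

end field

end Vale.Agent.P002R
end

section

/-! Existence of base points, for all classes and only one nontrivial handle. -/

namespace Vale.Agent.P002R

open Matrix

section Prelim2

variable {R : Type*} [CommRing R] {r : ℕ}

theorem exists_comm_tri (t : Fin r → R) (Δ : R) (w : Mat r R)
    (hw : ∀ i j, i < j → w i j * (t j - t i) = Δ) (E : Mat r R) (hE : SUp E) :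
    ∃ v : Mat r R, (∀ i j, j < i → v i j = 0) ∧ (∀ i, v i i = 1) ∧
      v * diagonal t = (1 + Δ • E) * diagonal t * v := by
  obtain ⟨v, hv⟩ := fixed_point (E * diagonal t) w (hE.mul_diag t)
  have hlow : ∀ i j, j < i → v i j = 0 := by
    intro i j hij
    rw [hv, if_neg (not_lt.mpr hij.le), Matrix.one_apply_ne hij.ne', add_zero]
  have hdiag : ∀ i, v i i = 1 := by
    intro i
    rw [hv, if_neg (lt_irrefl i), Matrix.one_apply_eq, add_zero]
  refine ⟨v, hlow, hdiag, ?_⟩
  ext i j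
  have h1 : ((1 + Δ • E) * diagonal t * v) i j = t i * v i j +
      Δ * ((E * diagonal t) * v) i j := by
    rw [Matrix.add_mul, Matrix.one_mul, Matrix.smul_mul, Matrix.add_mul, Matrix.smul_mul,
      Matrix.add_apply, Matrix.smul_apply, smul_eq_mul, Matrix.diagonal_mul]
  rw [h1, Matrix.mul_diagonal]
  rcases lt_trichotomy i j with h | h | h
  · have h2 := hv i j
    rw [if_pos h, Matrix.one_apply_ne h.ne, zero_add] at h2
    have h3 : v i j * (t j - t i) = Δ * ((E * diagonal t) * v) i j := by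
      rw [h2, ← hw i j h]
      ring
    linear_combination h3
  · subst h
    have h2 : ((E * diagonal t) * v) i i = 0 := by
      rw [Matrix.mul_apply]
      apply Finset.sum_eq_zero
      intro k _
      by_cases hik : i < k
      · rw [hlow k i hik, mul_zero]
      · rw [(hE.mul_diag t) i k hik, zero_mul]
    rw [h2]
    ring
  · have h2 : ((E * diagonal t) * v) i j = 0 := by
      rw [Matrix.mul_apply]
      apply Finset.sum_eq_zero
      intro k _
      by_cases hik : i < k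
      · rw [hlow k j (h.trans hik), mul_zero]
      · rw [(hE.mul_diag t) i k hik, zero_mul]
    rw [h2, hlow i j h]
    ring

/-- the discriminant -/
def discT (t : Fin r → R) : R :=
  ∏ p ∈ Finset.univ.filter (fun p : Fin r × Fin r => p.1 < p.2), (t p.2 - t p.1)

/-- the discriminant with one factor removed -/
def discwT (t : Fin r → R) : Mat r R := Matrix.of fun i j =>
  ∏ p ∈ (Finset.univ.filter (fun p : Fin r × Fin r => p.1 < p.2)).erase (i, j), (t p.2 - t p.1)

theorem discwT_mul (t : Fin r → R) (i j : Fin r) (h : i < j) :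
    discwT t i j * (t j - t i) = discT t := by
  unfold discT discwT
  rw [Matrix.of_apply]
  exact Finset.prod_erase_mul _ (fun p : Fin r × Fin r => t p.2 - t p.1) (by simp only [Finset.mem_filter, Finset.mem_univ, h, and_self])

theorem phi_discT_ne (φ : R →+* ℂ) (hφ : Function.Injective φ) (t : Fin r → R)
    (ht : Function.Injective t) : φ (discT t) ≠ 0 := by
  unfold discT
  rw [map_prod, Finset.prod_ne_zero_iff]
  intro p hp
  rw [Finset.mem_filter] at hp
  rw [map_sub, sub_ne_zero]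
  intro h
  exact (ne_of_lt hp.2) (ht (hφ h)).symm

/-- Block upper triangular invertible matrices. -/
def BTr (c : Fin r → Fin r) : Subgroup (Mat r R)ˣ where
  carrier := {x | BlockTriangular (x : Mat r R) c}
  mul_mem' := by
    intro a b ha hb
    exact BlockTriangular.mul ha hb
  one_mem' := blockTriangular_one
  inv_mem' := by
    intro a ha
    have : Invertible (a : Mat r R) := a.invertible
    have h := blockTriangular_inv_of_blockTriangular (show BlockTriangular (a : Mat r R) c from ha)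
    rwa [← Matrix.coe_units_inv] at h

theorem mem_BTr {c : Fin r → Fin r} {x : (Mat r R)ˣ} :
    x ∈ BTr c ↔ BlockTriangular (x : Mat r R) c := Iff.rfl

theorem PhiU_mem_BTr (φ : R →+* ℂ) {c : Fin r → Fin r} {x : (Mat r R)ˣ} (hx : x ∈ BTr c) :
    PhiU φ x ∈ BTr c := by
  intro i j hij
  rw [PhiU_coe, Matrix.map_apply, (mem_BTr.1 hx) hij, map_zero]

theorem mem_BTr_of_upper {c : Fin r → Fin r} (hc : Monotone c) {x : (Mat r R)ˣ}
    (hx : ∀ i j, j < i → (x : Mat r R) i j = 0) : x ∈ BTr c := by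
  intro i j hij
  apply hx
  by_contra h
  exact absurd (hc (not_lt.1 h)) (not_le.2 hij)

/-- A diagonal unit. -/
def diagU (x : Fin r → Rˣ) : (Mat r R)ˣ where
  val := diagonal fun i => (x i : R)
  inv := diagonal fun i => ((x i)⁻¹ : Rˣ)
  val_inv := by
    rw [diagonal_mul_diagonal]
    have : (fun i => (x i : R) * ((x i)⁻¹ : Rˣ)) = fun _ => 1 := by
      funext i
      rw [← Units.val_mul, mul_inv_cancel, Units.val_one]
    rw [this, diagonal_one]
  inv_val := by
    rw [diagonal_mul_diagonal]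
    have : (fun i => (((x i)⁻¹ : Rˣ) : R) * (x i : R)) = fun _ => 1 := by
      funext i
      rw [← Units.val_mul, inv_mul_cancel, Units.val_one]
    rw [this, diagonal_one]

/-- A permutation unit: the entry `(i, j)` is one if `i = π j`. -/
def permU (π : Equiv.Perm (Fin r)) : (Mat r R)ˣ where
  val := (1 : Mat r R).submatrix id π
  inv := (1 : Mat r R).submatrix π id
  val_inv := by
    ext i j
    rw [Matrix.mul_apply, Finset.sum_eq_single (π.symm i)]
    · change (1 : Mat r R) i (π (π.symm i)) * (1 : Mat r R) (π (π.symm i)) j = _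
      rw [Equiv.apply_symm_apply, one_apply_eq, one_mul]
    · intro k _ hk
      change (1 : Mat r R) i (π k) * _ = _
      rw [one_apply_ne, zero_mul]
      rintro rfl
      exact hk (Equiv.symm_apply_apply _ _).symm
    · intro h; exact absurd (Finset.mem_univ _) h
  inv_val := by
    ext i j
    rw [Matrix.mul_apply, Finset.sum_eq_single (π i)]
    · change (1 : Mat r R) (π i) (π i) * (1 : Mat r R) (π i) (π j) = _
      rw [one_apply_eq, one_mul, one_apply, one_apply]
      simp only [π.injective.eq_iff]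
    · intro k _ hk
      change (1 : Mat r R) (π i) k * _ = _
      rw [one_apply_ne, zero_mul]
      exact fun h => hk h.symm
    · intro h; exact absurd (Finset.mem_univ _) h

theorem permU_apply (π : Equiv.Perm (Fin r)) (i j : Fin r) :
    (permU π : (Mat r R)ˣ).val i j = if i = π j then 1 else 0 := by
  change (1 : Mat r R) i (π j) = _
  rw [one_apply]

theorem permU_inv_apply (π : Equiv.Perm (Fin r)) (i j : Fin r) :
    ((permU π)⁻¹ : (Mat r R)ˣ).val i j = if π i = j then 1 else 0 := by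
  change (1 : Mat r R) (π i) j = _
  rw [one_apply]

theorem permU_mem_BTr {c : Fin r → Fin r} (π : Equiv.Perm (Fin r)) (hc : ∀ i, c (π i) = c i) :
    (permU π : (Mat r R)ˣ) ∈ BTr c := by
  intro i j hij
  rw [permU_apply, if_neg]
  rintro rfl
  rw [hc] at hij
  exact lt_irrefl _ hij

theorem permU_diagU (π : Equiv.Perm (Fin r)) (x t : Fin r → Rˣ) (h : ∀ i, t (π i) = x i) :
    (permU π : (Mat r R)ˣ) * diagU x = diagU t * permU π := by
  apply Units.ext
  ext i j
  rw [Units.val_mul, Units.val_mul]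
  change ((permU π : (Mat r R)ˣ).val * diagonal fun i => (x i : R)) i j =
    ((diagonal fun i => (t i : R)) * (permU π : (Mat r R)ˣ).val) i j
  rw [mul_diagonal, diagonal_mul, permU_apply]
  by_cases hij : i = π j
  · rw [if_pos hij, one_mul, mul_one, hij, h]
  · rw [if_neg hij, zero_mul, mul_zero]

theorem det_permU (π : Equiv.Perm (Fin r)) :
    ((permU π : (Mat r R)ˣ) : Mat r R).det ^ 2 = 1 := by
  change ((1 : Mat r R).submatrix id π).det ^ 2 = 1
  rw [Matrix.det_permute', Matrix.det_one, mul_one]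
  rcases Int.units_eq_one_or (Equiv.Perm.sign π) with h | h
  · rw [h]; simp
  · rw [h]; simp only [Units.val_neg, Units.val_one, Int.reduceNeg, Int.cast_neg, Int.cast_one, even_two, Even.neg_pow, one_pow]

end Prelim2

section Tor2

variable {R : Type*} [CommRing R] {r : ℕ}

/-- the multiplicatively independent units -/
def tB (r : ℕ) (u : Rˣ) (b : Fin r) : Rˣ := u ^ (r * (2 * r + 4) ^ (b : ℕ))

theorem sum_base_pow_inj (D : ℕ) (e e' : Fin r → ℕ) (he : ∑ i, e i ≤ D) (he' : ∑ i, e' i ≤ D)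
    (h : ∑ i : Fin r, e i * (D + 1) ^ (i : ℕ) = ∑ i : Fin r, e' i * (D + 1) ^ (i : ℕ)) :
    e = e' := by
  rcases Nat.eq_zero_or_pos D with hD | hD
  · subst hD
    have h0 : ∀ e : Fin r → ℕ, ∑ i, e i ≤ 0 → ∀ i, e i = 0 := by
      intro e he i
      have := Finset.single_le_sum (f := e) (fun i _ => Nat.zero_le _) (Finset.mem_univ i)
      omega
    funext i
    rw [h0 e he, h0 e' he']
  have key : ∀ e : Fin r → ℕ, ∑ i : Fin r, e i * (D + 1) ^ (i : ℕ) =
      Nat.ofDigits (D + 1) (List.ofFn e) := by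
    intro e
    rw [Nat.ofDigits_eq_sum_mapIdx]
    have h1 : (List.mapIdx (fun i a => a * (D + 1) ^ i) (List.ofFn e)) =
        List.ofFn fun i : Fin r => e i * (D + 1) ^ (i : ℕ) := by
      apply List.ext_getElem
      · simp
      · intro n h1 h2
        simp
    rw [h1, List.sum_ofFn]
  rw [key, key] at h
  have hlt : ∀ e : Fin r → ℕ, ∑ i, e i ≤ D → ∀ l ∈ List.ofFn e, l < D + 1 := by
    intro e he l hl
    rw [List.mem_ofFn] at hl
    obtain ⟨i, rfl⟩ := hl
    have := Finset.single_le_sum (f := e) (fun i _ => Nat.zero_le _) (Finset.mem_univ i)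
    (clear * - he this; omega)
  have h3 := Nat.ofDigits_inj_of_len_eq (b := D + 1) (by omega) (by simp) (hlt e he)
    (hlt e' he') h
  exact List.ofFn_injective h3

end Tor2

section Data2

variable {R : Type*} [CommRing R] {r n : ℕ}

end Data2

end Vale.Agent.P002R
end

section

/-!
# Number fields which contain enough roots of a group of units, and enough units
-/

namespace Vale.Agent.P002R

open Matrix NumberField

theorem coefOK_of_field (E : Subgroup ℂˣ) (hE : ∀ z ∈ E, IsIntegral ℤ (z : ℂ)) (hneg : -1 ∈ E)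
    (r : ℕ) (L : IntermediateField ℚ ℂ)
    (hroot : ∀ k : ℕ, 0 < k → k ≤ r → ∀ z : ℂˣ, z ^ k ∈ E → (z : ℂ) ∈ L)
    (hunit : ∃ u : (𝓞 L)ˣ, ∀ k : ℕ, 0 < k →
      ∀ e ∈ E, phiO (algebraMap L ℂ) (u : 𝓞 L) ^ k ≠ (e : ℂ)) :
    CoefOK (phiO (algebraMap L ℂ)) E r := by
  refine ⟨phiO_injective _, hneg, fun k hk hkr z hz => ?_, ?_⟩
  · have hzL := hroot k hk hkr z hz
    have h1 : IsIntegral ℤ ((z : ℂ) ^ k) := by
      have := hE _ hz
      rwa [Units.val_pow_eq_pow_val] at this
    have h2 : IsIntegral ℤ (z : ℂ) := h1.of_pow hk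
    have h3 : IsIntegral ℤ (⟨(z : ℂ), hzL⟩ : L) := by
      rw [← isIntegral_algebraMap_iff (A := L) (B := ℂ) (algebraMap L ℂ).injective]
      exact h2
    exact ⟨⟨_, h3⟩, rfl⟩
  · obtain ⟨u, hu⟩ := hunit
    refine ⟨u, fun k hk h => hu k hk _ h ?_⟩
    rw [Units.val_pow_eq_pow_val]
    rfl

/-- Roots of elements of a subgroup of `ℂˣ`, in terms of generators. -/
theorem root_mem_closure (S : Set ℂˣ) (k : ℕ) (hk : 0 < k) (z : ℂˣ)
    (hz : z ^ k ∈ Subgroup.closure S) :
    z ∈ Subgroup.closure {w : ℂˣ | w ^ k ∈ insert 1 S} := by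
  obtain ⟨H, hH⟩ : ∃ H, H = Subgroup.closure {w : ℂˣ | w ^ k ∈ insert 1 S} := ⟨_, rfl⟩
  rw [← hH]
  have h1 : ∀ e ∈ Subgroup.closure S, ∃ w ∈ H, w ^ k = e := by
    intro e he
    induction he using Subgroup.closure_induction with
    | mem x hx =>
      obtain ⟨w, hw⟩ := IsAlgClosed.exists_pow_nat_eq (x : ℂ) hk
      have hw0 : w ≠ 0 := by
        rintro rfl
        rw [zero_pow hk.ne'] at hw
        exact x.ne_zero hw.symm
      have hw' : (Units.mk0 w hw0) ^ k = x := by
        apply Units.ext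
        rw [Units.val_pow_eq_pow_val, Units.val_mk0, hw]
      refine ⟨Units.mk0 w hw0, ?_, hw'⟩
      rw [hH]
      apply Subgroup.subset_closure
      rw [Set.mem_ofPred_eq, hw']
      exact Or.inr hx
    | one => exact ⟨1, H.one_mem, one_pow k⟩
    | mul x y _ _ hx hy =>
      obtain ⟨a, ha, rfl⟩ := hx
      obtain ⟨b, hb, rfl⟩ := hy
      exact ⟨a * b, H.mul_mem ha hb, mul_pow a b k⟩
    | inv x _ hx =>
      obtain ⟨a, ha, rfl⟩ := hx
      exact ⟨a⁻¹, H.inv_mem ha, inv_pow a k⟩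
  obtain ⟨w, hw, hwk⟩ := h1 _ hz
  have h2 : z * w⁻¹ ∈ H := by
    rw [hH]
    apply Subgroup.subset_closure
    rw [Set.mem_ofPred_eq, mul_pow, inv_pow, hwk, mul_inv_cancel]
    exact Or.inl rfl
  have h3 := H.mul_mem h2 hw
  rwa [inv_mul_cancel_right] at h3

/-- The set of roots is finite. -/
theorem roots_finite (S : Set ℂˣ) (hS : S.Finite) (k : ℕ) (hk : 0 < k) :
    {w : ℂˣ | w ^ k ∈ S}.Finite := by
  have h1 : {w : ℂˣ | w ^ k ∈ S} = ⋃ s ∈ S, {w : ℂˣ | w ^ k = s} := by
    ext w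
    simp only [Set.mem_ofPred_eq, Set.mem_iUnion, exists_prop, exists_eq_right']
  rw [h1]
  refine hS.biUnion fun s _ => ?_
  have h2 : {z : ℂ | z ^ k = (s : ℂ)}.Finite := by
    have : {z : ℂ | z ^ k = (s : ℂ)} ⊆
        ((Polynomial.X ^ k - Polynomial.C (s : ℂ)).roots.toFinset : Set ℂ) := by
      intro z hz
      have hne : (Polynomial.X ^ k - Polynomial.C (s : ℂ)) ≠ 0 :=
        (Polynomial.monic_X_pow_sub_C _ hk.ne').ne_zero
      simp only [Finset.mem_coe, Multiset.mem_toFinset, Polynomial.mem_roots hne]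
      have hz' : z ^ k = (s : ℂ) := hz
      simp [hz']
    exact (Finset.finite_toSet _).subset this
  refine Set.Finite.of_finite_image (f := ((↑) : ℂˣ → ℂ)) (h2.subset ?_)
    (Units.val_injective.injOn)
  rintro _ ⟨w, hw, rfl⟩
  have hw' : w ^ k = s := hw
  change (w : ℂ) ^ k = (s : ℂ)
  rw [← hw', Units.val_pow_eq_pow_val]

/-- A number field of large degree has units which are free modulo a given finitely generated
group. -/
theorem exists_free_unit (L : IntermediateField ℚ ℂ) [NumberField L] (S : Set ℂˣ) (hS : S.Finite)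
    (hdeg : 2 * (S.ncard + 2) ≤ Module.finrank ℚ L) :
    ∃ u : (𝓞 L)ˣ, ∀ k : ℕ, 0 < k →
      ∀ e ∈ Subgroup.closure S, phiO (algebraMap L ℂ) (u : 𝓞 L) ^ k ≠ (e : ℂ) := by
  by_contra hcon
  push Not at hcon
  choose k hk e he hke using hcon
  -- the units, as complex numbers
  obtain ⟨ι, hι⟩ : ∃ ι : (𝓞 L)ˣ →* ℂˣ, ι = Units.map (phiO (algebraMap L ℂ) : 𝓞 L →* ℂ) :=
    ⟨_, rfl⟩
  have hιinj : Function.Injective ι := by
    intro a b hab
    apply Units.ext
    apply phiO_injective (algebraMap L ℂ)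
    have := congrArg Units.val hab
    rw [hι] at this
    exact this
  have hιk : ∀ u : (𝓞 L)ˣ, ι u ^ k u = e u := by
    intro u
    apply Units.ext
    rw [Units.val_pow_eq_pow_val, hι, ← hke]
    rfl
  -- the fundamental units
  obtain ⟨v, hv⟩ : ∃ v : Fin (Units.rank L) → Additive (𝓞 L)ˣ,
    v = fun i => Additive.ofMul (Units.fundSystem L i) := ⟨_, rfl⟩
  have hvli : LinearIndependent ℤ v := by
    refine LinearIndependent.of_comp (Units.logEmbedding L).toIntLinearMap ?_
    have h1 : (Units.logEmbedding L).toIntLinearMap ∘ v =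
        fun i => (Units.basisUnitLattice L i : Units.dirichletUnitTheorem.logSpace L) := by
      funext i
      rw [Function.comp_apply, hv]
      exact Units.logEmbedding_fundSystem L i
    rw [h1]
    exact (Units.basisUnitLattice L).linearIndependent.map' (Submodule.subtype _)
      (Submodule.ker_subtype _)
  obtain ⟨j, hj⟩ : ∃ j : Additive (𝓞 L)ˣ →ₗ[ℤ] Additive ℂˣ,
      ∀ u : (𝓞 L)ˣ, j (Additive.ofMul u) = Additive.ofMul (ι u) :=
    ⟨(MonoidHom.toAdditive ι).toIntLinearMap, fun u => rfl⟩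
  have hjinj : Function.Injective j := by
    intro a b hab
    have h1 := hj (Additive.toMul a)
    have h2 := hj (Additive.toMul b)
    rw [ofMul_toMul] at h1 h2
    rw [h1, h2] at hab
    exact Additive.toMul.injective (hιinj (Additive.ofMul.injective hab))
  have hjv : LinearIndependent ℤ (j ∘ v) := hvli.map' j (LinearMap.ker_eq_bot.2 hjinj)
  -- the powers in the group
  have hkv : LinearIndependent ℤ (fun i => (k (Units.fundSystem L i) : ℤ) • (j ∘ v) i) := by
    rw [Fintype.linearIndependent_iff] at hjv ⊢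
    intro a ha i
    have h1 := hjv (fun i => a i * (k (Units.fundSystem L i) : ℤ)) (by
      rw [← ha]
      refine Finset.sum_congr rfl fun i _ => ?_
      rw [mul_smul]) i
    have h2 : (k (Units.fundSystem L i) : ℤ) ≠ 0 := by
      exact_mod_cast (hk _).ne'
    exact (mul_eq_zero.1 h1).resolve_right h2
  have hspan : ∀ x ∈ Subgroup.closure S,
      Additive.ofMul x ∈ Submodule.span ℤ (Additive.ofMul '' S : Set (Additive ℂˣ)) := by
    intro x hx
    induction hx using Subgroup.closure_induction with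
    | mem x hx => exact Submodule.subset_span ⟨x, hx, rfl⟩
    | one =>
      rw [ofMul_one]
      exact Submodule.zero_mem _
    | mul x y _ _ hx hy =>
      rw [ofMul_mul]
      exact Submodule.add_mem _ hx hy
    | inv x _ hx =>
      rw [ofMul_inv]
      exact Submodule.neg_mem _ hx
  have hfin : (Additive.ofMul '' S : Set (Additive ℂˣ)).Finite := hS.image _
  have : Fintype (Additive.ofMul '' S : Set (Additive ℂˣ)) := hfin.fintype
  have h1 := linearIndependent_le_span' _ hkv (Additive.ofMul '' S : Set (Additive ℂˣ)) (by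
    rintro _ ⟨i, rfl⟩
    have h2 : (k (Units.fundSystem L i) : ℤ) • (j ∘ v) i =
        Additive.ofMul (e (Units.fundSystem L i)) := by
      rw [Function.comp_apply, hv, hj, ← hιk]
      rw [natCast_zsmul]
      rfl
    change (k (Units.fundSystem L i) : ℤ) • (j ∘ v) i ∈ _
    rw [h2]
    exact hspan _ (he _))
  have h2 : Units.rank L ≤ S.ncard := by
    rw [Cardinal.mk_fin] at h1
    have h3 : Fintype.card (Additive.ofMul '' S : Set (Additive ℂˣ)) ≤ S.ncard := by
      rw [← Nat.card_eq_fintype_card, Nat.card_coe_set_eq]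
      exact Set.ncard_image_le hS
    exact (Nat.cast_le.1 h1).trans h3
  have h3 := InfinitePlace.card_add_two_mul_card_eq_rank L
  have h4 := InfinitePlace.card_eq_nrRealPlaces_add_nrComplexPlaces L
  have h5 : Units.rank L = Fintype.card (InfinitePlace L) - 1 := rfl
  omega

theorem exists_field_E (S : Set ℂˣ) (hS : S.Finite)
    (hint : ∀ z ∈ S, IsIntegral ℤ (z : ℂ) ∧ IsIntegral ℤ ((z⁻¹ : ℂˣ) : ℂ)) (r : ℕ) :
    ∃ L : IntermediateField ℚ ℂ, FiniteDimensional ℚ L ∧
      CoefOK (phiO (algebraMap L ℂ)) (Subgroup.closure (insert (-1) S)) r := by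
  obtain ⟨S', hS'⟩ : ∃ S' : Set ℂˣ, S' = insert (-1) S := ⟨_, rfl⟩
  rw [← hS']
  have hS'fin : S'.Finite := by
    rw [hS']
    exact hS.insert _
  have hint' : ∀ z ∈ S', IsIntegral ℤ (z : ℂ) ∧ IsIntegral ℤ ((z⁻¹ : ℂˣ) : ℂ) := by
    intro z hz
    rw [hS'] at hz
    rcases hz with rfl | hz
    · rw [inv_neg, inv_one, Units.val_neg, Units.val_one]
      exact ⟨isIntegral_one.neg, isIntegral_one.neg⟩
    · exact hint z hz
  have hE : ∀ z ∈ Subgroup.closure S', IsIntegral ℤ (z : ℂ) ∧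
      IsIntegral ℤ ((z⁻¹ : ℂˣ) : ℂ) := by
    intro z hz
    induction hz using Subgroup.closure_induction with
    | mem x hx => exact hint' x hx
    | one =>
      rw [inv_one, Units.val_one]
      exact ⟨isIntegral_one, isIntegral_one⟩
    | mul x y _ _ hx hy =>
      rw [mul_inv, Units.val_mul, Units.val_mul]
      exact ⟨hx.1.mul hy.1, hx.2.mul hy.2⟩
    | inv x _ hx =>
      rw [inv_inv]
      exact ⟨hx.2, hx.1⟩
  -- the roots of the generators
  obtain ⟨T, hT⟩ : ∃ T : ℕ → Set ℂˣ, T = fun k => {w : ℂˣ | w ^ k ∈ insert 1 S'} := ⟨_, rfl⟩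
  have hTfin : ∀ k, 0 < k → (T k).Finite := by
    intro k hk
    rw [hT]
    exact roots_finite _ (hS'fin.insert 1) k hk
  have hTint : ∀ k, 0 < k → ∀ z ∈ T k, IsIntegral ℤ (z : ℂ) := by
    intro k hk z hz
    rw [hT] at hz
    have hz' : z ^ k ∈ insert 1 S' := hz
    have h1 : IsIntegral ℤ ((z ^ k : ℂˣ) : ℂ) := by
      rcases hz' with h | h
      · rw [h, Units.val_one]
        exact isIntegral_one
      · exact (hint' _ h).1
    rw [Units.val_pow_eq_pow_val] at h1
    exact h1.of_pow hk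
  -- a root of unity of large degree
  obtain ⟨p, hp1, hp⟩ := Nat.exists_infinite_primes (2 * (S'.ncard + 2) + 1)
  obtain ⟨ζ, hζ⟩ : ∃ ζ : ℂ, IsPrimitiveRoot ζ p := ⟨_, Complex.isPrimitiveRoot_exp p hp.ne_zero⟩
  have hζint : IsIntegral ℤ ζ := hζ.isIntegral hp.pos
  obtain ⟨V, hV⟩ : ∃ V : Set ℂ, V = insert ζ (((↑) : ℂˣ → ℂ) '' ⋃ k ∈ Finset.Icc 1 r, T k) :=
    ⟨_, rfl⟩
  have hVfin : V.Finite := by
    rw [hV]
    refine Set.Finite.insert _ (Set.Finite.image _ ?_)
    refine Set.Finite.biUnion (Finset.finite_toSet _) fun k hk => hTfin k ?_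
    have := Finset.mem_coe.1 hk
    rw [Finset.mem_Icc] at this
    omega
  have hVint : ∀ x ∈ V, IsIntegral ℚ x := by
    intro x hx
    refine IsIntegral.tower_top (R := ℤ) ?_
    rw [hV] at hx
    rcases hx with rfl | ⟨w, hw, rfl⟩
    · exact hζint
    · rw [Set.mem_iUnion₂] at hw
      obtain ⟨k, hk, hw⟩ := hw
      rw [Finset.mem_Icc] at hk
      exact hTint k (by omega) w hw
  obtain ⟨L, hL⟩ : ∃ L : IntermediateField ℚ ℂ, L = IntermediateField.adjoin ℚ V := ⟨_, rfl⟩
  have hLfin : FiniteDimensional ℚ L := by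
    have : Finite V := hVfin
    rw [hL]
    exact IntermediateField.finiteDimensional_adjoin fun x hx => hVint x hx
  have hLmem : ∀ z ∈ V, z ∈ L := fun z hz => by
    rw [hL]
    exact IntermediateField.subset_adjoin ℚ V hz
  have : NumberField L := { to_charZero := inferInstance, to_finiteDimensional := hLfin }
  refine ⟨L, hLfin, coefOK_of_field _ (fun z hz => (hE z hz).1) ?_ r L ?_ ?_⟩
  · apply Subgroup.subset_closure
    rw [hS']
    exact Set.mem_insert _ _
  · intro k hk hkr z hz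
    have h2 : ∀ w ∈ Subgroup.closure {w : ℂˣ | w ^ k ∈ insert 1 S'}, (w : ℂ) ∈ L := ?_
    · exact h2 z (root_mem_closure S' k hk z hz)
    intro w hw
    induction hw using Subgroup.closure_induction with
    | mem x hx =>
      apply hLmem
      rw [hV]
      refine Or.inr ⟨x, ?_, rfl⟩
      rw [Set.mem_iUnion₂]
      refine ⟨k, Finset.mem_Icc.2 ⟨hk, hkr⟩, ?_⟩
      rw [hT]
      exact hx
    | one => exact L.one_mem
    | mul x y _ _ hx hy =>
      rw [Units.val_mul]
      exact L.mul_mem hx hy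
    | inv x _ hx =>
      rw [Units.val_inv_eq_inv_val]
      exact L.inv_mem hx
  · refine exists_free_unit L S' hS'fin ?_
    have h1 : (minpoly ℚ ζ).natDegree = p - 1 := by
      rw [← Polynomial.cyclotomic_eq_minpoly_rat hζ hp.pos, Polynomial.natDegree_cyclotomic,
        Nat.totient_prime hp]
    have h2 : (minpoly ℚ (⟨ζ, hLmem ζ (by rw [hV]; exact Set.mem_insert _ _)⟩ : L)).natDegree ≤
        Module.finrank ℚ L := minpoly.natDegree_le _
    have h3 : minpoly ℚ (⟨ζ, hLmem ζ (by rw [hV]; exact Set.mem_insert _ _)⟩ : L) =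
        minpoly ℚ ζ := by
      rw [← minpoly.algebraMap_eq (algebraMap L ℂ).injective]
      rfl
    rw [h3, h1] at h2
    (clear * - hp1 h2; omega)

end Vale.Agent.P002R
end

section

/-!
# P002, genus 1: the tuples of the chart
-/

namespace Vale.Agent.P002R

open Matrix

variable {r m : ℕ}

end Vale.Agent.P002R
end

section

/-!
# P002, genus 1, arbitrary classes: determinants on invariant subspaces
-/

namespace Vale.Agent.P002R

open Matrix Module Vale.Agent.P002

variable {r : ℕ}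

open scoped Classical in
/-- determinant of the restriction to a subspace -/
noncomputable def dSub (W : Submodule ℂ (Fin r → ℂ)) (M : P002R.Mat r ℂ) : ℂ :=
  if h : ∀ w ∈ W, M *ᵥ w ∈ W then
    LinearMap.det ((Matrix.toLin' M).restrict (p := W) (q := W)
      (fun w hw => by rw [Matrix.toLin'_apply]; exact h w hw))
  else 0

theorem exists_dSub (W : Submodule ℂ (Fin r → ℂ)) (M : P002R.Mat r ℂ)
    (h : ∀ w ∈ W, M *ᵥ w ∈ W) : ∃ f : W →ₗ[ℂ] W, (∀ w : W, ((f w : W) : Fin r → ℂ) =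
      M *ᵥ (w : Fin r → ℂ)) ∧ dSub W M = LinearMap.det f := by
  refine ⟨(Matrix.toLin' M).restrict (p := W) (q := W)
      (fun w hw => by rw [Matrix.toLin'_apply]; exact h w hw), fun w => rfl, ?_⟩
  rw [dSub, dif_pos h]

theorem dSub_mul (W : Submodule ℂ (Fin r → ℂ)) (M N : P002R.Mat r ℂ)
    (hM : ∀ w ∈ W, M *ᵥ w ∈ W) (hN : ∀ w ∈ W, N *ᵥ w ∈ W) :
    dSub W (M * N) = dSub W M * dSub W N := by
  have hMN : ∀ w ∈ W, (M * N) *ᵥ w ∈ W := fun w hw => by
    rw [← Matrix.mulVec_mulVec]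
    exact hM _ (hN _ hw)
  obtain ⟨f, hf, h1⟩ := exists_dSub W M hM
  obtain ⟨g, hg, h2⟩ := exists_dSub W N hN
  obtain ⟨k, hk, h3⟩ := exists_dSub W (M * N) hMN
  rw [h1, h2, h3, ← LinearMap.det_comp]
  congr 1
  ext1 w
  apply Subtype.ext
  rw [hk, LinearMap.comp_apply, hf, hg, Matrix.mulVec_mulVec]

theorem dSub_one (W : Submodule ℂ (Fin r → ℂ)) : dSub W (1 : P002R.Mat r ℂ) = 1 := by
  obtain ⟨f, hf, h1⟩ := exists_dSub W (1 : P002R.Mat r ℂ) (fun w hw => by rwa [Matrix.one_mulVec])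
  rw [h1]
  have h2 : f = LinearMap.id := by
    ext1 w
    apply Subtype.ext
    rw [hf, Matrix.one_mulVec]
    rfl
  rw [h2, LinearMap.det_id]

theorem aeval_eigen {M A : P002R.Mat r ℂ} {ν : Fin r → ℂ} (hMA : M * A = A * diagonal ν)
    (p : Polynomial ℂ) :
    Polynomial.aeval M p * A = A * diagonal fun i => p.eval (ν i) := by
  have hpow : ∀ k : ℕ, M ^ k * A = A * diagonal fun i => ν i ^ k := by
    intro k
    induction k with
    | zero =>
      simp only [pow_zero, Matrix.one_mul]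
      rw [show (diagonal fun _ : Fin r => (1 : ℂ)) = (1 : P002R.Mat r ℂ) from Matrix.diagonal_one,
        Matrix.mul_one]
    | succ k ih =>
      rw [pow_succ, Matrix.mul_assoc, hMA, ← Matrix.mul_assoc, ih, Matrix.mul_assoc,
        Matrix.diagonal_mul_diagonal]
      rfl
  induction p using Polynomial.induction_on' with
  | add p q hp hq =>
    rw [map_add, Matrix.add_mul, hp, hq, ← Matrix.mul_add, Matrix.diagonal_add]
    simp only [Polynomial.eval_add]
  | monomial k a =>
    rw [Polynomial.aeval_monomial, Matrix.mul_assoc, hpow]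
    simp only [Polynomial.eval_monomial]
    rw [Algebra.algebraMap_eq_smul_one, Matrix.smul_mul, Matrix.one_mul, ← Matrix.mul_smul]
    congr 1
    ext i j
    by_cases hij : i = j
    · subst hij
      simp
    · simp only [Matrix.smul_apply, Matrix.diagonal_apply_ne _ hij, smul_eq_mul, mul_zero]

theorem aeval_stab {M : P002R.Mat r ℂ} (W : Submodule ℂ (Fin r → ℂ))
    (hM : ∀ w ∈ W, M *ᵥ w ∈ W) (p : Polynomial ℂ) :
    ∀ w ∈ W, Polynomial.aeval M p *ᵥ w ∈ W := by
  have hpow : ∀ k : ℕ, ∀ w ∈ W, M ^ k *ᵥ w ∈ W := by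
    intro k
    induction k with
    | zero => intro w hw; rwa [pow_zero, Matrix.one_mulVec]
    | succ k ih =>
      intro w hw
      rw [pow_succ, ← Matrix.mulVec_mulVec]
      exact ih _ (hM _ hw)
  induction p using Polynomial.induction_on' with
  | add p q hp hq =>
    intro w hw
    rw [map_add, Matrix.add_mulVec]
    exact W.add_mem (hp w hw) (hq w hw)
  | monomial k a =>
    intro w hw
    rw [Polynomial.aeval_monomial, Algebra.algebraMap_eq_smul_one, Matrix.smul_mul,
      Matrix.one_mul, Matrix.smul_mulVec]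
    exact W.smul_mem _ (hpow k w hw)

/-- An invariant subspace contains the eigenvectors which occur in its elements. -/
theorem col_mem {M A : P002R.Mat r ℂ} {ν : Fin r → ℂ} (hMA : M * A = A * diagonal ν)
    (hν : Function.Injective ν) (W : Submodule ℂ (Fin r → ℂ)) (hM : ∀ w ∈ W, M *ᵥ w ∈ W)
    (c : Fin r → ℂ) (hc : A *ᵥ c ∈ W) (i : Fin r) (hi : c i ≠ 0) :
    A *ᵥ Pi.single i 1 ∈ W := by
  have h1 := aeval_stab W hM (Lagrange.basis Finset.univ ν i) _ hc
  rw [Matrix.mulVec_mulVec, aeval_eigen hMA, ← Matrix.mulVec_mulVec] at h1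
  have h2 : (diagonal fun k => (Lagrange.basis Finset.univ ν i).eval (ν k)) *ᵥ c =
      c i • (Pi.single i 1 : Fin r → ℂ) := by
    funext k
    rw [Matrix.mulVec_diagonal, Pi.smul_apply, smul_eq_mul]
    by_cases hk : k = i
    · subst hk
      rw [Lagrange.eval_basis_self hν.injOn (Finset.mem_univ _), Pi.single_eq_same, one_mul,
        mul_one]
    · rw [Lagrange.eval_basis_of_ne (Ne.symm hk) (Finset.mem_univ _), Pi.single_eq_of_ne hk,
        zero_mul, mul_zero]
  rw [h2, Matrix.mulVec_smul] at h1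
  have h3 := W.smul_mem (c i)⁻¹ h1
  rwa [smul_smul, inv_mul_cancel₀ hi, one_smul] at h3

/-- The restriction of a matrix with distinct eigenvalues. -/
theorem dSub_eigen {M A : P002R.Mat r ℂ} {ν : Fin r → ℂ} (hA : IsUnit A)
    (hMA : M * A = A * diagonal ν)
    (hν : Function.Injective ν) (W : Submodule ℂ (Fin r → ℂ)) (hM : ∀ w ∈ W, M *ᵥ w ∈ W)
    (I : Finset (Fin r)) (hI : ∀ i, i ∈ I ↔ A *ᵥ Pi.single i 1 ∈ W) :
    dSub W M = ∏ i ∈ I, ν i := by
  classical
  obtain ⟨f, hf, h1⟩ := exists_dSub W M hM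
  have hud : IsUnit A.det := (Matrix.isUnit_iff_isUnit_det _).1 hA
  have a1 : A * A⁻¹ = 1 := Matrix.mul_nonsing_inv _ hud
  obtain ⟨v, hv⟩ : ∃ v : {i // i ∈ I} → W, ∀ i, ((v i : W) : Fin r → ℂ) =
      A *ᵥ Pi.single (i : Fin r) 1 :=
    ⟨fun i => ⟨A *ᵥ Pi.single (i : Fin r) 1, (hI i).1 i.2⟩, fun i => rfl⟩
  have hli : LinearIndependent ℂ v := by
    apply LinearIndependent.of_comp W.subtype
    have h2 : LinearIndependent ℂ A.col := Matrix.linearIndependent_cols_iff_isUnit.2 hA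
    have h3 := h2.comp (fun i : {i // i ∈ I} => (i : Fin r)) Subtype.val_injective
    have h4 : W.subtype ∘ v = A.col ∘ fun i : {i // i ∈ I} => (i : Fin r) := by
      funext i
      rw [Function.comp_apply, Submodule.subtype_apply, hv, Matrix.mulVec_single_one]
      rfl
    rw [h4]
    exact h3
  have hsp : ⊤ ≤ Submodule.span ℂ (Set.range v) := by
    rintro ⟨w, hw⟩ -
    obtain ⟨c, hc⟩ : ∃ c, c = A⁻¹ *ᵥ w := ⟨_, rfl⟩
    have hwc : w = A *ᵥ c := by rw [hc, Matrix.mulVec_mulVec, a1, Matrix.one_mulVec]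
    have hwm : A *ᵥ c ∈ W := hwc ▸ hw
    have h2 : (⟨w, hw⟩ : W) = ∑ i : {i // i ∈ I}, c i • v i := by
      apply Subtype.ext
      rw [Submodule.coe_sum]
      simp only [Submodule.coe_smul, hv]
      have h3 : w = ∑ i, c i • (A *ᵥ Pi.single i 1) := by
        have h4 : c = ∑ i, c i • (Pi.single i 1 : Fin r → ℂ) := by
          funext k
          rw [Finset.sum_apply, Finset.sum_eq_single k]
          · rw [Pi.smul_apply, Pi.single_eq_same, smul_eq_mul, mul_one]
          · intro b _ hb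
            rw [Pi.smul_apply, Pi.single_eq_of_ne hb.symm, smul_zero]
          · intro h
            exact absurd (Finset.mem_univ _) h
        rw [hwc]
        conv_lhs => rw [h4]
        rw [Matrix.mulVec_sum]
        refine Finset.sum_congr rfl fun i _ => ?_
        rw [Matrix.mulVec_smul]
      conv_lhs => rw [h3]
      rw [Finset.sum_coe_sort I (fun i => c i • (A *ᵥ Pi.single i 1))]
      refine (Finset.sum_subset (Finset.subset_univ I) fun i _ hi => ?_).symm
      by_cases hci : c i = 0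
      · rw [hci, zero_smul]
      · exact absurd ((hI i).2 (col_mem hMA hν W hM c hwm i hci)) hi
    rw [h2]
    exact Submodule.sum_mem _ fun i _ => Submodule.smul_mem _ _ (Submodule.subset_span ⟨i, rfl⟩)
  obtain ⟨B, hB⟩ : ∃ B : Basis {i // i ∈ I} ℂ W, ∀ i, B i = v i :=
    ⟨Basis.mk hli hsp, fun i => Basis.mk_apply hli hsp i⟩
  have h5 : ∀ i, f (B i) = ν i • B i := by
    intro i
    apply Subtype.ext
    rw [hf, hB, Submodule.coe_smul, hv, Matrix.mulVec_mulVec, hMA, ← Matrix.mulVec_mulVec]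
    have h6 : (diagonal ν : P002R.Mat r ℂ) *ᵥ (Pi.single (i : Fin r) 1 : Fin r → ℂ) =
        ν i • (Pi.single (i : Fin r) 1 : Fin r → ℂ) := by
      funext k
      rw [Matrix.mulVec_diagonal, Pi.smul_apply, smul_eq_mul]
      by_cases hk : k = (i : Fin r)
      · rw [hk]
      · rw [Pi.single_eq_of_ne hk, mul_zero, mul_zero]
    rw [h6, Matrix.mulVec_smul]
  have h7 : LinearMap.toMatrix B B f = diagonal fun i : {i // i ∈ I} => ν i := by
    ext i j
    rw [LinearMap.toMatrix_apply, h5, map_smul, Finsupp.smul_apply, Basis.repr_self,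
      Finsupp.single_apply, smul_eq_mul, Matrix.diagonal_apply]
    by_cases hij : i = j
    · rw [if_pos hij.symm, if_pos hij, mul_one, hij]
    · rw [if_neg (Ne.symm hij), if_neg hij, mul_zero]
  rw [h1, ← LinearMap.det_toMatrix B, h7, Matrix.det_diagonal]
  exact Finset.prod_coe_sort I ν

/-- The determinant of a restriction lies in every field which contains the eigenvalues. -/
theorem dSub_mem {K₀ : Subfield ℂ} {M : P002R.Mat r ℂ} (hK : ∀ lam, M.charpoly.IsRoot lam → lam ∈ K₀)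
    (W : Submodule ℂ (Fin r → ℂ)) (hM : ∀ w ∈ W, M *ᵥ w ∈ W) : dSub W M ∈ K₀ := by
  classical
  obtain ⟨f, hf, h1⟩ := exists_dSub W M hM
  rw [h1, ← LinearMap.det_toMatrix (Module.finBasis ℂ W), Matrix.det_eq_prod_roots_charpoly]
  refine Subfield.multiset_prod_mem K₀ _ fun lam hlam => ?_
  rw [LinearMap.charpoly_toMatrix] at hlam
  have h2 : f.charpoly.IsRoot lam := Polynomial.isRoot_of_mem_roots hlam
  have h3 : Module.End.HasEigenvalue f lam :=
    (Module.End.hasEigenvalue_iff_isRoot_charpoly f lam).2 h2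
  obtain ⟨w, hw⟩ := h3.exists_hasEigenvector
  apply hK
  rw [Polynomial.IsRoot.def, Matrix.eval_charpoly]
  apply Matrix.exists_mulVec_eq_zero_iff.1
  refine ⟨w, fun h => hw.2 (Subtype.ext h), ?_⟩
  have h4 : M *ᵥ (w : Fin r → ℂ) = lam • (w : Fin r → ℂ) := by
    rw [← hf, hw.apply_eq_smul]
    rfl
  rw [Matrix.sub_mulVec, h4, Matrix.scalar_apply, ← Matrix.smul_one_eq_diagonal,
    Matrix.smul_mulVec, Matrix.one_mulVec, sub_self]

end Vale.Agent.P002R
end

section

/-!
# P002, genus 0, one regular class: the class step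
-/

namespace Vale.Agent.P002L

open Matrix Vale.Agent.P002R

variable {R A : Type} [CommRing R] [CommRing A] {φ : R →+* ℂ} {ι : R →+* A} {ψ : A →+* ℂ} {r : ℕ}

theorem letter_step (hL : Lifting φ ι ψ) {a b : Fin r} (hab : (b : ℕ) = a + 1)
    (w : Equiv.Perm (Fin r)) (v₀ : Mat r ℂ) (hv₀ : UU v₀) (ζ₀ : ℂ) :
    ∃ (w' : Equiv.Perm (Fin r)) (v₀' : Mat r ℂ), UU v₀' ∧ Step ι ψ w v₀
      (fun g => ∃ ζ, ψ ζ = ζ₀ ∧ g = xx a b ζ * pm (Equiv.swap a b)) w' v₀' := by
  have hne : a ≠ b := fun h => by rw [h] at hab; (clear * - hab; omega)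
  have hlt : a < b := by rw [Fin.lt_def]; omega
  rcases lt_or_gt_of_ne (fun h => hne (w.injective h) : w a ≠ w b) with hw | hw
  · refine ⟨w * Equiv.swap a b, pushV a b ζ₀ v₀, uu_pushV hab hv₀ ζ₀, PEmpty, inferInstance,
      PEmpty.elim, PEmpty.elim, PEmpty.elim, 1, fun v hv hv0 z _ => ?_⟩
    obtain ⟨ζ, hζ⟩ := hL.surj ζ₀
    refine ⟨_, ⟨ζ, hζ, rfl⟩, xx (w a) (w b) (v a b + ζ), pushV a b ζ v, (uu_xx hw _).1, fun i => ?_,
      uu_pushV hab hv ζ, ?_, ?_⟩
    · rw [(uu_xx hw _).2, Finset.univ_eq_empty, Finset.prod_empty, Pi.one_apply]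
      simp only [Units.val_one, map_one, mul_one]
    · rw [pushV_map, hζ, hv0]
    · rw [mul_assoc, push_eq hab, ← mul_assoc, ← mul_assoc, pm_xx, mul_assoc (xx _ _ _),
        pm_mul_pm]
  · by_cases hy : v₀ a b + ζ₀ = 0
    · refine ⟨w * Equiv.swap a b, pushV a b ζ₀ v₀, uu_pushV hab hv₀ ζ₀, PEmpty, inferInstance,
        PEmpty.elim, PEmpty.elim, PEmpty.elim, 1, fun v hv hv0 z _ => ?_⟩
      have h1 : ψ (v a b) = v₀ a b := by rw [← hv0, map_apply]
      have hζ : ψ (-v a b) = ζ₀ := by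
        rw [map_neg, h1]
        exact (eq_neg_of_add_eq_zero_right hy).symm
      refine ⟨_, ⟨-v a b, hζ, rfl⟩, 1, pushV a b (-v a b) v, upT_one, fun i => ?_,
        uu_pushV hab hv _, ?_, ?_⟩
      · rw [one_apply_eq, Finset.univ_eq_empty, Finset.prod_empty, Pi.one_apply]
        simp only [Units.val_one, map_one, mul_one]
      · rw [pushV_map, hζ, hv0]
      · rw [mul_assoc, push_eq hab, add_neg_cancel, xx_zero, one_mul, one_mul, ← mul_assoc,
          pm_mul_pm]
    · refine ⟨w, xx a b (v₀ a b + ζ₀)⁻¹ * pushV a b ζ₀ v₀, (uu_xx hlt _).mul (uu_pushV hab hv₀ ζ₀),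
        Unit, inferInstance, fun _ => w a, fun _ => w b, fun _ => Units.mk0 _ hy,
        fun i => if i = w b then -1 else 1, fun v hv hv0 z hz => ?_⟩
      have h1 : ψ (v a b) = v₀ a b := by rw [← hv0, map_apply]
      have hz' : ψ (z ()) = v₀ a b + ζ₀ := hz ()
      have hzi : ψ (((z ())⁻¹ : Aˣ) : A) = (v₀ a b + ζ₀)⁻¹ := by
        have h2 : ψ (((z ())⁻¹ : Aˣ) : A) * ψ (z ()) = 1 := by
          rw [← map_mul, Units.inv_mul, map_one]
        rw [hz'] at h2
        exact eq_inv_of_mul_eq_one_left h2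
      have hζ : ψ (z () - v a b) = ζ₀ := by
        rw [map_sub, hz', h1]
        ring
      refine ⟨_, ⟨z () - v a b, hζ, rfl⟩, xx (w b) (w a) (((z ())⁻¹ : Aˣ) : A) * dd (w a) (w b) (z ()),
        xx a b (((z ())⁻¹ : Aˣ) : A) * pushV a b (z () - v a b) v, (uu_xx hw _).1.mul (upT_diagonal _),
        fun i => ?_, (uu_xx hlt _).mul (uu_pushV hab hv _), ?_, ?_⟩
      · have h5 : UpT (dd (w a) (w b) (z ())) := upT_diagonal _
        rw [(uu_xx hw _).1.mul_diag h5, (uu_xx hw _).2, one_mul, dd,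
          diagonal_apply_eq, Fintype.prod_unique, eb]
        have hne' : w b ≠ w a := fun h => hne (w.injective h).symm
        by_cases hi : i = w a
        · subst hi
          simp [hne'.symm]
        · by_cases hi' : i = w b
          · subst hi'
            simp [hne']
          · simp only [hi, ↓reduceIte, hi', Units.val_one, map_one, PUnit.default_eq_unit, sub_self, zpow_ofNat, pow_zero, mul_one]
      · rw [Matrix.map_mul, xx_map, pushV_map, hζ, hv0, hzi]
      · rw [mul_assoc, push_eq hab, add_sub_cancel, stay_id hne]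
        have h3 : (pm w : Mat r A) * (xx b a (((z ())⁻¹ : Aˣ) : A) * dd a b (z ()) *
            xx a b (((z ())⁻¹ : Aˣ) : A) * pushV a b (z () - v a b) v) =
            (pm w * xx b a (((z ())⁻¹ : Aˣ) : A)) * dd a b (z ()) *
              (xx a b (((z ())⁻¹ : Aˣ) : A) * pushV a b (z () - v a b) v) := by
          simp only [mul_assoc]
        rw [h3, pm_xx, mul_assoc (xx _ _ _), pm_dd]
        simp only [mul_assoc]

/-- The family of products `u * M` with prescribed complex point. -/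
def FamUM (ι : R →+* A) (ψ : A →+* ℂ) (κ : Fin r → ℕ) (l : ℕ → Rˣ) (u₀ M₀ : Mat r ℂ)
    (g : Mat r A) : Prop :=
  ∃ u M : Mat r A, UU u ∧ u.map ψ = u₀ ∧ Kup κ (fun j => ι (l j)) M ∧ M.map ψ = M₀ ∧ g = u * M

theorem exists_lift_uu (hL : Lifting φ ι ψ) {u₀ : Mat r ℂ} (hu₀ : UU u₀) :
    ∃ u : Mat r A, UU u ∧ u.map ψ = u₀ := by
  choose s hs using hL.surj
  refine ⟨Matrix.of fun i j => if i = j then 1 else if i < j then s (u₀ i j) else 0,
    ⟨fun i j h => ?_, fun i => ?_⟩, ?_⟩
  · rw [of_apply, if_neg h.ne', if_neg h.not_gt]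
  · rw [of_apply, if_pos rfl]
  · ext i j
    rw [map_apply, of_apply]
    split_ifs with h1 h2
    · rw [map_one, ← h1, hu₀.2]
    · exact hs _
    · rw [map_zero, hu₀.1 i j (lt_of_le_of_ne (not_lt.1 h2) (Ne.symm h1))]

theorem exists_lift_kup (hL : Lifting φ ι ψ) {κ : Fin r → ℕ} {l : ℕ → Rˣ} {M₀ : Mat r ℂ}
    (hM₀ : Kup κ (fun j => φ (l j)) M₀) :
    ∃ M : Mat r A, Kup κ (fun j => ι (l j)) M ∧ M.map ψ = M₀ := by
  choose s hs using hL.surj
  refine ⟨Matrix.of fun i j => if i = j then ι (l (κ i)) else if κ i < κ j then s (M₀ i j) else 0,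
    ⟨fun i => ?_, fun i j h h' => ?_⟩, ?_⟩
  · rw [of_apply, if_pos rfl]
  · rw [of_apply, if_neg h, if_neg h']
  · ext i j
    rw [map_apply, of_apply]
    split_ifs with h1 h2
    · rw [hL.comp, ← h1, hM₀.1]
    · exact hs _
    · rw [map_zero, hM₀.2 i j h1 h2]

theorem base_step (hL : Lifting φ ι ψ) {κ : Fin r → ℕ} (hκ : Monotone κ) (l : ℕ → Rˣ)
    (w : Equiv.Perm (Fin r)) (v₀ : Mat r ℂ) (hv₀ : UU v₀) {u₀ M₀ : Mat r ℂ} (hu₀ : UU u₀)
    (hM₀ : Kup κ (fun j => φ (l j)) M₀) :
    ∃ (w' : Equiv.Perm (Fin r)) (v₀' : Mat r ℂ), UU v₀' ∧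
      Step ι ψ w v₀ (FamUM ι ψ κ l u₀ M₀) w' v₀' := by
  have hup : ∀ {S : Type} [CommRing S] (l' : ℕ → S) (M : Mat r S), Kup κ l' M → UpT M := by
    intro S _ l' M hM i j h
    exact hM.2 i j h.ne' (not_lt.2 (hκ h.le))
  have key : ∀ {S : Type} [CommRing S] (l' : ℕ → Sˣ) (v u M : Mat r S), UU v → UU u →
      Kup κ (fun j => (l' j : S)) M →
      UU (diagonal (fun i => (((l' (κ i))⁻¹ : Sˣ) : S)) * (v * (u * M))) := by
    intro S _ l' v u M hv hu hM
    have h1 : UpT (v * (u * M)) := hv.1.mul (hu.1.mul (hup _ _ hM))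
    refine ⟨(upT_diagonal _).mul h1, fun i => ?_⟩
    rw [(upT_diagonal _).mul_diag h1, diagonal_apply_eq, hv.1.mul_diag (hu.1.mul (hup _ _ hM)),
      hu.1.mul_diag (hup _ _ hM), hv.2, hu.2, hM.1, one_mul, one_mul, Units.inv_mul]
  refine ⟨w, diagonal (fun i => (((Units.map (φ : R →* ℂ) (l (κ i)))⁻¹ : ℂˣ) : ℂ)) *
    (v₀ * (u₀ * M₀)), key (fun j => Units.map (φ : R →* ℂ) (l j)) v₀ u₀ M₀ hv₀ hu₀ hM₀,
    PEmpty, inferInstance, PEmpty.elim, PEmpty.elim, PEmpty.elim, fun i => l (κ (w.symm i)),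
    fun v hv hv0 z _ => ?_⟩
  obtain ⟨u, hu, hu0⟩ := exists_lift_uu hL hu₀
  obtain ⟨M, hM, hM0⟩ := exists_lift_kup hL hM₀
  refine ⟨u * M, ⟨u, M, hu, hu0, hM, hM0, rfl⟩, diagonal fun i => ι (l (κ (w.symm i))),
    diagonal (fun i => (((Units.map (ι : R →* A) (l (κ i)))⁻¹ : Aˣ) : A)) * (v * (u * M)),
    upT_diagonal _, fun i => ?_, key (fun j => Units.map (ι : R →* A) (l j)) v u M hv hu hM,
    ?_, ?_⟩
  · rw [diagonal_apply_eq, Finset.univ_eq_empty, Finset.prod_empty, Units.val_one, mul_one]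
  · rw [Matrix.map_mul, Matrix.map_mul, Matrix.map_mul, hv0, hu0, hM0]
    congr 1
    rw [diagonal_map (map_zero ψ)]
    congr 1
    funext i
    rw [← map_inv, ← map_inv]
    exact hL.comp _
  · have h1 : (pm w : Mat r A) * diagonal (fun i => ι (l (κ i))) =
        diagonal (fun i => ι (l (κ (w.symm i)))) * pm w := by
      refine pm_comm fun i j => ?_
      rw [diagonal_apply, diagonal_apply, Equiv.symm_apply_apply]
      simp only [EmbeddingLike.apply_eq_iff_eq]
    rw [← h1]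
    have h2 : diagonal (fun i => ι (l (κ i))) *
        diagonal (fun i => (((Units.map (ι : R →* A) (l (κ i)))⁻¹ : Aˣ) : A)) = 1 := by
      rw [diagonal_mul_diagonal, ← diagonal_one]
      congr 1
      funext i
      exact (Units.map (ι : R →* A) (l (κ i))).mul_inv
    have h3 : (pm w : Mat r A) * diagonal (fun i => ι (l (κ i))) *
        (diagonal (fun i => (((Units.map (ι : R →* A) (l (κ i)))⁻¹ : Aˣ) : A)) * (v * (u * M))) =
        pm w * (diagonal (fun i => ι (l (κ i))) *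
        diagonal (fun i => (((Units.map (ι : R →* A) (l (κ i)))⁻¹ : Aˣ) : A))) * (v * (u * M)) := by
      simp only [mul_assoc]
    rw [h3, h2, mul_one, mul_assoc]

end Vale.Agent.P002L
end

section

/-!
# P002, genus 0, one regular class: the class step
-/

namespace Vale.Agent.P002L

open Matrix Vale.Agent.P002R

variable {R A : Type} [CommRing R] [CommRing A] {φ : R →+* ℂ} {ι : R →+* A} {ψ : A →+* ℂ} {r : ℕ}

theorem exists_descent {κ : Fin r → ℕ} (h : ¬ Monotone κ) :
    ∃ a b : Fin r, (b : ℕ) = a + 1 ∧ κ b < κ a := by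
  cases r with
  | zero => exact absurd (fun i => i.elim0) h
  | succ n =>
    rw [Fin.monotone_iff_le_succ] at h
    push Not at h
    obtain ⟨i, hi⟩ := h
    exact ⟨i.castSucc, i.succ, by simp, hi⟩

theorem measure_lt {κ : Fin r → ℕ} {a b : Fin r} (hab : (b : ℕ) = a + 1) (h : κ b < κ a) :
    ∑ i : Fin r, (r - i) * (κ ∘ Equiv.swap a b) i < ∑ i : Fin r, (r - i) * κ i := by
  have hne : a ≠ b := fun h => by rw [h] at hab; omega
  have key : ∀ f : Fin r → ℕ, ∑ i, f i = f a + (f b + ∑ i ∈ (Finset.univ.erase a).erase b, f i) := by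
    intro f
    rw [Finset.add_sum_erase _ _ (Finset.mem_erase.2 ⟨hne.symm, Finset.mem_univ _⟩),
      Finset.add_sum_erase _ _ (Finset.mem_univ _)]
  rw [key, key (fun i => (r - i) * κ i)]
  have h1 : ∑ i ∈ (Finset.univ.erase a).erase b, (r - i) * (κ ∘ Equiv.swap a b) i =
      ∑ i ∈ (Finset.univ.erase a).erase b, (r - i) * κ i := by
    refine Finset.sum_congr rfl fun i hi => ?_
    have h2 := (Finset.mem_erase.1 hi).1
    have h3 := (Finset.mem_erase.1 (Finset.mem_erase.1 hi).2).1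
    rw [Function.comp_apply, Equiv.swap_apply_of_ne_of_ne h3 h2]
  rw [h1, ← add_assoc, ← add_assoc]
  refine Nat.add_lt_add_right ?_ _
  simp only [Function.comp_apply, Equiv.swap_apply_left, Equiv.swap_apply_right]
  have h4 : r - (a : ℕ) = (r - (b : ℕ)) + 1 := by
    have := b.2
    omega
  rw [h4, add_mul, add_mul, one_mul, one_mul]
  (clear * - h; nlinarith)

theorem class_step_aux (hL : Lifting φ ι ψ) (l : ℕ → Rˣ) : ∀ (N : ℕ) (κ : Fin r → ℕ),
    ∑ i : Fin r, (r - i) * κ i = N → ∀ (w : Equiv.Perm (Fin r)) (v₀ : Mat r ℂ), UU v₀ →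
    ∀ u₀ M₀ : Mat r ℂ, UU u₀ → Kup κ (fun j => φ (l j)) M₀ →
    ∃ (w' : Equiv.Perm (Fin r)) (v₀' : Mat r ℂ), UU v₀' ∧
      Step ι ψ w v₀ (FamUM ι ψ κ l u₀ M₀) w' v₀' := by
  intro N
  induction N using Nat.strong_induction_on with
  | _ N ih =>
  intro κ hN w v₀ hv₀ u₀ M₀ hu₀ hM₀
  by_cases hκ : Monotone κ
  · exact base_step hL hκ l w v₀ hv₀ hu₀ hM₀
  obtain ⟨a, b, hab, hκab⟩ := exists_descent hκ
  have hne : a ≠ b := fun h => by rw [h] at hab; omega
  have hlt : a < b := by rw [Fin.lt_def]; omega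
  have hκ' : (κ ∘ Equiv.swap a b) a < (κ ∘ Equiv.swap a b) b := by
    rw [Function.comp_apply, Function.comp_apply, Equiv.swap_apply_left, Equiv.swap_apply_right]
    exact hκab
  have hκκ : (κ ∘ Equiv.swap a b) ∘ Equiv.swap a b = κ := by
    funext i
    rw [Function.comp_apply, Function.comp_apply, Equiv.swap_apply_self]
  -- the data over the complex numbers
  obtain ⟨u₁, hu₁⟩ : ∃ u₁ : Mat r ℂ, u₁ = xx a b (-u₀ a b) * u₀ := ⟨_, rfl⟩
  have hu₁U : UU u₁ := by rw [hu₁]; exact (uu_xx hlt _).mul hu₀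
  have hu₁0 : u₁ a b = 0 := by
    rw [hu₁, xx_mul_apply, if_pos rfl, hu₀.2 b]
    ring
  obtain ⟨u', hu'⟩ : ∃ u' : Mat r ℂ, u' = pm (Equiv.swap a b) * u₁ * pm (Equiv.swap a b) :=
    ⟨_, rfl⟩
  have hu'U : UU u' := by rw [hu']; exact uu_swap hab hu₁U hu₁0
  have hu'0 : u' a b = 0 := by
    rw [hu', swap_conj_apply, Equiv.swap_apply_left, Equiv.swap_apply_right, hu₁U.1 b a hlt]
  have hM' : Kup (κ ∘ Equiv.swap a b) (fun j => φ (l j))
      (pm (Equiv.swap a b) * M₀ * pm (Equiv.swap a b)) := hM₀.swap a b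
  -- the three steps
  obtain ⟨w₁, v₁, hv₁, hs₁⟩ := letter_step hL hab w v₀ hv₀ (u₀ a b)
  obtain ⟨w₂, v₂, hv₂, hs₂⟩ := ih _ (by rw [← hN]; exact measure_lt hab hκab)
    (κ ∘ Equiv.swap a b) rfl w₁ v₁ hv₁ u' _ hu'U hM'
  obtain ⟨w₃, v₃, hv₃, hs₃⟩ := letter_step hL hab w₂ v₂ hv₂ 0
  refine ⟨w₃, v₃, hv₃, ((hs₁.comp hs₂).comp hs₃).mono ?_⟩
  rintro g ⟨g', g₃, ⟨g₁, g₂, ⟨ζ, hζ, rfl⟩, ⟨u, M, hu, hu0, hM, hM0, rfl⟩, rfl⟩, ⟨ζ', hζ', rfl⟩, rfl⟩
  obtain ⟨η, hη⟩ : ∃ η, η = u a b := ⟨_, rfl⟩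
  have hη0 : ψ η = 0 := by rw [hη, ← hu'0, ← hu0, map_apply]
  have hun : UU (u * xx a b (-η)) := hu.mul (uu_xx hlt _)
  have hun0 : (u * xx a b (-η)) a b = 0 := by
    rw [mul_xx_apply, if_pos rfl, hu.2 a, hη]
    ring
  refine ⟨xx a b ζ * (pm (Equiv.swap a b) * (u * xx a b (-η)) * pm (Equiv.swap a b)),
    pm (Equiv.swap a b) * (xx a b η * M * xx a b ζ') * pm (Equiv.swap a b),
    (uu_xx hlt _).mul (uu_swap hab hun hun0), ?_, ?_, ?_, ?_⟩
  · rw [Matrix.map_mul, Matrix.map_mul, Matrix.map_mul, Matrix.map_mul, xx_map, xx_map, pm_map,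
      hζ, map_neg, hη0, neg_zero, xx_zero, mul_one, hu0, hu']
    have h1 : (pm (Equiv.swap a b) : Mat r ℂ) * (pm (Equiv.swap a b) * u₁ *
        pm (Equiv.swap a b)) * pm (Equiv.swap a b) = (pm (Equiv.swap a b) * pm (Equiv.swap a b)) *
        u₁ * (pm (Equiv.swap a b) * pm (Equiv.swap a b)) := by
      simp only [mul_assoc]
    rw [h1, pm_swap_sq, one_mul, mul_one, hu₁, ← mul_assoc, xx_mul_xx hne, add_neg_cancel,
      xx_zero, one_mul]
  · have h2 := ((hM.xx_mul hκ' η).mul_xx hκ' ζ').swap a b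
    rw [hκκ] at h2
    exact h2
  · rw [Matrix.map_mul, Matrix.map_mul, Matrix.map_mul, Matrix.map_mul, xx_map, xx_map, pm_map,
      hη0, hζ', xx_zero, one_mul, mul_one, hM0]
    have h1 : (pm (Equiv.swap a b) : Mat r ℂ) * (pm (Equiv.swap a b) * M₀ *
        pm (Equiv.swap a b)) * pm (Equiv.swap a b) = (pm (Equiv.swap a b) * pm (Equiv.swap a b)) *
        M₀ * (pm (Equiv.swap a b) * pm (Equiv.swap a b)) := by
      simp only [mul_assoc]
    rw [h1, pm_swap_sq, one_mul, mul_one]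
  · have h3 : xx a b ζ * (pm (Equiv.swap a b) * (u * xx a b (-η)) * pm (Equiv.swap a b)) *
        ((pm (Equiv.swap a b) : Mat r A) * (xx a b η * M * xx a b ζ') * pm (Equiv.swap a b)) =
        xx a b ζ * pm (Equiv.swap a b) * (u * (xx a b (-η) *
        ((pm (Equiv.swap a b) * pm (Equiv.swap a b)) * xx a b η)) * M) *
        (xx a b ζ' * pm (Equiv.swap a b)) := by
      simp only [mul_assoc]
    rw [h3, pm_swap_sq, one_mul, xx_mul_xx hne, neg_add_cancel, xx_zero, mul_one]

/-- The class step. -/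
theorem class_step (hL : Lifting φ ι ψ) (κ : Fin r → ℕ) (l : ℕ → Rˣ) (w : Equiv.Perm (Fin r))
    (v₀ : Mat r ℂ) (hv₀ : UU v₀) (u₀ M₀ c₀ : Mat r ℂ) (hu₀ : UU u₀)
    (hM₀ : Kup κ (fun j => φ (l j)) M₀) (hc : c₀ * u₀ = u₀ * M₀) :
    ∃ (w' : Equiv.Perm (Fin r)) (v₀' : Mat r ℂ), UU v₀' ∧ Step ι ψ w v₀
      (fun c => ∃ u M : Mat r A, UU u ∧ Kup κ (fun j => ι (l j)) M ∧ c * u = u * M ∧
        c.map ψ = c₀) w' v₀' := by
  obtain ⟨w', v', hv', J, hJ, s, t, y, ε, h⟩ := class_step_aux hL l _ κ rfl w v₀ hv₀ u₀ M₀ hu₀ hM₀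
  refine ⟨w', v' * u₀⁻¹, hv'.mul hu₀.inv, J, hJ, s, t, y, ε, fun v hv hv0 z hz => ?_⟩
  obtain ⟨g, ⟨u, M, hu, hu0, hM, hM0, rfl⟩, b, v₂, hb, hbd, hv₂, hv20, he⟩ := h v hv hv0 z hz
  refine ⟨u * M * u⁻¹, ⟨u, M, hu, hM, ?_, ?_⟩, b, v₂ * u⁻¹, hb, hbd, hv₂.mul hu.inv, ?_, ?_⟩
  · rw [mul_assoc, hu.inv_mul, mul_one]
  · rw [Matrix.map_mul, Matrix.map_mul, hu.map_inv, hu0, hM0, ← hc, mul_assoc, hu₀.mul_inv, mul_one]
  · rw [Matrix.map_mul, hu.map_inv, hu0, hv20]
  · rw [← mul_assoc, he, mul_assoc]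

end Vale.Agent.P002L
end

section

/-!
# P002, genus 0, one regular class: the lifting theorem
-/

namespace Vale.Agent.P002L

open Matrix Vale.Agent.P002R

variable {R A : Type} [CommRing R] [CommRing A] {φ : R →+* ℂ} {ι : R →+* A} {ψ : A →+* ℂ} {r : ℕ}

theorem chain (hL : Lifting φ ι ψ) : ∀ (m : ℕ) (κ : Fin m → Fin r → ℕ) (l : Fin m → ℕ → Rˣ)
    (c u M : Fin m → Mat r ℂ), (∀ i, UU (u i)) → (∀ i, Kup (κ i) (fun j => φ (l i j)) (M i)) →
    (∀ i, c i * u i = u i * M i) →
    ∃ (w' : Equiv.Perm (Fin r)) (v₀' : Mat r ℂ), UU v₀' ∧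
      ∃ (J : Type) (_ : Fintype J) (s t : J → Fin r) (y : J → ℂˣ) (ε : Fin r → Rˣ),
      ∀ z : J → Aˣ, (∀ j, ψ (z j) = y j) → ∃ c' : Fin m → Mat r A,
        (∀ i, ∃ u' M' : Mat r A, UU u' ∧ Kup (κ i) (fun j => ι (l i j)) M' ∧
          c' i * u' = u' * M' ∧ (c' i).map ψ = c i) ∧
        ∃ b v' : Mat r A, UpT b ∧
          (∀ i, b i i = ι (ε i) * ((∏ j, z j ^ eb (s j) (t j) i : Aˣ) : A)) ∧
          UU v' ∧ v'.map ψ = v₀' ∧ (List.ofFn c').prod = b * pm w' * v' := by
  intro m
  induction m with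
  | zero =>
    intro κ l c u M _ _ _
    refine ⟨1, 1, uu_one, PEmpty, inferInstance, PEmpty.elim, PEmpty.elim, PEmpty.elim, 1,
      fun z _ => ⟨fun i => i.elim0, fun i => i.elim0, 1, 1, upT_one, fun i => ?_, uu_one, ?_, ?_⟩⟩
    · rw [one_apply_eq, Finset.univ_eq_empty, Finset.prod_empty, Pi.one_apply]
      simp only [Units.val_one, map_one, mul_one]
    · exact Matrix.map_one _ (map_zero ψ) (map_one ψ)
    · rw [List.ofFn_zero, List.prod_nil, pm_one, one_mul, one_mul]
  | succ m ih =>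
    intro κ l c u M hu hM hc
    obtain ⟨w₁, v₁, hv₁, J, hJ, s, t, y, ε, h⟩ := ih (fun i => κ i.castSucc)
      (fun i => l i.castSucc) (fun i => c i.castSucc) (fun i => u i.castSucc)
      (fun i => M i.castSucc) (fun i => hu _) (fun i => hM _) (fun i => hc _)
    obtain ⟨w₂, v₂, hv₂, J', hJ', s', t', y', ε', h'⟩ := class_step hL (κ (Fin.last m))
      (l (Fin.last m)) w₁ v₁ hv₁ _ _ _ (hu _) (hM _) (hc _)
    refine ⟨w₂, v₂, hv₂, J ⊕ J', inferInstance, Sum.elim s s', Sum.elim t t', Sum.elim y y',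
      fun i => ε i * ε' i, fun z hz => ?_⟩
    obtain ⟨c', hc', b, v, hb, hbd, hv, hv0, he⟩ := h (fun j => z (Sum.inl j)) fun j =>
      hz (Sum.inl j)
    obtain ⟨g, ⟨ug, Mg, hug, hMg, hge, hg0⟩, b', v', hb', hbd', hv', hv0', he'⟩ := h' v hv hv0
      (fun j => z (Sum.inr j)) fun j => hz (Sum.inr j)
    refine ⟨Fin.snoc c' g, fun i => ?_, b * b', v', hb.mul hb', fun i => ?_, hv', hv0', ?_⟩
    · refine Fin.lastCases ?_ (fun i => ?_) i
      · rw [Fin.snoc_last]
        exact ⟨ug, Mg, hug, hMg, hge, hg0⟩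
      · rw [Fin.snoc_castSucc]
        exact hc' i
    · rw [hb.mul_diag hb', hbd, hbd', Fintype.prod_sum_type]
      simp only [Sum.elim_inl, Sum.elim_inr, Units.val_mul, map_mul]
      ring
    · rw [List.ofFn_succ', List.concat_eq_append, List.prod_append, List.prod_singleton,
        Fin.snoc_last]
      have h1 : (List.ofFn fun i : Fin m => (Fin.snoc c' g : Fin (m + 1) → Mat r A) i.castSucc) =
          List.ofFn c' := by
        congr 1
        funext i
        rw [Fin.snoc_castSucc]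
      rw [h1, he, mul_assoc b, mul_assoc b, he']
      simp only [mul_assoc]

theorem perm_eq_one_of_upT {w : Equiv.Perm (Fin r)} (h : UpT (pm w : Mat r ℂ)) : w = 1 := by
  have h1 : ∀ j, w j ≤ j := by
    intro j
    by_contra hj
    have h2 := h (w j) j (not_le.1 hj)
    rw [pm_apply, if_pos rfl] at h2
    exact one_ne_zero h2
  have h2 : ∀ n : ℕ, ∀ j : Fin r, (j : ℕ) = n → w j = j := by
    intro n
    induction n using Nat.strong_induction_on with
    | _ n ih =>
      intro j hj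
      by_contra hne
      have h3 : w j < j := lt_of_le_of_ne (h1 j) hne
      have h4 := ih (w j) (by rw [← hj]; exact h3) (w j) rfl
      exact hne (w.injective h4)
  ext j
  rw [h2 j j rfl, Equiv.Perm.one_apply]

/-- **The lifting theorem.** -/
theorem lift_main (hL : Lifting φ ι ψ) {m : ℕ} (κ : Fin m → Fin r → ℕ) (l : Fin m → ℕ → Rˣ)
    (c u M : Fin m → Mat r ℂ) (hu : ∀ i, UU (u i)) (hM : ∀ i, Kup (κ i) (fun j => φ (l i j)) (M i))
    (hc : ∀ i, c i * u i = u i * M i) (τ : Fin r → Rˣ) (hP : UpT (List.ofFn c).prod)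
    (hτ : ∀ i, (List.ofFn c).prod i i = φ (τ i)) :
    ∃ c' u' M' : Fin m → Mat r A, (∀ i, UU (u' i)) ∧
      (∀ i, Kup (κ i) (fun j => ι (l i j)) (M' i)) ∧ (∀ i, c' i * u' i = u' i * M' i) ∧
      (∀ i, (c' i).map ψ = c i) ∧ UpT (List.ofFn c').prod ∧
      ∀ i, (List.ofFn c').prod i i = ι (τ i) := by
  obtain ⟨w, v₀, hv₀, J, hJ, s, t, y, ε, h⟩ := chain hL m κ l c u M hu hM hc
  have hmap : ∀ c' : Fin m → Mat r A, (∀ i, (c' i).map ψ = c i) →
      (List.ofFn c').prod.map ψ = (List.ofFn c).prod := by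
    intro c' hc'
    have h1 := map_list_prod (RingHom.mapMatrix (m := Fin r) ψ) (List.ofFn c')
    rw [List.map_ofFn] at h1
    have h2 : (⇑(RingHom.mapMatrix (m := Fin r) ψ) ∘ c') = c := by
      funext i
      exact hc' i
    rw [h2] at h1
    exact h1
  -- the complex point
  choose z₀ hz₀ using fun j => hL.unit (y j)
  obtain ⟨c₁, hc₁, b₁, v₁, hb₁, hbd₁, hv₁, hv₁0, he₁⟩ := h z₀ hz₀
  have hm₁ := hmap c₁ fun i => by
    obtain ⟨_, _, _, _, _, h1⟩ := hc₁ i
    exact h1
  rw [he₁, Matrix.map_mul, Matrix.map_mul, pm_map, hv₁0] at hm₁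
  have hbU : IsUnit (b₁.map ψ).det := by
    rw [(upT_map hb₁ ψ).det, isUnit_iff_ne_zero, Finset.prod_ne_zero_iff]
    intro i _
    rw [map_apply, hbd₁, map_mul, hL.comp]
    have h2 : IsUnit (φ (ε i)) := (Units.map (φ : R →* ℂ) (ε i)).isUnit
    have h3 : IsUnit (ψ ((∏ j, z₀ j ^ eb (s j) (t j) i : Aˣ) : A)) :=
      (Units.map (ψ : A →* ℂ) (∏ j, z₀ j ^ eb (s j) (t j) i)).isUnit
    exact mul_ne_zero h2.ne_zero h3.ne_zero
  have hw : w = 1 := by
    refine perm_eq_one_of_upT ?_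
    have h1 : (pm w : Mat r ℂ) = (b₁.map ψ)⁻¹ * (List.ofFn c).prod * v₀⁻¹ := by
      rw [← hm₁]
      have h2 : (b₁.map ψ)⁻¹ * (b₁.map ψ * pm w * v₀) * v₀⁻¹ =
          ((b₁.map ψ)⁻¹ * b₁.map ψ) * pm w * (v₀ * v₀⁻¹) := by
        simp only [mul_assoc]
      rw [h2, nonsing_inv_mul _ hbU, hv₀.mul_inv, one_mul, mul_one]
    rw [h1]
    exact ((upT_inv (upT_map hb₁ ψ) hbU).mul hP).mul hv₀.inv.1
  subst hw
  -- the equations for the torus variables
  have hy : ∀ i, ∏ j, y j ^ eb (s j) (t j) i =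
      Units.map (ψ : A →* ℂ) (Units.map (ι : R →* A) (τ i / ε i)) := by
    intro i
    ext1
    have h1 := hτ i
    rw [← hm₁, pm_one, mul_one, (upT_map hb₁ ψ).mul_diag hv₀.1, hv₀.2, mul_one, map_apply, hbd₁,
      map_mul, hL.comp] at h1
    have h2 : ψ ((∏ j, z₀ j ^ eb (s j) (t j) i : Aˣ) : A) =
        ((∏ j, y j ^ eb (s j) (t j) i : ℂˣ) : ℂ) := by
      have h3 : Units.map (ψ : A →* ℂ) (∏ j, z₀ j ^ eb (s j) (t j) i) =
          ∏ j, y j ^ eb (s j) (t j) i := by
        rw [map_prod]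
        refine Finset.prod_congr rfl fun j _ => ?_
        rw [map_zpow]
        congr 1
        ext1
        exact hz₀ j
      rw [← h3]
      rfl
    rw [h2] at h1
    have h4 : IsUnit (φ (ε i)) := (Units.map (φ : R →* ℂ) (ε i)).isUnit
    have h5 : ((Units.map (ψ : A →* ℂ) (Units.map (ι : R →* A) (τ i / ε i)) : ℂˣ) : ℂ) =
        φ (τ i) * (φ (ε i))⁻¹ := by
      rw [map_div, map_div, div_eq_mul_inv, Units.val_mul, Units.val_inv_eq_inv_val]
      congr 1
      · exact hL.comp _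
      · congr 1
        exact hL.comp _
    rw [h5, ← h1]
    (clear * - h4; field_simp [h4.ne_zero])
  -- reindex the edges
  obtain ⟨e, -⟩ : ∃ e : J ≃ Fin (Fintype.card J), True := ⟨Fintype.equivFin J, trivial⟩
  obtain ⟨z, hz1, hz2⟩ := graph_lift (Units.map (ι : R →* A)) (Units.map (ψ : A →* ℂ))
    (fun c => by
      obtain ⟨a, ha⟩ := hL.unit c
      exact ⟨a, Units.ext ha⟩)
    (fun a b hab => by
      ext1
      apply hL.inj
      have h1 := congrArg (Units.val) hab
      rw [← hL.comp, ← hL.comp]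
      exact h1)
    (fun j => s (e.symm j)) (fun j => t (e.symm j)) (fun i => τ i / ε i) (fun j => y (e.symm j))
    (fun v => by
      rw [← hy v]
      exact Equiv.prod_comp e.symm fun j => y j ^ eb (s j) (t j) v)
  obtain ⟨c', hc', b, v, hb, hbd, hv, hv0, he⟩ := h (fun j => z (e j)) fun j => by
    have h1 := hz1 (e j)
    rw [Equiv.symm_apply_apply] at h1
    exact congrArg Units.val h1
  choose u' M' hu' hM' hcu' hc0' using hc'
  rw [pm_one, mul_one] at he
  refine ⟨c', u', M', hu', hM', hcu', hc0', ?_, fun i => ?_⟩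
  · rw [he]
    exact hb.mul hv.1
  · rw [he, hb.mul_diag hv.1, hv.2, mul_one, hbd]
    have h1 : ∏ j, z (e j) ^ eb (s j) (t j) i = Units.map (ι : R →* A) (τ i / ε i) := by
      rw [← hz2 i, ← Equiv.prod_comp e]
      refine Finset.prod_congr rfl fun j _ => ?_
      rw [Equiv.symm_apply_apply]
    rw [h1]
    have h2 : Units.map (ι : R →* A) (ε i) * Units.map (ι : R →* A) (τ i / ε i) =
        Units.map (ι : R →* A) (τ i) := by
      rw [← map_mul, mul_div_cancel]
    exact congrArg Units.val h2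

end Vale.Agent.P002L
end

section

/-!
# q-commuting pairs, part 0: cyclic endomorphisms which commute with a given one
-/

namespace Vale.Agent.P002B.QB

open Matrix Vale.Agent.P002

theorem aeval_mem {V : Type*} [AddCommGroup V] [Module ℂ V] (N : Module.End ℂ V)
    (W : Submodule ℂ V) (hW : ∀ x ∈ W, N x ∈ W) (p : Polynomial ℂ) {x : V} (hx : x ∈ W) :
    Polynomial.aeval N p x ∈ W := by
  have hpow : ∀ k : ℕ, (N ^ k) x ∈ W := by
    intro k
    induction k with
    | zero => simpa only [pow_zero, Module.End.one_apply] using hx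
    | succ k ih =>
      rw [pow_succ', Module.End.mul_apply]
      exact hW _ ih
  rw [Polynomial.aeval_eq_sum_range, LinearMap.sum_apply]
  exact W.sum_mem fun k _ => W.smul_mem _ (hpow k)

theorem cyc_aux (n : ℕ) : ∀ (V : Type) [AddCommGroup V] [Module ℂ V]
    [FiniteDimensional ℂ V] (T : Module.End ℂ V), Module.finrank ℂ V = n →
    ∃ (N : Module.End ℂ V) (v : V), Commute N T ∧
      ∀ W : Submodule ℂ V, v ∈ W → (∀ x ∈ W, N x ∈ W) → W = ⊤ := by
  classical
  induction n using Nat.strong_induction_on with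
  | _ n ih =>
  intro V _ _ _ T hV
  rcases Nat.eq_zero_or_pos n with rfl | hn
  · have : Subsingleton V := Module.finrank_zero_iff.mp hV
    refine ⟨0, 0, Commute.zero_left _, fun W _ _ => ?_⟩
    rw [eq_top_iff]
    intro x _
    rw [Subsingleton.elim x 0]
    exact W.zero_mem
  have : Nontrivial V := Module.finrank_pos_iff.mp (by omega : 0 < Module.finrank ℂ V)
  obtain ⟨lam, m, v, φ, hm, hv, hφ0, hφ1⟩ := jordan_vector T
  set D : Module.End ℂ V := T - lam • 1 with hD
  have hT : ∀ x, T x = lam • x + D x := by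
    intro x
    simp [hD]
  let α : (Fin m → ℂ) →ₗ[ℂ] V := Fintype.linearCombination ℂ fun k : Fin m => (D ^ (k : ℕ)) v
  have hα : ∀ a, α a = ∑ k, a k • (D ^ (k : ℕ)) v := fun a =>
    Fintype.linearCombination_apply ℂ _ a
  let β : V →ₗ[ℂ] (Fin m → ℂ) := LinearMap.pi fun k : Fin m => φ ∘ₗ (D ^ (k : ℕ))
  have hβ : ∀ x k, β x k = φ ((D ^ (k : ℕ)) x) := fun x k => rfl
  have hvbig : ∀ k, m ≤ k → (D ^ k) v = 0 := by
    intro k hk
    obtain ⟨l, rfl⟩ := Nat.exists_eq_add_of_le' hk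
    rw [pow_add, Module.End.mul_apply, hv, map_zero]
  have hinj : ∀ a, β (α a) = 0 → a = 0 := by
    intro a ha
    by_contra hne
    have hex : ∃ k : ℕ, ∃ hk : k < m, a ⟨k, hk⟩ ≠ 0 := by
      by_contra hcon
      push Not at hcon
      exact hne (funext fun k => hcon k k.2)
    obtain ⟨hk, hak⟩ := Nat.find_spec hex
    set k₀ := Nat.find hex with hk₀
    have hmin : ∀ k (hk : k < m), k < k₀ → a ⟨k, hk⟩ = 0 := by
      intro k hk' hlt
      by_contra hcon
      exact Nat.find_min hex hlt ⟨hk', hcon⟩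
    have h1 := congrFun ha ⟨m - 1 - k₀, by omega⟩
    rw [hβ, hα, map_sum, map_sum, Finset.sum_eq_single ⟨k₀, hk⟩] at h1
    · rw [map_smul, map_smul, ← Module.End.mul_apply, ← pow_add, smul_eq_mul] at h1
      simp only [Pi.zero_apply] at h1
      have e : m - 1 - k₀ + k₀ = m - 1 := by omega
      rw [e] at h1
      rcases mul_eq_zero.mp h1 with h2 | h2
      · exact hak h2
      · exact hφ1 h2
    · intro k _ hkne
      rcases lt_or_ge (k : ℕ) k₀ with hlt | hge
      · rw [hmin k k.2 hlt, zero_smul, map_zero, map_zero]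
      · have hgt : k₀ < (k : ℕ) := by
          rcases Nat.lt_or_eq_of_le hge with h | h
          · exact h
          · exact absurd (Fin.ext h.symm) hkne
        rw [map_smul, ← Module.End.mul_apply, ← pow_add, hvbig _ (by
          simp only
          omega), smul_zero, map_zero]
    · intro h
      exact absurd (Finset.mem_univ _) h
  let U := LinearMap.ker β
  have hUD : ∀ x ∈ U, D x ∈ U := by
    intro x hx
    rw [LinearMap.mem_ker] at hx ⊢
    funext k
    rw [hβ, ← Module.End.mul_apply, ← pow_succ]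
    by_cases hk : (k : ℕ) + 1 < m
    · have := congrFun hx ⟨(k : ℕ) + 1, hk⟩
      rw [hβ] at this
      exact this
    · have : (k : ℕ) + 1 = m := by omega
      rw [this, hφ0]
      rfl
  have hUT : ∀ x ∈ U, T x ∈ U := by
    intro x hx
    rw [hT]
    exact U.add_mem (U.smul_mem _ hx) (hUD x hx)
  let C : Submodule ℂ V := LinearMap.range α
  have hCpow : ∀ k, (D ^ k) v ∈ C := by
    intro k
    by_cases hk : k < m
    · refine ⟨Pi.single ⟨k, hk⟩ 1, ?_⟩
      rw [hα, Finset.sum_eq_single ⟨k, hk⟩]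
      · simp
      · intro l _ hl
        rw [Pi.single_eq_of_ne hl, zero_smul]
      · intro h
        exact absurd (Finset.mem_univ _) h
    · rw [hvbig k (by omega)]
      exact C.zero_mem
  have hCD : ∀ x ∈ C, D x ∈ C := by
    rintro _ ⟨a, rfl⟩
    rw [hα, map_sum]
    refine C.sum_mem fun k _ => ?_
    rw [map_smul, ← Module.End.mul_apply, ← pow_succ']
    exact C.smul_mem _ (hCpow _)
  have hCT : ∀ x ∈ C, T x ∈ C := by
    intro x hx
    rw [hT]
    exact C.add_mem (C.smul_mem _ hx) (hCD x hx)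
  have hcompl : IsCompl C U := by
    constructor
    · rw [Submodule.disjoint_def]
      rintro _ ⟨a, rfl⟩ hx
      rw [hinj a hx, map_zero]
    · rw [codisjoint_iff, eq_top_iff]
      intro x _
      have hsurj0 : Function.Surjective (β ∘ₗ α) := by
        rw [← LinearMap.injective_iff_surjective, ← LinearMap.ker_eq_bot, LinearMap.ker_eq_bot']
        exact hinj
      obtain ⟨a, ha⟩ := hsurj0 (β x)
      rw [Submodule.mem_sup]
      refine ⟨α a, ⟨a, rfl⟩, x - α a, ?_, by abel⟩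
      rw [LinearMap.mem_ker, map_sub, ← ha]
      exact sub_self _
  have hvC : v ∈ C := by
    have := hCpow 0
    simpa using this
  have hv0 : v ≠ 0 := by
    intro h0
    apply hφ1
    rw [h0, map_zero, map_zero]
  have hdim : Module.finrank ℂ U < n := by
    have h1 := Submodule.finrank_add_eq_of_isCompl hcompl
    have h2 : 0 < Module.finrank ℂ C := by
      rw [Module.finrank_pos_iff]
      exact ⟨⟨⟨v, hvC⟩, 0, fun h => hv0 (congrArg Subtype.val h)⟩⟩
    omega
  obtain ⟨NU, u₀, hcom, hcyc⟩ := ih _ hdim U (T.restrict hUT) rfl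
  obtain ⟨g, hg⟩ : ∃ g : Polynomial ℂ, g = minpoly ℂ NU := ⟨_, rfl⟩
  have hg0 : g ≠ 0 := by
    rw [hg]
    exact minpoly.ne_zero (Algebra.IsIntegral.isIntegral NU)
  have hgN : Polynomial.aeval NU g = 0 := by
    rw [hg]
    exact minpoly.aeval ℂ NU
  obtain ⟨c, hc⟩ : ∃ c : ℂ, g.eval c ≠ 0 := by
    by_contra hcon
    push Not at hcon
    exact hg0 (Polynomial.funext fun x => by rw [hcon x, Polynomial.eval_zero])
  -- projections
  obtain ⟨πU, hπU, hπC⟩ : ∃ πU : V →ₗ[ℂ] U, (∀ u : U, πU (u : V) = u) ∧ ∀ x ∈ C, πU x = 0 := by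
    refine ⟨Submodule.projectionOnto U C hcompl.symm, fun u => ?_, fun x hx => ?_⟩
    · exact Submodule.projectionOnto_apply_left _ u
    · exact Submodule.projectionOnto_apply_of_mem_right hcompl.symm hx
  obtain ⟨N, hN⟩ : ∃ N : Module.End ℂ V, ∀ x, N x =
      (c • (x - (πU x : V)) + D (x - (πU x : V))) + (NU (πU x) : V) := by
    refine ⟨(c • LinearMap.id + D) ∘ₗ (LinearMap.id - U.subtype ∘ₗ πU) +
      U.subtype ∘ₗ NU ∘ₗ πU, fun x => ?_⟩
    simp
  have hNC : ∀ x ∈ C, N x = c • x + D x := by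
    intro x hx
    rw [hN, hπC x hx]
    simp
  have hNU : ∀ u : U, N (u : V) = (NU u : V) := by
    intro u
    rw [hN, hπU]
    simp
  have hdec : ∀ x : V, ∃ y ∈ C, ∃ u : U, x = y + (u : V) := by
    intro x
    have hx : x ∈ C ⊔ U := by
      rw [codisjoint_iff.mp hcompl.codisjoint]
      trivial
    obtain ⟨y, hy, z, hz, rfl⟩ := Submodule.mem_sup.mp hx
    exact ⟨y, hy, ⟨z, hz⟩, rfl⟩
  refine ⟨N, v + (u₀ : V), ?_, ?_⟩
  · change N * T = T * N
    apply LinearMap.ext
    intro x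
    obtain ⟨y, hy, u, rfl⟩ := hdec x
    rw [Module.End.mul_apply, Module.End.mul_apply, map_add, map_add, map_add, map_add]
    congr 1
    · rw [hNC _ (hCT y hy), hNC y hy, map_add, map_smul]
      congr 1
      rw [hT, hT, map_add, map_smul]
    · have h1 : T (u : V) = ((T.restrict hUT u : U) : V) := rfl
      rw [h1, hNU, hNU]
      have h2 := LinearMap.congr_fun hcom.eq u
      rw [Module.End.mul_apply, Module.End.mul_apply] at h2
      rw [h2]
      rfl
  · intro W hW hNW
    -- powers of `N - c` on `v`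
    have hpow : ∀ k : ℕ, ((N - c • 1) ^ k) v = (D ^ k) v := by
      intro k
      induction k with
      | zero => simp
      | succ k ih =>
        rw [pow_succ', pow_succ', Module.End.mul_apply, Module.End.mul_apply, ih]
        rw [LinearMap.sub_apply, hNC _ (hCpow k)]
        simp
    have haev : ∀ (p : Polynomial ℂ) (u : U), Polynomial.aeval N p (u : V) =
        ((Polynomial.aeval NU p u : U) : V) := by
      intro p u
      have hk : ∀ k : ℕ, (N ^ k) (u : V) = (((NU ^ k) u : U) : V) := by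
        intro k
        induction k with
        | zero => simp
        | succ k ih =>
          rw [pow_succ', pow_succ', Module.End.mul_apply, Module.End.mul_apply, ih, hNU]
      rw [Polynomial.aeval_eq_sum_range, Polynomial.aeval_eq_sum_range, LinearMap.sum_apply,
        LinearMap.sum_apply, AddSubmonoidClass.coe_finsetSum]
      refine Finset.sum_congr rfl fun k _ => ?_
      rw [LinearMap.smul_apply, LinearMap.smul_apply, hk]
      rfl
    have h1 : Polynomial.aeval N g (v + (u₀ : V)) ∈ W := aeval_mem N W hNW g hW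
    rw [map_add, haev, hgN, LinearMap.zero_apply, Submodule.coe_zero, add_zero] at h1
    have hcop : IsCoprime ((Polynomial.X - Polynomial.C c) ^ m) g := by
      apply IsCoprime.pow_left
      rw [(Polynomial.irreducible_X_sub_C c).coprime_iff_not_dvd, Polynomial.dvd_iff_isRoot]
      exact hc
    obtain ⟨a, b, hab⟩ := hcop
    have hvW : v ∈ W := by
      have h2 : Polynomial.aeval N (a * (Polynomial.X - Polynomial.C c) ^ m + b * g) v = v := by
        rw [hab]
        simp
      rw [map_add, LinearMap.add_apply, map_mul, map_mul, Module.End.mul_apply,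
        Module.End.mul_apply] at h2
      have h3 : Polynomial.aeval N ((Polynomial.X - Polynomial.C c) ^ m) v = 0 := by
        have h4 : Polynomial.aeval N ((Polynomial.X - Polynomial.C c) ^ m) =
            (N - c • (1 : Module.End ℂ V)) ^ m := by
          rw [map_pow, map_sub, Polynomial.aeval_X, Polynomial.aeval_C, Algebra.algebraMap_eq_smul_one]
        rw [h4, hpow, hv]
      rw [h3, map_zero, zero_add] at h2
      rw [← h2]
      exact aeval_mem N W hNW b h1
    have huW : (u₀ : V) ∈ W := by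
      have := W.sub_mem hW hvW
      simpa using this
    have hUW : ∀ u : U, (u : V) ∈ W := by
      have h2 := hcyc (W.comap U.subtype) huW (by
        intro x hx
        have := hNW _ hx
        change ((NU x : U) : V) ∈ W
        rw [← hNU]
        exact this)
      intro u
      have h3 : u ∈ W.comap U.subtype := by rw [h2]; trivial
      exact h3
    have hDW : ∀ k, (D ^ k) v ∈ W := by
      intro k
      rw [← hpow k]
      induction k with
      | zero => simpa using hvW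
      | succ k ih =>
        rw [pow_succ', Module.End.mul_apply, LinearMap.sub_apply]
        exact W.sub_mem (hNW _ ih) (by
          rw [LinearMap.smul_apply]
          exact W.smul_mem _ ih)
    rw [eq_top_iff]
    intro x _
    obtain ⟨y, hy, u, rfl⟩ := hdec x
    refine W.add_mem ?_ (hUW u)
    obtain ⟨a, rfl⟩ := hy
    rw [hα]
    exact W.sum_mem fun k _ => W.smul_mem _ (hDW _)

/-- Every matrix commutes with a cyclic matrix. -/
theorem exists_cyclic {d : ℕ} (B : Mat d ℂ) :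
    ∃ (N : Mat d ℂ) (v : Fin d → ℂ), N * B = B * N ∧ IsUnit (kry N v) := by
  obtain ⟨N, v, h1, h2⟩ := cyc_aux d (Fin d → ℂ) (Matrix.toLin' B) (by simp only [Module.finrank_fintype_fun_eq_card, Fintype.card_fin])
  refine ⟨LinearMap.toMatrix' N, v, ?_, ?_⟩
  · have h3 := congrArg LinearMap.toMatrix' h1.eq
    rw [LinearMap.toMatrix'_mul, LinearMap.toMatrix'_mul, LinearMap.toMatrix'_toLin'] at h3
    exact h3
  · rw [← Matrix.mulVec_surjective_iff_isUnit]
    intro w
    obtain ⟨M, hM⟩ : ∃ M : Mat d ℂ, M = LinearMap.toMatrix' N := ⟨_, rfl⟩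
    rw [← hM]
    have hMN : ∀ x, N x = M *ᵥ x := by
      intro x
      rw [hM]
      simp [LinearMap.toMatrix'_mulVec]
    have h3 : (LinearMap.range (LinearMap.applyₗ v ∘ₗ
        (Polynomial.aeval N : Polynomial ℂ →ₐ[ℂ] _).toLinearMap) : Submodule ℂ (Fin d → ℂ)) = ⊤ := by
      apply h2
      · exact ⟨1, by simp⟩
      · rintro _ ⟨p, rfl⟩
        refine ⟨Polynomial.X * p, ?_⟩
        simp [Module.End.mul_apply]
    have h4 : w ∈ (LinearMap.range (LinearMap.applyₗ v ∘ₗ
        (Polynomial.aeval N : Polynomial ℂ →ₐ[ℂ] _).toLinearMap) : Submodule ℂ (Fin d → ℂ)) := by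
      rw [h3]
      trivial
    obtain ⟨p, hp⟩ := h4
    have hp' : Polynomial.aeval N p v = w := hp
    have hmonic := LinearMap.charpoly_monic N
    have e1 := Polynomial.modByMonic_add_div p N.charpoly
    have hdeg : (p %ₘ N.charpoly).degree < (d : WithBot ℕ) := by
      have := Polynomial.degree_modByMonic_lt p hmonic
      rwa [Polynomial.degree_eq_natDegree hmonic.ne_zero, LinearMap.charpoly_natDegree,
        Module.finrank_fin_fun] at this
    have e2 : Polynomial.aeval N p = Polynomial.aeval N (p %ₘ N.charpoly) := by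
      conv_lhs => rw [← e1]
      rw [map_add, map_mul, LinearMap.aeval_self_charpoly, zero_mul, add_zero]
    rw [e2] at hp'
    obtain ⟨q, hq⟩ : ∃ q, q = p %ₘ N.charpoly := ⟨_, rfl⟩
    rw [← hq] at hp' hdeg
    refine ⟨fun j => q.coeff j, ?_⟩
    have hsum : Polynomial.aeval N q = ∑ i ∈ Finset.range d, q.coeff i • N ^ i := by
      by_cases hq0 : q = 0
      · rw [hq0]
        simp only [map_zero, Polynomial.coeff_zero, zero_smul, Finset.sum_const_zero]
      · exact Polynomial.aeval_eq_sum_range' ((Polynomial.natDegree_lt_iff_degree_lt hq0).mpr hdeg) N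
    rw [← hp', hsum, LinearMap.sum_apply, Finset.sum_range]
    ext i
    rw [Matrix.mulVec, dotProduct, Finset.sum_apply]
    refine Finset.sum_congr rfl fun j _ => ?_
    rw [LinearMap.smul_apply, Pi.smul_apply, smul_eq_mul, mul_comm]
    congr 1
    have hpow : ∀ k : ℕ, (N ^ k) v = (M ^ k) *ᵥ v := by
      intro k
      induction k with
      | zero => simp only [pow_zero, Module.End.one_apply, one_mulVec]
      | succ k ih => rw [pow_succ', pow_succ', Module.End.mul_apply, ih, hMN, mulVec_mulVec]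
    rw [hpow]
    rfl

end Vale.Agent.P002B.QB
end

section

/-!
# q-commuting pairs, part 1: Zariski closures, rational families, conjugation
-/

namespace Vale.Agent.P002B.QB

open Matrix MvPolynomial

/-- Zariski dense sets. -/
def ZD {τ : Type*} (D : Set (τ → ℂ)) : Prop :=
  ∀ F : MvPolynomial τ ℂ, (∀ t ∈ D, eval t F = 0) → F = 0

theorem zd_ne {τ : Type*} {g : MvPolynomial τ ℂ} (hg : g ≠ 0) :
    ZD {t : τ → ℂ | eval t g ≠ 0} := by
  intro F hF
  have h : F * g = 0 := by
    apply MvPolynomial.funext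
    intro t
    rw [map_mul, map_zero]
    by_cases h0 : eval t g = 0
    · rw [h0, mul_zero]
    · rw [hF t h0, zero_mul]
  exact (mul_eq_zero.mp h).resolve_right hg

theorem zd_box {τ : Type*} (s : τ → Set ℂ) (hs : ∀ i, (s i).Infinite) :
    ZD {t : τ → ℂ | ∀ i, t i ∈ s i} := by
  intro F hF
  refine MvPolynomial.funext_set s hs fun x hx => ?_
  rw [hF x fun i => hx i (Set.mem_univ i), map_zero]

theorem clear_den {σ τ : Type*} (N : σ → MvPolynomial τ ℂ) (h : MvPolynomial τ ℂ)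
    (f : MvPolynomial σ ℂ) :
    ∃ n₀ : ℕ, ∀ n ≥ n₀, ∃ F : MvPolynomial τ ℂ, ∀ t, eval t h ≠ 0 →
      eval t F = (eval t h) ^ n * eval (fun s => eval t (N s) / eval t h) f := by
  induction f using MvPolynomial.induction_on with
  | C a => exact ⟨0, fun n _ => ⟨C a * h ^ n, fun t _ => by simp only [mul_comm, map_mul, map_pow, eval_C]⟩⟩
  | add f g hf hg =>
    obtain ⟨n1, h1⟩ := hf
    obtain ⟨n2, h2⟩ := hg
    refine ⟨max n1 n2, fun n hn => ?_⟩
    obtain ⟨F1, hF1⟩ := h1 n (le_trans (le_max_left _ _) hn)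
    obtain ⟨F2, hF2⟩ := h2 n (le_trans (le_max_right _ _) hn)
    exact ⟨F1 + F2, fun t ht => by rw [map_add, map_add, hF1 t ht, hF2 t ht, mul_add]⟩
  | mul_X f s hf =>
    obtain ⟨n1, h1⟩ := hf
    refine ⟨n1 + 1, fun n hn => ?_⟩
    obtain ⟨k, rfl⟩ : ∃ k, n = k + 1 := ⟨n - 1, by (clear * - hn; omega)⟩
    obtain ⟨F1, hF1⟩ := h1 k (by omega)
    refine ⟨F1 * N s, fun t ht => ?_⟩
    rw [map_mul, map_mul, hF1 t ht, eval_X, pow_succ]
    field_simp

theorem ratfam {σ τ : Type*} {D : Set (τ → ℂ)} (hD : ZD D) (N : σ → MvPolynomial τ ℂ)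
    (h : MvPolynomial τ ℂ) (f : MvPolynomial σ ℂ)
    (hf : ∀ t ∈ D, eval t h ≠ 0 → eval (fun s => eval t (N s) / eval t h) f = 0) :
    ∀ t, eval t h ≠ 0 → eval (fun s => eval t (N s) / eval t h) f = 0 := by
  intro t ht
  obtain ⟨n, hn⟩ := clear_den N h f
  obtain ⟨F, hF⟩ := hn n le_rfl
  have h1 : F * h = 0 := by
    apply hD
    intro s hs
    rw [map_mul]
    by_cases h0 : eval s h = 0
    · rw [h0, mul_zero]
    · rw [hF s h0, hf s hs h0, mul_zero, zero_mul]
  have h2 : F = 0 := by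
    rcases mul_eq_zero.mp h1 with h3 | h3
    · exact h3
    · rw [h3, map_zero] at ht
      exact absurd rfl ht
  have h3 := hF t ht
  rw [h2, map_zero] at h3
  rcases mul_eq_zero.mp h3.symm with h4 | h4
  · exact absurd h4 (pow_ne_zero _ ht)
  · exact h4

/-- Coordinates of a pair of matrices. -/
def pt {S : Type*} {d : ℕ} (A B : Matrix (Fin d) (Fin d) S) :
    (Fin 1 × Bool) × Fin d × Fin d → S :=
  fun x => (if x.1.2 then B else A) x.2.1 x.2.2

/-- Solutions. -/
def Sol {R : Type*} [CommRing R] (μ : R) {d : ℕ} (a b : Matrix (Fin d) (Fin d) R) : Prop :=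
  IsUnit a ∧ IsUnit b ∧ a * b = μ • (b * a)

/-- The Zariski closure of the integral solutions. -/
def GD {R : Type*} [CommRing R] (φ : R →+* ℂ) (μ : R) {d : ℕ}
    (A B : Matrix (Fin d) (Fin d) ℂ) : Prop :=
  ∀ f : MvPolynomial ((Fin 1 × Bool) × Fin d × Fin d) ℂ,
    (∀ a b : Matrix (Fin d) (Fin d) R, Sol μ a b → eval (pt (a.map φ) (b.map φ)) f = 0) →
      eval (pt A B) f = 0

variable {R : Type*} [CommRing R] {φ : R →+* ℂ} {μ μ' : R} {d d' : ℕ}

theorem GD.of_sol {a b : Matrix (Fin d) (Fin d) R} (h : Sol μ a b) :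
    GD φ μ (a.map φ) (b.map φ) := fun _ hf => hf a b h

theorem eval_bind {σ τ : Type*} (G : σ → MvPolynomial τ ℂ) (f : MvPolynomial σ ℂ) (y : τ → ℂ) :
    eval y (bind₁ G f) = eval (fun s => eval y (G s)) f := by
  induction f using MvPolynomial.induction_on with
  | C a => simp only [algHom_C, algebraMap_eq, eval_C]
  | add f g hf hg => rw [map_add, map_add, map_add, hf, hg]
  | mul_X f s hf => rw [map_mul, map_mul, map_mul, hf, bind₁_X_right, eval_X]

theorem pt_map {S T : Type*} (A B : Matrix (Fin d) (Fin d) S) (θ : S → T) :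
    pt (A.map θ) (B.map θ) = fun s => θ (pt A B s) := by
  funext s
  rcases s with ⟨⟨i, e⟩, j, k⟩
  cases e <;> rfl

theorem GD.subst {A B : Matrix (Fin d) (Fin d) ℂ} (h : GD φ μ A B)
    (GA GB : Matrix (Fin d') (Fin d') (MvPolynomial ((Fin 1 × Bool) × Fin d × Fin d) ℂ))
    (hG : ∀ a b : Matrix (Fin d) (Fin d) R, Sol μ a b →
      ∃ a' b' : Matrix (Fin d') (Fin d') R, Sol μ' a' b' ∧
        GA.map (eval (pt (a.map φ) (b.map φ))) = a'.map φ ∧
        GB.map (eval (pt (a.map φ) (b.map φ))) = b'.map φ) :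
    GD φ μ' (GA.map (eval (pt A B))) (GB.map (eval (pt A B))) := by
  intro f hf
  have h1 := h (bind₁ (pt GA GB) f) (by
    intro a b hab
    obtain ⟨a', b', hab', h2, h3⟩ := hG a b hab
    rw [eval_bind]
    have h4 := hf a' b' hab'
    rw [← h2, ← h3, pt_map] at h4
    exact h4)
  rw [eval_bind] at h1
  rw [pt_map]
  exact h1

theorem GD.ratfam {τ : Type*} {D : Set (τ → ℂ)} (hD : ZD D)
    (NA NB : Matrix (Fin d) (Fin d) (MvPolynomial τ ℂ)) (h : MvPolynomial τ ℂ)
    (hG : ∀ t ∈ D, eval t h ≠ 0 →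
      GD φ μ ((eval t h)⁻¹ • NA.map (eval t)) ((eval t h)⁻¹ • NB.map (eval t)))
    (t : τ → ℂ) (ht : eval t h ≠ 0) :
    GD φ μ ((eval t h)⁻¹ • NA.map (eval t)) ((eval t h)⁻¹ • NB.map (eval t)) := by
  intro f hf
  have key : ∀ s : τ → ℂ,
      pt ((eval s h)⁻¹ • NA.map (eval s)) ((eval s h)⁻¹ • NB.map (eval s)) =
        fun x => eval s (pt NA NB x) / eval s h := by
    intro s
    funext x
    rcases x with ⟨⟨i, e⟩, j, k⟩
    cases e <;> simp [pt, div_eq_inv_mul]
  have h1 := QB.ratfam hD (pt NA NB) h f (by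
    intro s hs hs'
    rw [← key]
    exact hG s hs hs' f hf) t ht
  rw [key]
  exact h1

theorem GD.polyfam {τ : Type*} {D : Set (τ → ℂ)} (hD : ZD D)
    (NA NB : Matrix (Fin d) (Fin d) (MvPolynomial τ ℂ))
    (hG : ∀ t ∈ D, GD φ μ (NA.map (eval t)) (NB.map (eval t))) (t : τ → ℂ) :
    GD φ μ (NA.map (eval t)) (NB.map (eval t)) := by
  have h1 := GD.ratfam (φ := φ) (μ := μ) hD NA NB 1 (by
    intro s hs _
    have := hG s hs
    simpa using this) t (by simp)
  simpa only [map_one, inv_one, one_smul] using h1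

/-! ### Conjugation -/

/-- The generic matrices. -/
noncomputable def gen (d : ℕ) (e : Bool) :
    Matrix (Fin d) (Fin d) (MvPolynomial ((Fin 1 × Bool) × Fin d × Fin d) ℂ) :=
  Matrix.of fun i j => X ((0, e), i, j)

theorem gen_false (A B : Matrix (Fin d) (Fin d) ℂ) : (gen d false).map (eval (pt A B)) = A := by
  ext i j
  simp [gen, pt]

theorem gen_true (A B : Matrix (Fin d) (Fin d) ℂ) : (gen d true).map (eval (pt A B)) = B := by
  ext i j
  simp [gen, pt]

theorem map_C {τ : Type*} {m n : Type*} (A : Matrix m n ℂ) (t : τ → ℂ) :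
    (A.map (C : ℂ → MvPolynomial τ ℂ)).map (eval t) = A := by
  ext i j
  simp only [map_apply, eval_C]

theorem Sol.conj {a b x y : Matrix (Fin d) (Fin d) R} (h : Sol μ a b) (hxy : x * y = 1)
    (hyx : y * x = 1) : Sol μ (x * a * y) (x * b * y) := by
  have hx : IsUnit x := ⟨⟨x, y, hxy, hyx⟩, rfl⟩
  have hy : IsUnit y := ⟨⟨y, x, hyx, hxy⟩, rfl⟩
  refine ⟨(hx.mul h.1).mul hy, (hx.mul h.2.1).mul hy, ?_⟩
  have h1 : x * a * y * (x * b * y) = x * (a * b) * y := by
    calc x * a * y * (x * b * y) = x * a * (y * x) * b * y := by noncomm_ring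
      _ = x * (a * b) * y := by rw [hyx]; noncomm_ring
  have h2 : x * b * y * (x * a * y) = x * (b * a) * y := by
    calc x * b * y * (x * a * y) = x * b * (y * x) * a * y := by noncomm_ring
      _ = x * (b * a) * y := by rw [hyx]; noncomm_ring
  rw [h1, h2, h.2.2, Matrix.mul_smul, Matrix.smul_mul]

theorem GD.conj_int {A B : Matrix (Fin d) (Fin d) ℂ} (h : GD φ μ A B)
    (x y : Matrix (Fin d) (Fin d) ℤ) (hxy : x * y = 1) (hyx : y * x = 1) :
    GD φ μ (x.map (Int.castRingHom ℂ) * A * y.map (Int.castRingHom ℂ))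
      (x.map (Int.castRingHom ℂ) * B * y.map (Int.castRingHom ℂ)) := by
  set xc : Matrix (Fin d) (Fin d) ℂ := x.map (Int.castRingHom ℂ) with hxc
  set yc : Matrix (Fin d) (Fin d) ℂ := y.map (Int.castRingHom ℂ) with hyc
  have h0 : (x.map (Int.castRingHom R)).map φ = xc := by
    ext i j
    simp only [Int.coe_castRingHom, map_apply, map_intCast, hxc]
  have h0' : (y.map (Int.castRingHom R)).map φ = yc := by
    ext i j
    simp only [Int.coe_castRingHom, map_apply, map_intCast, hyc]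
  have h1 := h.subst (μ' := μ) (xc.map C * gen d false * yc.map C) (xc.map C * gen d true * yc.map C)
    (by
      intro a b hab
      refine ⟨x.map (Int.castRingHom R) * a * y.map (Int.castRingHom R),
        x.map (Int.castRingHom R) * b * y.map (Int.castRingHom R), hab.conj ?_ ?_, ?_, ?_⟩
      · rw [← Matrix.map_mul, hxy, Matrix.map_one _ (map_zero _) (map_one _)]
      · rw [← Matrix.map_mul, hyx, Matrix.map_one _ (map_zero _) (map_one _)]
      · rw [Matrix.map_mul, Matrix.map_mul, map_C, map_C, gen_false, Matrix.map_mul,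
          Matrix.map_mul, h0, h0']
      · rw [Matrix.map_mul, Matrix.map_mul, map_C, map_C, gen_true, Matrix.map_mul,
          Matrix.map_mul, h0, h0'])
  rw [Matrix.map_mul, Matrix.map_mul, map_C, map_C, gen_false, Matrix.map_mul, Matrix.map_mul,
    map_C, map_C, gen_true] at h1
  exact h1

theorem GD.conj {A B : Matrix (Fin d) (Fin d) ℂ} (h : GD φ μ A B)
    (P Q : Matrix (Fin d) (Fin d) ℂ) (hPQ : P * Q = 1) : GD φ μ (P * A * Q) (P * B * Q) := by
  obtain ⟨D, hD⟩ : ∃ D : Set (Fin d × Fin d → ℂ), D = {t | ∃ (c : ℂˣ)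
    (X : SpecialLinearGroup (Fin d) ℤ), t = fun p => (c : ℂ) * ((X.1 p.1 p.2 : ℤ) : ℂ)} :=
    ⟨_, rfl⟩
  have hZ : ZD D := by
    intro F hF
    refine Vale.Agent.P002.scaledSL_dense F fun c X => ?_
    apply hF
    rw [hD]
    exact ⟨c, X, rfl⟩
  have hX : ∀ t : Fin d × Fin d → ℂ, (mvPolynomialX (Fin d) (Fin d) ℂ).map (eval t) =
      Matrix.of fun i j => t (i, j) := by
    intro t
    ext i j
    simp only [mvPolynomialX, map_apply, of_apply, eval_X]
  have hdet : ∀ t : Fin d × Fin d → ℂ, eval t (mvPolynomialX (Fin d) (Fin d) ℂ).det =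
      (Matrix.of fun i j => t (i, j)).det := by
    intro t
    rw [RingHom.map_det, RingHom.mapMatrix_apply, hX]
  have hadj : ∀ t : Fin d × Fin d → ℂ,
      (mvPolynomialX (Fin d) (Fin d) ℂ).adjugate.map (eval t) =
      (Matrix.of fun i j => t (i, j)).adjugate := by
    intro t
    have := RingHom.map_adjugate (eval t) (mvPolynomialX (Fin d) (Fin d) ℂ)
    rw [RingHom.mapMatrix_apply, RingHom.mapMatrix_apply, hX] at this
    exact this
  have key := GD.ratfam (φ := φ) (μ := μ) hZ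
    (mvPolynomialX (Fin d) (Fin d) ℂ * A.map C * (mvPolynomialX (Fin d) (Fin d) ℂ).adjugate)
    (mvPolynomialX (Fin d) (Fin d) ℂ * B.map C * (mvPolynomialX (Fin d) (Fin d) ℂ).adjugate)
    (mvPolynomialX (Fin d) (Fin d) ℂ).det (by
      intro t ht _
      rw [hD] at ht
      obtain ⟨c, X, rfl⟩ := ht
      rw [Matrix.map_mul, Matrix.map_mul, Matrix.map_mul, Matrix.map_mul, hX, hadj, map_C, map_C,
        hdet]
      have hX1 : X.1 * (X⁻¹).1 = 1 := by
        have := congrArg Subtype.val (mul_inv_cancel X)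
        exact this
      have hX2 : (X⁻¹).1 * X.1 = 1 := by
        have := congrArg Subtype.val (inv_mul_cancel X)
        exact this
      have h1 := h.conj_int X.1 (X⁻¹).1 hX1 hX2
      obtain ⟨M, hM⟩ : ∃ M : Matrix (Fin d) (Fin d) ℂ, M = X.1.map (Int.castRingHom ℂ) :=
        ⟨_, rfl⟩
      obtain ⟨M', hM'⟩ : ∃ M' : Matrix (Fin d) (Fin d) ℂ,
        M' = (X⁻¹).1.map (Int.castRingHom ℂ) := ⟨_, rfl⟩
      have hMM : M * M' = 1 := by
        rw [hM, hM', ← Matrix.map_mul, hX1, Matrix.map_one _ (map_zero _) (map_one _)]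
      have hMM' : M' * M = 1 := by
        rw [hM, hM', ← Matrix.map_mul, hX2, Matrix.map_one _ (map_zero _) (map_one _)]
      have h2 : (Matrix.of fun i j => (c : ℂ) * ((X.1 i j : ℤ) : ℂ)) = (c : ℂ) • M := by
        rw [hM]
        ext i j
        simp only [of_apply, Int.coe_castRingHom, Matrix.smul_apply, map_apply, smul_eq_mul]
      simp only
      rw [h2]
      rw [← hM, ← hM'] at h1
      have hc : (c : ℂ) ≠ 0 := c.ne_zero
      have hdM : ((c : ℂ) • M).det ≠ 0 := by
        rw [Matrix.det_smul]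
        refine mul_ne_zero (pow_ne_zero _ hc) fun h0 => ?_
        have := congrArg Matrix.det hMM
        rw [Matrix.det_mul, h0, zero_mul, Matrix.det_one] at this
        exact zero_ne_one this
      have hadj' : (((c : ℂ) • M).det)⁻¹ • ((c : ℂ) • M).adjugate = (c : ℂ)⁻¹ • M' := by
        have e1 : ((c : ℂ) • M) * ((((c : ℂ) • M).det)⁻¹ • ((c : ℂ) • M).adjugate) = 1 := by
          rw [Matrix.mul_smul, Matrix.mul_adjugate, smul_smul, inv_mul_cancel₀ hdM, one_smul]
        have e2 : ((c : ℂ)⁻¹ • M') * ((c : ℂ) • M) = 1 := by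
          rw [Matrix.smul_mul, Matrix.mul_smul, smul_smul, inv_mul_cancel₀ hc, hMM', one_smul]
        exact (left_inv_eq_right_inv e2 e1).symm
      have e3 : ∀ Z : Matrix (Fin d) (Fin d) ℂ, (((c : ℂ) • M).det)⁻¹ •
          (((c : ℂ) • M) * Z * ((c : ℂ) • M).adjugate) = M * Z * M' := by
        intro Z
        rw [← Matrix.mul_smul, hadj', Matrix.smul_mul, Matrix.smul_mul, Matrix.mul_smul,
          smul_smul, mul_inv_cancel₀ hc, one_smul]
      rw [e3, e3]
      exact h1)
    (fun p => P p.1 p.2) (by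
      rw [hdet]
      intro h0
      have h1 : (Matrix.of fun i j => P i j) = P := rfl
      simp only at h0
      rw [h1] at h0
      have := congrArg Matrix.det hPQ
      rw [Matrix.det_mul, h0, zero_mul, Matrix.det_one] at this
      exact zero_ne_one this)
  rw [Matrix.map_mul, Matrix.map_mul, Matrix.map_mul, Matrix.map_mul, hX, hadj, map_C, map_C,
    hdet] at key
  have h1 : (Matrix.of fun i j => P i j) = P := rfl
  simp only at key
  rw [h1] at key
  have hdP : P.det ≠ 0 := by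
    intro h0
    have := congrArg Matrix.det hPQ
    rw [Matrix.det_mul, h0, zero_mul, Matrix.det_one] at this
    exact zero_ne_one this
  have hQ : (P.det)⁻¹ • P.adjugate = Q := by
    have e1 : P * ((P.det)⁻¹ • P.adjugate) = 1 := by
      rw [Matrix.mul_smul, Matrix.mul_adjugate, smul_smul, inv_mul_cancel₀ hdP, one_smul]
    have e2 : Q * P = 1 := mul_eq_one_comm.mp hPQ
    exact (left_inv_eq_right_inv e2 e1).symm
  rw [← Matrix.mul_smul, ← Matrix.mul_smul, hQ] at key
  exact key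

end Vale.Agent.P002B.QB
end

section

/-!
# q-commuting pairs, part 2: commuting pairs
-/

namespace Vale.Agent.P002B.QB

open Matrix MvPolynomial Vale.Agent.P002

variable {R : Type*} [CommRing R] {φ : R →+* ℂ} {d : ℕ}

theorem GD.diag (u : Rˣ) (hu : ∀ k : ℕ, 0 < k → (φ u) ^ k ≠ 1) (α β : Fin d → ℂ) :
    GD φ 1 (diagonal α) (diagonal β) := by
  have hu0 : φ u ≠ 0 := (u.isUnit.map φ).ne_zero
  have hinf : (Set.range fun k : ℕ => (φ u) ^ k).Infinite := by
    apply Set.infinite_range_of_injective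
    have key : ∀ k l : ℕ, k < l → (φ u) ^ k ≠ (φ u) ^ l := by
      intro k l hkl h
      apply hu (l - k) (by omega)
      have h1 : (φ u) ^ l = (φ u) ^ k * (φ u) ^ (l - k) := by
        rw [← pow_add]
        congr 1
        omega
      rw [h1] at h
      have h2 : (φ u) ^ k * 1 = (φ u) ^ k * (φ u) ^ (l - k) := by rw [mul_one]; exact h
      exact (mul_left_cancel₀ (pow_ne_zero _ hu0) h2).symm
    intro k l hkl
    rcases lt_trichotomy k l with h | h | h
    · exact absurd hkl (key k l h)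
    · exact h
    · exact absurd hkl.symm (key l k h)
  have hZ := zd_box (fun _ : Bool × Fin d => Set.range fun k : ℕ => (φ u) ^ k) (fun _ => hinf)
  have h1 := GD.polyfam (φ := φ) (μ := 1) hZ (diagonal fun i => X (false, i))
    (diagonal fun i => X (true, i)) (by
      intro t ht
      choose k hk using ht
      simp only at hk
      have e : ∀ e : Bool, (diagonal fun i : Fin d => (X (e, i) : MvPolynomial (Bool × Fin d) ℂ)).map
          (eval t) = (diagonal fun i => ((u ^ k (e, i) : Rˣ) : R)).map φ := by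
        intro e
        rw [Matrix.diagonal_map (map_zero _), Matrix.diagonal_map (map_zero _)]
        congr 1
        funext i
        rw [eval_X, Units.val_pow_eq_pow_val, map_pow, ← hk]
      rw [e, e]
      apply GD.of_sol
      have hun : ∀ w : Fin d → Rˣ, IsUnit (diagonal fun i => ((w i : Rˣ) : R)) := by
        intro w
        refine ⟨⟨diagonal fun i => ((w i : Rˣ) : R), diagonal fun i => (((w i)⁻¹ : Rˣ) : R),
          ?_, ?_⟩, rfl⟩
        · rw [diagonal_mul_diagonal]
          simp only [Units.mul_inv, diagonal_one]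
        · rw [diagonal_mul_diagonal]
          simp only [Units.inv_mul, diagonal_one]
      refine ⟨hun _, hun _, ?_⟩
      rw [one_smul, diagonal_mul_diagonal, diagonal_mul_diagonal]
      congr 1
      funext i
      rw [mul_comm])
    (fun p => if p.1 then β p.2 else α p.2)
  rw [Matrix.diagonal_map (map_zero _), Matrix.diagonal_map (map_zero _)] at h1
  simpa only [eval_X, Bool.false_eq_true, ↓reduceIte] using h1

theorem aeval_conj (P D Q : Matrix (Fin d) (Fin d) ℂ) (hPQ : P * Q = 1) (p : Polynomial ℂ) :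
    Polynomial.aeval (P * D * Q) p = P * Polynomial.aeval D p * Q := by
  have hQP : Q * P = 1 := mul_eq_one_comm.mp hPQ
  have hk : ∀ k : ℕ, (P * D * Q) ^ k = P * D ^ k * Q := by
    intro k
    induction k with
    | zero => simp [hPQ]
    | succ k ih =>
      rw [pow_succ, ih, pow_succ]
      calc P * D ^ k * Q * (P * D * Q) = P * D ^ k * (Q * P) * D * Q := by noncomm_ring
        _ = P * (D ^ k * D) * Q := by rw [hQP]; noncomm_ring
  rw [Polynomial.aeval_eq_sum_range, Polynomial.aeval_eq_sum_range, Finset.mul_sum,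
    Finset.sum_mul]
  refine Finset.sum_congr rfl fun k _ => ?_
  rw [hk, Matrix.mul_smul, Matrix.smul_mul]

theorem aeval_diagonal (ω : Fin d → ℂ) (p : Polynomial ℂ) :
    Polynomial.aeval (diagonal ω) p = diagonal fun i => p.eval (ω i) := by
  rw [Polynomial.aeval_eq_sum_range]
  ext i j
  rw [Matrix.sum_apply]
  by_cases hij : i = j
  · subst hij
    rw [diagonal_apply_eq, Polynomial.eval_eq_sum_range]
    refine Finset.sum_congr rfl fun k _ => ?_
    rw [diagonal_pow, Matrix.smul_apply, diagonal_apply_eq, Pi.pow_apply, smul_eq_mul]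
  · rw [diagonal_apply_ne _ hij]
    refine Finset.sum_eq_zero fun k _ => ?_
    rw [diagonal_pow, Matrix.smul_apply, diagonal_apply_ne _ hij, smul_zero]

theorem exists_diag_of_injective (A : Matrix (Fin d) (Fin d) ℂ) (ω : Fin d → ℂ)
    (hω : Function.Injective ω) (hA : A.charpoly = ∏ i, (Polynomial.X - Polynomial.C (ω i))) :
    ∃ P Q : Matrix (Fin d) (Fin d) ℂ, P * Q = 1 ∧ A = P * diagonal ω * Q := by
  have hev : ∀ i, ∃ v : Fin d → ℂ, v ≠ 0 ∧ A *ᵥ v = ω i • v := by
    intro i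
    have hdet : (Matrix.scalar (Fin d) (ω i) - A).det = 0 := by
      rw [← Matrix.eval_charpoly, hA, Polynomial.eval_prod]
      apply Finset.prod_eq_zero (Finset.mem_univ i)
      simp
    obtain ⟨v, hv, hv2⟩ := Matrix.exists_mulVec_eq_zero_iff.mpr hdet
    refine ⟨v, hv, ?_⟩
    rw [Matrix.sub_mulVec, sub_eq_zero] at hv2
    rw [← hv2]
    simp
  choose v hv hXv using hev
  have hlin : LinearIndependent ℂ v := by
    apply Module.End.eigenvectors_linearIndependent' (Matrix.toLin' A) ω hω v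
    intro i
    refine ⟨?_, hv i⟩
    rw [Module.End.mem_eigenspace_iff, Matrix.toLin'_apply, hXv]
  obtain ⟨P, hP⟩ : ∃ P : Matrix (Fin d) (Fin d) ℂ, P = Matrix.of (fun i j => v j i) := ⟨_, rfl⟩
  have hPu : IsUnit P := by
    rw [← Matrix.linearIndependent_cols_iff_isUnit, hP]
    exact hlin
  obtain ⟨u, hu⟩ := hPu
  have hXP : A * P = P * diagonal ω := by
    ext i j
    have := congrFun (hXv j) i
    rw [Matrix.mul_diagonal]
    simp only [hP, Matrix.of_apply]
    rw [Matrix.mul_apply]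
    simp only [Matrix.mulVec, dotProduct, Pi.smul_apply, smul_eq_mul] at this
    rw [mul_comm, ← this]
    rfl
  refine ⟨P, ((u⁻¹ : (Matrix (Fin d) (Fin d) ℂ)ˣ) : Matrix (Fin d) (Fin d) ℂ), ?_, ?_⟩
  · rw [← hu, Units.mul_inv]
  · rw [← hXP, ← hu, mul_assoc, Units.mul_inv, mul_one]

theorem map_aeval_mat {τ : Type*} (M : Matrix (Fin d) (Fin d) (MvPolynomial τ ℂ)) (t : τ → ℂ)
    (p : Polynomial ℂ) :
    (Polynomial.aeval M p).map (eval t) = Polynomial.aeval (M.map (eval t)) p := by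
  have h1 := Polynomial.aeval_algHom_apply
    ((MvPolynomial.aeval t : MvPolynomial τ ℂ →ₐ[ℂ] ℂ).mapMatrix (m := Fin d)) M p
  have h2 : ∀ M : Matrix (Fin d) (Fin d) (MvPolynomial τ ℂ),
      (MvPolynomial.aeval t : MvPolynomial τ ℂ →ₐ[ℂ] ℂ).mapMatrix M = M.map (eval t) := by
    intro M
    rfl
  rw [h2, h2] at h1
  exact h1.symm

/-- Pairs `(A, p(A))`. -/
theorem GD.of_poly (u : Rˣ) (hu : ∀ k : ℕ, 0 < k → (φ u) ^ k ≠ 1)
    (A : Matrix (Fin d) (Fin d) ℂ) (p : Polynomial ℂ) :
    GD φ 1 A (Polynomial.aeval A p) := by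
  -- distinct eigenvalues
  have hdist : ∀ (A : Matrix (Fin d) (Fin d) ℂ) (ω : Fin d → ℂ), Function.Injective ω →
      A.charpoly = ∏ i, (Polynomial.X - Polynomial.C (ω i)) →
      GD φ 1 A (Polynomial.aeval A p) := by
    intro A ω hω hA
    obtain ⟨P, Q, hPQ, rfl⟩ := exists_diag_of_injective A ω hω hA
    rw [aeval_conj _ _ _ hPQ, aeval_diagonal]
    exact (GD.diag u hu _ _).conj P Q hPQ
  obtain ⟨δ, ν, -, hν, -, hJ⟩ := exists_jordan A
  obtain ⟨P, hP⟩ := hJ 1 one_ne_zero
  obtain ⟨T, hT⟩ : ∃ T : Matrix (Fin d) (Fin d) ℂ,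
    T = diagonal δ + (1 : ℂ) • ν.map (Int.cast : ℤ → ℂ) := ⟨_, rfl⟩
  obtain ⟨P', hP'⟩ : ∃ P' : Matrix (Fin d) (Fin d) ℂ, P' = (P : Matrix (Fin d) (Fin d) ℂ) :=
    ⟨_, rfl⟩
  obtain ⟨Q', hQ'⟩ : ∃ Q' : Matrix (Fin d) (Fin d) ℂ,
    Q' = ((P⁻¹ : (Matrix (Fin d) (Fin d) ℂ)ˣ) : Matrix (Fin d) (Fin d) ℂ) := ⟨_, rfl⟩
  have hPQ : P' * Q' = 1 := by rw [hP', hQ', Units.mul_inv]
  rw [← hT, ← hP', ← hQ'] at hP
  obtain ⟨D₀, hD₀⟩ : ∃ D₀ : Matrix (Fin d) (Fin d) ℂ, D₀ = diagonal fun i : Fin d => ((i : ℕ) : ℂ) :=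
    ⟨_, rfl⟩
  -- the family
  obtain ⟨NA, hNA⟩ : ∃ NA : Matrix (Fin d) (Fin d) (MvPolynomial Unit ℂ),
    NA = P'.map C * (T.map C + (X () : MvPolynomial Unit ℂ) • D₀.map C) * Q'.map C := ⟨_, rfl⟩
  have hNAt : ∀ t : Unit → ℂ, NA.map (eval t) = P' * (T + t () • D₀) * Q' := by
    intro t
    rw [hNA, Matrix.map_mul, Matrix.map_mul, map_C, map_C, Matrix.map_add _ (map_add _), map_C]
    congr 3
    ext i j
    simp only [map_apply, Matrix.smul_apply, smul_eq_mul, map_mul, eval_X, eval_C]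
  obtain ⟨g, hg⟩ : ∃ g : MvPolynomial Unit ℂ, g = ∏ i : Fin d, ∏ j : Fin d,
    (if i = j then 1 else (C (δ i - δ j) + X () * C (((i : ℕ) : ℂ) - ((j : ℕ) : ℂ)))) := ⟨_, rfl⟩
  have hg0 : g ≠ 0 := by
    rw [hg, Finset.prod_ne_zero_iff]
    intro i _
    rw [Finset.prod_ne_zero_iff]
    intro j _
    by_cases hij : i = j
    · rw [if_pos hij]
      exact one_ne_zero
    · rw [if_neg hij]
      intro h0
      have h1 := congrArg (eval fun _ : Unit => (0 : ℂ)) h0
      have h2 := congrArg (eval fun _ : Unit => (1 : ℂ)) h0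
      simp only [map_add, eval_C, map_mul, eval_X, zero_mul, add_zero, map_zero, one_mul] at h1 h2
      rw [h1, zero_add, sub_eq_zero] at h2
      exact hij (Fin.ext (Nat.cast_injective h2))
  have hg1 : ∀ t : Unit → ℂ, eval t g ≠ 0 →
      Function.Injective fun i : Fin d => δ i + t () * ((i : ℕ) : ℂ) := by
    intro t ht i j hij
    by_contra hne
    apply ht
    rw [hg, map_prod]
    apply Finset.prod_eq_zero (Finset.mem_univ i)
    rw [map_prod]
    apply Finset.prod_eq_zero (Finset.mem_univ j)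
    rw [if_neg hne]
    simp only [map_add, map_mul, eval_C, eval_X]
    simp only at hij
    linear_combination hij
  have key := GD.polyfam (φ := φ) (μ := 1) (zd_ne hg0) NA (Polynomial.aeval NA p) (by
    intro t ht
    rw [map_aeval_mat, hNAt]
    refine hdist _ (fun i : Fin d => δ i + t () * ((i : ℕ) : ℂ)) (hg1 t ht) ?_
    have h1 : (P' * (T + t () • D₀) * Q').charpoly = (T + t () • D₀).charpoly := by
      rw [Matrix.mul_assoc, Matrix.charpoly_mul_comm, Matrix.mul_assoc,
        mul_eq_one_comm.mp hPQ, Matrix.mul_one]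
    rw [h1]
    have h2 : T + t () • D₀ = diagonal (fun i : Fin d => δ i + t () * ((i : ℕ) : ℂ)) +
        (1 : ℂ) • ν.map (Int.cast : ℤ → ℂ) := by
      rw [hT, hD₀]
      ext i j
      by_cases hij : i = j
      · subst hij
        simp only [one_smul, Matrix.add_apply, diagonal_apply_eq, map_apply, Matrix.smul_apply, smul_eq_mul]
        ring
      · simp only [one_smul, Matrix.add_apply, diagonal_apply_ne _ hij, map_apply, zero_add, Matrix.smul_apply, smul_eq_mul, mul_zero, add_zero]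
    rw [h2]
    exact charpoly_diag_add _ ν hν 1) (fun _ => 0)
  rw [map_aeval_mat, hNAt] at key
  rw [zero_smul, add_zero, ← hP] at key
  exact key

theorem kry_map {S T : Type*} [CommRing S] [CommRing T] (θ : S →+* T) (A : Mat d S)
    (v : Fin d → S) : (kry A v).map θ = kry (A.map θ) (fun i => θ (v i)) := by
  ext i j
  have h1 : (kry A v).map θ i j = θ (((A ^ (j : ℕ)) *ᵥ v) i) := rfl
  have h2 : kry (A.map θ) (fun i => θ (v i)) i j =
    (((A.map θ) ^ (j : ℕ)) *ᵥ (fun i => θ (v i))) i := rfl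
  rw [h1, h2, RingHom.map_mulVec, ← RingHom.mapMatrix_apply, ← RingHom.mapMatrix_apply, map_pow]
  rfl

/-- The commutant of a cyclic matrix. -/
theorem exists_poly_of_comm (A B : Mat d ℂ) (v : Fin d → ℂ) (hK : IsUnit (kry A v))
    (h : A * B = B * A) : ∃ p : Polynomial ℂ, B = Polynomial.aeval A p := by
  obtain ⟨K, hKv⟩ := hK
  obtain ⟨c, hc⟩ : ∃ c : Fin d → ℂ, c = ((K⁻¹ : (Mat d ℂ)ˣ) : Mat d ℂ) *ᵥ (B *ᵥ v) := ⟨_, rfl⟩
  have h1 : (kry A v) *ᵥ c = B *ᵥ v := by
    rw [← hKv, hc, mulVec_mulVec, Units.mul_inv, one_mulVec]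
  obtain ⟨p, hp⟩ : ∃ p : Polynomial ℂ,
    p = ∑ j : Fin d, Polynomial.C (c j) * Polynomial.X ^ (j : ℕ) := ⟨_, rfl⟩
  have h2 : Polynomial.aeval A p *ᵥ v = B *ᵥ v := by
    rw [← h1, hp, map_sum, Matrix.sum_mulVec]
    ext i
    rw [Matrix.mulVec, dotProduct, Finset.sum_apply]
    refine Finset.sum_congr rfl fun j _ => ?_
    rw [map_mul, map_pow, Polynomial.aeval_X, Polynomial.aeval_C, Algebra.algebraMap_eq_smul_one,
      Matrix.smul_mul, Matrix.one_mul, smul_mulVec, Pi.smul_apply, smul_eq_mul, mul_comm]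
    rfl
  refine ⟨p, ?_⟩
  have h3 := mul_kry B A v A h.symm
  have h4 := mul_kry (Polynomial.aeval A p) A v A (by
    have := congrArg (Polynomial.aeval A) (mul_comm p Polynomial.X)
    rwa [map_mul, map_mul, Polynomial.aeval_X] at this)
  rw [h2, ← h3, ← hKv] at h4
  exact (K.isUnit.mul_right_cancel h4).symm

/-- Commuting pairs are in the closure of the integral commuting pairs. -/
theorem GD.commuting (u : Rˣ) (hu : ∀ k : ℕ, 0 < k → (φ u) ^ k ≠ 1)
    (A B : Mat d ℂ) (hAB : A * B = B * A) : GD φ 1 A B := by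
  obtain ⟨N, v, hN, hv⟩ := exists_cyclic B
  obtain ⟨NA, hNA⟩ : ∃ NA : Mat d (MvPolynomial Bool ℂ),
    NA = (X false : MvPolynomial Bool ℂ) • A.map C + (X true : MvPolynomial Bool ℂ) • N.map C :=
    ⟨_, rfl⟩
  have hNAt : ∀ t : Bool → ℂ, NA.map (eval t) = t false • A + t true • N := by
    intro t
    rw [hNA]
    ext i j
    simp
  obtain ⟨g, hg⟩ : ∃ g : MvPolynomial Bool ℂ, g = (kry NA fun i => C (v i)).det := ⟨_, rfl⟩
  have hgt : ∀ t : Bool → ℂ, eval t g = (kry (t false • A + t true • N) v).det := by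
    intro t
    rw [hg, RingHom.map_det, RingHom.mapMatrix_apply, kry_map, hNAt]
    simp only [eval_C]
  have hg0 : g ≠ 0 := by
    intro h0
    have h1 := hgt fun e => if e then 1 else 0
    rw [h0, map_zero] at h1
    simp only [if_true, one_smul] at h1
    have h2 : (kry N v).det ≠ 0 := ((Matrix.isUnit_iff_isUnit_det _).mp hv).ne_zero
    apply h2
    rw [h1]
    simp only [Bool.false_eq_true, ↓reduceIte, zero_smul, zero_add]
  have key := GD.polyfam (φ := φ) (μ := 1) (zd_ne hg0) NA (B.map C) (by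
    intro t ht
    rw [hNAt, map_C]
    have ht' : eval t g ≠ 0 := ht
    rw [hgt] at ht'
    obtain ⟨p, hp⟩ := exists_poly_of_comm (t false • A + t true • N) B v
      ((Matrix.isUnit_iff_isUnit_det _).mpr (isUnit_iff_ne_zero.mpr ht')) (by
        rw [Matrix.add_mul, Matrix.mul_add, Matrix.smul_mul, Matrix.smul_mul, Matrix.mul_smul,
          Matrix.mul_smul, hAB, hN])
    rw [hp]
    exact GD.of_poly u hu _ p) (fun e => if e then 0 else 1)
  rw [hNAt, map_C] at key
  simpa using key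

end Vale.Agent.P002B.QB
end

section

/-!
# q-commuting pairs, part 3: roots of matrices and the structure of q-commuting pairs
-/

namespace Vale.Agent.P002B.QB

open Matrix Vale.Agent.P002
open scoped Kronecker

theorem charpoly_dvd_pow {d : ℕ} (X : Mat d ℂ) (g : Polynomial ℂ)
    (hg : ∀ z ∈ X.charpoly.roots, g.eval z = 0) : ∃ k : ℕ, X.charpoly ∣ g ^ k := by
  have hs : X.charpoly.Splits := IsAlgClosed.splits _
  rw [hs.eq_prod_roots_of_monic (Matrix.charpoly_monic X)]
  generalize X.charpoly.roots = s at hg ⊢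
  induction s using Multiset.induction_on with
  | empty => exact ⟨0, by simp only [Multiset.map_zero, Multiset.prod_zero, pow_zero, dvd_refl]⟩
  | cons a s ih =>
    obtain ⟨k, hk⟩ := ih fun z hz => hg z (Multiset.mem_cons_of_mem hz)
    refine ⟨k + 1, ?_⟩
    rw [Multiset.map_cons, Multiset.prod_cons, pow_succ']
    exact mul_dvd_mul (Polynomial.dvd_iff_isRoot.mpr (hg a (Multiset.mem_cons_self a s))) hk

theorem exists_root {d : ℕ} (X : Mat d ℂ) (hX : IsUnit X) {n : ℕ} (hn : 0 < n) :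
    ∃ p : Polynomial ℂ, (Polynomial.aeval X p) ^ n = X := by
  classical
  obtain ⟨χ, hχ⟩ : ∃ χ, χ = X.charpoly := ⟨_, rfl⟩
  have hχ0 : χ.coeff 0 ≠ 0 := by
    rw [hχ, Polynomial.coeff_zero_eq_eval_zero, Matrix.eval_charpoly]
    have h1 : (Matrix.scalar (Fin d)) (0 : ℂ) - X = -X := by simp
    rw [h1, Matrix.det_neg]
    have h2 : X.det ≠ 0 := ((Matrix.isUnit_iff_isUnit_det _).mp hX).ne_zero
    exact mul_ne_zero (pow_ne_zero _ (by norm_num)) h2
  choose ρ hρ using fun z : ℂ => IsAlgClosed.exists_pow_nat_eq z hn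
  obtain ⟨c₀, hc₀⟩ : ∃ c₀ : Polynomial ℂ, c₀ = Lagrange.interpolate χ.roots.toFinset id ρ :=
    ⟨_, rfl⟩
  have hc : ∀ z ∈ χ.roots, c₀.eval z = ρ z := by
    intro z hz
    rw [hc₀]
    have h1 := Lagrange.eval_interpolate_at_node (s := χ.roots.toFinset) (v := id) ρ
      (i := z) (Function.injective_id.injOn) (Multiset.mem_toFinset.mpr hz)
    simpa using h1
  obtain ⟨k, hk⟩ := charpoly_dvd_pow X (c₀ ^ n - Polynomial.X) (by
    intro z hz
    rw [← hχ] at hz
    rw [Polynomial.eval_sub, Polynomial.eval_pow, Polynomial.eval_X, hc z hz, hρ, sub_self])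
  rw [← hχ] at hk
  obtain ⟨x, hx⟩ : ∃ x : AdjoinRoot χ, x = AdjoinRoot.root χ := ⟨_, rfl⟩
  obtain ⟨x₀, hx₀⟩ : ∃ x₀ : AdjoinRoot χ, x₀ = AdjoinRoot.mk χ c₀ := ⟨_, rfl⟩
  have hnil : IsNilpotent (x₀ ^ n - x) := by
    refine ⟨k, ?_⟩
    rw [hx₀, hx, ← AdjoinRoot.mk_X, ← map_pow, ← map_sub, ← map_pow, AdjoinRoot.mk_eq_zero]
    exact hk
  have hxu : IsUnit x := by
    have h1 : AdjoinRoot.mk χ (χ.divX * Polynomial.X + Polynomial.C (χ.coeff 0)) = 0 := by
      rw [Polynomial.divX_mul_X_add]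
      exact AdjoinRoot.mk_self
    rw [map_add, map_mul, AdjoinRoot.mk_X, ← hx] at h1
    have h2 : IsUnit (AdjoinRoot.mk χ (Polynomial.C (χ.coeff 0))) :=
      (Polynomial.isUnit_C.mpr (isUnit_iff_ne_zero.mpr hχ0)).map _
    have h3 : AdjoinRoot.mk χ χ.divX * x = - AdjoinRoot.mk χ (Polynomial.C (χ.coeff 0)) :=
      eq_neg_of_add_eq_zero_left h1
    exact isUnit_of_mul_isUnit_right (h3 ▸ h2.neg)
  have hx₀u : IsUnit x₀ := by
    have h1 : IsUnit (x₀ ^ n) := by
      have h2 := hnil.isUnit_add_left_of_commute hxu (Commute.all _ _)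
      have h3 : x + (x₀ ^ n - x) = x₀ ^ n := by ring
      rwa [h3] at h2
    exact (isUnit_pow_iff hn.ne').mp h1
  obtain ⟨P, hP⟩ : ∃ P : Polynomial (AdjoinRoot χ), P = Polynomial.X ^ n - Polynomial.C x :=
    ⟨_, rfl⟩
  have hnu : IsUnit ((n : AdjoinRoot χ)) := by
    have h1 : IsUnit (AdjoinRoot.mk χ (Polynomial.C (n : ℂ))) :=
      (Polynomial.isUnit_C.mpr (isUnit_iff_ne_zero.mpr (Nat.cast_ne_zero.mpr hn.ne'))).map _
    simpa only [map_natCast] using h1
  obtain ⟨r, ⟨-, hr⟩, -⟩ := Polynomial.existsUnique_nilpotent_sub_and_aeval_eq_zero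
    (P := P) (x := x₀) (by
      rw [hP]
      simpa only [Polynomial.aeval_sub, Polynomial.coe_aeval_eq_eval, Polynomial.eval_pow, Polynomial.eval_X,     Polynomial.aeval_C, Algebra.algebraMap_self, RingHom.id_apply] using hnil) (by
      rw [hP]
      simp only [Polynomial.derivative_sub, Polynomial.derivative_X_pow, map_natCast, Polynomial.derivative_C, sub_zero, map_mul, map_pow, Polynomial.aeval_X]
      exact hnu.mul (hx₀u.pow _))
  have hr' : r ^ n = x := by
    rw [hP] at hr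
    simp only [map_sub, map_pow, Polynomial.aeval_X, Polynomial.aeval_C] at hr
    exact sub_eq_zero.mp hr
  obtain ⟨p, rfl⟩ := AdjoinRoot.mk_surjective r
  refine ⟨p, ?_⟩
  rw [hx, ← AdjoinRoot.mk_X, ← map_pow, AdjoinRoot.mk_eq_mk, hχ] at hr'
  obtain ⟨w, hw⟩ := hr'
  have h1 := congrArg (Polynomial.aeval X) hw
  rw [map_mul, Matrix.aeval_self_charpoly, zero_mul, map_sub, map_pow, Polynomial.aeval_X] at h1
  exact sub_eq_zero.mp h1

theorem gsum {q : ℂ} {n : ℕ} (h1 : q ^ n = 1) (h2 : q ≠ 1) : ∑ i ∈ Finset.range n, q ^ i = 0 := by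
  have h := geom_sum_mul q n
  rw [h1, sub_self] at h
  exact (mul_eq_zero.mp h).resolve_right (sub_ne_zero.mpr h2)

end Vale.Agent.P002B.QB
end

section

/-!
# q-commuting pairs, part 4: the structure of q-commuting pairs
-/

namespace Vale.Agent.P002B.QB

open Matrix Vale.Agent.P002
open scoped Kronecker

/-- Kronecker products, reindexed. -/
def K {S : Type*} [CommRing S] {n m d : ℕ} (ε : Fin n × Fin m ≃ Fin d)
    (M : Matrix (Fin n) (Fin n) S) (a : Matrix (Fin m) (Fin m) S) : Matrix (Fin d) (Fin d) S :=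
  (M ⊗ₖ a).submatrix ε.symm ε.symm

/-- The cyclic shift. -/
def shiftM (n : ℕ) (S : Type*) [CommRing S] : Matrix (Fin (n + 1)) (Fin (n + 1)) S :=
  Matrix.of fun i j => if i = j + 1 then 1 else 0

section proj

variable {V : Type*} [AddCommGroup V] [Module ℂ V] (a : Module.End ℂ V) (q : ℂ) (n : ℕ)

/-- The projection to the eigenspace of `q ^ k`. -/
noncomputable def prj (k : ℕ) : Module.End ℂ V :=
  ((n + 1 : ℕ) : ℂ)⁻¹ • ∑ i ∈ Finset.range (n + 1), (q⁻¹ ^ (k * i)) • a ^ i

variable {a q n}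

theorem prj_apply (k : ℕ) (v : V) : prj a q n k v =
    ((n + 1 : ℕ) : ℂ)⁻¹ • ∑ i ∈ Finset.range (n + 1), (q⁻¹ ^ (k * i)) • (a ^ i) v := by
  rw [prj, LinearMap.smul_apply, LinearMap.sum_apply]
  rfl

theorem prj_eigen (hq : IsPrimitiveRoot q (n + 1)) {j k : ℕ} (hj : j < n + 1) (hk : k < n + 1)
    {v : V} (hv : a v = q ^ j • v) : prj a q n k v = if j = k then v else 0 := by
  have hq0 : q ≠ 0 := hq.ne_zero (Nat.succ_ne_zero n)
  have hpow : ∀ i : ℕ, (a ^ i) v = (q ^ j) ^ i • v := by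
    intro i
    induction i with
    | zero => simp only [pow_zero, Module.End.one_apply, one_smul]
    | succ i ih => rw [pow_succ', Module.End.mul_apply, ih, map_smul, hv, smul_smul, pow_succ]
  have h1 : prj a q n k v =
      (((n + 1 : ℕ) : ℂ)⁻¹ * ∑ i ∈ Finset.range (n + 1), (q⁻¹ ^ k * q ^ j) ^ i) • v := by
    rw [prj_apply, mul_smul, Finset.sum_smul]
    congr 1
    refine Finset.sum_congr rfl fun i _ => ?_
    rw [hpow, smul_smul, pow_mul, mul_pow]
  rw [h1]
  by_cases hjk : j = k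
  · rw [if_pos hjk, hjk]
    have h2 : q⁻¹ ^ k * q ^ k = 1 := by
      rw [← mul_pow, inv_mul_cancel₀ hq0, one_pow]
    rw [h2]
    simp only [one_pow, Finset.sum_const, Finset.card_range, nsmul_eq_mul, mul_one]
    rw [inv_mul_cancel₀ (Nat.cast_ne_zero.mpr (Nat.succ_ne_zero n)), one_smul]
  · rw [if_neg hjk, gsum, mul_zero, zero_smul]
    · rw [mul_pow, ← pow_mul, ← pow_mul, mul_comm k, mul_comm j, pow_mul, pow_mul, inv_pow,
        hq.pow_eq_one, inv_one, one_pow, one_pow, one_mul]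
    · intro h2
      apply hjk
      apply hq.pow_inj hj hk
      have h3 : q ^ k * (q⁻¹ ^ k * q ^ j) = q ^ k := by rw [h2, mul_one]
      rw [← mul_assoc, ← mul_pow, mul_inv_cancel₀ hq0, one_pow, one_mul] at h3
      exact h3

theorem prj_sum (hq : IsPrimitiveRoot q (n + 1)) (v : V) :
    ∑ k ∈ Finset.range (n + 1), prj a q n k v = v := by
  have hq0 : q ≠ 0 := hq.ne_zero (Nat.succ_ne_zero n)
  simp only [prj_apply]
  rw [← Finset.smul_sum, Finset.sum_comm, Finset.sum_eq_single 0]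
  · simp only [mul_zero, pow_zero, one_smul, Module.End.one_apply, Finset.sum_const,
      Finset.card_range]
    rw [← Nat.cast_smul_eq_nsmul ℂ, smul_smul,
      inv_mul_cancel₀ (Nat.cast_ne_zero.mpr (Nat.succ_ne_zero n)), one_smul]
  · intro i hi hi0
    rw [← Finset.sum_smul]
    have h1 : ∑ k ∈ Finset.range (n + 1), q⁻¹ ^ (k * i) =
        ∑ k ∈ Finset.range (n + 1), (q⁻¹ ^ i) ^ k := by
      refine Finset.sum_congr rfl fun k _ => ?_
      rw [mul_comm, pow_mul]
    rw [h1, gsum, zero_smul]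
    · rw [← pow_mul, mul_comm, pow_mul, inv_pow, hq.pow_eq_one, inv_one, one_pow]
    · intro h2
      apply hi0
      apply hq.pow_inj (Finset.mem_range.mp hi) (Nat.succ_pos n)
      rw [pow_zero]
      rw [inv_pow, inv_eq_one] at h2
      exact h2
  · intro h
    exact absurd (Finset.mem_range.mpr (Nat.succ_pos n)) h

theorem prj_mem (hq : IsPrimitiveRoot q (n + 1)) (ha : a ^ (n + 1) = 1) (k : ℕ) (v : V) :
    a (prj a q n k v) = q ^ k • prj a q n k v := by
  have hq0 : q ≠ 0 := hq.ne_zero (Nat.succ_ne_zero n)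
  rw [prj_apply, map_smul, map_sum, smul_comm]
  congr 1
  have h1 : ∑ i ∈ Finset.range (n + 1), a ((q⁻¹ ^ (k * i)) • (a ^ i) v) =
      q ^ k • ∑ i ∈ Finset.range (n + 1), (q⁻¹ ^ (k * (i + 1))) • (a ^ (i + 1)) v := by
    rw [Finset.smul_sum]
    refine Finset.sum_congr rfl fun i _ => ?_
    rw [map_smul, ← Module.End.mul_apply, ← pow_succ', smul_smul]
    congr 1
    rw [mul_add, mul_one, pow_add, mul_left_comm, ← mul_pow, mul_inv_cancel₀ hq0, one_pow,
      mul_one]
  rw [h1]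
  congr 1
  have h2 := Finset.sum_range_succ' (fun i => (q⁻¹ ^ (k * i)) • (a ^ i) v) (n + 1)
  have h3 := Finset.sum_range_succ (fun i => (q⁻¹ ^ (k * i)) • (a ^ i) v) (n + 1)
  rw [h3] at h2
  have h4 : (q⁻¹ ^ (k * (n + 1))) • (a ^ (n + 1)) v = (q⁻¹ ^ (k * 0)) • (a ^ 0) v := by
    rw [ha, mul_comm, pow_mul, inv_pow, hq.pow_eq_one]
    simp only [inv_one, one_pow, Module.End.one_apply, one_smul, mul_zero, pow_zero]
  rw [h4] at h2
  exact (add_right_cancel h2).symm

end proj

theorem structure_aux {d n : ℕ} (A' B' C E : Mat d ℂ) {q : ℂ} (hq : IsPrimitiveRoot q (n + 1))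
    (hA : A' ^ (n + 1) = 1) (hB : B' ^ (n + 1) = 1) (hAB : A' * B' = q • (B' * A'))
    (hCA : C * A' = A' * C) (hCB : C * B' = B' * C) (hEA : E * A' = A' * E)
    (hEB : E * B' = B' * E) (hCE : C * E = E * C) :
    ∃ (m : ℕ) (ε : Fin (n + 1) × Fin m ≃ Fin d) (C₀ E₀ : Mat m ℂ) (P Q : Mat d ℂ),
      P * Q = 1 ∧ C₀ * E₀ = E₀ * C₀ ∧
      A' * C = P * K ε (diagonal fun i : Fin (n + 1) => q ^ (i : ℕ)) C₀ * Q ∧
      B' * E = P * K ε (shiftM n ℂ) E₀ * Q := by
  classical
  have hq0 : q ≠ 0 := hq.ne_zero (Nat.succ_ne_zero n)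
  obtain ⟨a, ha⟩ : ∃ a : Module.End ℂ (Fin d → ℂ), a = Matrix.toLinAlgEquiv' A' := ⟨_, rfl⟩
  obtain ⟨b, hb⟩ : ∃ b : Module.End ℂ (Fin d → ℂ), b = Matrix.toLinAlgEquiv' B' := ⟨_, rfl⟩
  obtain ⟨c, hc⟩ : ∃ c : Module.End ℂ (Fin d → ℂ), c = Matrix.toLinAlgEquiv' C := ⟨_, rfl⟩
  obtain ⟨e, he⟩ : ∃ e : Module.End ℂ (Fin d → ℂ), e = Matrix.toLinAlgEquiv' E := ⟨_, rfl⟩
  have haA : ∀ v, a v = A' *ᵥ v := fun v => by rw [ha]; rfl
  have hbB : ∀ v, b v = B' *ᵥ v := fun v => by rw [hb]; rfl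
  have hcC : ∀ v, c v = C *ᵥ v := fun v => by rw [hc]; rfl
  have heE : ∀ v, e v = E *ᵥ v := fun v => by rw [he]; rfl
  have han : a ^ (n + 1) = 1 := by rw [ha, ← map_pow, hA, map_one]
  have hbn : b ^ (n + 1) = 1 := by rw [hb, ← map_pow, hB, map_one]
  have hab : a * b = q • (b * a) := by rw [ha, hb, ← map_mul, hAB, map_smul, map_mul]
  have hca : c * a = a * c := by rw [hc, ha, ← map_mul, hCA, map_mul]
  have hcb : Commute c b := by
    change c * b = b * c
    rw [hc, hb, ← map_mul, hCB, map_mul]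
  have hea : e * a = a * e := by rw [he, ha, ← map_mul, hEA, map_mul]
  have heb : Commute e b := by
    change e * b = b * e
    rw [he, hb, ← map_mul, hEB, map_mul]
  have hce : c * e = e * c := by rw [hc, he, ← map_mul, hCE, map_mul]
  have habk : ∀ k : ℕ, a * b ^ k = q ^ k • (b ^ k * a) := by
    intro k
    induction k with
    | zero => simp
    | succ k ih =>
      rw [pow_succ, ← mul_assoc, ih, smul_mul_assoc, mul_assoc, hab, mul_smul_comm, smul_smul,
        ← mul_assoc, ← pow_succ, ← pow_succ]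
  obtain ⟨V₀, hV₀⟩ : ∃ V₀ : Submodule ℂ (Fin d → ℂ), V₀ = LinearMap.ker (a - 1) := ⟨_, rfl⟩
  have hmem : ∀ v, v ∈ V₀ ↔ a v = v := by
    intro v
    rw [hV₀, LinearMap.mem_ker, LinearMap.sub_apply, Module.End.one_apply, sub_eq_zero]
  let e₀ : Module.Basis (Fin (Module.finrank ℂ V₀)) ℂ V₀ := Module.finBasis ℂ V₀
  -- the isomorphism
  let f : (Fin (n + 1) → V₀) →ₗ[ℂ] (Fin d → ℂ) :=
    { toFun := fun w => ∑ j : Fin (n + 1), (b ^ (j : ℕ)) (w j : Fin d → ℂ)
      map_add' := fun w w' => by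
        rw [← Finset.sum_add_distrib]
        refine Finset.sum_congr rfl fun j _ => ?_
        rw [Pi.add_apply, Submodule.coe_add, map_add]
      map_smul' := fun z w => by
        rw [RingHom.id_apply, Finset.smul_sum]
        refine Finset.sum_congr rfl fun j _ => ?_
        rw [Pi.smul_apply, Submodule.coe_smul, map_smul] }
  have hf : ∀ w, f w = ∑ j : Fin (n + 1), (b ^ (j : ℕ)) (w j : Fin d → ℂ) := fun _ => rfl
  have heig : ∀ (j : ℕ) (w : V₀), a ((b ^ j) (w : Fin d → ℂ)) = q ^ j • (b ^ j) (w : Fin d → ℂ) := by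
    intro j w
    rw [← Module.End.mul_apply, habk, LinearMap.smul_apply, Module.End.mul_apply,
      (hmem _).mp w.2]
  have hfi : Function.Injective f := by
    rw [← LinearMap.ker_eq_bot, LinearMap.ker_eq_bot']
    intro w hw
    funext k
    have h1 : prj a q n (k : ℕ) (f w) = (b ^ (k : ℕ)) (w k : Fin d → ℂ) := by
      rw [hf, map_sum, Finset.sum_eq_single k]
      · rw [prj_eigen hq k.2 k.2 (heig _ _), if_pos rfl]
      · intro j _ hj
        rw [prj_eigen hq j.2 k.2 (heig _ _), if_neg fun h => hj (Fin.ext h)]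
      · intro h
        exact absurd (Finset.mem_univ _) h
    rw [hw, map_zero] at h1
    have h2 : (b ^ (n + 1 - (k : ℕ))) ((b ^ (k : ℕ)) (w k : Fin d → ℂ)) = 0 := by
      rw [← h1, map_zero]
    rw [← Module.End.mul_apply, ← pow_add, Nat.sub_add_cancel (le_of_lt k.2), hbn,
      Module.End.one_apply] at h2
    exact Subtype.ext h2
  have hfs : Function.Surjective f := by
    intro v
    refine ⟨fun k => ⟨(b ^ (n + 1 - (k : ℕ))) (prj a q n (k : ℕ) v), ?_⟩, ?_⟩
    · rw [hmem, ← Module.End.mul_apply, habk, LinearMap.smul_apply, Module.End.mul_apply,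
        prj_mem hq han, map_smul, smul_smul, ← pow_add, Nat.sub_add_cancel (le_of_lt k.2),
        hq.pow_eq_one, one_smul]
    · rw [hf]
      have h1 : ∀ k : Fin (n + 1), (b ^ (k : ℕ)) ((b ^ (n + 1 - (k : ℕ))) (prj a q n (k : ℕ) v)) =
          prj a q n (k : ℕ) v := by
        intro k
        rw [← Module.End.mul_apply, ← pow_add, Nat.add_sub_cancel' (le_of_lt k.2), hbn,
          Module.End.one_apply]
      simp only [h1]
      have h2 := prj_sum (a := a) hq v
      rw [Finset.sum_range] at h2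
      exact h2
  let bb : Module.Basis (Fin (n + 1) × Fin (Module.finrank ℂ V₀)) ℂ (Fin d → ℂ) :=
    ((Pi.basis fun _ : Fin (n + 1) => e₀).map (LinearEquiv.ofBijective f ⟨hfi, hfs⟩)).reindex
      (Equiv.sigmaEquivProd _ _)
  have hbb : ∀ s, bb s = (b ^ (s.1 : ℕ)) (e₀ s.2 : Fin d → ℂ) := by
    rintro ⟨i, k⟩
    have h1 : bb (i, k) = f (Pi.single i (e₀ k)) := by
      simp only [bb]
      rw [Module.Basis.reindex_apply, Module.Basis.map_apply, Pi.basis_apply]
      rfl
    rw [h1, hf, Finset.sum_eq_single i]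
    · rw [Pi.single_eq_same]
    · intro j _ hj
      rw [Pi.single_eq_of_ne hj, Submodule.coe_zero, map_zero]
    · intro h
      exact absurd (Finset.mem_univ _) h
  have hcard : Fintype.card (Fin (n + 1) × Fin (Module.finrank ℂ V₀)) = d := by
    rw [← Module.finrank_eq_card_basis bb, Module.finrank_fin_fun]
  let ε : Fin (n + 1) × Fin (Module.finrank ℂ V₀) ≃ Fin d := Fintype.equivFinOfCardEq hcard
  obtain ⟨P, hP⟩ : ∃ P : Mat d ℂ, P = Matrix.of fun x j => bb (ε.symm j) x := ⟨_, rfl⟩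
  have hPu : IsUnit P := by
    rw [← Matrix.linearIndependent_cols_iff_isUnit, hP]
    exact bb.linearIndependent.comp ε.symm ε.symm.injective
  have colrel : ∀ (X : Mat d ℂ) (M : Matrix (Fin (n + 1)) (Fin (n + 1)) ℂ)
      (X₀ : Mat (Module.finrank ℂ V₀) ℂ),
      (∀ s, X *ᵥ (bb s) = ∑ s', (M ⊗ₖ X₀) s' s • bb s') → X * P = P * K ε M X₀ := by
    intro X M X₀ h
    ext x j
    have h1 := congrFun (h (ε.symm j)) x
    have h2 : (X * P) x j = (X *ᵥ (bb (ε.symm j))) x := by
      rw [Matrix.mul_apply, Matrix.mulVec, dotProduct, hP]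
      rfl
    rw [h2, h1, Finset.sum_apply, Matrix.mul_apply, ← Equiv.sum_comp ε]
    refine Finset.sum_congr rfl fun s' _ => ?_
    rw [Pi.smul_apply, smul_eq_mul, K, Matrix.submatrix_apply, Equiv.symm_apply_apply, hP,
      Matrix.of_apply, Equiv.symm_apply_apply, mul_comm]
  have hc0 : ∀ x ∈ V₀, c x ∈ V₀ := by
    intro x hx
    rw [hmem] at hx ⊢
    rw [← Module.End.mul_apply, ← hca, Module.End.mul_apply, hx]
  have he0 : ∀ x ∈ V₀, e x ∈ V₀ := by
    intro x hx
    rw [hmem] at hx ⊢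
    rw [← Module.End.mul_apply, ← hea, Module.End.mul_apply, hx]
  have hres : ∀ (y : Module.End ℂ (Fin d → ℂ)) (hy : ∀ x ∈ V₀, y x ∈ V₀)
      (k : Fin (Module.finrank ℂ V₀)), y (e₀ k : Fin d → ℂ) =
        ∑ l, (LinearMap.toMatrixAlgEquiv e₀ (y.restrict hy)) l k • (e₀ l : Fin d → ℂ) := by
    intro y hy k
    have h1 := e₀.sum_repr ((y.restrict hy) (e₀ k))
    have h2 := congrArg (Submodule.subtype V₀) h1
    rw [map_sum] at h2
    simp only [map_smul, Submodule.subtype_apply] at h2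
    have h3 : (((y.restrict hy) (e₀ k) : V₀) : Fin d → ℂ) = y (e₀ k : Fin d → ℂ) := rfl
    rw [← h3, ← h2]
    refine Finset.sum_congr rfl fun l _ => ?_
    rw [LinearMap.toMatrixAlgEquiv_apply]
  refine ⟨Module.finrank ℂ V₀, ε, LinearMap.toMatrixAlgEquiv e₀ (c.restrict hc0),
    LinearMap.toMatrixAlgEquiv e₀ (e.restrict he0), P, P⁻¹, ?_, ?_, ?_, ?_⟩
  · exact Matrix.mul_nonsing_inv P ((Matrix.isUnit_iff_isUnit_det _).mp hPu)
  · rw [← map_mul, ← map_mul]
    congr 1
    apply LinearMap.ext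
    intro x
    apply Subtype.ext
    have h1 := LinearMap.congr_fun hce (x : Fin d → ℂ)
    exact h1
  · have h1 : (A' * C) * P = P * K ε (diagonal fun i : Fin (n + 1) => q ^ (i : ℕ))
        (LinearMap.toMatrixAlgEquiv e₀ (c.restrict hc0)) := by
      apply colrel
      rintro ⟨i, k⟩
      have h2 : (A' * C) *ᵥ (bb (i, k)) = q ^ (i : ℕ) • (b ^ (i : ℕ)) (c (e₀ k : Fin d → ℂ)) := by
        rw [← mulVec_mulVec, ← hcC, ← haA, hbb]
        have h3 : c ((b ^ (i : ℕ)) (e₀ k : Fin d → ℂ)) = (b ^ (i : ℕ)) (c (e₀ k : Fin d → ℂ)) :=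
          LinearMap.congr_fun (hcb.pow_right (i : ℕ)).eq _
        simp only
        rw [h3]
        exact heig i ⟨c (e₀ k : Fin d → ℂ), hc0 _ (e₀ k).2⟩
      rw [h2, hres c hc0, Fintype.sum_prod_type, Finset.sum_eq_single i]
      · rw [map_sum, Finset.smul_sum]
        refine Finset.sum_congr rfl fun l _ => ?_
        rw [map_smul, smul_smul, Matrix.kroneckerMap_apply, diagonal_apply_eq, hbb]
      · intro j _ hj
        refine Finset.sum_eq_zero fun l _ => ?_
        rw [Matrix.kroneckerMap_apply, diagonal_apply_ne _ hj, zero_mul, zero_smul]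
      · intro h
        exact absurd (Finset.mem_univ _) h
    rw [← h1, Matrix.mul_assoc (A' * C),
      Matrix.mul_nonsing_inv P ((Matrix.isUnit_iff_isUnit_det _).mp hPu), Matrix.mul_one]
  · have h1 : (B' * E) * P = P * K ε (shiftM n ℂ)
        (LinearMap.toMatrixAlgEquiv e₀ (e.restrict he0)) := by
      apply colrel
      rintro ⟨i, k⟩
      have h2 : (B' * E) *ᵥ (bb (i, k)) =
          (b ^ ((i + 1 : Fin (n + 1)) : ℕ)) (e (e₀ k : Fin d → ℂ)) := by
        rw [← mulVec_mulVec, ← heE, ← hbB, hbb]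
        have h3 : e ((b ^ (i : ℕ)) (e₀ k : Fin d → ℂ)) = (b ^ (i : ℕ)) (e (e₀ k : Fin d → ℂ)) :=
          LinearMap.congr_fun (heb.pow_right (i : ℕ)).eq _
        simp only
        rw [h3, ← Module.End.mul_apply, ← pow_succ']
        have h4 : b ^ ((i : ℕ) + 1) = b ^ ((i + 1 : Fin (n + 1)) : ℕ) := by
          rw [pow_eq_pow_mod _ hbn, Fin.val_add, Fin.val_one']
          congr 1
          rw [Nat.add_mod_mod]
        rw [h4]
      rw [h2, hres e he0, Fintype.sum_prod_type, Finset.sum_eq_single (i + 1)]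
      · rw [map_sum]
        refine Finset.sum_congr rfl fun l _ => ?_
        rw [map_smul, Matrix.kroneckerMap_apply, shiftM, Matrix.of_apply, if_pos rfl, one_mul, hbb]
      · intro j _ hj
        refine Finset.sum_eq_zero fun l _ => ?_
        rw [Matrix.kroneckerMap_apply, shiftM, Matrix.of_apply, if_neg hj, zero_mul, zero_smul]
      · intro h
        exact absurd (Finset.mem_univ _) h
    rw [← h1, Matrix.mul_assoc (B' * E),
      Matrix.mul_nonsing_inv P ((Matrix.isUnit_iff_isUnit_det _).mp hPu), Matrix.mul_one]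

end Vale.Agent.P002B.QB
end
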