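import Mathlib
import Vale.Agent.P002.Bd3.B4
import Vale.Agent.P002.Bd3.B12
import Vale.Agent.P002.Bd3.B8
import Vale.Agent.P002.Bd3.B13
import Vale.Agent.P002.Bd3.B7
import Vale.Agent.P002.Bd3.B3
import Vale.Agent.P002.Bd3.B1
import Vale.Agent.P002.Bd3.B9
import Vale.Agent.P002.Bd3.B11
import Vale.Agent.P002R.RStatementP
import Vale.Agent.P002.Bd3.B2
import Vale.Agent.P002R.YOrbStmt

set_option linter.all false

@[reducible] def Vale.Agent.P002Fast.coeU14 {M : Type*} [Monoid M] (u : Mˣ) : CoeT Mˣ u M := ⟨Units.val u⟩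
attribute [local instance] Vale.Agent.P002Fast.coeU14

section

/-!
# Irreducible representations are limits of integral ones: the theorem
-/

namespace Vale.Agent.P002R

open Matrix

variable {g m n r : ℕ}

theorem det_of_isConj {a b : (Mat r ℂ)ˣ} (h : IsConj a b) :
    (a : Mat r ℂ).det = (b : Mat r ℂ).det := by
  obtain ⟨c, rfl⟩ := isConj_iff.1 h
  have h1 : (c : Mat r ℂ).det * ((c⁻¹ : (Mat r ℂ)ˣ) : Mat r ℂ).det = 1 := by
    rw [← det_mul, ← Units.val_mul, mul_inv_cancel, Units.val_one, det_one]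
  rw [Units.val_mul, Units.val_mul, det_mul, det_mul, mul_right_comm, h1, one_mul]

theorem prod_det_eq_one (C : Fin n → (Mat r ℂ)ˣ) (x : FU g n →* (Mat r ℂ)ˣ)
    (hx : x (relatorU g n) = 1) (hxC : ∀ j, IsConj (C j) (x (FreeGroup.of (Sum.inr j)))) :
    ∏ j, (C j : Mat r ℂ).det = 1 := by
  obtain ⟨δ, hδ⟩ : ∃ δ : FU g n →* ℂ, ∀ w, δ w = (x w : Mat r ℂ).det :=
    ⟨(Matrix.detMonoidHom).comp ((Units.coeHom _).comp x), fun w => rfl⟩
  have h1 : ∀ w, δ w * δ w⁻¹ = 1 := fun w => by rw [← map_mul, mul_inv_cancel, map_one]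
  have h2 : δ (relatorU g n) = 1 := by rw [hδ, hx, Units.val_one, det_one]
  unfold relatorU at h2
  rw [map_mul, map_list_prod, map_list_prod, List.map_ofFn, List.map_ofFn, List.prod_ofFn] at h2
  have h3 : (List.ofFn (⇑δ ∘ fun i : Fin g => (FreeGroup.of (Sum.inl (i, false)) *
      FreeGroup.of (Sum.inl (i, true)) * (FreeGroup.of (Sum.inl (i, false)))⁻¹ *
      (FreeGroup.of (Sum.inl (i, true)))⁻¹ : FU g n))).prod = 1 := by
    apply List.prod_eq_one
    intro a ha
    rw [List.mem_ofFn] at ha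
    obtain ⟨i, rfl⟩ := ha
    simp only [Function.comp, map_mul]
    calc _ = (δ (FreeGroup.of (Sum.inl (i, false))) * δ (FreeGroup.of (Sum.inl (i, false)))⁻¹) *
          (δ (FreeGroup.of (Sum.inl (i, true))) * δ (FreeGroup.of (Sum.inl (i, true)))⁻¹) := by ring
      _ = 1 := by rw [h1, h1, one_mul]
  rw [h3, mul_one] at h2
  rw [← h2]
  refine Finset.prod_congr rfl fun j _ => ?_
  rw [Function.comp, hδ]
  exact det_of_isConj (hxC j)

theorem scalar_of_comm {α : Fin r → ℂ} (hα : Function.Injective α) (U : (Mat r ℂ)ˣ)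
    (A : (Mat r ℂ)ˣ) (hA : ∀ i j, ((U⁻¹ * A * U : (Mat r ℂ)ˣ) : Mat r ℂ) i j ≠ 0) (N : Mat r ℂ)
    (h1 : Commute N ((U : Mat r ℂ) * diagonal α * ((U⁻¹ : (Mat r ℂ)ˣ) : Mat r ℂ)))
    (h2 : Commute N (A : Mat r ℂ)) : ∃ c : ℂ, N = c • (1 : Mat r ℂ) := by
  have hU1 : (U : Mat r ℂ) * ((U⁻¹ : (Mat r ℂ)ˣ) : Mat r ℂ) = 1 := U.mul_inv
  have hU2 : ((U⁻¹ : (Mat r ℂ)ˣ) : Mat r ℂ) * (U : Mat r ℂ) = 1 := U.inv_mul
  obtain ⟨V, hV⟩ : ∃ V : Mat r ℂ, V = ((U⁻¹ : (Mat r ℂ)ˣ) : Mat r ℂ) := ⟨_, rfl⟩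
  rw [← hV] at hU1 hU2 h1
  obtain ⟨M, hM⟩ : ∃ M : Mat r ℂ, M = V * N * U := ⟨_, rfl⟩
  have hN : N = U * M * V := by
    rw [hM]
    calc N = (U * V) * N * (U * V) := by rw [hU1, one_mul, mul_one]
      _ = _ := by simp only [mul_assoc]
  have hMd : M * diagonal α = diagonal α * M := by
    have := h1.eq
    calc M * diagonal α = V * (N * (U * diagonal α * V)) * U := by
          rw [hM]
          calc V * N * U * diagonal α = V * N * U * diagonal α * (V * U) := by rw [hU2, mul_one]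
            _ = _ := by simp only [mul_assoc]
      _ = V * ((U * diagonal α * V) * N) * U := by rw [this]
      _ = (V * U) * diagonal α * M := by rw [hM]; simp only [mul_assoc]
      _ = _ := by rw [hU2, one_mul]
  have hMA : M * ((U⁻¹ * A * U : (Mat r ℂ)ˣ) : Mat r ℂ) =
      ((U⁻¹ * A * U : (Mat r ℂ)ˣ) : Mat r ℂ) * M := by
    rw [Units.val_mul, Units.val_mul, ← hV, hM]
    calc V * N * U * (V * A * U) = V * N * (U * V) * A * U := by simp only [mul_assoc]
      _ = V * (N * A) * U := by rw [hU1, mul_one]; simp only [mul_assoc]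
      _ = V * (A * N) * U := by rw [h2.eq]
      _ = V * A * (U * V) * N * U := by rw [hU1, mul_one]; simp only [mul_assoc]
      _ = _ := by simp only [mul_assoc]
  have hoff : ∀ i j, i ≠ j → M i j = 0 := by
    intro i j hij
    have := congrFun (congrFun hMd i) j
    rw [Matrix.mul_diagonal, Matrix.diagonal_mul] at this
    have h3 : (α j - α i) * M i j = 0 := by rw [sub_mul, ← this]; ring
    rcases mul_eq_zero.1 h3 with h | h
    · exact absurd (hα (sub_eq_zero.1 h)) (Ne.symm hij)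
    · exact h
  have hMdiag : M = diagonal (fun i => M i i) := by
    ext i j
    by_cases hij : i = j
    · subst hij; rw [Matrix.diagonal_apply_eq]
    · rw [hoff i j hij, Matrix.diagonal_apply_ne _ hij]
  have hall : ∀ i j, M i i = M j j := by
    intro i j
    have := congrFun (congrFun hMA i) j
    rw [hMdiag, Matrix.mul_diagonal, Matrix.diagonal_mul] at this
    have h4 := hA i j
    exact mul_right_cancel₀ h4 (by rw [this]; ring)
  rcases Nat.eq_zero_or_pos r with hr | hr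
  · subst hr
    exact ⟨0, Subsingleton.elim _ _⟩
  · refine ⟨M ⟨0, hr⟩ ⟨0, hr⟩, ?_⟩
    have : M = M ⟨0, hr⟩ ⟨0, hr⟩ • (1 : Mat r ℂ) := by
      rw [hMdiag]
      ext i j
      by_cases hij : i = j
      · subst hij
        simp only [Matrix.diagonal_apply_eq, Matrix.smul_apply, Matrix.one_apply_eq, smul_eq_mul,
          mul_one]
        exact hall _ _
      · simp only [Matrix.diagonal_apply_ne _ hij, diagonal_apply_eq, Matrix.smul_apply, Matrix.one_apply_ne hij, smul_eq_mul, mul_zero]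
    rw [hN, this, mul_smul_comm, smul_mul_assoc, mul_one, hU1]
    simp only [Matrix.smul_apply, one_apply_eq, smul_eq_mul, mul_one]

theorem flow_flow {κ : Type*} [DecidableEq κ] {S : Type*} [CommRing S]
    (x : FreeGroup κ →* (Mat r S)ˣ) (k : κ) (z z' : (Mat r S)ˣ) :
    flow (flow x k z) k z' = flow x k (z * z') := by
  apply FreeGroup.ext_hom
  intro l
  simp only [flow_of]
  split_ifs with h
  · simp [mul_assoc]
  · rfl

/-- Irreducible representations are in the Zariski closure of the semisimple integral ones, as soon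
as there is a good base point. -/
theorem irreducible_of_base {R : Type*} [CommRing R] (φ : R →+* ℂ) (hr : 1 ≤ r) (hm : 1 ≤ m)
    (C J : Fin n → (Mat r ℂ)ˣ) (hJ : ∀ j, IsConj (C j) (J j))
    (ρ : FF (m + 1) n →* (Mat r ℂ)ˣ) (hρ : ρ ∈ DFr φ J) (hρB : ρ (gB (Fin.last m)) = 1)
    (w₀ : FF (m + 1) n) (hw₀ : w₀ ∈ Fc (m + 1) n) (hw₀' : w₀ ∈ Fprime m n)
    (U : (Mat r ℂ)ˣ) (α : Fin r → ℂ) (hα : Function.Injective α)
    (hU : (ρ w₀ : Mat r ℂ) = (U : Mat r ℂ) * diagonal α * ((U⁻¹ : (Mat r ℂ)ˣ) : Mat r ℂ))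
    (hdual : ∀ K₀ : Subfield ℂ, Countable K₀ → (∀ w, ρ w ∈ GLK r K₀) → U ∈ GLK r K₀ →
      ∃ A : (Mat r ℂ)ˣ, AlgebraicIndependent K₀ (fun p : Fin r × Fin r => (A : Mat r ℂ) p.1 p.2) ∧
        DualProp (fun q : Loop m n => ρ (loopW q)) A)
    (x : FU (m + 1) n →* (Mat r ℂ)ˣ) (hx : x (relatorU (m + 1) n) = 1)
    (hxC : ∀ j, IsConj (C j) (x (FreeGroup.of (Sum.inr j))))
    (hirr : ∀ M : Mat r ℂ, (∀ w, Commute M (x w : Mat r ℂ)) → ∃ c : ℂ, M = c • (1 : Mat r ℂ))
    (f : MvPolynomial (GenU (m + 1) n × Fin r × Fin r) ℂ)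
    (hf : ∀ y ∈ DU (m + 1) φ C, evalG y f = 0) : evalG x f = 0 := by
  classical
  obtain ⟨K₀, hK₀, hρK⟩ := exists_GLK (r := r)
    (Sum.elim (fun k : Gen (m + 1) n => ρ (FreeGroup.of k)) (fun _ : Unit => U))
  have hρw : ∀ w, ρ w ∈ GLK r K₀ := map_mem_GLK ρ fun k => hρK (Sum.inl k)
  have hUK : U ∈ GLK r K₀ := hρK (Sum.inr ())
  obtain ⟨A, hA, hdA⟩ := hdual K₀ hK₀ hρw hUK
  obtain ⟨kA, hkA⟩ : ∃ kA : Gen (m + 1) n, kA = Sum.inl (Fin.last m, false) := ⟨_, rfl⟩
  obtain ⟨ρA, hρA⟩ : ∃ ρA, ρA = flow ρ kA ((ρ (FreeGroup.of kA))⁻¹ * A) := ⟨_, rfl⟩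
  have hρAk : ∀ k, k ≠ Sum.inl (Fin.last m, false) →
      ρA (FreeGroup.of k) = ρ (FreeGroup.of k) := by
    intro k hk
    rw [hρA, flow_of, if_neg (by rw [hkA]; exact hk)]
  have hρAA : ρA (gA (Fin.last m)) = A := by
    rw [hρA, gA, ← hkA, flow_of, if_pos rfl]
    simp only [mul_inv_cancel_left]
  have hρAF : ∀ w ∈ Fprime m n, ρA w = ρ w := fun w hw => eq_on_Fprime ρA ρ hρAk hw
  have hρAB : ρA (gB (Fin.last m)) = 1 := by rw [hρAF _ (gB_mem _), hρB]
  have hblk : ((blocks m n).map bw).prod ∈ Fprime m n := by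
    apply Subgroup.list_prod_mem
    intro w hw
    rw [List.mem_map] at hw
    obtain ⟨b, -, rfl⟩ := hw
    exact bw_mem b
  have hrelA : ρA (relator (m + 1) n) = 1 := by
    have h1 := hρ.1
    rw [Slides.relator_eq_blocks, map_mul, hcomm, map_mul, map_mul, map_mul, map_inv, map_inv,
      hρB] at h1
    rw [Slides.relator_eq_blocks, map_mul, hcomm, map_mul, map_mul, map_mul, map_inv, map_inv,
      hρAB, hρAF _ hblk]
    simpa using h1
  have hρAJ : ∀ j, ρA (gE j) = J j := by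
    intro j
    rw [gE, hρAk _ (by simp)]
    exact hρ.2.1 j
  have hbase : ∀ z : (Mat r (PowerSeries ℂ))ˣ, InZ (DTop φ J)
      (flow (baseChange (algebraMap ℂ (PowerSeries ℂ)) ρA) (Sum.inl (Fin.last m, false)) z) := by
    intro z
    rw [hρA, hkA, baseChange_flow, flow_flow]
    exact inZ_top φ J ρ hρ hρB w₀ hw₀ hw₀' U α hα hU _
  have hgenmul : ∀ P Q : (Mat r ℂ)ˣ, P ∈ GLK r K₀ → Q ∈ GLK r K₀ →
      AlgebraicIndependent K₀ fun q : Fin r × Fin r => ((P * A * Q : (Mat r ℂ)ˣ) : Mat r ℂ) q.1 q.2 := by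
    intro P Q hP hQ
    exact generic_mul hA P Q hP.1 hQ.1 P.isUnit Q.isUnit
  have hgen : ∀ p : List (Loop m n), AlgebraicIndependent ℤ fun q : Fin r × Fin r =>
      (ρA (wordL p * gA (Fin.last m)) : Mat r ℂ) q.1 q.2 := by
    intro p
    have h1 : ρA (wordL p * gA (Fin.last m)) = ρ (wordL p) * A * 1 := by
      rw [map_mul, hρAA, hρAF _ (wordL_mem p), mul_one]
    rw [h1]
    exact (hgenmul _ _ (hρw _) (one_mem _)).restrictScalars (R := ℤ)
      (algebraMap ℤ K₀).injective_int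
  obtain ⟨h, hh1, hh2⟩ := local_theorem_dual (DTop φ J) J (fun y hy => hy.1.1)
    (fun y hy => hy.1.2.1) (fun τ h1 h2 y hy => DTop_adm φ J τ h1 h2 y hy) ρA hρAB hrelA hρAJ
    hbase hgen (by
      have h1 : (fun q : Loop m n => ρA (loopW q)) = fun q => ρ (loopW q) :=
        funext fun q => hρAF _ (loopW_mem q)
      rw [h1, hρAA]
      exact hdA) (liftU f) (fun y hy => by
      rw [evalW_liftU]
      exact hf _ (comp_iotaU_mem_DU φ C J hJ y hy))
  -- the point `x`
  have hd : ∀ j, ∃ d : (Mat r ℂ)ˣ, d * J j * d⁻¹ = x (FreeGroup.of (Sum.inr j)) := fun j =>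
    isConj_iff.1 (((hJ j).symm).trans (hxC j))
  choose d hd using hd
  obtain ⟨X₁, hX₁⟩ : ∃ X₁ : Gen (m + 1) n → (Mat r ℂ)ˣ, (∀ k, X₁ (Sum.inl k) =
      x (FreeGroup.of (Sum.inl k))) ∧ (∀ j, X₁ (Sum.inr (j, false)) = d j) ∧
      ∀ j, X₁ (Sum.inr (j, true)) = J j :=
    ⟨Sum.elim (fun k => x (FreeGroup.of (Sum.inl k))) fun p => if p.2 then J p.1 else d p.1,
      fun k => rfl, fun j => by simp, fun j => by simp⟩
  have hX₁c : ∀ j, FreeGroup.lift X₁ (gC j) = x (FreeGroup.of (Sum.inr j)) := by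
    intro j
    rw [gC_def, map_mul, map_mul, map_inv, gD, gE, FreeGroup.lift_apply_of,
      FreeGroup.lift_apply_of, hX₁.2.1, hX₁.2.2, hd]
  have hX₁x : (FreeGroup.lift X₁).comp (iotaU (m + 1) n) = x := by
    apply FreeGroup.ext_hom
    rintro (k | j)
    · rw [MonoidHom.comp_apply, iotaU_inl, FreeGroup.lift_apply_of, hX₁.1]
    · rw [MonoidHom.comp_apply, iotaU_inr, hX₁c]
  have hX₁rel : FreeGroup.lift X₁ (relator (m + 1) n) = 1 := by
    rw [← iotaU_relator, ← MonoidHom.comp_apply, hX₁x, hx]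
  have hX₁f : evalP X₁ (toP (liftU f)) = evalG x f := by
    rw [evalP_toP, evalW_liftU, hX₁x]
  by_contra hne
  -- a good point near `X₁`
  have hU₁ : {X : Gen (m + 1) n → Mat r ℂ | evalM X (toP (liftU f)) ≠ 0} ∈
      nhds (fun k => (X₁ k : Mat r ℂ)) :=
    (evalM_continuousAt (toP (liftU f)) _ (fun k => (X₁ k).isUnit)).preimage_mem_nhds
      (isOpen_compl_singleton.mem_nhds (by
        rw [evalM_eq_evalP, hX₁f]
        exact hne))
  obtain ⟨X₁', hX₁'U, hX₁'u, hX₁'J, hX₁'r, hX₁'g⟩ := dense_handles (g := m + 1) (by omega) hr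
    (fun k => (X₁ k : Mat r ℂ)) (fun k => (X₁ k).isUnit) ((relM_eq_one_iff X₁).2 hX₁rel)
    (fun M hM1 hM2 => by
      refine hirr M fun w => ?_
      have h1 : ∀ k, Commute M (x (FreeGroup.of k) : Mat r ℂ) := by
        rintro (k | j)
        · rw [← hX₁.1]; exact hM1 k
        · have h2 := hM2 j
          rw [← hX₁c, gC_def, map_mul, map_mul, map_inv, gD, gE, FreeGroup.lift_apply_of,
            FreeGroup.lift_apply_of, Units.val_mul, Units.val_mul, Matrix.coe_units_inv]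
          exact h2
      have h3 : (⊤ : Subgroup (FU (m + 1) n)) ≤
          (Subgroup.comap x ({
            carrier := {y : (Mat r ℂ)ˣ | Commute M (y : Mat r ℂ)}
            mul_mem' := fun {a b} ha hb => by
              simpa using Commute.mul_right (show Commute M (a : Mat r ℂ) from ha)
                (show Commute M (b : Mat r ℂ) from hb)
            one_mem' := by simp only [Set.mem_ofPred_eq, Units.val_one, Commute.one_right]
            inv_mem' := fun {a} ha => by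
              exact Commute.units_inv_right (show Commute M (a : Mat r ℂ) from ha) } :
              Subgroup (Mat r ℂ)ˣ)) := by
        rw [← FreeGroup.closure_range_of, Subgroup.closure_le]
        rintro _ ⟨k, rfl⟩
        exact h1 k
      exact h3 (Subgroup.mem_top w)) _ hU₁
  -- a good point near `ρA`
  have hU₀ : {X : Gen (m + 1) n → Mat r ℂ | evalM X h ≠ 0} ∈
      nhds (fun k => (ρA (FreeGroup.of k) : Mat r ℂ)) :=
    (evalM_continuousAt h _ (fun k => (ρA (FreeGroup.of k)).isUnit)).preimage_mem_nhds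
      (isOpen_compl_singleton.mem_nhds (by
        change evalM (fun k => (ρA (FreeGroup.of k) : Mat r ℂ)) h ≠ 0
        rw [evalM_eq_evalP (fun k => ρA (FreeGroup.of k)) h]
        exact hh1))
  have hAV0 : ∀ i j, ((U⁻¹ * A * U : (Mat r ℂ)ˣ) : Mat r ℂ) i j ≠ 0 :=
    (generic_gen3 (hgenmul _ _ (inv_mem hUK) hUK)).1
  obtain ⟨X₀', hX₀'U, hX₀'u, hX₀'J, hX₀'r, hX₀'g⟩ := dense_handles (g := m + 1) (by omega) hr
    (fun k => (ρA (FreeGroup.of k) : Mat r ℂ)) (fun k => (ρA (FreeGroup.of k)).isUnit)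
    ((relM_eq_one_iff (fun k => ρA (FreeGroup.of k))).2 (by rw [lift_of]; exact hrelA))
    (fun M hM1 hM2 => by
      have hFc : ∀ w ∈ Fc (m + 1) n, Commute M (ρA w : Mat r ℂ) := by
        have h3 : Fc (m + 1) n ≤
            (Subgroup.comap ρA ({
              carrier := {y : (Mat r ℂ)ˣ | Commute M (y : Mat r ℂ)}
              mul_mem' := fun {a b} ha hb => by
                simpa only [Set.mem_ofPred_eq, Units.val_mul] using     Commute.mul_right (show Commute M (a : Mat r ℂ) from ha) (show Commute M (b : Mat r ℂ) from hb)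
              one_mem' := by simp
              inv_mem' := fun {a} ha => by
                exact Commute.units_inv_right (show Commute M (a : Mat r ℂ) from ha) } :
                Subgroup (Mat r ℂ)ˣ)) := by
          rw [Fc, Subgroup.closure_le]
          rintro _ (⟨k, rfl⟩ | ⟨j, rfl⟩)
          · exact hM1 k
          · have h2 := hM2 j
            change Commute M (ρA (gC j) : Mat r ℂ)
            rw [gC_def, map_mul, map_mul, map_inv, gD, gE, Units.val_mul, Units.val_mul,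
              Matrix.coe_units_inv]
            exact h2
        exact fun w hw => h3 hw
      refine scalar_of_comm hα U A hAV0 M ?_ ?_
      · rw [← hU, ← hρAF _ hw₀']
        exact hFc w₀ hw₀
      · rw [← hρAA]
        exact hM1 (Fin.last m, false)) _ hU₀
  obtain ⟨i₀⟩ : Nonempty (Fin m) := ⟨⟨0, hm⟩⟩
  have hres := partII hr hm (toP (liftU f)) h (fun j => (J j : Mat r ℂ)) (fun j => (J j).isUnit)
    (fun X hXu hXJ hXr => by
      obtain ⟨Y, hY⟩ : ∃ Y : Gen (m + 1) n → (Mat r ℂ)ˣ, X = fun k => (Y k : Mat r ℂ) := by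
        choose Y hY using hXu
        exact ⟨Y, funext fun k => (hY k).symm⟩
      subst hY
      rw [evalM_eq_evalP, evalM_eq_evalP, evalP_toP]
      exact hh2 Y (fun j => Units.ext (hXJ j)) ((relM_eq_one_iff Y).1 hXr))
    X₀' hX₀'u (fun j => by rw [hX₀'J]; exact congrArg Units.val (hρAJ j)) hX₀'r
    (fun M hM => hX₀'g i₀.castSucc M (hM i₀ false) (hM i₀ true)) hX₀'U
    X₁' hX₁'u (fun j => by rw [hX₁'J]; exact congrArg Units.val (hX₁.2.2 j)) hX₁'r
    (fun M hM => hX₁'g i₀.castSucc M (hM i₀ false) (hM i₀ true))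
  exact hX₁'U hres


end Vale.Agent.P002R
end

section

/-!
# Density of integral points: the main theorem for framed free groups
-/

namespace Vale.Agent.P002R

open Matrix

variable {g n r : ℕ}

/-- Irreducible representations of abelian groups have dimension at most one. -/
theorem abelian_case (hg : g ≤ 1) {R : Type*} [CommRing R] (φ : R →+* ℂ)
    (C : Fin 0 → (Mat r ℂ)ˣ) (x : FU g 0 →* (Mat r ℂ)ˣ) (hx : x ∈ YU g C)
    (hirr : ∀ M : Mat r ℂ, (∀ w, Commute M (x w : Mat r ℂ)) → ∃ c : ℂ, M = c • (1 : Mat r ℂ)) :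
    x ∈ DU g φ C := by
  have hcomm : ∀ k l : GenU g 0, Commute (x (FreeGroup.of k)) (x (FreeGroup.of l)) := by
    intro k l
    rcases k with ⟨i, b⟩ | j
    swap
    · exact j.elim0
    rcases l with ⟨i', b'⟩ | j
    swap
    · exact j.elim0
    have hg1 : g = 1 := by
      have := i.isLt
      omega
    subst hg1
    have hi : i = 0 := Subsingleton.elim _ _
    have hi' : i' = 0 := Subsingleton.elim _ _
    subst hi hi'
    have h1 := hx.1
    unfold relatorU at h1
    simp only [List.ofFn_zero, List.prod_nil, one_mul, List.ofFn_succ, List.prod_cons,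
      mul_one, map_mul, map_inv] at h1
    have h2 : x (FreeGroup.of (Sum.inl (0, false))) * x (FreeGroup.of (Sum.inl (0, true))) =
        x (FreeGroup.of (Sum.inl (0, true))) * x (FreeGroup.of (Sum.inl (0, false))) := by
      rw [mul_inv_eq_one, mul_inv_eq_iff_eq_mul] at h1
      exact h1
    cases b <;> cases b'
    · exact Commute.refl _
    · exact h2
    · exact h2.symm
    · exact Commute.refl _
  have hall : ∀ w w' : FU g 0, Commute (x w) (x w') := by
    have step : ∀ y : (Mat r ℂ)ˣ, (∀ k, Commute y (x (FreeGroup.of k))) → ∀ w, Commute y (x w) := by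
      intro y hy w
      have : (⊤ : Subgroup (FU g 0)) ≤ (Subgroup.centralizer {y}).comap x := by
        rw [← FreeGroup.closure_range_of, Subgroup.closure_le]
        rintro _ ⟨k, rfl⟩
        rw [SetLike.mem_coe, Subgroup.mem_comap, Subgroup.mem_centralizer_singleton_iff]
        exact (hy k).symm
      have h := this (Subgroup.mem_top w)
      rw [Subgroup.mem_comap, Subgroup.mem_centralizer_singleton_iff] at h
      exact h.symm
    intro w w'
    exact (step (x w') (fun k => (step _ (fun l => hcomm k l) w').symm) w).symm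
  refine ⟨hx, fun k => ?_⟩
  -- each value is scalar
  obtain ⟨c, hc⟩ := hirr (x (FreeGroup.of k) : Mat r ℂ) fun w =>
    congrArg Units.val (hall (FreeGroup.of k) w)
  rcases Nat.eq_zero_or_pos r with hr | hr
  · subst hr
    have : x (FreeGroup.of k) = 1 := Units.ext (Subsingleton.elim _ _)
    rw [this]
    exact one_mem _
  · have hc0 : c ≠ 0 := by
      rintro rfl
      have := (x (FreeGroup.of k)).isUnit
      rw [hc, zero_smul] at this
      have : Nonempty (Fin r) := ⟨⟨0, hr⟩⟩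
      exact not_isUnit_zero ‹_›
    refine ⟨Units.mk0 c hc0, 1, Units.ext ?_⟩
    rw [scalarU_mul_coe, hc, map_one, Units.val_one, Units.val_mk0]

end Vale.Agent.P002R
end

section

/-!
# Translation of the main theorem into the language of representations of surface groups
-/

namespace Vale.Agent.P002R.Statement

open Matrix NumberField

variable {g n r : ℕ}

/-- The handle part and the boundary part of the relator. -/
theorem relators (g n : ℕ) : ∃ H P : FU g n, relatorU g n = P * H ∧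
    ∀ {A : Type} [CommRing A] (X : Gens g n → SpecialLinearGroup (Fin r) A),
      IsRep X ↔ FreeGroup.lift X H * FreeGroup.lift X P = 1 := by
  refine ⟨_, _, relatorU_eqn, ?_⟩
  intro A _ X
  rw [map_list_prod, map_list_prod, List.map_ofFn, List.map_ofFn]
  have e1 : (⇑(FreeGroup.lift X) ∘ fun j : Fin n => (FreeGroup.of (Sum.inr j) : FU g n)) =
      fun j => X (Sum.inr j) := by
    funext j
    simp
  have e2 : (⇑(FreeGroup.lift X) ∘ fun i : Fin g => (FreeGroup.of (Sum.inl (i, false)) *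
      FreeGroup.of (Sum.inl (i, true)) * (FreeGroup.of (Sum.inl (i, false)))⁻¹ *
      (FreeGroup.of (Sum.inl (i, true)))⁻¹ : FU g n)) = fun i => X (Sum.inl (i, false)) *
        X (Sum.inl (i, true)) * (X (Sum.inl (i, false)))⁻¹ * (X (Sum.inl (i, true)))⁻¹ := by
    funext i
    simp only [Function.comp_apply, map_mul, FreeGroup.lift_apply_of, map_inv]
  rw [e1, e2]
  exact Iff.rfl

theorem isRep_iff {A : Type} [CommRing A] (X : Gens g n → SpecialLinearGroup (Fin r) A) :
    IsRep X ↔ FreeGroup.lift X (relatorU g n) = 1 := by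
  obtain ⟨H, P, h1, h2⟩ := relators (r := r) g n
  rw [h1, h2, map_mul]
  exact mul_eq_one_comm

theorem inv_stable (M : (Mat r ℂ)ˣ) (W : Submodule ℂ (Fin r → ℂ))
    (h : ∀ v ∈ W, (M : Mat r ℂ) *ᵥ v ∈ W) : ∀ v ∈ W, ((M⁻¹ : (Mat r ℂ)ˣ) : Mat r ℂ) *ᵥ v ∈ W := by
  intro v hv
  obtain ⟨T, hT⟩ : ∃ T : W →ₗ[ℂ] W, ∀ v, ((T v : W) : Fin r → ℂ) = (M : Mat r ℂ) *ᵥ v :=
    ⟨(Matrix.mulVecLin (M : Mat r ℂ)).restrict h, fun v => rfl⟩
  have hMi : ((M⁻¹ : (Mat r ℂ)ˣ) : Mat r ℂ) * (M : Mat r ℂ) = 1 := M.inv_mul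
  have hinj : Function.Injective T := by
    intro a b hab
    have h1 : (M : Mat r ℂ) *ᵥ (a : Fin r → ℂ) = (M : Mat r ℂ) *ᵥ (b : Fin r → ℂ) := by
      rw [← hT, ← hT, hab]
    apply Subtype.ext
    have h2 := congrArg (fun u => ((M⁻¹ : (Mat r ℂ)ˣ) : Mat r ℂ) *ᵥ u) h1
    simpa only [SetLike.coe_eq_coe, coe_units_inv, mulVec_mulVec, inv_mul_of_invertible, one_mulVec] using h2
  obtain ⟨a, ha⟩ := (LinearMap.injective_iff_surjective.1 hinj) ⟨v, hv⟩
  have h1 : v = (M : Mat r ℂ) *ᵥ (a : Fin r → ℂ) := by rw [← hT, ha]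
  rw [h1, Matrix.mulVec_mulVec, hMi, Matrix.one_mulVec]
  exact a.2

theorem isConj_toGL (A B : SpecialLinearGroup (Fin r) ℂ)
    (h : IsConj (SpecialLinearGroup.toGL A : (Mat r ℂ)ˣ) (SpecialLinearGroup.toGL B)) :
    IsConj A B := by
  rcases Nat.eq_zero_or_pos r with hr | hr
  · subst hr
    have : A = B := Subsingleton.elim _ _
    rw [this]
  obtain ⟨P, hP⟩ := isConj_iff.1 h
  have hd : (P : Mat r ℂ).det ≠ 0 := by
    have := P.isUnit
    rwa [Matrix.isUnit_iff_isUnit_det, isUnit_iff_ne_zero] at this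
  obtain ⟨c, hc⟩ := IsAlgClosed.exists_pow_nat_eq ((P : Mat r ℂ).det⁻¹) hr
  have hQ : (c • (P : Mat r ℂ)).det = 1 := by
    rw [Matrix.det_smul, Fintype.card_fin, hc, inv_mul_cancel₀ hd]
  obtain ⟨Q, hQ'⟩ : ∃ Q : SpecialLinearGroup (Fin r) ℂ,
      (Q : Matrix (Fin r) (Fin r) ℂ) = c • (P : Mat r ℂ) := ⟨⟨_, hQ⟩, rfl⟩
  rw [isConj_iff]
  refine ⟨Q, ?_⟩
  rw [mul_inv_eq_iff_eq_mul]
  apply Subtype.ext
  have h1 : (P : Mat r ℂ) * (A : Mat r ℂ) = (B : Mat r ℂ) * (P : Mat r ℂ) := by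
    rw [mul_inv_eq_iff_eq_mul] at hP
    exact congrArg Units.val hP
  change (Q : Matrix (Fin r) (Fin r) ℂ) * (A : Matrix (Fin r) (Fin r) ℂ) =
    (B : Matrix (Fin r) (Fin r) ℂ) * (Q : Matrix (Fin r) (Fin r) ℂ)
  rw [hQ', smul_mul_assoc, mul_smul_comm, h1]

theorem toGL_isConj (A B : SpecialLinearGroup (Fin r) ℂ) (h : IsConj A B) :
    IsConj (SpecialLinearGroup.toGL A : (Mat r ℂ)ˣ) (SpecialLinearGroup.toGL B) :=
  MonoidHom.map_isConj SpecialLinearGroup.toGL h

end Vale.Agent.P002R.Statement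
end

section

/-! TASK G3: existence of base points, general coefficients. -/

namespace Vale.Agent.P002R

open Matrix

section JordanE

variable {r : ℕ}

/-- Jordan form with prescribed order of the eigenvalues: the eigenvalues `d` can be rearranged by
an arbitrary permutation. -/
theorem exists_jordan_permE (C : Mat r ℂ) :
    ∃ d : Fin r → ℂ, (∀ i, C.charpoly.IsRoot (d i)) ∧ ∀ σ : Equiv.Perm (Fin r),
      ∃ ν : Matrix (Fin r) (Fin r) ℤ, (∀ i j, ¬ i < j → ν i j = 0) ∧
        ∀ c : ℂ, c ≠ 0 → ∃ P : (Mat r ℂ)ˣ,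
          C = (P : Mat r ℂ) * (diagonal (fun i => d (σ i)) + c • ν.map (Int.castRingHom ℂ)) *
            ((P⁻¹ : (Mat r ℂ)ˣ) : Mat r ℂ) := by
  classical
  obtain ⟨ι, _, _, b, d, pre, h, hb, hpre⟩ :=
    exists_jordan_auxC r (Fin r → ℂ) (Matrix.mulVecLin C) (by simp only [Module.finrank_fintype_fun_eq_card, Fintype.card_fin])
  have hcard : Fintype.card ι = r := by
    rw [← Module.finrank_eq_card_basis b]
    simp only [Module.finrank_fintype_fun_eq_card, Fintype.card_fin]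
  let e₀ : ι ≃ Fin r := Fintype.equivFinOfCardEq hcard
  have main : ∀ e₁ : ι ≃ Fin r, ∃ ν : Matrix (Fin r) (Fin r) ℤ, (∀ i j, ¬ i < j → ν i j = 0) ∧
      ∀ N₀ : ℂ, N₀ ≠ 0 → ∃ P : (Mat r ℂ)ˣ,
        C = (P : Mat r ℂ) * (diagonal (fun k => d (e₁.symm k)) +
          N₀ • ν.map (Int.castRingHom ℂ)) * ((P⁻¹ : (Mat r ℂ)ˣ) : Mat r ℂ) := by
    intro e₁
    obtain ⟨e, he1, he2⟩ := exists_stable d h e₁
    obtain ⟨ν, hν1, hν2⟩ := jordan_of_enum b d pre h hb (fun i j hp => (hpre i j hp).1) e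
      (fun i j hp => he2 i j (hpre i j hp).2.symm (by rw [(hpre i j hp).1]; exact Nat.lt_succ_self _))
    refine ⟨ν, hν1, ?_⟩
    simp only [he1] at hν2
    exact hν2
  refine ⟨fun k => d (e₀.symm k), fun i => ?_, fun σ => main (e₀.trans σ.symm)⟩
  obtain ⟨ν, hν1, hν2⟩ := main e₀
  obtain ⟨P, hP⟩ := hν2 1 one_ne_zero
  have h1 : C.charpoly = ∏ i, (Polynomial.X - Polynomial.C (d (e₀.symm i))) := by
    rw [hP, one_smul]
    exact charpoly_conj_aux P _ ν hν1
  rw [h1]
  simp only [Polynomial.IsRoot.def, Polynomial.eval_prod]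
  apply Finset.prod_eq_zero (Finset.mem_univ i)
  simp

end JordanE

section DataE

variable {R : Type*} [CommRing R] {r n : ℕ} {E : Subgroup ℂˣ}

/-- The units of the ring which lie in `E`. -/
def HE (φ : R →+* ℂ) (E : Subgroup ℂˣ) : Subgroup Rˣ := E.comap (Units.map (φ : R →* ℂ))

theorem mem_HE {φ : R →+* ℂ} {x : Rˣ} : x ∈ HE φ E ↔ Units.map (φ : R →* ℂ) x ∈ E := Iff.rfl

theorem exists_mem_HE (φ : R →+* ℂ) (hc : CoefOK φ E r) (hr : 1 ≤ r) (ε : ℂˣ) (hε : ε ∈ E) :
    ∃ δ ∈ HE φ E, φ (δ : R) = (ε : ℂ) := by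
  obtain ⟨γ, hγ⟩ := hc.root 1 one_pos hr ε (by rw [pow_one]; exact hε)
  obtain ⟨γ', hγ'⟩ := hc.root 1 one_pos hr ε⁻¹ (by rw [pow_one]; exact E.inv_mem hε)
  have h2 : γ * γ' = 1 := by
    apply hc.inj
    rw [map_mul, hγ, hγ', map_one, ← Units.val_mul, mul_inv_cancel, Units.val_one]
  refine ⟨⟨γ, γ', h2, by rw [mul_comm]; exact h2⟩, ?_, hγ⟩
  rw [mem_HE]
  have h3 : Units.map (φ : R →* ℂ) ⟨γ, γ', h2, by rw [mul_comm]; exact h2⟩ = ε :=
    Units.ext hγ
  rw [h3]
  exact hε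

theorem exists_rootHE (φ : R →+* ℂ) (hc : CoefOK φ E r) (hr : 1 ≤ r) (z : Rˣ)
    (hz : z ∈ HE φ E) : ∃ c : Rˣ, (z : R) = (c : R) ^ r :=
  exists_rootE φ hc.weak hr (z : R) ⟨_, mem_HE.1 hz, rfl⟩

theorem exists_dataE (φ : R →+* ℂ) (hc : CoefOK φ E r) (hr : 1 ≤ r) (C : (Mat r ℂ)ˣ)
    (hC : EigIn E (C : Mat r ℂ)) :
    ∃ δ : Fin r → Rˣ, (∀ i, δ i ∈ HE φ E) ∧ ∀ (σ : Equiv.Perm (Fin r)) (Δ : R), φ Δ ≠ 0 →
      ∃ J : (Mat r R)ˣ, IsJ Δ (fun i => (δ (σ i) : R)) (J : Mat r R) ∧ IsConj C (PhiU φ J) := by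
  obtain ⟨d, hd, h⟩ := exists_jordan_permE (C : Mat r ℂ)
  have hlift : ∀ i, ∃ δ : Rˣ, φ (δ : R) = d i ∧ δ ∈ HE φ E := by
    intro i
    obtain ⟨ε, hε, hε'⟩ := hC (d i) (hd i)
    obtain ⟨δ, hδ, hδ'⟩ := exists_mem_HE φ hc hr ε hε
    exact ⟨δ, by rw [hδ', hε'], hδ⟩
  choose δ hδ1 hδ2 using hlift
  refine ⟨δ, hδ2, fun σ Δ hΔ => ?_⟩
  obtain ⟨ν, hν, h⟩ := h σ
  have hJ : IsJ Δ (fun i => (δ (σ i) : R)) (diagonal (fun i => (δ (σ i) : R)) +
      Δ • ν.map (Int.castRingHom R)) := by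
    refine ⟨ν.map (Int.castRingHom R), ?_, rfl⟩
    intro i j hij
    rw [Matrix.map_apply, hν i j hij, map_zero]
  have hu : IsUnit (diagonal (fun i => (δ (σ i) : R)) + Δ • ν.map (Int.castRingHom R)) := by
    rw [Matrix.isUnit_iff_isUnit_det, hJ.det, ← Units.coe_prod]
    exact Units.isUnit _
  obtain ⟨J, hJ'⟩ := hu
  refine ⟨J, by rw [hJ']; exact hJ, ?_⟩
  obtain ⟨P, hP⟩ := h (φ Δ) hΔ
  rw [isConj_comm, isConj_iff]
  refine ⟨P, ?_⟩
  apply Units.ext
  rw [Units.val_mul, Units.val_mul, PhiU_coe, hJ', hP]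
  congr 2
  ext i j
  simp only [map_apply, Matrix.add_apply, Matrix.smul_apply, smul_eq_mul, map_add, map_mul]
  congr 1
  · by_cases hij : i = j
    · subst hij
      simp [hδ1]
    · simp [Matrix.diagonal_apply_ne _ hij]
  · congr 1
    simp

theorem uE_inj (φ : R →+* ℂ) (u : Rˣ) (hu : ∀ k : ℕ, 0 < k → Units.map (φ : R →* ℂ) u ^ k ∉ E)
    (a b : ℕ) (h : u ^ a * (u ^ b)⁻¹ ∈ HE φ E) : a = b := by
  have aux : ∀ a b : ℕ, a < b → u ^ b * (u ^ a)⁻¹ ∉ HE φ E := by
    intro a b hab h1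
    obtain ⟨d, hd, rfl⟩ : ∃ d, 0 < d ∧ b = a + d := ⟨b - a, by omega, by omega⟩
    apply hu d hd
    rw [pow_add, mul_comm (u ^ a), mul_inv_cancel_right, mem_HE, map_pow] at h1
    exact h1
  rcases lt_trichotomy a b with h1 | h1 | h1
  · refine absurd ((HE φ E).inv_mem h) ?_
    rw [mul_inv, inv_inv, mul_comm]
    exact aux a b h1
  · exact h1
  · exact absurd h (aux b a h1)

theorem tB_inj_mod (φ : R →+* ℂ) (u : Rˣ)
    (hu : ∀ k : ℕ, 0 < k → Units.map (φ : R →* ℂ) u ^ k ∉ E) (hr : 1 ≤ r)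
    (b b' : Fin r) (h : tB r u b * (tB r u b')⁻¹ ∈ HE φ E) : b = b' := by
  unfold tB at h
  have h2 := uE_inj φ u hu _ _ h
  have h3 := Nat.eq_of_mul_eq_mul_left hr h2
  exact Fin.ext (Nat.pow_right_injective (by omega) h3)

theorem prod_tB_pow (u : Rˣ) (e : Fin r → ℕ) :
    ∏ i, (tB r u i) ^ e i = u ^ (r * ∑ i : Fin r, e i * (2 * r + 4) ^ (i : ℕ)) := by
  unfold tB
  simp only [← pow_mul]
  rw [Finset.prod_pow_eq_pow_sum, Finset.mul_sum]
  congr 1
  refine Finset.sum_congr rfl fun i _ => ?_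
  ring

theorem freeMod_tB (φ : R →+* ℂ) (u : Rˣ)
    (hu : ∀ k : ℕ, 0 < k → Units.map (φ : R →* ℂ) u ^ k ∉ E) (hr : 1 ≤ r) :
    FreeMod E (2 * r + 3) fun b : Fin r => φ ((tB r u b)⁻¹ : Rˣ) := by
  intro e e' hee hD h
  obtain ⟨ε, hε, h⟩ := h
  have hprod : ∀ e : Fin r → ℕ, ∏ i, (φ ((tB r u i)⁻¹ : Rˣ)) ^ e i =
      ((Units.map (φ : R →* ℂ) (∏ i, (tB r u i) ^ e i)⁻¹ : ℂˣ) : ℂ) := by
    intro e
    rw [← Finset.prod_inv_distrib, map_prod, Units.coe_prod]
    refine Finset.prod_congr rfl fun i _ => ?_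
    rw [← inv_pow, map_pow, Units.val_pow_eq_pow_val]
    rfl
  rw [hprod, hprod] at h
  have h1 : Units.map (φ : R →* ℂ) (∏ i, (tB r u i) ^ e i)⁻¹ =
      ε * Units.map (φ : R →* ℂ) (∏ i, (tB r u i) ^ e' i)⁻¹ := Units.ext h
  have h2 : (∏ i, (tB r u i) ^ e' i) * (∏ i, (tB r u i) ^ e i)⁻¹ ∈ HE φ E := by
    rw [mem_HE, map_mul, h1, mul_left_comm, ← map_mul, mul_inv_cancel, map_one, mul_one]
    exact hε
  rw [prod_tB_pow, prod_tB_pow] at h2
  have h3 := uE_inj φ u hu _ _ h2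
  have h4 := Nat.eq_of_mul_eq_mul_left hr h3
  exact (sum_base_pow_inj (2 * r + 3) e' e (by rw [← hee]; exact hD) hD h4).symm

theorem finishE {k : ℕ} (φ : R →+* ℂ) (hφ : Function.Injective φ) (E : Subgroup ℂˣ) (C : Fin n → (Mat r ℂ)ˣ)
    (J : Fin n → (Mat r R)ˣ) (hJ : ∀ j, IsConj (C j) (PhiU φ (J j)))
    (hJdet : ∀ j, ∃ c : Rˣ, (J j : Mat r R).det = (c : R) ^ r)
    (x t : Fin r → Rˣ) (V : (Mat r R)ˣ) (π : Equiv.Perm (Fin r)) (c : Fin r → Fin r)
    (hX : ∃ c : Rˣ, ((diagU x : (Mat r R)ˣ) : Mat r R).det = (c : R) ^ r)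
    (hVP : ∃ c : Rˣ, ((V * permU π : (Mat r R)ˣ) : Mat r R).det = (c : R) ^ r)
    (ht : ∀ i, t (π i) = x i) (htinj : Function.Injective fun i => (t i : R))
    (hc : Monotone c) (hcπ : ∀ i, c (π i) = c i)
    (hcc : ∀ a b, c a = c b → ∃ k : ℕ, (π ^ k) a = b)
    (hJt : ∀ j i i', i' < i → (J j : Mat r R) i i' = 0)
    (hVt : ∀ i i', i' < i → (V : Mat r R) i i' = 0) (hVd : ∀ i, (V : Mat r R) i i = 1)
    (τ : Fin r → ℂ) (hτ : ∀ i, ∃ ε ∈ E, φ ((t i)⁻¹ : Rˣ) = τ (c i) * (ε : ℂ))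
    (hfree : FreeMod E (2 * r + 3) τ)
    (hprod : (List.ofFn fun j => J j).prod *
      (diagU x * (V * permU π) * (diagU x)⁻¹ * (V * permU π)⁻¹) = 1) :
    ∃ J : Fin n → (Mat r ℂ)ˣ, (∀ j, IsConj (C j) (J j)) ∧ ∃ ρ ∈ DFr (g := k + 1 + 1) φ J,
      ρ (gB (Fin.last (k + 1))) = 1 ∧ (∀ j, ρ (gD j) = 1) ∧
        ∃ (q₀ : Loop (k + 1) n) (U : (Mat r ℂ)ˣ) (α : Fin r → ℂ) (c : Fin r → Fin r)
          (τ : Fin r → ℂ), BlockDataE E (fun q => ρ (loopW q)) q₀ U α c τ := by
  obtain ⟨a, ha⟩ : ∃ a : Fin (k + 1 + 1) → (Mat r R)ˣ, a = Fin.cons (diagU x) fun _ => 1 :=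
    ⟨_, rfl⟩
  obtain ⟨b, hb⟩ : ∃ b : Fin (k + 1 + 1) → (Mat r R)ˣ, b = Fin.cons (V * permU π) fun _ => 1 :=
    ⟨_, rfl⟩
  let ρ : FF (k + 1 + 1) n →* (Mat r ℂ)ˣ := FreeGroup.lift fun k =>
    match k with
    | Sum.inl (i, false) => PhiU φ (a i)
    | Sum.inl (i, true) => PhiU φ (b i)
    | Sum.inr (_, false) => 1
    | Sum.inr (j, true) => PhiU φ (J j)
  have hA : ∀ i, ρ (gA i) = PhiU φ (a i) := fun i => FreeGroup.lift_apply_of
  have hB : ∀ i, ρ (gB i) = PhiU φ (b i) := fun i => FreeGroup.lift_apply_of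
  have hD : ∀ j, ρ (gD j) = 1 := fun i => FreeGroup.lift_apply_of
  have hEE : ∀ j, ρ (gE j) = PhiU φ (J j) := fun i => FreeGroup.lift_apply_of
  have hC : ∀ j, ρ (gC j) = PhiU φ (J j) := by
    intro j
    rw [gC_eqn, map_mul, map_mul, map_inv, hD, hEE, one_mul, inv_one, mul_one]
  have hH : ∀ i, ρ (hcomm i) = PhiU φ (a i * b i * (a i)⁻¹ * (b i)⁻¹) := by
    intro i
    rw [hcomm_eqn, map_mul, map_mul, map_mul, map_inv, map_inv, hA, hB, map_mul, map_mul, map_mul,
      map_inv, map_inv]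
  have ha0 : a 0 = diagU x := by rw [ha]; rfl
  have hb0 : b 0 = V * permU π := by rw [hb]; rfl
  have hasucc : ∀ i : Fin (k + 1), a i.succ = 1 := fun i => by rw [ha]; rfl
  have hbsucc : ∀ i : Fin (k + 1), b i.succ = 1 := fun i => by rw [hb]; rfl
  have hone : ∃ c : Rˣ, ((1 : (Mat r R)ˣ) : Mat r R).det = (c : R) ^ r := ⟨1, by simp only [Units.val_one, det_one, one_pow]⟩
  -- all values are block triangular
  have hall : ∀ w, ρ w ∈ BTr c := by
    have h1 : (⊤ : Subgroup (FF (k + 1 + 1) n)) ≤ (BTr c).comap ρ := by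
      rw [← FreeGroup.closure_range_of, Subgroup.closure_le]
      have hPi : (permU π : (Mat r R)ˣ) ∈ BTr c := permU_mem_BTr π hcπ
      have hV : V ∈ BTr c := mem_BTr_of_upper hc hVt
      have hXc : (diagU x : (Mat r R)ˣ) ∈ BTr c := mem_BTr_of_upper hc fun i j hij =>
        diagonal_apply_ne _ hij.ne'
      rintro _ ⟨(⟨i, b'⟩ | ⟨j, b'⟩), rfl⟩
      · cases b' with
        | false =>
          have h2 := hA i
          rw [gA_eqn] at h2
          rw [SetLike.mem_coe, Subgroup.mem_comap, h2]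
          refine PhiU_mem_BTr φ ?_
          refine Fin.cases ?_ (fun i => ?_) i
          · rw [ha0]; exact hXc
          · rw [hasucc]; exact one_mem _
        | true =>
          have h2 := hB i
          rw [gB_eqn] at h2
          rw [SetLike.mem_coe, Subgroup.mem_comap, h2]
          refine PhiU_mem_BTr φ ?_
          refine Fin.cases ?_ (fun i => ?_) i
          · rw [hb0]; exact mul_mem hV hPi
          · rw [hbsucc]; exact one_mem _
      · cases b' with
        | false =>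
          have h2 := hD j
          rw [gD_eqn] at h2
          rw [SetLike.mem_coe, Subgroup.mem_comap, h2]
          exact one_mem _
        | true =>
          have h2 := hEE j
          rw [gE_eqn] at h2
          rw [SetLike.mem_coe, Subgroup.mem_comap, h2]
          exact PhiU_mem_BTr φ (mem_BTr_of_upper hc (hJt j))
    intro w
    exact h1 (Subgroup.mem_top w)
  obtain ⟨q₀, hq₀⟩ : ∃ q₀ : Loop (k + 1) n, q₀ = Sum.inr (0, false) := ⟨_, rfl⟩
  obtain ⟨q₁, hq₁⟩ : ∃ q₁ : Loop (k + 1) n, q₁ = Sum.inr (0, true) := ⟨_, rfl⟩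
  obtain ⟨κ, hκ⟩ : ∃ κ, κ = ρ (kap q₀) := ⟨_, rfl⟩
  have hκ₁ : ρ (kap q₁) = κ := by
    rw [hκ, hq₀, hq₁]
    rfl
  obtain ⟨W, hW⟩ : ∃ W, W = PhiU φ V := ⟨_, rfl⟩
  have hWc : W ∈ BTr c := by
    rw [hW]
    exact PhiU_mem_BTr φ (mem_BTr_of_upper hc hVt)
  have hUc : κ⁻¹ * W ∈ BTr c := mul_mem (inv_mem (by rw [hκ]; exact hall _)) hWc
  have hP₀ : ρ (loopW q₀) = (κ⁻¹ * W) * PhiU φ ((diagU t)⁻¹) * (κ⁻¹ * W)⁻¹ := by
    have h1 : loopW q₀ = (kap q₀)⁻¹ * (gB (0 : Fin (k + 1)).castSucc *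
        (gA (0 : Fin (k + 1)).castSucc)⁻¹ * (gB (0 : Fin (k + 1)).castSucc)⁻¹) * kap q₀ := by
      rw [hq₀]; rfl
    have h2 : ρ (gB (0 : Fin (k + 1)).castSucc) = PhiU φ (V * permU π) := by
      rw [Fin.castSucc_zero, hB, hb0]
    have h3 : ρ (gA (0 : Fin (k + 1)).castSucc) = PhiU φ (diagU x) := by
      rw [Fin.castSucc_zero, hA, ha0]
    have h4 : (V * permU π) * (diagU x)⁻¹ * (V * permU π)⁻¹ = V * (diagU t)⁻¹ * V⁻¹ := by
      have h5 := permU_diagU π x t ht
      have h6 : permU π * (diagU x)⁻¹ = (diagU t : (Mat r R)ˣ)⁻¹ * permU π := by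
        rw [mul_inv_eq_iff_eq_mul, mul_assoc, h5, inv_mul_cancel_left]
      rw [mul_assoc V, h6, _root_.mul_inv_rev]
      group
    rw [h1, map_mul, map_mul, map_mul, map_mul, map_inv, map_inv, map_inv, h2, h3, ← hκ,
      ← map_inv (PhiU φ), ← map_inv (PhiU φ), ← map_mul, ← map_mul, h4, map_mul, map_mul,
      map_inv (PhiU φ) V, ← hW, _root_.mul_inv_rev, inv_inv]
    simp only [mul_assoc]
  refine ⟨fun j => PhiU φ (J j), hJ, ρ, ⟨?_, hEE, ?_, ?_⟩, ?_, hD, q₀, κ⁻¹ * W,
    fun i => φ ((t i)⁻¹ : Rˣ), c, τ, ⟨?_, ?_, ?_, ?_, hτ, hfree⟩⟩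
  · rw [relator_eqn, map_mul, map_list_prod, map_list_prod, List.map_ofFn, List.map_ofFn]
    have e1 : (⇑ρ ∘ fun j : Fin n => gC j) = fun j => PhiU φ (J j) := funext hC
    have e2 : (⇑ρ ∘ fun i : Fin (k + 1 + 1) => hcomm i) =
        fun i => PhiU φ (a i * b i * (a i)⁻¹ * (b i)⁻¹) := funext hH
    rw [e1, e2]
    have h1 := congrArg (PhiU φ) hprod
    rw [map_mul, map_list_prod, List.map_ofFn, map_one] at h1
    rw [List.ofFn_succ, List.prod_cons, ha0, hb0]
    simp only [hasucc, hbsucc, mul_one, inv_one, map_one, List.ofFn_const, List.prod_replicate,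
      one_pow]
    exact h1
  · rintro ⟨i, b'⟩
    cases b' with
    | false =>
      have h2 := hA i
      rw [gA_eqn] at h2
      rw [h2]
      refine Fin.cases ?_ (fun i => ?_) i
      · rw [ha0]
        obtain ⟨c', hc'⟩ := hX
        exact PhiU_mem_GR φ _ c' hc'
      · rw [hasucc, map_one]; exact one_mem _
    | true =>
      have h2 := hB i
      rw [gB_eqn] at h2
      rw [h2]
      refine Fin.cases ?_ (fun i => ?_) i
      · rw [hb0]
        obtain ⟨c', hc'⟩ := hVP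
        exact PhiU_mem_GR φ _ c' hc'
      · rw [hbsucc, map_one]; exact one_mem _
  · intro j
    rw [hC]
    obtain ⟨c', hc'⟩ := hJdet j
    exact PhiU_mem_GR φ _ c' hc'
  · have h1 : Fin.last (k + 1) = (Fin.last k).succ := rfl
    rw [hB, h1, hbsucc, map_one]
  · rw [hP₀, Units.val_mul, Units.val_mul]
    congr 2
    rw [PhiU_coe]
    change (diagonal fun i => (((t i)⁻¹ : Rˣ) : R)).map φ = _
    ext i j
    by_cases hij : i = j
    · subst hij; simp only [map_apply, diagonal_apply_eq, map_units_inv]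
    · simp only [map_apply, Matrix.diagonal_apply_ne _ hij, map_zero, map_units_inv]
  · intro i j hij
    apply htinj
    have h1 : (t i)⁻¹ = (t j)⁻¹ := Units.ext (hφ hij)
    simp only [inv_injective h1]
  · intro q i j hij
    exact (mem_BTr.1 (mul_mem (mul_mem (inv_mem hUc) (hall _)) hUc)) hij
  · -- the blocks are irreducible
    have hP₁ : (κ⁻¹ * W)⁻¹ * ρ (loopW q₁) * (κ⁻¹ * W) = PhiU φ (V⁻¹ * (permU π)⁻¹) := by
      have h1 : loopW q₁ = (kap q₁)⁻¹ * (gB (0 : Fin (k + 1)).castSucc)⁻¹ * kap q₁ := by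
        rw [hq₁]; rfl
      have h2 : ρ (gB (0 : Fin (k + 1)).castSucc) = PhiU φ (V * permU π) := by
        rw [Fin.castSucc_zero, hB, hb0]
      rw [h1, map_mul, map_mul, map_inv, map_inv, h2, hκ₁, map_mul, map_mul, map_inv (PhiU φ) V,
        map_inv (PhiU φ), ← hW]
      group
    have hVinv : ∀ i, ((V⁻¹ : (Mat r R)ˣ) : Mat r R) i i = 1 := by
      intro i
      have hV1 : V ∈ BTr (id : Fin r → Fin r) := mem_BTr_of_upper monotone_id hVt
      have hV2 : V⁻¹ ∈ BTr (id : Fin r → Fin r) := inv_mem hV1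
      have h1 : ((V : Mat r R) * ((V⁻¹ : (Mat r R)ˣ) : Mat r R)) i i = 1 := by
        rw [← Units.val_mul, mul_inv_cancel, Units.val_one, one_apply_eq]
      rw [Matrix.mul_apply, Finset.sum_eq_single i, hVd, one_mul] at h1
      · exact h1
      · intro l _ hl
        rcases lt_or_gt_of_ne hl with h | h
        · rw [hVt i l h, zero_mul]
        · rw [(mem_BTr.1 hV2) (show id i < id l from h), mul_zero]
      · intro h; exact absurd (Finset.mem_univ _) h
    have hstep : ∀ i, (((κ⁻¹ * W)⁻¹ * ρ (loopW q₁) * (κ⁻¹ * W) : (Mat r ℂ)ˣ) : Mat r ℂ)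
        i (π i) ≠ 0 := by
      intro i
      rw [hP₁, PhiU_coe, Matrix.map_apply, Units.val_mul, Matrix.mul_apply,
        Finset.sum_eq_single i, permU_inv_apply, if_pos rfl, hVinv, mul_one, map_one]
      · exact one_ne_zero
      · intro l _ hl
        rw [permU_inv_apply, if_neg, mul_zero]
        exact fun h => hl (π.injective h)
      · intro h; exact absurd (Finset.mem_univ _) h
    intro i j hij
    obtain ⟨l, hl⟩ := hcc i j hij
    subst hl
    clear hij
    induction l with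
    | zero => exact Relation.ReflTransGen.refl
    | succ l ih =>
      refine ih.tail ⟨q₁, ?_⟩
      rw [pow_succ', Equiv.Perm.mul_apply]
      exact hstep _

/-- TASK G3 : existence of base points, general coefficients. -/
theorem exists_baseE {m n : ℕ} {R : Type*} [CommRing R] (φ : R →+* ℂ) (E : Subgroup ℂˣ)
    (hc : CoefOK φ E r) (hr : 1 ≤ r)
    (C : Fin n → (Mat r ℂ)ˣ) (hC : ∀ j, EigIn E (C j : Mat r ℂ))
    (hdet : ∏ j, (C j : Mat r ℂ).det = 1) (hm : 1 ≤ m) :
    ∃ J : Fin n → (Mat r ℂ)ˣ, (∀ j, IsConj (C j) (J j)) ∧ ∃ ρ ∈ DFr (g := m + 1) φ J,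
      ρ (gB (Fin.last m)) = 1 ∧ (∀ j, ρ (gD j) = 1) ∧
        ∃ (q₀ : Loop m n) (U : (Mat r ℂ)ˣ) (α : Fin r → ℂ) (c : Fin r → Fin r)
          (τ : Fin r → ℂ), BlockDataE E (fun q => ρ (loopW q)) q₀ U α c τ := by
  obtain ⟨k, rfl⟩ : ∃ k, m = k + 1 := ⟨m - 1, by omega⟩
  have hφ := hc.inj
  obtain ⟨u, hu⟩ := hc.unit
  choose δ hδ hJex using fun j => exists_dataE φ hc hr (C j) (hC j)
  let p : Fin r → Rˣ := fun i => ∏ j, δ j i
  have hp1 : ∀ i, p i ∈ HE φ E := fun i => Subgroup.prod_mem _ fun j _ => hδ j i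
  have hpprod : ∏ i, p i = 1 := by
    apply Units.ext
    apply hφ
    rw [Units.val_one, map_one, ← hdet]
    simp only [p]
    rw [Finset.prod_comm, Units.coe_prod, map_prod]
    refine Finset.prod_congr rfl fun j _ => ?_
    obtain ⟨J, hJ1, hJ2⟩ := hJex j 1 1 (by rw [map_one]; exact one_ne_zero)
    obtain ⟨X, hX⟩ := isConj_iff.mp hJ2
    have h1 : ((PhiU φ J : (Mat r ℂ)ˣ) : Mat r ℂ).det = (C j : Mat r ℂ).det := by
      rw [← hX, Units.val_mul, Units.val_mul, Matrix.det_mul, Matrix.det_mul, mul_right_comm,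
        ← Matrix.det_mul, ← Units.val_mul, mul_inv_cancel, Units.val_one, Matrix.det_one, one_mul]
    rw [← h1, PhiU_coe]
    have h2 : φ ((J : Mat r R).det) = ((J : Mat r R).map φ).det := RingHom.map_det φ _
    rw [← h2, hJ1.det, Units.coe_prod]
    rfl
  let p' : Fin r → HE φ E := fun i => ⟨p i, hp1 i⟩
  have hp' : ∏ i, p' i = 1 := by
    apply Subtype.ext
    rw [Subgroup.val_finsetProd]
    exact hpprod
  obtain ⟨σ, π, y', c, hy', hcm, hcπ, hcc, hyinj', -⟩ := exists_order p' hp'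
  let y : Fin r → Rˣ := fun i => (y' i : Rˣ)
  have hyE : ∀ i, y i ∈ HE φ E := fun i => (y' i).2
  have hy : ∀ a, y a = p (σ (π a)) * y (π a) := fun a => congrArg Subtype.val (hy' a)
  have hyinj : ∀ a b, c a = c b → y a = y b → a = b := fun a b h1 h2 =>
    hyinj' a b h1 (Subtype.ext h2)
  let x : Fin r → Rˣ := fun i => tB r u (c i) * y i
  let t : Fin r → Rˣ := fun i => x (π.symm i)
  have htπ : ∀ i, t (π i) = x i := fun i => by
    simp only [t, Equiv.symm_apply_apply]
  have htd : ∀ i, t i = p (σ i) * x i := by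
    intro i
    obtain ⟨a, rfl⟩ := π.surjective i
    rw [htπ]
    simp only [x]
    rw [hcπ, hy a]
    ac_rfl
  have hxinj : Function.Injective x := by
    intro i j hij
    have h1 : tB r u (c i) * (tB r u (c j))⁻¹ ∈ HE φ E := by
      have h2 : tB r u (c i) * (tB r u (c j))⁻¹ = y j * (y i)⁻¹ := by
        rw [mul_inv_eq_iff_eq_mul, mul_right_comm, eq_mul_inv_iff_mul_eq, mul_comm (y j)]
        exact hij
      rw [h2]
      exact mul_mem (hyE j) (inv_mem (hyE i))
    have h3 := tB_inj_mod φ u hu hr _ _ h1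
    simp only [x, h3] at hij
    exact hyinj i j h3 (mul_left_cancel hij)
  have htinj : Function.Injective fun i => (t i : R) := by
    intro i j hij
    exact π.symm.injective (hxinj (Units.ext hij))
  obtain ⟨Δ, hΔdef⟩ : ∃ Δ, Δ = discT fun i => (t i : R) := ⟨_, rfl⟩
  have hΔ : φ Δ ≠ 0 := by
    rw [hΔdef]
    exact phi_discT_ne φ hφ _ htinj
  choose J hJ hconj using fun j => hJex j σ Δ hΔ
  -- the product of the boundary matrices
  have hP := IsJ.list (Δ := Δ) (fun j i => (δ j (σ i) : R)) (fun j => (J j : Mat r R)) hJ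
    (List.finRange n)
  obtain ⟨F, hF, hPF⟩ := hP
  have hp : ((List.finRange n).map fun j i => (δ j (σ i) : R)).prod = fun i => (p (σ i) : R) := by
    rw [← List.ofFn_eq_map, List.prod_ofFn]
    funext i
    rw [Finset.prod_apply, ← Units.coe_prod]
  rw [hp] at hPF
  have hprodJ : (((List.ofFn fun j => J j).prod : (Mat r R)ˣ) : Mat r R) =
      diagonal (fun i => (p (σ i) : R)) + Δ • F := by
    rw [← hPF, ← List.ofFn_eq_map, ← Units.coeHom_apply, map_list_prod, List.map_ofFn]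
    rfl
  -- the triangular part
  obtain ⟨V, hVlow, hVdiag, hV⟩ := exists_comm_tri (fun i => (t i : R)) Δ
    (discwT fun i => (t i : R)) (fun i j hij => by rw [hΔdef]; exact discwT_mul _ i j hij)
    (F * diagonal fun i => (((p (σ i))⁻¹ : Rˣ) : R)) (hF.mul_diag _)
  have hVdet : V.det = 1 := by
    rw [Matrix.det_of_isUpperTriangular]
    · simp only [hVdiag, Finset.prod_const_one]
    · intro i j hij
      exact hVlow i j hij
  obtain ⟨VU, hVU⟩ := exists_unit_of_det (Y := V) (by rw [hVdet]; exact isUnit_one)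
  have hprodX : (((List.ofFn fun j => J j).prod * diagU x : (Mat r R)ˣ) : Mat r R) =
      (1 + Δ • (F * diagonal fun i => (((p (σ i))⁻¹ : Rˣ) : R))) * diagonal fun i => (t i : R) := by
    rw [Units.val_mul, hprodJ]
    change (diagonal (fun i => (p (σ i) : R)) + Δ • F) * (diagonal fun i => (x i : R)) = _
    rw [Matrix.add_mul, Matrix.add_mul, Matrix.one_mul, Matrix.smul_mul, Matrix.smul_mul,
      Matrix.mul_assoc, diagonal_mul_diagonal, diagonal_mul_diagonal]
    congr 3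
    · funext i
      rw [htd]
      exact (Units.val_mul _ _).symm
    · congr 1
      funext i
      rw [htd, ← Units.val_mul, inv_mul_cancel_left]
  have hmain : (List.ofFn fun j => J j).prod *
      (diagU x * (VU * permU π) * (diagU x)⁻¹ * (VU * permU π)⁻¹) = 1 := by
    have h1 : (List.ofFn fun j => J j).prod * diagU x * VU = VU * diagU t := by
      apply Units.ext
      rw [Units.val_mul, hprodX, hVU, Units.val_mul, hVU]
      exact hV.symm
    have h2 := permU_diagU π x t htπ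
    calc (List.ofFn fun j => J j).prod *
          (diagU x * (VU * permU π) * (diagU x)⁻¹ * (VU * permU π)⁻¹) =
        ((List.ofFn fun j => J j).prod * diagU x * VU) * permU π * (diagU x)⁻¹ *
          (VU * permU π)⁻¹ := by simp only [mul_assoc]
      _ = VU * (diagU t * permU π) * (diagU x)⁻¹ * (VU * permU π)⁻¹ := by
          rw [h1]; simp only [mul_assoc]
      _ = 1 := by rw [← h2]; group
  refine finishE φ hφ E C J hconj ?_ x t VU π c ?_ ?_ htπ htinj hcm hcπ hcc ?_ ?_ ?_ _ ?_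
    (freeMod_tB φ u hu hr) hmain
  · intro j
    obtain ⟨c', hc'⟩ := exists_rootHE φ hc hr (∏ i, δ j (σ i))
      (Subgroup.prod_mem _ fun i _ => hδ j _)
    refine ⟨c', ?_⟩
    rw [(hJ j).det, ← Units.coe_prod]
    exact hc'
  · change ∃ c : Rˣ, (diagonal fun i => (x i : R)).det = (c : R) ^ r
    rw [Matrix.det_diagonal, ← Units.coe_prod]
    simp only [x]
    rw [Finset.prod_mul_distrib]
    obtain ⟨c₁, hc₁⟩ : ∃ c₁ : Rˣ, ∏ i, tB r u (c i) = c₁ ^ r := by
      refine ⟨u ^ ∑ i : Fin r, (2 * r + 4) ^ ((c i : Fin r) : ℕ), ?_⟩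
      unfold tB
      rw [Finset.prod_pow_eq_pow_sum, ← pow_mul, ← Finset.mul_sum, mul_comm]
    obtain ⟨c₂, hc₂⟩ := exists_rootHE φ hc hr (∏ i, y i) (Subgroup.prod_mem _ fun i _ => hyE i)
    refine ⟨c₁ * c₂, ?_⟩
    rw [Units.val_mul, hc₁, hc₂, Units.val_mul, mul_pow, Units.val_pow_eq_pow_val]
  · apply exists_rootE φ hc.weak hr
    have h1 : ((VU * permU π : (Mat r R)ˣ) : Mat r R).det ^ 2 = 1 := by
      rw [Units.val_mul, Matrix.det_mul, hVU, hVdet, one_mul, det_permU]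
    have h2 : φ ((VU * permU π : (Mat r R)ˣ) : Mat r R).det ^ 2 = 1 := by
      rw [← map_pow, h1, map_one]
    rw [sq] at h2
    rcases mul_self_eq_one_iff.1 h2 with h | h
    · exact ⟨1, E.one_mem, by rw [h, Units.val_one]⟩
    · exact ⟨-1, hc.neg, by rw [h, Units.val_neg, Units.val_one]⟩
  · intro j i i' hij
    obtain ⟨F, hF, hJF⟩ := hJ j
    rw [hJF, Matrix.add_apply, Matrix.smul_apply, diagonal_apply_ne _ hij.ne',
      hF i i' (not_lt.2 hij.le), smul_zero, add_zero]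
  · intro i i' hij
    rw [hVU]; exact hVlow i i' hij
  · intro i
    rw [hVU]; exact hVdiag i
  · intro i
    obtain ⟨a, rfl⟩ := π.surjective i
    rw [htπ, hcπ]
    refine ⟨Units.map (φ : R →* ℂ) (y a)⁻¹, E.inv_mem (hyE a) |> fun h => by rwa [map_inv], ?_⟩
    simp only [x, mul_inv, Units.val_mul, map_mul]
    rfl

end DataE

end Vale.Agent.P002R
end
namespace AFast46104cx1370a
@[reducible] def a0.{u1} {x1 : Type u1} [x2 : CommRing x1] {x3 : x1 →+* ℂ} {x4 : Subgroup ℂˣ} : CommMonoid ↥(Vale.Agent.P002R.HE x3 x4) := inferInstance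
end AFast46104cx1370a
attribute [local instance] AFast46104cx1370a.a0

section

/-!
# The dual lemma for block data, part H: existence of generic matrices with the dual property
-/

namespace Vale.Agent.P002R

open Matrix Filter Topology

variable {r : ℕ}

section

variable {L : Type*} (P : L → (Mat r ℂ)ˣ)

/-- Connectedness of the blocks gives words with nonzero entries. -/
theorem exists_word (q₀ : L) (α : Fin r → ℂ) (hα : Function.Injective α)
    (hq₀ : (P q₀ : Mat r ℂ) = diagonal α) (i j : Fin r)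
    (h : Relation.ReflTransGen (fun i j => ∃ q, (P q : Mat r ℂ) i j ≠ 0) i j) :
    ∃ p, (wP P p : Mat r ℂ) i j ≠ 0 := by
  induction h with
  | refl => exact ⟨[], by rw [wP, Units.val_one, Matrix.one_apply_eq]; exact one_ne_zero⟩
  | @tail j k _ hjk ih =>
    obtain ⟨p, hp⟩ := ih
    obtain ⟨q, hq⟩ := hjk
    by_contra hcon
    push Not at hcon
    have h1 := single_interp hα (fun l => (wP P p : Mat r ℂ) i l * (P q : Mat r ℂ) l k) (by
      intro n
      have h2 := hcon (p ++ (List.replicate n q₀ ++ [q]))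
      rw [wP_append, wP_append, Units.val_mul, Units.val_mul, wP_replicate P q₀ α hq₀,
        Matrix.mul_apply] at h2
      refine Eq.trans ?_ h2
      refine Finset.sum_congr rfl fun l _ => ?_
      rw [diagonal_mul]
      have : wP P [q] = P q := by simp [wP]
      rw [this]
      ring) j
    exact mul_ne_zero hp hq h1

/-- The coboundary of `η`. -/
def cobM (η : Fin r → ℂ) : Mat r ℂ := Matrix.of fun i j => η i - η j

theorem Phi_cob (k : ℕ) (A X : Mat r ℂ) (η : Fin r → ℂ) : Phi k (cobM η) A X = 0 := by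
  have h1 : cobM η ⊙ X = diagonal η * X - X * diagonal η := by
    ext i j
    rw [Matrix.hadamard_apply, cobM, Matrix.of_apply, Matrix.sub_apply, diagonal_mul, mul_diagonal]
    ring
  have h2 : (cobM η)ᵀ ⊙ A = A * diagonal η - diagonal η * A := by
    ext i j
    rw [Matrix.hadamard_apply, Matrix.transpose_apply, cobM, Matrix.of_apply, Matrix.sub_apply,
      diagonal_mul, mul_diagonal]
    ring
  have e1 : trace (X * diagonal η * A * (X * A) ^ k) = trace (diagonal η * A * X * (A * X) ^ k) := by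
    have h3 : (X * A) ^ k * X = X * (A * X) ^ k := pow_shift A X k
    calc trace (X * diagonal η * A * (X * A) ^ k) = trace (X * (diagonal η * A * (X * A) ^ k)) := by
          simp only [mul_assoc]
      _ = trace (diagonal η * A * ((X * A) ^ k * X)) := by
          rw [Matrix.trace_mul_comm]; simp only [mul_assoc]
      _ = _ := by rw [h3]; simp only [mul_assoc]
  have e2 : trace (A * diagonal η * X * (A * X) ^ k) = trace (diagonal η * X * A * (X * A) ^ k) := by
    have h3 : (A * X) ^ k * A = A * (X * A) ^ k := pow_shift X A k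
    calc trace (A * diagonal η * X * (A * X) ^ k) = trace (A * (diagonal η * X * (A * X) ^ k)) := by
          simp only [mul_assoc]
      _ = trace (diagonal η * X * ((A * X) ^ k * A)) := by
          rw [Matrix.trace_mul_comm]; simp only [mul_assoc]
      _ = _ := by rw [h3]; simp only [mul_assoc]
  unfold Phi
  rw [h1, h2, sub_mul, sub_mul, sub_mul, sub_mul, trace_sub, trace_sub, e1, e2]
  ring

theorem Phi_add (k : ℕ) (A X μ ν : Mat r ℂ) : Phi k (μ + ν) A X = Phi k μ A X + Phi k ν A X := by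
  have h1 : ∀ Y : Mat r ℂ, (μ + ν) ⊙ Y = μ ⊙ Y + ν ⊙ Y := by
    intro Y
    ext i j
    simp only [Matrix.hadamard_apply, Matrix.add_apply]
    ring
  have h2 : ∀ Y : Mat r ℂ, (μ + ν)ᵀ ⊙ Y = μᵀ ⊙ Y + νᵀ ⊙ Y := by
    intro Y
    ext i j
    simp only [Matrix.hadamard_apply, Matrix.add_apply, Matrix.transpose_apply]
    ring
  unfold Phi
  rw [h1, h2]
  simp only [add_mul, trace_add]
  ring

theorem Phi_smul (k : ℕ) (A X μ : Mat r ℂ) (a : ℂ) : Phi k (a • μ) A X = a * Phi k μ A X := by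
  have h1 : ∀ Y : Mat r ℂ, (a • μ) ⊙ Y = a • (μ ⊙ Y) := by
    intro Y
    ext i j
    simp only [Matrix.hadamard_apply, Matrix.smul_apply, smul_eq_mul]
    ring
  have h2 : ∀ Y : Mat r ℂ, (a • μ)ᵀ ⊙ Y = a • (μᵀ ⊙ Y) := by
    intro Y
    ext i j
    simp only [Matrix.hadamard_apply, Matrix.smul_apply, Matrix.transpose_apply, smul_eq_mul]
    ring
  unfold Phi
  rw [h1, h2]
  simp only [Matrix.smul_mul, trace_smul, smul_eq_mul]
  ring

theorem MuOK.sub_cob {P : L → (Mat r ℂ)ˣ} {A μ : Mat r ℂ} (h : MuOK P A μ) (η : Fin r → ℂ) :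
    MuOK P A (μ - cobM η) := by
  constructor
  · intro p p' i j k h1 h2
    have := h.1 p p' i j k h1 h2
    simp only [Matrix.sub_apply, cobM, Matrix.of_apply, this]
    ring
  · intro p k
    have h1 : μ - cobM η = μ + (-1 : ℂ) • cobM η := by
      rw [neg_one_smul, sub_eq_add_neg]
    rw [h1, Phi_add, Phi_smul, Phi_cob, h.2 p k]
    ring

theorem MuOK.smul {P : L → (Mat r ℂ)ˣ} {A μ : Mat r ℂ} (h : MuOK P A μ) (a : ℂ) :
    MuOK P A (a • μ) := by
  constructor
  · intro p p' i j k h1 h2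
    have := h.1 p p' i j k h1 h2
    simp only [Matrix.smul_apply, smul_eq_mul, this]
    ring
  · intro p k
    rw [Phi_smul, h.2 p k, mul_zero]

/-- Normalization. -/
theorem MuOK.normalize {P : L → (Mat r ℂ)ˣ} {A μ : Mat r ℂ} (h : MuOK P A μ)
    (hne : ¬ ∃ η : Fin r → ℂ, ∀ i j, μ i j = η i - η j) (c rep : Fin r → Fin r)
    (hrep : ∀ i, c (rep i) = c i) (hrep' : ∀ i j, c i = c j → rep i = rep j) (i₀ : Fin r)
    (hconn : ∀ i j, c i = c j → ∃ p, (wP P p : Mat r ℂ) i j ≠ 0) :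
    ∃ f : Fin r → Fin r → ℂ, MuOK P A (Matrix.of f) ∧ (∀ i j, c i = c j → f i j = 0) ∧
      (∀ i, f (rep i) i₀ = 0) ∧ ‖f‖ = 1 := by
  have hrr : ∀ i, rep (rep i) = rep i := fun i => hrep' _ _ (hrep i)
  have hcoc : ∀ i j k, c i = c j → c j = c k → μ i k = μ i j + μ j k := by
    intro i j k hij hjk
    obtain ⟨p, hp⟩ := hconn i j hij
    obtain ⟨p', hp'⟩ := hconn j k hjk
    exact h.1 p p' i j k hp hp'
  have h1 := h.sub_cob fun i => μ i (rep i)
  obtain ⟨μ₁, hμ₁⟩ : ∃ μ₁, μ₁ = μ - cobM fun i => μ i (rep i) := ⟨_, rfl⟩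
  have hz1 : ∀ i j, c i = c j → μ₁ i j = 0 := by
    intro i j hij
    have h2 := hcoc i j (rep j) hij (hrep j).symm
    rw [hμ₁, Matrix.sub_apply, cobM, Matrix.of_apply, hrep' i j hij, h2]
    ring
  rw [← hμ₁] at h1
  have h2 := h1.sub_cob fun i => μ₁ (rep i) i₀
  obtain ⟨μ₂, hμ₂⟩ : ∃ μ₂, μ₂ = μ₁ - cobM fun i => μ₁ (rep i) i₀ := ⟨_, rfl⟩
  have hz2 : ∀ i j, c i = c j → μ₂ i j = 0 := by
    intro i j hij
    rw [hμ₂, Matrix.sub_apply, cobM, Matrix.of_apply, hrep' i j hij, hz1 i j hij]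
    ring
  have hz3 : ∀ i, μ₂ (rep i) i₀ = 0 := by
    intro i
    rw [hμ₂, Matrix.sub_apply, cobM, Matrix.of_apply, hrr, hz1 (rep i₀) i₀ (hrep i₀)]
    ring
  rw [← hμ₂] at h2
  obtain ⟨f, hf⟩ : ∃ f : Fin r → Fin r → ℂ, f = fun i j => μ₂ i j := ⟨_, rfl⟩
  have hfμ : Matrix.of f = μ₂ := by rw [hf]; rfl
  have hf0 : f ≠ 0 := by
    intro h0
    apply hne
    refine ⟨fun i => μ i (rep i) + μ₁ (rep i) i₀, fun i j => ?_⟩
    have h3 : μ₂ i j = 0 := by
      have := congrFun (congrFun h0 i) j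
      rw [hf] at this
      exact this
    rw [hμ₂, Matrix.sub_apply, cobM, Matrix.of_apply] at h3
    have h4 : μ₁ i j = μ i j - (μ i (rep i) - μ j (rep j)) := by
      rw [hμ₁, Matrix.sub_apply, cobM, Matrix.of_apply]
    rw [h4] at h3
    linear_combination h3
  have hn : ‖f‖ ≠ 0 := norm_ne_zero_iff.2 hf0
  refine ⟨((‖f‖⁻¹ : ℝ) : ℂ) • f, ?_, ?_, ?_, ?_⟩
  · have : Matrix.of (((‖f‖⁻¹ : ℝ) : ℂ) • f) = ((‖f‖⁻¹ : ℝ) : ℂ) • μ₂ := by
      rw [← hfμ]; rfl
    rw [this]
    exact h2.smul _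
  · intro i j hij
    have : f i j = 0 := by rw [hf]; exact hz2 i j hij
    simp [this]
  · intro i
    have : f (rep i) i₀ = 0 := by rw [hf]; exact hz3 i
    simp [this]
  · rw [norm_smul, Complex.norm_real, norm_inv, norm_norm, inv_mul_cancel₀ hn]

/-- Generic matrices near `1 + ε B`. -/
theorem exists_generic_near (K₀ : Subfield ℂ) [Countable K₀] (B : Mat r ℂ) (n : ℕ) :
    ∃ (A : (Mat r ℂ)ˣ) (B' : Mat r ℂ),
      AlgebraicIndependent K₀ (fun p : Fin r × Fin r => (A : Mat r ℂ) p.1 p.2) ∧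
      (A : Mat r ℂ) = 1 + (((n : ℂ) + 1)⁻¹) • B' ∧
      ∀ i j, ‖B' i j - B i j‖ < 1 / ((n : ℝ) + 1) := by
  have hn : (0 : ℝ) < (n : ℝ) + 1 := by positivity
  have hnc : ((n : ℂ) + 1) ≠ 0 := by exact_mod_cast hn.ne'
  obtain ⟨t, ht1, ht2⟩ := P002.exists_dense_algIndep K₀ inferInstance
    (fun p : Fin r × Fin r => Metric.ball ((1 + (((n : ℂ) + 1)⁻¹) • B) p.1 p.2)
      (1 / ((n : ℝ) + 1) / ((n : ℝ) + 1))) (fun p => Metric.isOpen_ball)
    (fun p => Metric.nonempty_ball.2 (by positivity))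
  obtain ⟨A', hA'⟩ : ∃ A' : Mat r ℂ, A' = Matrix.of fun i j => t (i, j) := ⟨_, rfl⟩
  have hgen : AlgebraicIndependent K₀ (fun p : Fin r × Fin r => A' p.1 p.2) := by
    rw [hA']; exact ht2
  have hu : IsUnit A' := by
    rw [Matrix.isUnit_iff_isUnit_det, isUnit_iff_ne_zero]
    intro h
    have h1 : (MvPolynomial.aeval fun p : Fin r × Fin r => A' p.1 p.2)
        (det (mvPolynomialX (Fin r) (Fin r) K₀)) = 0 := by
      rw [AlgHom.map_det, mvPolynomialX_mapMatrix_aeval, h]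
    exact det_mvPolynomialX_ne_zero (Fin r) K₀ (hgen (h1.trans (map_zero _).symm))
  obtain ⟨A, hA⟩ := hu
  refine ⟨A, ((n : ℂ) + 1) • (A' - 1), by rw [hA]; exact hgen, ?_, fun i j => ?_⟩
  · rw [hA, smul_smul, inv_mul_cancel₀ hnc, one_smul]
    abel
  · have h1 := ht1 (i, j)
    rw [Metric.mem_ball, dist_eq_norm] at h1
    have h2 : (((n : ℂ) + 1) • (A' - 1)) i j - B i j =
        ((n : ℂ) + 1) * (t (i, j) - (1 + (((n : ℂ) + 1)⁻¹) • B) (i, j).1 (i, j).2) := by
      simp only [Matrix.smul_apply, Matrix.sub_apply, Matrix.add_apply, smul_eq_mul, hA',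
        Matrix.of_apply]
      field_simp
      ring
    rw [h2, norm_mul]
    have h3 : ‖((n : ℂ) + 1)‖ = (n : ℝ) + 1 := by
      have : ((n : ℂ) + 1) = (((n : ℝ) + 1 : ℝ) : ℂ) := by push_cast; rfl
      rw [this, Complex.norm_real, Real.norm_of_nonneg hn.le]
    rw [h3]
    calc ((n : ℝ) + 1) * ‖t (i, j) - (1 + (((n : ℂ) + 1)⁻¹) • B) (i, j).1 (i, j).2‖ <
          ((n : ℝ) + 1) * (1 / ((n : ℝ) + 1) / ((n : ℝ) + 1)) := mul_lt_mul_of_pos_left h1 hn
      _ = 1 / ((n : ℝ) + 1) := by (clear * -; field_simp)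

end

/-- Conjugation invariance of the dual property. -/
theorem DualProp.conj {L : Type*} (P : L → (Mat r ℂ)ˣ) (A U : (Mat r ℂ)ˣ)
    (h : DualProp (fun q => U⁻¹ * P q * U) (U⁻¹ * A * U)) : DualProp P A := by
  intro R Q H
  have hU1 : (U : Mat r ℂ) * iv U = 1 := U.mul_inv
  obtain ⟨P', hP'⟩ : ∃ P' : L → (Mat r ℂ)ˣ, P' = fun q => U⁻¹ * P q * U := ⟨_, rfl⟩
  obtain ⟨R', hR'⟩ : ∃ R' : L → Mat r ℂ, R' = fun q => iv U * R q * (U : Mat r ℂ) := ⟨_, rfl⟩
  obtain ⟨Q', hQ'⟩ : ∃ Q' : Mat r ℂ, Q' = iv U * Q * (U : Mat r ℂ) := ⟨_, rfl⟩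
  obtain ⟨A', hA'⟩ : ∃ A' : (Mat r ℂ)ˣ, A' = U⁻¹ * A * U := ⟨_, rfl⟩
  rw [← hP', ← hA'] at h
  have hP'q : ∀ q, P' q = U⁻¹ * P q * U := fun q => by rw [hP']
  have hR'q : ∀ q, R' q = iv U * R q * (U : Mat r ℂ) := fun q => by rw [hR']
  have e1 : ∀ q, (P' q : Mat r ℂ) = iv U * (P q : Mat r ℂ) * (U : Mat r ℂ) := fun q => by
    rw [hP'q]; simp only [Units.val_mul, coe_units_inv, iv]
  have e2 : ∀ q, iv (P' q) = iv U * iv (P q) * (U : Mat r ℂ) := fun q => by
    rw [hP'q]; simp only [iv, mul_assoc, _root_.mul_inv_rev, inv_inv, Units.val_mul, coe_units_inv]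
  have hwP' : ∀ p, wP P' p = U⁻¹ * wP P p * U := by
    intro p
    induction p with
    | nil => simp [wP]
    | cons q p ih =>
      rw [wP, wP, ih, hP'q]
      group
  have hth' : ∀ p, theta P' R' p = iv U * theta P R p * (U : Mat r ℂ) := by
    intro p
    induction p with
    | nil => simp only [theta, coe_units_inv, mul_zero, zero_mul]
    | cons q p ih =>
      rw [theta, theta]
      change R' q + (P' q : Mat r ℂ) * theta P' R' p * iv (P' q) =
        iv U * (R q + (P q : Mat r ℂ) * theta P R p * iv (P q)) * (U : Mat r ℂ)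
      rw [ih, e1, e2, hR'q, mul_add, add_mul]
      congr 1
      calc _ = iv U * (P q : Mat r ℂ) * ((U : Mat r ℂ) * iv U) * theta P R p *
            ((U : Mat r ℂ) * iv U) * iv (P q) * (U : Mat r ℂ) := by simp only [mul_assoc]
        _ = _ := by rw [hU1, mul_one, mul_one]; simp only [mul_assoc]
  have hpow : ∀ (M : (Mat r ℂ)ˣ) (k : ℕ), ((U⁻¹ * M * U : (Mat r ℂ)ˣ) : Mat r ℂ) ^ k =
      iv U * (M : Mat r ℂ) ^ k * (U : Mat r ℂ) := by
    intro M k
    induction k with
    | zero => simp only [Units.val_mul, coe_units_inv, pow_zero, mul_one, inv_mul_of_invertible]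
    | succ k ih =>
      rw [pow_succ, ih, pow_succ]
      have e1 : ((U⁻¹ * M * U : (Mat r ℂ)ˣ) : Mat r ℂ) = iv U * (M : Mat r ℂ) * (U : Mat r ℂ) := by
        simp only [Units.val_mul, coe_units_inv, iv]
      rw [e1]
      calc _ = iv U * (M : Mat r ℂ) ^ k * ((U : Mat r ℂ) * iv U) * (M : Mat r ℂ) *
            (U : Mat r ℂ) := by simp only [mul_assoc]
        _ = _ := by rw [hU1, mul_one]; simp only [mul_assoc]
  obtain ⟨η, h1, h2⟩ := h R' Q' (by
      intro p k hk1
      have e1 : wP P' p * A' = U⁻¹ * (wP P p * A) * U := by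
        rw [hwP', hA']; group
      rw [e1, hth', hpow]
      have e2 : (Q' + iv U * theta P R p * (U : Mat r ℂ)) *
          (iv U * ((wP P p * A : (Mat r ℂ)ˣ) : Mat r ℂ) ^ k * (U : Mat r ℂ)) =
          iv U * ((Q + theta P R p) * ((wP P p * A : (Mat r ℂ)ˣ) : Mat r ℂ) ^ k) *
            (U : Mat r ℂ) := by
        have e3 : Q' + iv U * theta P R p * (U : Mat r ℂ) = iv U * (Q + theta P R p) *
            (U : Mat r ℂ) := by
          rw [hQ', mul_add, add_mul]
        rw [e3]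
        calc _ = iv U * (Q + theta P R p) * ((U : Mat r ℂ) * iv U) *
              ((wP P p * A : (Mat r ℂ)ˣ) : Mat r ℂ) ^ k * (U : Mat r ℂ) := by
              simp only [mul_assoc]
          _ = _ := by rw [hU1, mul_one]; simp only [mul_assoc]
      rw [e2, mul_assoc, Matrix.trace_mul_comm, mul_assoc, hU1, mul_one]
      exact H p k hk1)
  refine ⟨(U : Mat r ℂ) * η * iv U, ?_, ?_⟩
  · intro q
    have h3 := h1 q
    have h4 : R q = (U : Mat r ℂ) * R' q * iv U := by
      rw [hR'q]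
      calc R q = ((U : Mat r ℂ) * iv U) * R q * ((U : Mat r ℂ) * iv U) := by
            rw [hU1, one_mul, mul_one]
        _ = _ := by simp only [mul_assoc]
    change R q = _ - (P q : Mat r ℂ) * _ * iv (P q)
    change R' q = _ - (P' q : Mat r ℂ) * _ * iv (P' q) at h3
    rw [h4, h3, e1, e2, mul_sub, sub_mul]
    congr 1
    calc _ = ((U : Mat r ℂ) * iv U) * (P q : Mat r ℂ) * (U : Mat r ℂ) * η * iv U * iv (P q) *
          ((U : Mat r ℂ) * iv U) := by simp only [mul_assoc]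
      _ = _ := by rw [hU1, one_mul, mul_one]; simp only [mul_assoc, iv]
  · have e2 : iv A' = iv U * iv A * (U : Mat r ℂ) := by rw [hA']; simp only [iv, mul_assoc, _root_.mul_inv_rev, inv_inv, Units.val_mul, coe_units_inv]
    have e1 : (A' : Mat r ℂ) = iv U * (A : Mat r ℂ) * (U : Mat r ℂ) := by rw [hA']; simp only [Units.val_mul, coe_units_inv, iv]
    have h4 : Q = (U : Mat r ℂ) * Q' * iv U := by
      rw [hQ']
      calc Q = ((U : Mat r ℂ) * iv U) * Q * ((U : Mat r ℂ) * iv U) := by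
            rw [hU1, one_mul, mul_one]
        _ = _ := by simp only [mul_assoc]
    change Q = iv A * _ * (A : Mat r ℂ) - _
    change Q' = iv A' * _ * (A' : Mat r ℂ) - _ at h2
    rw [h4, h2, e1, e2, mul_sub, sub_mul]
    congr 1
    calc _ = ((U : Mat r ℂ) * iv U) * iv A * (U : Mat r ℂ) * η * iv U * (A : Mat r ℂ) *
          ((U : Mat r ℂ) * iv U) := by simp only [mul_assoc]
      _ = _ := by rw [hU1, one_mul, mul_one]; simp only [mul_assoc, iv]

end Vale.Agent.P002R
end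

section

/-!
# The dual lemma for block data over a general coefficient ring
-/

namespace Vale.Agent.P002R

open Matrix Filter Topology

variable {r : ℕ}

/-- Monomials in `α` of bounded degree determine their block degrees. -/
def BlockSep (D : ℕ) (α : Fin r → ℂ) (c : Fin r → Fin r) : Prop :=
  ∀ s s' : Fin r → ℕ, ∑ i, s i = ∑ i, s' i → ∑ i, s i ≤ D → ∏ i, α i ^ s i = ∏ i, α i ^ s' i →
    ∀ δ : Fin r → ℂ, ∏ i, δ (c i) ^ s i = ∏ i, δ (c i) ^ s' i

theorem blockSep_of_fac (E : Subgroup ℂˣ) (D : ℕ) (α : Fin r → ℂ) (c : Fin r → Fin r)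
    (τ : Fin r → ℂ) (hfac : ∀ i, ∃ ε ∈ E, α i = τ (c i) * (ε : ℂ)) (hfree : FreeMod E D τ) :
    BlockSep D α c := by
  classical
  intro s s' hs hD hprod δ
  choose ε hε hα using hfac
  have key : ∀ (t : Fin r → ℕ) (f : Fin r → ℂ), ∏ i, f (c i) ^ t i =
      ∏ b, f b ^ (∑ i with c i = b, t i) := by
    intro t f
    rw [← Finset.prod_fiberwise_of_maps_to (s := Finset.univ) (t := Finset.univ) (g := c)
      (fun i _ => Finset.mem_univ _)]
    refine Finset.prod_congr rfl fun b _ => ?_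
    rw [← Finset.prod_pow_eq_pow_sum]
    refine Finset.prod_congr rfl fun i hi => ?_
    rw [(Finset.mem_filter.1 hi).2]
  have hsum : ∀ t : Fin r → ℕ, ∑ b, (∑ i with c i = b, t i) = ∑ i, t i := fun t =>
    Finset.sum_fiberwise_of_maps_to (fun i _ => Finset.mem_univ _) _
  have hfac' : ∀ t : Fin r → ℕ, ∏ i, α i ^ t i =
      ((∏ i, ε i ^ t i : ℂˣ) : ℂ) * ∏ b, τ b ^ (∑ i with c i = b, t i) := by
    intro t
    rw [← key t τ, Units.coe_prod, ← Finset.prod_mul_distrib]
    refine Finset.prod_congr rfl fun i _ => ?_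
    rw [hα i, mul_pow, Units.val_pow_eq_pow_val, mul_comm]
  have he : (fun b => ∑ i with c i = b, s i) = fun b => ∑ i with c i = b, s' i := by
    apply hfree
    · rw [hsum, hsum, hs]
    · rw [hsum]; exact hD
    · refine ⟨(∏ i, ε i ^ s i)⁻¹ * ∏ i, ε i ^ s' i, ?_, ?_⟩
      · exact mul_mem (inv_mem (prod_mem fun i _ => pow_mem (hε i) _))
          (prod_mem fun i _ => pow_mem (hε i) _)
      · have h1 := hfac' s
        rw [hprod, hfac' s'] at h1
        rw [Units.val_mul, mul_assoc, h1, ← mul_assoc, ← Units.val_mul, inv_mul_cancel,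
          Units.val_one, one_mul]
  rw [key, key]
  refine Finset.prod_congr rfl fun b _ => ?_
  rw [congrFun he b]

/-- A homogeneous polynomial which vanishes at all powers of `α` vanishes at all block scalars. -/
theorem homog_block {d D : ℕ} (α : Fin r → ℂ) (c : Fin r → Fin r) (hα : BlockSep D α c)
    (hd : d ≤ D) (g : MvPolynomial (Fin r) ℂ) (hg : g.IsHomogeneous d)
    (h : ∀ n : ℕ, MvPolynomial.eval (fun b => α b ^ n) g = 0) (δ : Fin r → ℂ) :
    MvPolynomial.eval (fun i => δ (c i)) g = 0 := by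
  classical
  have hdeg : ∀ s : Fin r →₀ ℕ, s ∈ g.support → ∑ i, s i = d := by
    intro s hs
    by_contra hne
    rw [MvPolynomial.mem_support_iff] at hs
    apply hs
    apply hg.coeff_eq_zero
    rw [Finsupp.degree_eq_sum]
    exact hne
  have h1 := interp_zero (S := {s // s ∈ g.support}) (fun s => ∏ i, α i ^ (s : Fin r →₀ ℕ) i)
    (fun s => ∏ i, δ (c i) ^ (s : Fin r →₀ ℕ) i) (fun s => g.coeff s)
    (by
      intro s s' hss
      exact hα s.1 s'.1 (by rw [hdeg _ s.2, hdeg _ s'.2]) (by rw [hdeg _ s.2]; exact hd) hss δ)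
    (by
      intro n
      have h2 := MvPolynomial.eval_eq' (fun b => α b ^ n) g
      rw [h n] at h2
      have h3 := Finset.sum_coe_sort g.support
        (fun s : Fin r →₀ ℕ => g.coeff s * ∏ i, (α i ^ n) ^ s i)
      rw [h2, ← h3]
      refine Finset.sum_congr rfl fun s _ => ?_
      congr 1
      rw [← Finset.prod_pow]
      refine Finset.prod_congr rfl fun i _ => ?_
      rw [← pow_mul, ← pow_mul, mul_comm])
  rw [MvPolynomial.eval_eq', ← Finset.sum_coe_sort]
  exact h1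

/-- Extension from powers of `α` to all block scalars. -/
theorem extend_blockE {k D : ℕ} (hk : k + 1 ≤ D) (α : Fin r → ℂ)
    (c : Fin r → Fin r) (hα : BlockSep D α c) (μ A X Y : Mat r ℂ)
    (h : ∀ n : ℕ, Phi k μ A (X * diagonal (fun i => α i ^ n) * Y) = 0) (δ : Fin r → ℂ) :
    Phi k μ A (X * diagonal (fun i => δ (c i)) * Y) = 0 := by
  obtain ⟨C, hC⟩ : ∃ C : ℂ →+* MvPolynomial (Fin r) ℂ, C = MvPolynomial.C := ⟨_, rfl⟩
  obtain ⟨Z, hZ⟩ : ∃ Z : Mat r (MvPolynomial (Fin r) ℂ), Z = X.map C * genD id * Y.map C :=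
    ⟨_, rfl⟩
  have hZh : HomM 1 Z := by
    rw [hZ, hC]
    have h := ((HomM.const X).mul (HomM.genD id)).mul (HomM.const Y)
    simpa using h
  have hev : ∀ δ : Fin r → ℂ, MvPolynomial.eval δ (Phi k (μ.map C) (A.map C) Z) =
      Phi k μ A (X * diagonal δ * Y) := by
    intro δ
    have hid : ∀ U : Mat r ℂ, (U.map C).map (MvPolynomial.eval δ) = U := by
      intro U
      ext i j
      simp only [hC, map_apply, MvPolynomial.eval_C]
    rw [Phi_map, hid, hid, hZ, Matrix.map_mul, Matrix.map_mul, hid, hid]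
    congr 3
    ext i j
    rw [Matrix.map_apply, genD]
    by_cases hij : i = j
    · subst hij; simp
    · simp [diagonal_apply_ne _ hij]
  rw [← hev]
  refine homog_block α c hα hk _ ?_ (fun n => ?_) δ
  · rw [hC]; exact Phi_homog k μ A hZh
  · rw [hev]
    exact h n

section

variable {L : Type*} (P : L → (Mat r ℂ)ˣ)

/-- `Phi` vanishes at all block scalar multiples of the block diagonal parts. -/
theorem Phi_blockE (A μ : Mat r ℂ) (q₀ : L) (α : Fin r → ℂ)
    (hq₀ : (P q₀ : Mat r ℂ) = diagonal α)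
    (c : Fin r → Fin r) (htri : ∀ q i j, c j < c i → (P q : Mat r ℂ) i j = 0)
    (D : ℕ) (hα : BlockSep D α c)
    (h : ∀ (p : List L) (k : ℕ), Phi k μ A (wP P p : Mat r ℂ) = 0) (p : List L) (k : ℕ)
    (hk : k + 1 ≤ D) (δ : Fin r → ℂ) :
    Phi k μ A (diagonal (fun i => δ (c i)) * blkD c (wP P p : Mat r ℂ)) = 0 := by
  have hT : ∀ n : ℕ, (wP P (List.replicate n q₀) : Mat r ℂ) =
      diagonal fun i => α i ^ n := wP_replicate P q₀ α hq₀
  have h1 : ∀ (p : List L) (δ : Fin r → ℂ),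
      Phi k μ A (diagonal (fun i => δ (c i)) * (wP P p : Mat r ℂ)) = 0 := by
    intro p δ
    have := extend_blockE hk α c hα μ A 1 (wP P p : Mat r ℂ) (fun n => by
      rw [← hT n, one_mul, ← Units.val_mul, ← wP_append]
      exact h _ k) δ
    rwa [one_mul] at this
  have h2 : ∀ (δ δ' : Fin r → ℂ), Phi k μ A (diagonal (fun i => δ (c i)) * (wP P p : Mat r ℂ) *
      diagonal (fun i => δ' (c i))) = 0 := by
    intro δ δ'
    have := extend_blockE hk α c hα μ A (diagonal (fun i => δ (c i)) * (wP P p : Mat r ℂ)) 1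
      (fun n => by
        rw [← hT n, mul_one, mul_assoc, ← Units.val_mul, ← wP_append]
        exact h1 _ δ) δ'
    rwa [mul_one] at this
  -- the degeneration
  obtain ⟨W, hW⟩ : ∃ W : ℂ → Mat r ℂ, W = fun t => Matrix.of fun i j =>
    if c i ≤ c j then t ^ ((c j : ℕ) - (c i : ℕ)) * (wP P p : Mat r ℂ) i j else 0 := ⟨_, rfl⟩
  have hWc : Continuous W := by
    rw [hW]
    apply continuous_matrix
    intro i j
    simp only [Matrix.of_apply]
    split_ifs
    · exact (continuous_id.pow _).mul continuous_const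
    · exact continuous_const
  have hW0 : W 0 = blkD c (wP P p : Mat r ℂ) := by
    rw [hW]
    ext i j
    simp only [blkD, Matrix.of_apply]
    by_cases h3 : c i = c j
    · rw [if_pos h3, if_pos h3.le, h3, Nat.sub_self, pow_zero, one_mul]
    · rw [if_neg h3]
      split_ifs with h4
      · rw [zero_pow, zero_mul]
        have : (c i : ℕ) ≠ (c j : ℕ) := fun h => h3 (Fin.ext h)
        have : (c i : ℕ) ≤ (c j : ℕ) := h4
        omega
      · rfl
  have hWt : ∀ t : ℂ, t ≠ 0 → diagonal (fun i => δ (c i)) * W t =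
      diagonal (fun i => (fun b : Fin r => δ b * (t⁻¹) ^ (b : ℕ)) (c i)) * (wP P p : Mat r ℂ) *
        diagonal (fun i => (fun b : Fin r => t ^ (b : ℕ)) (c i)) := by
    intro t ht
    ext i j
    rw [mul_diagonal, diagonal_mul, diagonal_mul, hW]
    simp only [Matrix.of_apply]
    split_ifs with h4
    · have h5 : t ^ ((c j : ℕ)) = t ^ ((c j : ℕ) - (c i : ℕ)) * t ^ (c i : ℕ) := by
        rw [← pow_add, Nat.sub_add_cancel h4]
      rw [h5, inv_pow]
      have h6 : t ^ (c i : ℕ) ≠ 0 := pow_ne_zero _ ht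
      field_simp
    · rw [wP_tri P c htri p i j (not_le.1 h4)]
      ring
  have hcl : (fun t => Phi k μ A (diagonal (fun i => δ (c i)) * W t)) = fun _ => 0 := by
    apply Continuous.ext_on (dense_compl_singleton (0 : ℂ))
      (Phi_continuous k μ A (continuous_const.matrix_mul hWc)) continuous_const
    intro t ht
    simp only
    rw [hWt t ht]
    exact h2 (fun b : Fin r => δ b * (t⁻¹) ^ (b : ℕ)) (fun b : Fin r => t ^ (b : ℕ))
  have h5 : Phi k μ A (diagonal (fun i => δ (c i)) * W 0) = 0 := congrFun hcl 0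
  rwa [hW0] at h5

/-- The main lemma when `P q₀` is diagonal. -/
theorem exists_dual_diagE (K₀ : Subfield ℂ) [Countable K₀] (hr : 1 ≤ r) (q₀ : L) (α : Fin r → ℂ)
    (hα : Function.Injective α) (hq₀ : (P q₀ : Mat r ℂ) = diagonal α) (c : Fin r → Fin r)
    (htri : ∀ q i j, c j < c i → (P q : Mat r ℂ) i j = 0)
    (hconn : ∀ i j, c i = c j →
      Relation.ReflTransGen (fun i j => ∃ q, (P q : Mat r ℂ) i j ≠ 0) i j)
    (hsep : BlockSep (2 * r + 3) α c) :
    ∃ A : (Mat r ℂ)ˣ, AlgebraicIndependent K₀ (fun p : Fin r × Fin r => (A : Mat r ℂ) p.1 p.2) ∧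
      DualProp P A := by
  classical
  have hconn' : ∀ i j, c i = c j → ∃ p, (wP P p : Mat r ℂ) i j ≠ 0 := fun i j hij =>
    exists_word P q₀ α hα hq₀ i j (hconn i j hij)
  choose A B hA hAB hB using exists_generic_near K₀ (Bsp c)
  by_contra hcon
  push Not at hcon
  have hnot : ∀ n, ¬ DualProp P (A n) := fun n => hcon (A n) (hA n)
  let i₀ : Fin r := ⟨0, hr⟩
  have : Nonempty (Fin r) := ⟨i₀⟩
  let rep : Fin r → Fin r := fun i => Function.invFun c (c i)
  have hrep : ∀ i, c (rep i) = c i := fun i => Function.invFun_eq ⟨i, rfl⟩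
  have hrep' : ∀ i j, c i = c j → rep i = rep j := fun i j h => by simp only [rep, h]
  have hmu : ∀ n, ∃ f : Fin r → Fin r → ℂ, MuOK P (A n : Mat r ℂ) (Matrix.of f) ∧
      (∀ i j, c i = c j → f i j = 0) ∧ (∀ i, f (rep i) i₀ = 0) ∧ ‖f‖ = 1 := by
    intro n
    by_contra hcon2
    apply hnot n
    apply dual_of_mu P (A n) q₀ α hα hq₀ (generic_gen3 (hA n)).1
    intro μ hμ
    by_contra hne
    exact hcon2 (hμ.normalize hne c rep hrep hrep' i₀ hconn')
  choose f hf1 hf2 hf3 hf4 using hmu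
  obtain ⟨f', hf', φ, hφ, hlim⟩ := (isCompact_sphere (0 : Fin r → Fin r → ℂ) 1).tendsto_subseq
    (x := f) (fun n => by rw [mem_sphere_zero_iff_norm]; exact hf4 n)
  rw [mem_sphere_zero_iff_norm] at hf'
  have hlim' : Tendsto (fun n => (Matrix.of (f (φ n)) : Mat r ℂ)) atTop (𝓝 (Matrix.of f')) := hlim
  have hε0 : Tendsto (fun n : ℕ => (((n : ℂ) + 1)⁻¹)) atTop (𝓝 0) := by
    have h1 : Tendsto (fun n : ℕ => ‖(((n : ℂ) + 1)⁻¹)‖) atTop (𝓝 0) := by
      have h2 : (fun n : ℕ => ‖(((n : ℂ) + 1)⁻¹)‖) = fun n : ℕ => 1 / ((n : ℝ) + 1) := by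
        funext n
        have : ((n : ℂ) + 1) = (((n : ℝ) + 1 : ℝ) : ℂ) := by push_cast; rfl
        rw [norm_inv, this, Complex.norm_real, Real.norm_of_nonneg (by (clear * -; positivity)), one_div]
      rw [h2]
      exact tendsto_one_div_add_atTop_nhds_zero_nat
    exact tendsto_zero_iff_norm_tendsto_zero.2 h1
  have hBlim : Tendsto B atTop (𝓝 (Bsp c)) := by
    refine tendsto_pi_nhds.2 fun i => tendsto_pi_nhds.2 fun j => ?_
    rw [tendsto_iff_norm_sub_tendsto_zero]
    exact squeeze_zero (fun n => norm_nonneg _) (fun n => (hB n i j).le)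
      tendsto_one_div_add_atTop_nhds_zero_nat
  have hL := limOK_of_seq P c (2 * r + 3) (by omega) (fun n => Matrix.of (f (φ n)))
    (fun n => B (φ n)) (fun n => ((((φ n : ℕ) : ℂ) + 1)⁻¹))
    (fun n => inv_ne_zero (by exact_mod_cast Nat.succ_ne_zero (φ n))) (Matrix.of f') (Bsp c) hlim'
    (hBlim.comp hφ.tendsto_atTop) (hε0.comp hφ.tendsto_atTop) (fun n i j hij => hf2 (φ n) i j hij)
    (fun n p k hk δ => by
      have := Phi_blockE P (A (φ n) : Mat r ℂ) (Matrix.of (f (φ n))) q₀ α hq₀ c htri (2 * r + 3)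
        hsep (hf1 (φ n)).2 p k hk δ
      rw [hAB] at this
      exact this)
  have hcoc := hL.cocycle (by omega) (by omega) q₀ α hα hq₀ htri hconn'
  have hz : ∀ i, f' i i₀ = 0 := by
    intro i
    have h1 := hcoc i (rep i) i₀
    have h2 : f' i (rep i) = 0 := hL.zero i (rep i) (hrep i).symm
    have h3 : f' (rep i) i₀ = 0 := by
      have h4 : Tendsto (fun n => f (φ n) (rep i) i₀) atTop (𝓝 (f' (rep i) i₀)) :=
        tendsto_pi_nhds.1 (tendsto_pi_nhds.1 hlim (rep i)) i₀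
      have h5 : (fun n => f (φ n) (rep i) i₀) = fun _ => 0 := funext fun n => hf3 (φ n) i
      rw [h5] at h4
      exact tendsto_nhds_unique h4 tendsto_const_nhds
    simp only [Matrix.of_apply] at h1
    rw [h1, h2, h3, add_zero]
  have hf0 : f' = 0 := by
    funext i j
    have h1 := hcoc i j i₀
    simp only [Matrix.of_apply] at h1
    rw [hz, hz] at h1
    rw [Pi.zero_apply, Pi.zero_apply]
    linear_combination -h1
  rw [hf0, norm_zero] at hf'
  exact zero_ne_one hf'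

end

/-- BLOCK DUAL LEMMA. -/
theorem exists_dualE {L : Type*} (E : Subgroup ℂˣ) (K₀ : Subfield ℂ) [Countable K₀] (hr : 1 ≤ r)
    (P : L → (Mat r ℂ)ˣ) (q₀ : L) (U : (Mat r ℂ)ˣ) (α : Fin r → ℂ) (c : Fin r → Fin r)
    (τ : Fin r → ℂ) (hB : BlockDataE E P q₀ U α c τ)
    (hU : ∀ i j, (U : Mat r ℂ) i j ∈ K₀) (hU' : ∀ i j, ((U⁻¹ : (Mat r ℂ)ˣ) : Mat r ℂ) i j ∈ K₀) :
    ∃ A : (Mat r ℂ)ˣ, AlgebraicIndependent K₀ (fun p : Fin r × Fin r => (A : Mat r ℂ) p.1 p.2) ∧
      DualProp P A := by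
  have hU2 : ((U⁻¹ : (Mat r ℂ)ˣ) : Mat r ℂ) * (U : Mat r ℂ) = 1 := U.inv_mul
  obtain ⟨A', h1, h2⟩ := exists_dual_diagE (fun q => U⁻¹ * P q * U) K₀ hr q₀ α hB.inj (by
    simp only [Units.val_mul, hB.diag]
    calc _ = (((U⁻¹ : (Mat r ℂ)ˣ) : Mat r ℂ) * (U : Mat r ℂ)) * diagonal α *
          (((U⁻¹ : (Mat r ℂ)ˣ) : Mat r ℂ) * (U : Mat r ℂ)) := by simp only [mul_assoc]
      _ = _ := by rw [hU2, one_mul, mul_one]) c hB.tri hB.conn
    (blockSep_of_fac E _ α c τ hB.fac hB.free)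
  refine ⟨U * A' * U⁻¹, ?_, ?_⟩
  · have := generic_mul h1 (U : Mat r ℂ) ((U⁻¹ : (Mat r ℂ)ˣ) : Mat r ℂ) hU hU' U.isUnit
      U⁻¹.isUnit
    exact this
  · apply DualProp.conj P _ U
    have : U⁻¹ * (U * A' * U⁻¹) * U = A' := by group
    rw [this]
    exact h2

end Vale.Agent.P002R
end

section

/-!
# Irreducible representations are limits of integral ones: the theorem for block data
-/

namespace Vale.Agent.P002R

open Matrix

variable {g m n r : ℕ}

theorem loopW_mem_Fc (q : Loop m n) : loopW q ∈ Fc (m + 1) n :=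
  mul_mem (mul_mem (inv_mem (Slides.kap_mem q)) (Slides.loop0_mem q)) (Slides.kap_mem q)

end Vale.Agent.P002R
end

section

/-!
# Irreducible representations of surface groups
-/

namespace Vale.Agent.P002R

open Matrix

variable {r : ℕ}

theorem surface_irrDense {g n : ℕ} {R : Type*} [CommRing R] (φ : R →+* ℂ) (E : Subgroup ℂˣ)
    (hc : CoefOK φ E r) (hg : 2 ≤ g ∨ n = 0) :
    ∀ r' ≤ r, 0 < r' →
      IrrDense ({relatorU g n} : Set (FreeGroup ((Fin g × Bool) ⊕ Fin n))) φ E r' := by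
  intro r' hr' hr'0 C hC x hx hirr f hf
  have hxr : x (relatorU g n) = 1 := hx.1 _ rfl
  have hDU : ∀ y, y ∈ DG ({relatorU g n} : Set (FreeGroup ((Fin g × Bool) ⊕ Fin n))) φ C ↔
      y ∈ DU g φ C := by
    intro y
    constructor
    · intro h
      exact ⟨⟨h.1.1 _ rfl, h.1.2⟩, h.2⟩
    · intro h
      refine ⟨⟨fun w hw => ?_, h.1.2⟩, h.2⟩
      rw [Set.mem_singleton_iff.1 hw]
      exact h.1.1
  refine upgrade x (burnside_top x hx.2.2 hirr) (DG {relatorU g n} φ C) ?_ f
    (fun y hy htop => hf y ⟨hy, htop⟩)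
  intro f' hf'
  have hf'' : ∀ y ∈ DU g φ C, evalG y f' = 0 := fun y hy => hf' y ((hDU y).2 hy)
  by_cases hg2 : 2 ≤ g
  · obtain ⟨m, rfl⟩ : ∃ m, g = m + 1 := ⟨g - 1, by omega⟩
    have hm : 1 ≤ m := by omega
    obtain ⟨J, hJ, ρ, hρ, hρB, -, q₀, U, α, c, τ, hB⟩ := exists_baseE φ E
      ⟨hc.inj, hc.neg, fun k hk hkr => hc.root k hk (hkr.trans hr'), hc.unit⟩ hr'0 C hC
      (prod_det_eq_one C x hxr hx.2.1) hm
    refine irreducible_of_base φ hr'0 hm C J hJ ρ hρ hρB (loopW q₀) (loopW_mem_Fc q₀)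
      (loopW_mem q₀) U α hB.inj hB.diag ?_ x hxr hx.2.1 hirr f' hf''
    intro K₀ hK₀ _ hUK
    exact exists_dualE E K₀ hr'0 (fun q : Loop m n => ρ (loopW q)) q₀ U α c τ hB hUK.1 hUK.2
  · have hn : n = 0 := by omega
    subst hn
    exact hf'' x (abelian_case (by omega) φ C x ⟨hxr, hx.2⟩ hirr)

end Vale.Agent.P002R
end

section

/-!
# Translation of the main theorem into the language of representations: products of curves
-/

namespace Vale.Agent.P002R.Product

open Matrix NumberField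

variable {k r : ℕ} {g n : Fin k → ℕ}

/-- The relators of the product of surface groups. -/
def FRel (g n : Fin k → ℕ) : Set (FreeGroup (Gens g n)) :=
  famRel (κ := fun i => Fin (g i) × Bool) (ι := fun i => Fin (n i)) fun i => {relatorU (g i) (n i)}

/-- The generators of a factor. -/
def incG (i : Fin k) : GenU (g i) (n i) → Gens g n :=
  incS (κ := fun i => Fin (g i) × Bool) (ι := fun i => Fin (n i)) i

theorem factor_incG (i : Fin k) (p : GenU (g i) (n i)) : factor (incG (g := g) i p) = i := by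
  rcases p with p | p <;> rfl

theorem exists_incG (p : Gens g n) : ∃ q, p = incG (factor p) q := by
  rcases p with ⟨i, p⟩ | ⟨i, p⟩
  · exact ⟨Sum.inl p, rfl⟩
  · exact ⟨Sum.inr p, rfl⟩

theorem isRep_iff {A : Type} [CommRing A] (X : Gens g n → SpecialLinearGroup (Fin r) A) :
    IsRep X ↔ ∀ w ∈ FRel g n, FreeGroup.lift X w = 1 := by
  have h1 : ∀ i, (FreeGroup.lift X (FreeGroup.map (incG i) (relatorU (g i) (n i))) = 1 ↔
      (List.ofFn fun l : Fin (g i) => X (Sum.inl ⟨i, l, false⟩) * X (Sum.inl ⟨i, l, true⟩) *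
        (X (Sum.inl ⟨i, l, false⟩))⁻¹ * (X (Sum.inl ⟨i, l, true⟩))⁻¹).prod *
          (List.ofFn fun j : Fin (n i) => X (Sum.inr ⟨i, j⟩)).prod = 1) := by
    intro i
    have h2 := (Statement.isRep_iff (fun q => X (incG i q))).symm
    have h3 : FreeGroup.lift (fun q => X (incG i q)) =
        (FreeGroup.lift X).comp (FreeGroup.map (incG i)) := by
      apply FreeGroup.ext_hom
      intro q
      rw [MonoidHom.comp_apply, FreeGroup.map.of, FreeGroup.lift_apply_of, FreeGroup.lift_apply_of]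
    rw [h3] at h2
    exact h2
  constructor
  · rintro ⟨hX1, hX2⟩ w (⟨i, v, hv, rfl⟩ | ⟨i, j, p, q, hij, rfl⟩)
    · rw [Set.mem_singleton_iff.1 hv]
      exact (h1 i).2 (hX1 i)
    · rw [map_mul, map_mul, map_mul, map_inv, map_inv, mul_inv_eq_one, mul_inv_eq_iff_eq_mul,
        FreeGroup.lift_apply_of, FreeGroup.lift_apply_of]
      exact hX2 _ _ (by
        change factor (incG i p) ≠ factor (incG j q)
        rw [factor_incG, factor_incG]
        exact hij)
  · intro hX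
    refine ⟨fun i => (h1 i).1 (hX _ (Or.inl ⟨i, _, rfl, rfl⟩)), fun p q hpq => ?_⟩
    obtain ⟨p', hp'⟩ := exists_incG p
    obtain ⟨q', hq'⟩ := exists_incG q
    have h2 := hX _ (Or.inr ⟨factor p, factor q, p', q', hpq, rfl⟩)
    rw [map_mul, map_mul, map_mul, map_inv, map_inv, mul_inv_eq_one, mul_inv_eq_iff_eq_mul,
        FreeGroup.lift_apply_of, FreeGroup.lift_apply_of] at h2
    rw [hp', hq']
    exact h2

/-- The representation of the free group attached to a complex representation. -/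
noncomputable def toU (X : Gens g n → SpecialLinearGroup (Fin r) ℂ) :
    FreeGroup (Gens g n) →* (Mat r ℂ)ˣ :=
  SpecialLinearGroup.toGL.comp (FreeGroup.lift X)

theorem toU_coe (X : Gens g n → SpecialLinearGroup (Fin r) ℂ) (w : FreeGroup (Gens g n)) :
    (toU X w : Mat r ℂ) = (FreeGroup.lift X w).1 := rfl

theorem toU_of (X : Gens g n → SpecialLinearGroup (Fin r) ℂ) (p : Gens g n) :
    toU X (FreeGroup.of p) = SpecialLinearGroup.toGL (X p) := by
  rw [toU, MonoidHom.comp_apply, FreeGroup.lift_apply_of]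

theorem evalG_toU (F : MvPolynomial (Gens g n × Fin r × Fin r) ℂ)
    (X : Gens g n → SpecialLinearGroup (Fin r) ℂ) : evalG (toU X) F = value F X := by
  rw [evalG_eqn, MvPolynomial.aeval_def, value]
  congr 1
  funext p
  rw [toU_of]
  rfl

theorem stable_iff (X : Gens g n → SpecialLinearGroup (Fin r) ℂ) (W : Submodule ℂ (Fin r → ℂ)) :
    (∀ w, ∀ v ∈ W, (toU X w : Mat r ℂ) *ᵥ v ∈ W) ↔ IsInvSubspace X W := by
  constructor
  · intro h p
    have := h (FreeGroup.of p)
    rw [toU_of] at this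
    exact this
  · intro h w
    obtain ⟨H, hH⟩ : ∃ H : Subgroup (Mat r ℂ)ˣ, ∀ M, M ∈ H ↔
        ∀ v ∈ W, (M : Mat r ℂ) *ᵥ v ∈ W :=
      ⟨{ carrier := {M | ∀ v ∈ W, (M : Mat r ℂ) *ᵥ v ∈ W}
         mul_mem' := fun {a b} ha hb v hv => by
          rw [Units.val_mul, ← Matrix.mulVec_mulVec]
          exact ha _ (hb v hv)
         one_mem' := fun v hv => by rwa [Units.val_one, Matrix.one_mulVec]
         inv_mem' := fun {a} ha => Statement.inv_stable a W ha }, fun M => Iff.rfl⟩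
    have h1 : (⊤ : Subgroup (FreeGroup (Gens g n))) ≤ H.comap (toU X) := by
      rw [← FreeGroup.closure_range_of, Subgroup.closure_le]
      rintro _ ⟨k, rfl⟩
      rw [SetLike.mem_coe, Subgroup.mem_comap, hH, toU_of]
      exact h k
    exact (hH _).1 (h1 (Subgroup.mem_top w))

theorem SS_toU (X : Gens g n → SpecialLinearGroup (Fin r) ℂ) :
    SS (toU X) ↔ ∀ W, IsInvSubspace X W → ∃ W', IsInvSubspace X W' ∧ IsCompl W W' := by
  unfold SS
  simp only [stable_iff]

theorem IsIntegralRep.exists_lift {L : IntermediateField ℚ ℂ}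
    {X : Gens g n → SpecialLinearGroup (Fin r) ℂ} (h : IsIntegralRep L X) :
    ∃ Z : Gens g n → SpecialLinearGroup (Fin r) (𝓞 L),
      ∀ p, X p = SpecialLinearGroup.map (phiO (algebraMap L ℂ)) (Z p) := by
  choose a ha using h
  have h1 : ∀ p, (X p).1 = (Matrix.of (a p)).map (phiO (algebraMap L ℂ)) := by
    intro p
    ext i j
    exact ha p i j
  have h2 : ∀ p, (Matrix.of (a p)).det = 1 := by
    intro p
    apply phiO_injective (algebraMap L ℂ)
    rw [map_one, RingHom.map_det]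
    have := (X p).2
    rw [h1] at this
    exact this
  refine ⟨fun p => ⟨Matrix.of (a p), h2 p⟩, fun p => Subtype.ext ?_⟩
  rw [h1]
  rfl

theorem isIntegralRep_map {L : IntermediateField ℚ ℂ}
    (Z : Gens g n → SpecialLinearGroup (Fin r) (𝓞 L)) :
    IsIntegralRep L fun p => SpecialLinearGroup.map (phiO (algebraMap L ℂ)) (Z p) :=
  fun p i j => ⟨(Z p).1 i j, rfl⟩

theorem IsIntegralRep.isIntegralPoint {L : IntermediateField ℚ ℂ}
    {X : Gens g n → SpecialLinearGroup (Fin r) ℂ} (h : IsIntegralRep L X) :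
    IsIntegralPoint L X := by
  obtain ⟨Z, hZ⟩ := h.exists_lift
  intro F _
  refine ⟨value F Z, ?_⟩
  have h1 : (phiO (algebraMap L ℂ)).comp (algebraMap ℤ (𝓞 L)) = algebraMap ℤ ℂ :=
    RingHom.ext_int _ _
  rw [value, value, ← h1]
  change _ = phiO (algebraMap L ℂ) _
  rw [MvPolynomial.hom_eval₂]
  congr 1
  funext p
  rw [hZ]
  rfl

theorem IsZariskiDenseRep.isZariskiDense {L : IntermediateField ℚ ℂ}
    {T : Set (Gens g n → SpecialLinearGroup (Fin r) ℂ)}
    (h : IsZariskiDenseRep {X ∈ T | IsIntegralRep L X} T) :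
    IsZariskiDense {X ∈ T | IsIntegralPoint L X} T :=
  ⟨fun _ hX => hX.1, fun F _ hF X hX =>
    h.2 F (fun X' hX' => hF X' ⟨hX'.1, hX'.2.isIntegralPoint⟩) X hX⟩

theorem surface_charOK (g n : ℕ) :
    CharOK ({relatorU g n} : Set (FreeGroup ((Fin g × Bool) ⊕ Fin n))) := by
  intro w hw A _ χ hχ
  rw [Set.mem_singleton_iff.1 hw, relatorU_eqn, map_mul, map_list_prod, map_list_prod,
    List.map_ofFn, List.map_ofFn]
  have e1 : (⇑χ ∘ fun j : Fin n => (FreeGroup.of (Sum.inr j) : FU g n)) = fun _ => 1 := by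
    funext j
    exact hχ j
  have e2 : (⇑χ ∘ fun i : Fin g => (FreeGroup.of (Sum.inl (i, false)) *
      FreeGroup.of (Sum.inl (i, true)) * (FreeGroup.of (Sum.inl (i, false)))⁻¹ *
      (FreeGroup.of (Sum.inl (i, true)))⁻¹ : FU g n)) = fun _ => 1 := by
    funext i
    rw [Function.comp, map_mul, map_mul, map_mul, map_inv, map_inv, mul_inv_eq_one,
      mul_inv_eq_iff_eq_mul, mul_comm]
  rw [e1, e2]
  simp

/-- The allowed curves. -/
def OKCurve (g n : ℕ) : Prop := 2 ≤ g ∨ n = 0 ∨ (g = 0 ∧ n ≤ 2)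

theorem FRel_charOK (g n : Fin k → ℕ) : CharOK (FRel g n) :=
  famRel_charOK _ fun i => surface_charOK (g i) (n i)

end Vale.Agent.P002R.Product
end

section

/-!
# Density for products of curves with at least `3 - 2g` regular classes
-/

namespace Vale.Agent.P002R

open Matrix

end Vale.Agent.P002R

namespace Vale.Agent.P002R.Product

open Matrix NumberField

variable {k r : ℕ} {g n : Fin k → ℕ}

end Vale.Agent.P002R.Product
end

section

/-!
# Density for products of curves with at least `3 - 2g` regular classes, two coefficient rings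
-/

namespace Vale.Agent.P002R

open Matrix NumberField

theorem CoefOK.mono {R : Type*} [CommRing R] {φ : R →+* ℂ} {E : Subgroup ℂˣ} {r r' : ℕ}
    (hc : CoefOK φ E r) (h : r' ≤ r) : CoefOK φ E r' :=
  ⟨hc.inj, hc.neg, fun k hk hk' => hc.root k hk (hk'.trans h), hc.unit⟩

theorem CoefOK.ring_mono {R₀ R : Type*} [CommRing R₀] [CommRing R] {φ₀ : R₀ →+* ℂ} {φ : R →+* ℂ}
    (ι : R₀ →+* R) (hι : ∀ a, φ (ι a) = φ₀ a) (hφ : Function.Injective φ) {E : Subgroup ℂˣ} {r : ℕ}
    (hc : CoefOK φ₀ E r) : CoefOK φ E r := by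
  refine ⟨hφ, hc.neg, fun k hk hkr z hz => ?_, ?_⟩
  · obtain ⟨a, ha⟩ := hc.root k hk hkr z hz
    exact ⟨ι a, by rw [hι, ha]⟩
  · obtain ⟨u, hu⟩ := hc.unit
    refine ⟨Units.map (ι : R₀ →* R) u, fun k hk h => hu k hk ?_⟩
    have h1 : Units.map (φ : R →* ℂ) (Units.map (ι : R₀ →* R) u) = Units.map (φ₀ : R₀ →* ℂ) u := by
      ext1
      exact hι _
    rwa [h1] at h

/-! ### number fields -/

/-- A number field which contains the `k`-th roots of the units of a given number field. -/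
theorem exists_root_field (L₀ : IntermediateField ℚ ℂ) (hL₀ : FiniteDimensional ℚ L₀) (k : ℕ)
    (hk : 0 < k) : ∃ L : IntermediateField ℚ ℂ, FiniteDimensional ℚ L ∧ L₀ ≤ L ∧
      ∀ u : (𝓞 L₀)ˣ, ∀ z : ℂ, z ^ k = phiO (algebraMap L₀ ℂ) (u : 𝓞 L₀) → z ∈ L := by
  have : NumberField L₀ := { to_charZero := inferInstance, to_finiteDimensional := hL₀ }
  have hfg : Group.FG (𝓞 L₀)ˣ := Group.fg_iff_monoid_fg.2 inferInstance
  obtain ⟨S₀, hS₀, hS₀f⟩ := Group.fg_iff.1 hfg
  obtain ⟨G, hG⟩ : ∃ G : (𝓞 L₀)ˣ →* ℂˣ, G = Units.map (phiO (algebraMap L₀ ℂ) : 𝓞 L₀ →* ℂ) :=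
    ⟨_, rfl⟩
  obtain ⟨S, hS⟩ : ∃ S : Set ℂˣ, S = G '' S₀ := ⟨_, rfl⟩
  have hSf : S.Finite := hS ▸ hS₀f.image _
  have hmem : ∀ u : (𝓞 L₀)ˣ, G u ∈ Subgroup.closure S := by
    intro u
    rw [hS, ← MonoidHom.map_closure, hS₀]
    exact ⟨u, Subgroup.mem_top _, rfl⟩
  have hint : ∀ u : (𝓞 L₀)ˣ, IsIntegral ℤ ((G u : ℂˣ) : ℂ) := by
    intro u
    rw [hG]
    exact (u : 𝓞 L₀).isIntegral_coe.map (algebraMap L₀ ℂ).toIntAlgHom
  obtain ⟨V, hV⟩ : ∃ V : Set ℂ, V = ((↑) : ℂˣ → ℂ) '' {w : ℂˣ | w ^ k ∈ insert 1 S} := ⟨_, rfl⟩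
  have hVf : V.Finite := by
    rw [hV]
    exact (roots_finite _ (hSf.insert 1) k hk).image _
  have hVint : ∀ x ∈ V, IsIntegral ℚ x := by
    rintro x hx
    rw [hV] at hx
    obtain ⟨w, hw, rfl⟩ := hx
    refine IsIntegral.tower_top (R := ℤ) (IsIntegral.of_pow hk ?_)
    rw [← Units.val_pow_eq_pow_val]
    rcases hw with h | h
    · rw [h, Units.val_one]
      exact isIntegral_one
    · rw [hS] at h
      obtain ⟨u, _, hu⟩ := h
      rw [← hu]
      exact hint u
  have hVfd : FiniteDimensional ℚ (IntermediateField.adjoin ℚ V) := by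
    have : Finite V := hVf
    exact IntermediateField.finiteDimensional_adjoin fun x hx => hVint x hx
  refine ⟨L₀ ⊔ IntermediateField.adjoin ℚ V, inferInstance, le_sup_left, fun u z hz => ?_⟩
  have hz0 : z ≠ 0 := by
    rintro rfl
    rw [zero_pow hk.ne'] at hz
    have h1 : ((G u : ℂˣ) : ℂ) ≠ 0 := (G u).ne_zero
    rw [hG] at h1
    exact h1 hz.symm
  have h1 : (Units.mk0 z hz0) ^ k = G u := by
    ext1
    rw [Units.val_pow_eq_pow_val, Units.val_mk0, hz, hG]
    rfl
  have h2 := root_mem_closure S k hk (Units.mk0 z hz0) (by rw [h1]; exact hmem u)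
  have h3 : ∀ w ∈ Subgroup.closure {w : ℂˣ | w ^ k ∈ insert 1 S},
      (w : ℂ) ∈ IntermediateField.adjoin ℚ V := by
    intro w hw
    induction hw using Subgroup.closure_induction with
    | mem x hx =>
      refine IntermediateField.subset_adjoin ℚ V ?_
      rw [hV]
      exact ⟨x, hx, rfl⟩
    | one => exact IntermediateField.one_mem _
    | mul x y _ _ hx hy =>
      rw [Units.val_mul]
      exact IntermediateField.mul_mem _ hx hy
    | inv x _ hx =>
      rw [Units.val_inv_eq_inv_val]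
      exact IntermediateField.inv_mem _ hx
  have h4 : IntermediateField.adjoin ℚ V ≤ L₀ ⊔ IntermediateField.adjoin ℚ V := le_sup_right
  exact h4 (h3 _ h2)

/-- The inclusion of the rings of integers. -/
noncomputable def iotaO {L₀ L : IntermediateField ℚ ℂ} (h : L₀ ≤ L) : 𝓞 L₀ →+* 𝓞 L :=
  RingOfIntegers.mapRingHom (IntermediateField.inclusion h).toRingHom

theorem phiO_iotaO {L₀ L : IntermediateField ℚ ℂ} (h : L₀ ≤ L) (a : 𝓞 L₀) :
    phiO (algebraMap L ℂ) (iotaO h a) = phiO (algebraMap L₀ ℂ) a := rfl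

/-- Units of the small ring are powers of units of the big ring. -/
theorem exists_unit_root {L₀ L : IntermediateField ℚ ℂ} (h : L₀ ≤ L) (r : ℕ)
    (hu : ∀ u : (𝓞 L₀)ˣ, ∃ z ∈ L, z ^ r.factorial = ((u : 𝓞 L₀) : ℂ)) (r' : ℕ) (hr' : r' ≤ r)
    (hr'0 : 0 < r') (u : (𝓞 L₀)ˣ) : ∃ c : (𝓞 L)ˣ, iotaO h (u : 𝓞 L₀) = (c : 𝓞 L) ^ r' := by
  obtain ⟨z, hzL, hz⟩ := hu u
  obtain ⟨q, hq⟩ := Nat.dvd_factorial hr'0 hr'
  have h1 : (z ^ q) ^ r' = phiO (algebraMap L₀ ℂ) (u : 𝓞 L₀) := by
    rw [← pow_mul, mul_comm, ← hq, hz]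
    rfl
  have hint : IsIntegral ℤ (z ^ q) := by
    refine IsIntegral.of_pow hr'0 ?_
    rw [h1]
    exact (u : 𝓞 L₀).isIntegral_coe.map (algebraMap L₀ ℂ).toIntAlgHom
  have hint' : IsIntegral ℤ (⟨z ^ q, pow_mem hzL q⟩ : L) := by
    rw [← isIntegral_algebraMap_iff (A := L) (B := ℂ) (algebraMap L ℂ).injective]
    exact hint
  obtain ⟨w, hw⟩ : ∃ w : 𝓞 L, w = ⟨⟨z ^ q, pow_mem hzL q⟩, hint'⟩ := ⟨_, rfl⟩
  have h2 : w ^ r' = iotaO h (u : 𝓞 L₀) := by
    apply phiO_injective (algebraMap L ℂ)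
    rw [map_pow, phiO_iotaO, ← h1, hw]
    rfl
  have h3 : IsUnit (w ^ r') := by
    rw [h2]
    exact u.isUnit.map (iotaO h)
  obtain ⟨c, hc⟩ := (isUnit_pow_iff hr'0.ne').1 h3
  exact ⟨c, by rw [hc, h2]⟩

end Vale.Agent.P002R

namespace Vale.Agent.P002R.Product

open Matrix NumberField

variable {k r : ℕ} {g n : Fin k → ℕ}

theorem hUP_field (L : IntermediateField ℚ ℂ) (hL : FiniteDimensional ℚ L) (u : (𝓞 L)ˣ) (D : 𝓞 L)
    (hD : D ≠ 0) : ∃ M : ℕ, 0 < M ∧ D ∣ (u : 𝓞 L) ^ M - 1 := by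
  have : NumberField L := { to_charZero := inferInstance, to_finiteDimensional := hL }
  exact exists_dvd_pow_sub_one L u D hD

end Vale.Agent.P002R.Product
end

section

/-!
# Ideals become principal in a finite extension
-/

namespace Vale.Agent.P002R

open NumberField nonZeroDivisors

/-- Every nonzero vector over `R₁` is, over `R₂`, a multiple of a unimodular vector. -/
def Prin {R₁ R₂ : Type} [CommRing R₁] [CommRing R₂] (ι : R₁ →+* R₂) : Prop :=
  ∀ (r : ℕ) (v : Fin r → R₁), v ≠ 0 → ∃ (t : R₂) (w y : Fin r → R₂),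
    (∀ i, ι (v i) = t * w i) ∧ ∑ i, y i * w i = 1

theorem map_eq_span_of_class {R₁ R₂ : Type} [CommRing R₁] [CommRing R₂] [IsDedekindDomain R₂] (ι : R₁ →+* R₂) (hinj : Function.Injective ι) {m : ℕ}
    (hm0 : m ≠ 0) (J K : Ideal R₁) (x y α : R₁) (hx : x ≠ 0)
    (hxy : Ideal.span {x} * J = Ideal.span {y} * K) (hα : K ^ m = Ideal.span {α}) (b : R₂)
    (hb : b ^ m = ι α) : ∃ t, J.map ι = Ideal.span {t} := by
  have h1 : Ideal.span {ι x} * J.map ι = Ideal.span {ι y * b} := by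
    have h2 : (Ideal.span {ι x} * J.map ι) ^ m = (Ideal.span {ι y * b}) ^ m := by
      have h3 := congrArg (fun K => (Ideal.map ι K) ^ m) hxy
      simp only [Ideal.map_mul, Ideal.map_span, Set.image_singleton] at h3
      rw [h3, mul_pow, ← Ideal.map_pow, hα, Ideal.map_span, Set.image_singleton,
        Ideal.span_singleton_pow, Ideal.span_singleton_pow, Ideal.span_singleton_mul_span_singleton,
        mul_pow, hb]
    exact dvd_antisymm ((UniqueFactorizationMonoid.pow_dvd_pow_iff_dvd hm0).1 h2.dvd)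
      ((UniqueFactorizationMonoid.pow_dvd_pow_iff_dvd hm0).1 h2.symm.dvd)
  have hx' : ι x ≠ 0 := by
    rw [Ne, ← map_zero ι]
    exact fun h => hx (hinj h)
  have h2 : ι x ∣ ι y * b := by
    have h3 : Ideal.span {ι y * b} ≤ Ideal.span {ι x} := by
      rw [← h1]
      exact Ideal.mul_le_left
    exact Ideal.span_singleton_le_span_singleton.1 h3
  obtain ⟨t, ht⟩ := h2
  rw [ht, ← Ideal.span_singleton_mul_span_singleton] at h1
  have h4 : Ideal.span {ι x} ≠ 0 := by
    rw [Ne, Ideal.zero_eq_bot, Ideal.span_singleton_eq_bot]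
    exact hx'
  exact ⟨t, mul_left_cancel₀ h4 h1⟩

theorem unimodular_of_map {R₁ R₂ : Type} [CommRing R₁] [CommRing R₂] [IsDomain R₂]
    (ι : R₁ →+* R₂) (hinj : Function.Injective ι) {r : ℕ} (v : Fin r → R₁) (hv : v ≠ 0) (t : R₂)
    (h : (Ideal.span (Set.range v)).map ι = Ideal.span {t}) : ∃ (w y : Fin r → R₂),
    (∀ i, ι (v i) = t * w i) ∧ ∑ i, y i * w i = 1 := by
  have h3 : ∀ i, ∃ w, ι (v i) = t * w := by
    intro i
    have h4 : ι (v i) ∈ Ideal.span {t} := by
      rw [← h]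
      exact Ideal.mem_map_of_mem _ (Ideal.subset_span ⟨i, rfl⟩)
    exact Ideal.mem_span_singleton.1 h4
  choose w hw using h3
  have ht0 : t ≠ 0 := by
    rintro rfl
    apply hv
    funext i
    apply hinj
    rw [hw, zero_mul, Pi.zero_apply, map_zero]
  have h4 : t ∈ Ideal.span (Set.range fun i => ι (v i)) := by
    have h5 : t ∈ (Ideal.span (Set.range v)).map ι := by
      rw [h]; exact Ideal.mem_span_singleton_self _
    rw [Ideal.map_span, ← Set.range_comp] at h5
    exact h5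
  obtain ⟨y', hy'⟩ := (Ideal.mem_span_range_iff_exists_fun).1 h4
  refine ⟨w, y', hw, ?_⟩
  apply mul_left_cancel₀ ht0
  rw [Finset.mul_sum, mul_one]
  conv_rhs => rw [← hy']
  refine Finset.sum_congr rfl fun i _ => ?_
  rw [hw]
  ring

theorem prin_of_pow {R₁ R₂ : Type} [CommRing R₁] [CommRing R₂]
    [IsDedekindDomain R₁] [IsDedekindDomain R₂] (ι : R₁ →+* R₂) (hinj : Function.Injective ι)
    (m : ℕ) (hm0 : m ≠ 0) (I : ClassGroup R₁ → (Ideal R₁)⁰) (hI : ∀ c, ClassGroup.mk0 (I c) = c)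
    (α : ClassGroup R₁ → R₁) (hα : ∀ c, (I c : Ideal R₁) ^ m = Ideal.span {α c})
    (b : ClassGroup R₁ → R₂) (hb : ∀ c, b c ^ m = ι (α c)) : Prin ι := by
  intro r v hv
  obtain ⟨J, hJ⟩ : ∃ J : Ideal R₁, J = Ideal.span (Set.range v) := ⟨_, rfl⟩
  have hJ0 : J ≠ 0 := by
    intro h0
    apply hv
    funext i
    have h1 : v i ∈ J := by rw [hJ]; exact Ideal.subset_span ⟨i, rfl⟩
    rw [h0] at h1
    exact h1
  obtain ⟨c, hc⟩ : ∃ c, c = ClassGroup.mk0 ⟨J, mem_nonZeroDivisors_of_ne_zero hJ0⟩ := ⟨_, rfl⟩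
  obtain ⟨x, y, hx, hy, hxy⟩ := ClassGroup.mk0_eq_mk0_iff.1 (hc.symm.trans (hI c).symm)
  obtain ⟨t, ht⟩ := map_eq_span_of_class ι hinj hm0 J (I c) x y (α c) hx hxy (hα c) (b c) (hb c)
  rw [hJ] at ht
  obtain ⟨w, y', h1, h2⟩ := unimodular_of_map ι hinj v hv t ht
  exact ⟨t, w, y', h1, h2⟩

/-- Roots of integral elements. -/
theorem exists_root_O {L₁ L₂ : IntermediateField ℚ ℂ} (h : L₁ ≤ L₂) {m : ℕ} (hm : 0 < m)
    (α : 𝓞 L₁) (β : ℂ) (hβ : β ^ m = phiO (algebraMap L₁ ℂ) α) (hβ2 : β ∈ L₂) :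
    ∃ b : 𝓞 L₂, b ^ m = iotaO h α := by
  have hint : IsIntegral ℤ β := by
    refine IsIntegral.of_pow hm ?_
    rw [hβ]
    exact α.isIntegral_coe.map (algebraMap L₁ ℂ).toIntAlgHom
  have hint' : IsIntegral ℤ (⟨β, hβ2⟩ : L₂) := by
    rw [← isIntegral_algebraMap_iff (A := L₂) (B := ℂ) (algebraMap L₂ ℂ).injective]
    exact hint
  obtain ⟨w, hw⟩ : ∃ w : 𝓞 L₂, w = ⟨⟨β, hβ2⟩, hint'⟩ := ⟨_, rfl⟩
  refine ⟨w, ?_⟩
  apply phiO_injective (algebraMap L₂ ℂ)
  rw [map_pow, phiO_iotaO, ← hβ, hw]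
  rfl

theorem iotaO_injective {L₁ L₂ : IntermediateField ℚ ℂ} (h : L₁ ≤ L₂) :
    Function.Injective (iotaO h) := by
  intro x y hxy
  apply phiO_injective (algebraMap L₁ ℂ)
  rw [← phiO_iotaO h, ← phiO_iotaO h, hxy]

/-- A finite extension in which the ideals of the ring of integers become principal. -/
theorem exists_prin_field (L₁ : IntermediateField ℚ ℂ) (hL₁ : FiniteDimensional ℚ L₁) :
    ∃ L₂ : IntermediateField ℚ ℂ, FiniteDimensional ℚ L₂ ∧ ∃ h : L₁ ≤ L₂, Prin (iotaO h) := by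
  classical
  have : NumberField L₁ := { to_charZero := inferInstance, to_finiteDimensional := hL₁ }
  obtain ⟨m, hm⟩ : ∃ m, m = Fintype.card (ClassGroup (𝓞 L₁)) := ⟨_, rfl⟩
  have hm0 : 0 < m := hm ▸ Fintype.card_pos
  choose I hI using (ClassGroup.mk0_surjective : Function.Surjective
    (ClassGroup.mk0 : (Ideal (𝓞 L₁))⁰ → ClassGroup (𝓞 L₁)))
  have hprin : ∀ c, ∃ α : 𝓞 L₁, ((I c : Ideal (𝓞 L₁)) ^ m) = Ideal.span {α} := by
    intro c
    have h1 : ClassGroup.mk0 ((I c) ^ m) = 1 := by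
      rw [map_pow, hI, hm, pow_card_eq_one]
    have h2 : (((I c) ^ m : (Ideal (𝓞 L₁))⁰) : Ideal (𝓞 L₁)).IsPrincipal :=
      (ClassGroup.mk0_eq_one_iff ((I c) ^ m).2).1 h1
    obtain ⟨α, hα⟩ := h2.principal
    refine ⟨α, ?_⟩
    rw [← SubmonoidClass.coe_pow]
    exact hα
  choose α hα using hprin
  have hroot : ∀ c, ∃ β : ℂ, β ^ m = phiO (algebraMap L₁ ℂ) (α c) := fun c =>
    IsAlgClosed.exists_pow_nat_eq _ hm0
  choose β hβ using hroot
  have hβint : ∀ c, IsIntegral ℤ (β c) := by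
    intro c
    refine IsIntegral.of_pow hm0 ?_
    rw [hβ]
    exact (α c).isIntegral_coe.map (algebraMap L₁ ℂ).toIntAlgHom
  have hfd : FiniteDimensional ℚ (IntermediateField.adjoin ℚ (Set.range β)) :=
    IntermediateField.finiteDimensional_adjoin fun x hx => by
      obtain ⟨c, rfl⟩ := hx
      exact (hβint c).tower_top
  obtain ⟨L₂, hL₂⟩ : ∃ L₂, L₂ = L₁ ⊔ IntermediateField.adjoin ℚ (Set.range β) := ⟨_, rfl⟩
  have hle : L₁ ≤ L₂ := hL₂ ▸ le_sup_left
  have hfd2 : FiniteDimensional ℚ L₂ := hL₂ ▸ inferInstance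
  have hβ2 : ∀ c, β c ∈ L₂ := by
    intro c
    rw [hL₂]
    exact (le_sup_right : IntermediateField.adjoin ℚ (Set.range β) ≤ _)
      (IntermediateField.subset_adjoin ℚ _ ⟨c, rfl⟩)
  have : NumberField L₂ := { to_charZero := inferInstance, to_finiteDimensional := hfd2 }
  have hb : ∀ c, ∃ b : 𝓞 L₂, b ^ m = iotaO hle (α c) := fun c =>
    exists_root_O hle hm0 (α c) (β c) (hβ c) (hβ2 c)
  choose b hb using hb
  exact ⟨L₂, hfd2, hle, prin_of_pow (iotaO hle) (iotaO_injective hle) m hm0.ne' I hI α hα b hb⟩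

end Vale.Agent.P002R
end

section

/-!
# Diagonalization over a ring in which ideals become principal; spectral projectors
-/

namespace Vale.Agent.P002R

open Matrix Polynomial

/-- A matrix of unimodular eigenvectors is invertible if the eigenvalues have unit differences. -/
theorem isUnit_det_of_eigen {R : Type} [CommRing R] {r : ℕ} (A P : Mat r R) (ω : Fin r → R)
    (hω : ∀ i j, i ≠ j → IsUnit (ω i - ω j)) (hP : ∀ j, A *ᵥ P.col j = ω j • P.col j)
    (hu : ∀ j, ∃ y : Fin r → R, ∑ i, y i * P i j = 1) : IsUnit P.det := by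
  by_contra hcon
  obtain ⟨m, hm, hmem⟩ := exists_max_ideal_of_mem_nonunits hcon
  let : Field (R ⧸ m) := Ideal.Quotient.field m
  obtain ⟨q, hq⟩ : ∃ q : R →+* R ⧸ m, q = Ideal.Quotient.mk m := ⟨_, rfl⟩
  have hq0 : q P.det = 0 := by rw [hq]; exact Ideal.Quotient.eq_zero_iff_mem.2 hmem
  have hli : LinearIndependent (R ⧸ m) (P.map q).col := by
    refine Module.End.eigenvectors_linearIndependent' (Matrix.mulVecLin (A.map q))
      (fun j => q (ω j)) ?_ _ fun j => ⟨?_, ?_⟩
    · intro i j hij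
      by_contra hne
      have h1 := (hω i j hne).map q
      rw [map_sub, sub_eq_zero.2 hij] at h1
      exact not_isUnit_zero h1
    · rw [Module.End.mem_eigenspace_iff]
      have h1 := congrArg (fun v => q ∘ v) (hP j)
      ext i
      have h2 := congrFun h1 i
      simp only [Function.comp_apply, mulVec, dotProduct, col_apply, map_sum, map_mul, Pi.smul_apply, smul_eq_mul] at h2
      simp only [Matrix.mulVecLin_apply, Matrix.mulVec, dotProduct, Matrix.map_apply,
        Matrix.col_apply, Pi.smul_apply, smul_eq_mul]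
      exact h2
    · intro h0
      obtain ⟨y, hy⟩ := hu j
      have h1 := congrArg q hy
      rw [map_sum, map_one] at h1
      have h2 : ∀ i, q (y i * P i j) = 0 := by
        intro i
        rw [map_mul]
        have h3 := congrFun h0 i
        rw [Matrix.col_apply, Matrix.map_apply, Pi.zero_apply] at h3
        rw [h3, mul_zero]
      rw [Finset.sum_eq_zero fun i _ => h2 i] at h1
      exact zero_ne_one h1
  have h1 : IsUnit (P.map q) := Matrix.linearIndependent_cols_iff_isUnit.1 hli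
  rw [Matrix.isUnit_iff_isUnit_det] at h1
  have h2 : (P.map q).det = q P.det := (RingHom.map_det q P).symm
  rw [h2, hq0] at h1
  exact not_isUnit_zero h1

/-- Diagonalization of integral matrices. -/
theorem exists_diag {R₁ R₂ : Type} [CommRing R₁] [CommRing R₂] [IsDomain R₁] [IsDomain R₂]
    (ι : R₁ →+* R₂) (hι : Function.Injective ι) (hprin : Prin ι) {r : ℕ} (A : Mat r R₁)
    (ω : Fin r → R₁) (hω : ∀ i j, i ≠ j → IsUnit (ω i - ω j))
    (hA : ∀ i, (A - Matrix.scalar (Fin r) (ω i)).det = 0) :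
    ∃ P : Mat r R₂, IsUnit P.det ∧ A.map ι * P = P * diagonal fun i => ι (ω i) := by
  have h1 : ∀ j, ∃ v : Fin r → R₁, v ≠ 0 ∧ (A - Matrix.scalar (Fin r) (ω j)) *ᵥ v = 0 := fun j =>
    Matrix.exists_mulVec_eq_zero_iff.2 (hA j)
  choose v hv hv' using h1
  have h2 : ∀ j, A *ᵥ v j = ω j • v j := by
    intro j
    have h3 := hv' j
    rw [Matrix.sub_mulVec, sub_eq_zero] at h3
    rw [h3]
    ext i
    simp [Matrix.scalar_apply, Matrix.mulVec_diagonal]
  choose t w y hw hy using fun j => hprin r (v j) (hv j)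
  have ht : ∀ j, t j ≠ 0 := by
    intro j h0
    apply hv j
    funext i
    apply hι
    rw [hw, h0, zero_mul, Pi.zero_apply, map_zero]
  obtain ⟨P, hP⟩ : ∃ P : Mat r R₂, ∀ i j, P i j = w j i := ⟨Matrix.of fun i j => w j i, fun _ _ => rfl⟩
  have h3 : ∀ j, (A.map ι) *ᵥ P.col j = ι (ω j) • P.col j := by
    intro j
    ext i
    apply mul_left_cancel₀ (ht j)
    have h4 := congrArg ι (congrFun (h2 j) i)
    simp only [mulVec, dotProduct, map_sum, map_mul, hw, Pi.smul_apply, smul_eq_mul] at h4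
    simp only [Matrix.mulVec, dotProduct, Matrix.map_apply, Matrix.col_apply, Pi.smul_apply,
      smul_eq_mul, hP, Finset.mul_sum]
    calc ∑ k, t j * (ι (A i k) * w j k) = ∑ k, ι (A i k) * (t j * w j k) :=
          Finset.sum_congr rfl fun k _ => by ring
      _ = ι (ω j) * (t j * w j i) := h4
      _ = t j * (ι (ω j) * w j i) := by ring
  refine ⟨P, isUnit_det_of_eigen (A.map ι) P (fun j => ι (ω j)) (fun i j hij => ?_) h3
    (fun j => ⟨y j, ?_⟩), ?_⟩
  · rw [← map_sub]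
    exact (hω i j hij).map ι
  · simp only [hP]
    exact hy j
  · ext i j
    rw [Matrix.mul_diagonal]
    have h4 := congrFun (h3 j) i
    rw [Matrix.mul_apply]
    simp only [Matrix.mulVec, dotProduct, Matrix.col_apply, Pi.smul_apply, smul_eq_mul] at h4
    rw [h4, mul_comm]

/-! ### spectral projectors -/

theorem aeval_mul_of_diag {r : ℕ} {M P : Mat r ℂ} {ω : Fin r → ℂ}
    (h : M * P = P * diagonal ω) (q : ℂ[X]) :
    aeval M q * P = P * diagonal fun i => q.eval (ω i) := by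
  induction q using Polynomial.induction_on' with
  | add p q hp hq =>
    rw [map_add, add_mul, hp, hq, ← mul_add, Matrix.diagonal_add]
    simp only [eval_add]
  | monomial n c =>
    have h1 : ∀ n : ℕ, M ^ n * P = P * diagonal fun i => ω i ^ n := by
      intro n
      induction n with
      | zero => simp
      | succ n ih =>
        rw [pow_succ, mul_assoc, h, ← mul_assoc, ih, mul_assoc, Matrix.diagonal_mul_diagonal]
        simp only [pow_succ]
    rw [aeval_monomial, mul_assoc, h1]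
    rw [← Algebra.smul_def, ← Matrix.mul_smul, ← Matrix.diagonal_smul]
    congr 2
    funext i
    simp [eval_monomial]

/-- The spectral projectors. -/
noncomputable def proj {r : ℕ} (ω : Fin r → ℂ) (i : Fin r) (M : Mat r ℂ) : Mat r ℂ :=
  aeval M (Lagrange.basis Finset.univ ω i)

theorem proj_mul {r : ℕ} {M P : Mat r ℂ} {ω : Fin r → ℂ} (hω : Function.Injective ω)
    (h : M * P = P * diagonal ω) (i : Fin r) :
    proj ω i M * P = P * diagonal (Pi.single i 1) := by
  rw [proj, aeval_mul_of_diag h]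
  congr 2
  funext j
  by_cases hij : i = j
  · subst hij
    rw [Pi.single_eq_same]
    exact Lagrange.eval_basis_self hω.injOn (Finset.mem_univ _)
  · rw [Pi.single_eq_of_ne (Ne.symm hij)]
    exact Lagrange.eval_basis_of_ne hij (Finset.mem_univ _)

theorem sum_proj {r : ℕ} {ω : Fin r → ℂ} (hω : Function.Injective ω) (hr : 0 < r) (M : Mat r ℂ) :
    ∑ i, proj ω i M = 1 := by
  unfold proj
  rw [← map_sum, Lagrange.sum_basis hω.injOn ⟨⟨0, hr⟩, Finset.mem_univ _⟩, map_one]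

theorem proj_conj {r : ℕ} (ω : Fin r → ℂ) (i : Fin r) (M U : Mat r ℂ) (hU : IsUnit U.det) :
    proj ω i (U * M * U⁻¹) = U * proj ω i M * U⁻¹ := by
  unfold proj
  have h1 : ∀ q : ℂ[X], aeval (U * M * U⁻¹) q = U * aeval M q * U⁻¹ := by
    intro q
    have h2 : U⁻¹ * U = 1 := Matrix.nonsing_inv_mul U hU
    have h3 : U * U⁻¹ = 1 := Matrix.mul_nonsing_inv U hU
    have h4 : ∀ n : ℕ, (U * M * U⁻¹) ^ n = U * M ^ n * U⁻¹ := by
      intro n
      induction n with
      | zero => rw [pow_zero, pow_zero, mul_one, h3]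
      | succ n ih =>
        rw [pow_succ, ih, pow_succ]
        calc U * M ^ n * U⁻¹ * (U * M * U⁻¹) = U * M ^ n * (U⁻¹ * U) * M * U⁻¹ := by
              simp only [mul_assoc]
          _ = U * (M ^ n * M) * U⁻¹ := by rw [h2, mul_one]; simp only [mul_assoc]
    induction q using Polynomial.induction_on' with
    | add p q hp hq => rw [map_add, map_add, hp, hq, mul_add, add_mul]
    | monomial n c =>
      rw [aeval_monomial, aeval_monomial, h4, ← Algebra.smul_def, ← Algebra.smul_def,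
        Matrix.mul_smul, Matrix.smul_mul]
  exact h1 _

/-- The sum of the spectral components of an intertwiner. -/
theorem sum_proj_mul {r : ℕ} {ω : Fin r → ℂ} (hω : Function.Injective ω) (hr : 0 < r)
    {M P : Mat r ℂ} (hP : IsUnit P.det) (h : M * P = P * diagonal ω) (a : Mat r ℂ)
    (ha : IsUnit a.det) : ∑ i, proj ω i (a * M * a⁻¹) * a * proj ω i M = a := by
  have h1 : ∀ i, proj ω i (a * M * a⁻¹) * a * proj ω i M = a * proj ω i M := by
    intro i
    have h2 : proj ω i M * proj ω i M = proj ω i M := by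
      have h3 := proj_mul hω h i
      have h4 : proj ω i M = P * diagonal (Pi.single i 1) * P⁻¹ := by
        rw [← h3, mul_assoc, Matrix.mul_nonsing_inv P hP, mul_one]
      rw [h4]
      calc P * diagonal (Pi.single i 1) * P⁻¹ * (P * diagonal (Pi.single i 1) * P⁻¹)
          = P * diagonal (Pi.single i 1) * (P⁻¹ * P) * diagonal (Pi.single i 1) * P⁻¹ := by
            simp only [mul_assoc]
        _ = P * (diagonal (Pi.single i 1) * diagonal (Pi.single i 1)) * P⁻¹ := by
            rw [Matrix.nonsing_inv_mul P hP, mul_one]; simp only [mul_assoc]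
        _ = _ := by
            rw [Matrix.diagonal_mul_diagonal]
            congr 3
            funext j
            by_cases hij : j = i
            · subst hij; simp
            · simp [Pi.single_eq_of_ne hij]
    rw [proj_conj ω i M a ha]
    calc a * proj ω i M * a⁻¹ * a * proj ω i M = a * proj ω i M * (a⁻¹ * a) * proj ω i M := by
          simp only [mul_assoc]
      _ = a * (proj ω i M * proj ω i M) := by
          rw [Matrix.nonsing_inv_mul a ha, mul_one]; simp only [mul_assoc]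
      _ = _ := by rw [h2]
  rw [Finset.sum_congr rfl fun i _ => h1 i, ← Finset.mul_sum, sum_proj hω hr, mul_one]

end Vale.Agent.P002R
end

section

/-!
# Invariant subspaces and determinants
-/

namespace Vale.Agent.P002R

open Matrix

/-- `M` preserves `W` and the determinant of the restriction is `δ`. -/
def DetOn {r : ℕ} (W : Submodule ℂ (Fin r → ℂ)) (M : Mat r ℂ) (δ : ℂ) : Prop :=
  ∃ h : ∀ v ∈ W, Matrix.mulVecLin M v ∈ W, LinearMap.det ((Matrix.mulVecLin M).restrict h) = δ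

variable {r : ℕ} {W : Submodule ℂ (Fin r → ℂ)}

theorem DetOn.unique {M : Mat r ℂ} {δ δ' : ℂ} (h : DetOn W M δ) (h' : DetOn W M δ') : δ = δ' := by
  obtain ⟨h, rfl⟩ := h
  obtain ⟨h', rfl⟩ := h'
  rfl

theorem detOn_one : DetOn W (1 : Mat r ℂ) 1 := by
  have h : ∀ v ∈ W, Matrix.mulVecLin (1 : Mat r ℂ) v ∈ W := by
    intro v hv
    rwa [Matrix.mulVecLin_apply, Matrix.one_mulVec]
  refine ⟨h, ?_⟩
  have h1 : (Matrix.mulVecLin (1 : Mat r ℂ)).restrict h = LinearMap.id := by
    ext v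
    simp only [mulVecLin_one, LinearMap.restrict_apply, LinearMap.id_coe, id_eq, Subtype.coe_eta]
  rw [h1, LinearMap.det_id]

theorem DetOn.mul {M N : Mat r ℂ} {δ ε : ℂ} (hM : DetOn W M δ) (hN : DetOn W N ε) :
    DetOn W (M * N) (δ * ε) := by
  obtain ⟨hM, rfl⟩ := hM
  obtain ⟨hN, rfl⟩ := hN
  have h : ∀ v ∈ W, Matrix.mulVecLin (M * N) v ∈ W := by
    intro v hv
    have := hM _ (hN v hv)
    rwa [Matrix.mulVecLin_apply, Matrix.mulVecLin_apply, Matrix.mulVec_mulVec] at this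
  refine ⟨h, ?_⟩
  have h1 : (Matrix.mulVecLin (M * N)).restrict h =
      (Matrix.mulVecLin M).restrict hM ∘ₗ (Matrix.mulVecLin N).restrict hN := by
    ext v
    simp only [mulVecLin_mul, LinearMap.restrict_apply, LinearMap.coe_comp, Function.comp_apply, mulVecBilin_apply, mulVec_mulVec]
  rw [h1, LinearMap.det_comp]

theorem detOn_prod (E : Subgroup ℂˣ) (l : List (Mat r ℂ))
    (h : ∀ M ∈ l, ∃ e ∈ E, DetOn W M (e : ℂ)) : ∃ e ∈ E, DetOn W l.prod (e : ℂ) := by
  induction l with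
  | nil => exact ⟨1, one_mem _, by rw [List.prod_nil, Units.val_one]; exact detOn_one⟩
  | cons M l ih =>
    obtain ⟨e, he, h1⟩ := h M List.mem_cons_self
    obtain ⟨e', he', h2⟩ := ih fun N hN => h N (List.mem_cons_of_mem _ hN)
    refine ⟨e * e', mul_mem he he', ?_⟩
    rw [List.prod_cons, Units.val_mul]
    exact h1.mul h2

/-- Matrices with eigenvalues in `E`. -/
theorem detOn_of_eigIn {E : Subgroup ℂˣ} {M : Mat r ℂ} (hM : EigIn E M)
    (hW : ∀ v ∈ W, M *ᵥ v ∈ W) : ∃ e ∈ E, DetOn W M (e : ℂ) := by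
  have h : ∀ v ∈ W, Matrix.mulVecLin M v ∈ W := hW
  obtain ⟨f, hf⟩ : ∃ f, f = (Matrix.mulVecLin M).restrict h := ⟨_, rfl⟩
  have h1 : LinearMap.det f = f.charpoly.roots.prod :=
    Module.End.det_eq_prod_roots_charpoly_of_splits (IsAlgClosed.splits _)
  have h2 : ∀ z ∈ f.charpoly.roots, ∃ e ∈ E, (e : ℂ) = z := by
    intro z hz
    apply hM
    have h3 := (Polynomial.mem_roots (LinearMap.charpoly_monic f).ne_zero).1 hz
    obtain ⟨v, hv⟩ := ((Module.End.hasEigenvalue_iff_isRoot_charpoly f z).2 h3).exists_hasEigenvector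
    have h4 : M *ᵥ (v : Fin r → ℂ) = z • (v : Fin r → ℂ) := by
      have h5 := congrArg Subtype.val (Module.End.mem_eigenspace_iff.1 hv.1)
      rw [hf] at h5
      exact h5
    have h6 : (Matrix.mulVecLin M).charpoly = M.charpoly := Matrix.charpoly_mulVecLin M
    rw [← h6, ← Module.End.hasEigenvalue_iff_isRoot_charpoly]
    refine Module.End.hasEigenvalue_of_hasEigenvector (x := (v : Fin r → ℂ)) ⟨?_, ?_⟩
    · rw [Module.End.mem_eigenspace_iff]
      exact h4
    · intro h0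
      exact hv.2 (Subtype.ext h0)
  have h3 : ∀ s : Multiset ℂ, (∀ z ∈ s, ∃ e ∈ E, (e : ℂ) = z) → ∃ e ∈ E, (e : ℂ) = s.prod := by
    intro s
    induction s using Multiset.induction_on with
    | empty => exact fun _ => ⟨1, one_mem _, by simp⟩
    | cons z s ih =>
      intro hs
      obtain ⟨e, he, h1⟩ := hs z (Multiset.mem_cons_self _ _)
      obtain ⟨e', he', h2⟩ := ih fun w hw => hs w (Multiset.mem_cons_of_mem hw)
      exact ⟨e * e', mul_mem he he', by rw [Units.val_mul, h1, h2, Multiset.prod_cons]⟩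
  obtain ⟨e, he, h4⟩ := h3 _ h2
  exact ⟨e, he, h, by rw [h4, ← hf, h1]⟩

/-- Invariant subspaces of matrices with distinct eigenvalues. -/
theorem mem_of_coeff {M P : Mat r ℂ} {ω : Fin r → ℂ} (hω : Function.Injective ω)
    (hP : IsUnit P.det) (h : M * P = P * diagonal ω) (hW : ∀ v ∈ W, M *ᵥ v ∈ W)
    (v : Fin r → ℂ) (hv : v ∈ W) (i : Fin r) (hi : (P⁻¹ *ᵥ v) i ≠ 0) : P.col i ∈ W := by
  have h1 : ∀ q : Polynomial ℂ, Polynomial.aeval M q *ᵥ v ∈ W := by
    intro q
    induction q using Polynomial.induction_on' with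
    | add p q hp hq =>
      rw [map_add, Matrix.add_mulVec]
      exact W.add_mem hp hq
    | monomial n c =>
      rw [Polynomial.aeval_monomial, ← Algebra.smul_def, Matrix.smul_mulVec]
      refine W.smul_mem _ ?_
      induction n with
      | zero => rwa [pow_zero, Matrix.one_mulVec]
      | succ n ih =>
        rw [pow_succ', ← Matrix.mulVec_mulVec]
        exact hW _ ih
  have h2 : proj ω i M *ᵥ v = (P⁻¹ *ᵥ v) i • P.col i := by
    have h3 := proj_mul hω h i
    have h4 : proj ω i M = P * diagonal (Pi.single i 1) * P⁻¹ := by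
      rw [← h3, mul_assoc, Matrix.mul_nonsing_inv P hP, mul_one]
    rw [h4, ← Matrix.mulVec_mulVec, ← Matrix.mulVec_mulVec]
    ext k
    rw [Matrix.mulVec, dotProduct, Finset.sum_eq_single i]
    · rw [Matrix.mulVec_diagonal, Pi.single_eq_same, one_mul, Pi.smul_apply, smul_eq_mul,
        Matrix.col_apply, mul_comm]
    · intro j _ hj
      rw [Matrix.mulVec_diagonal, Pi.single_eq_of_ne hj, zero_mul, mul_zero]
    · intro hi
      exact absurd (Finset.mem_univ _) hi
  have h3 : proj ω i M *ᵥ v ∈ W := h1 _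
  rw [h2] at h3
  have h4 := W.smul_mem ((P⁻¹ *ᵥ v) i)⁻¹ h3
  rwa [smul_smul, inv_mul_cancel₀ hi, one_smul] at h4

theorem detOn_diag {M P : Mat r ℂ} {ω : Fin r → ℂ} (hω : Function.Injective ω)
    (hP : IsUnit P.det) (h : M * P = P * diagonal ω) (hW : ∀ v ∈ W, M *ᵥ v ∈ W)
    (I : Finset (Fin r)) (hI : ∀ i, i ∈ I ↔ P.col i ∈ W) : DetOn W M (∏ i ∈ I, ω i) := by
  classical
  have hW' : ∀ v ∈ W, Matrix.mulVecLin M v ∈ W := hW
  refine ⟨hW', ?_⟩
  have hcol : ∀ i, M *ᵥ P.col i = ω i • P.col i := by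
    intro i
    ext k
    have h1 := congrFun (congrFun h k) i
    rw [Matrix.mul_diagonal, Matrix.mul_apply] at h1
    rw [Matrix.mulVec, dotProduct, Pi.smul_apply, smul_eq_mul, Matrix.col_apply, mul_comm, ← h1]
    rfl
  obtain ⟨u, hu⟩ : ∃ u : I → W, ∀ i, (u i : Fin r → ℂ) = P.col i :=
    ⟨fun i => ⟨P.col i, (hI i).1 i.2⟩, fun _ => rfl⟩
  have hli : LinearIndependent ℂ u := by
    have h1 : LinearIndependent ℂ P.col :=
      Matrix.linearIndependent_cols_iff_isUnit.2 ((Matrix.isUnit_iff_isUnit_det _).2 hP)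
    refine LinearIndependent.of_comp W.subtype ?_
    have h2 : (W.subtype ∘ u) = fun i : I => P.col i := by
      funext i
      exact hu i
    rw [h2]
    exact h1.comp _ Subtype.val_injective
  have hspan : ⊤ ≤ Submodule.span ℂ (Set.range u) := by
    rintro ⟨v, hv⟩ -
    have h1 : v = ∑ i, (P⁻¹ *ᵥ v) i • P.col i := by
      have h2 : v = P *ᵥ (P⁻¹ *ᵥ v) := by
        rw [Matrix.mulVec_mulVec, Matrix.mul_nonsing_inv P hP, Matrix.one_mulVec]
      conv_lhs => rw [h2]
      ext k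
      rw [Matrix.mulVec, dotProduct, Finset.sum_apply]
      refine Finset.sum_congr rfl fun i _ => ?_
      rw [Pi.smul_apply, smul_eq_mul, Matrix.col_apply, mul_comm]
    have h3 : (⟨v, hv⟩ : W) = ∑ i : I, (P⁻¹ *ᵥ v) i • u i := by
      apply Subtype.ext
      rw [AddSubmonoidClass.coe_finsetSum]
      simp only [Submodule.coe_smul, hu]
      conv_lhs => rw [h1]
      rw [Finset.sum_coe_sort I (fun i => (P⁻¹ *ᵥ v) i • P.col i)]
      symm
      refine Finset.sum_subset (Finset.subset_univ _) fun i _ hi => ?_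
      have h4 : (P⁻¹ *ᵥ v) i = 0 := by
        by_contra hne
        exact hi ((hI i).2 (mem_of_coeff hω hP h hW v hv i hne))
      rw [h4, zero_smul]
    rw [h3]
    exact Submodule.sum_mem _ fun i _ => Submodule.smul_mem _ _ (Submodule.subset_span ⟨i, rfl⟩)
  obtain ⟨b, hb⟩ : ∃ b : Module.Basis I ℂ W, ∀ i, b i = u i :=
    ⟨Module.Basis.mk hli hspan, fun i => Module.Basis.mk_apply hli hspan i⟩
  rw [← LinearMap.det_toMatrix b]
  have h5 : LinearMap.toMatrix b b ((Matrix.mulVecLin M).restrict hW') =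
      diagonal fun i : I => ω i := by
    ext i j
    rw [LinearMap.toMatrix_apply]
    have h6 : ((Matrix.mulVecLin M).restrict hW') (b j) = ω j • b j := by
      apply Subtype.ext
      rw [LinearMap.restrict_apply, hb]
      change M *ᵥ (u j : Fin r → ℂ) = ω j • (u j : Fin r → ℂ)
      rw [hu]
      exact hcol j
    rw [h6, map_smul, Finsupp.smul_apply, b.repr_self, smul_eq_mul]
    by_cases hij : i = j
    · subst hij
      rw [Finsupp.single_eq_same, mul_one, Matrix.diagonal_apply_eq]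
    · rw [Finsupp.single_eq_of_ne hij, mul_zero, Matrix.diagonal_apply_ne _ hij]
  rw [h5, Matrix.det_diagonal, Finset.prod_coe_sort I (fun i => ω i)]

/-- A subspace which is invariant under `b`, the `c`s and `a b a⁻¹` is invariant under `a`. -/
theorem inv_of_inv {E : Subgroup ℂˣ} {a b P : Mat r ℂ} (ha : IsUnit a.det) (l : List (Mat r ℂ))
    (hrel : l.prod * (a * b * a⁻¹) = b) (hl : ∀ M ∈ l, EigIn E M) {ω : Fin r → ℂ}
    (hω : Function.Injective ω) (hP : IsUnit P.det) (hb : b * P = P * diagonal ω)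
    (hno : ∀ (I J : Finset (Fin r)), (∃ ε ∈ E, ∏ i ∈ I, ω i = (ε : ℂ) * ∏ j ∈ J, ω j) → I = J)
    (hWb : ∀ v ∈ W, b *ᵥ v ∈ W) (hWl : ∀ M ∈ l, ∀ v ∈ W, M *ᵥ v ∈ W)
    (hWd : ∀ v ∈ W, (a * b * a⁻¹) *ᵥ v ∈ W) : ∀ v ∈ W, a *ᵥ v ∈ W := by
  classical
  obtain ⟨I, hI⟩ : ∃ I : Finset (Fin r), ∀ i, i ∈ I ↔ P.col i ∈ W :=
    ⟨Finset.univ.filter fun i => P.col i ∈ W, fun i => by simp only [Finset.mem_filter, Finset.mem_univ, true_and]⟩
  obtain ⟨J, hJ⟩ : ∃ J : Finset (Fin r), ∀ i, i ∈ J ↔ (a * P).col i ∈ W :=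
    ⟨Finset.univ.filter fun i => (a * P).col i ∈ W, fun i => by simp only [Finset.mem_filter, Finset.mem_univ, true_and]⟩
  have haP : IsUnit (a * P).det := by rw [Matrix.det_mul]; exact ha.mul hP
  have hd : (a * b * a⁻¹) * (a * P) = (a * P) * diagonal ω := by
    calc (a * b * a⁻¹) * (a * P) = a * b * (a⁻¹ * a) * P := by simp only [mul_assoc]
      _ = a * (b * P) := by rw [Matrix.nonsing_inv_mul a ha, mul_one, mul_assoc]
      _ = _ := by rw [hb, mul_assoc]
  have h1 := detOn_diag hω hP hb hWb I hI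
  have h2 := detOn_diag hω haP hd hWd J hJ
  obtain ⟨ε, hε, h3⟩ := detOn_prod E l fun M hM => detOn_of_eigIn (hl M hM) (hWl M hM)
  have h4 := h3.mul h2
  rw [hrel] at h4
  have h5 : I = J := hno I J ⟨ε, hε, h1.unique h4⟩
  intro v hv
  have h6 : a *ᵥ v = ∑ i, (P⁻¹ *ᵥ v) i • (a * P).col i := by
    have h2 : v = P *ᵥ (P⁻¹ *ᵥ v) := by
      rw [Matrix.mulVec_mulVec, Matrix.mul_nonsing_inv P hP, Matrix.one_mulVec]
    conv_lhs => rw [h2]
    rw [Matrix.mulVec_mulVec]
    ext k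
    rw [Matrix.mulVec, dotProduct, Finset.sum_apply]
    refine Finset.sum_congr rfl fun i _ => ?_
    rw [Pi.smul_apply, smul_eq_mul, Matrix.col_apply, mul_comm]
  rw [h6]
  refine Submodule.sum_mem _ fun i _ => ?_
  by_cases h7 : (P⁻¹ *ᵥ v) i = 0
  · rw [h7, zero_smul]
    exact W.zero_mem
  · refine W.smul_mem _ ((hJ i).1 ?_)
    rw [← h5]
    exact (hI i).2 (mem_of_coeff hω hP hb hWb v hv i h7)

end Vale.Agent.P002R
end

section

/-!
# Density for products of curves with at least `3 - 2g` regular classes: quasi-unipotent classes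
and classes with algebraic unit eigenvalues
-/

namespace Vale.Agent.P002R.Product

open Matrix NumberField

variable {k r : ℕ} {g n : Fin k → ℕ}

theorem coefOK_roots (N : ℕ) (hN : 0 < N) (r : ℕ) (L : IntermediateField ℚ ℂ)
    (hL : FiniteDimensional ℚ L)
    (hμ : ∀ z : ℂ, z ^ (2 * N * r.factorial) = 1 → z ∈ L) (hu : Infinite (𝓞 L)ˣ) :
    CoefOK (phiO (algebraMap L ℂ)) (powMonoidHom (α := ℂˣ) (2 * N)).ker r := by
  have : NumberField L := { to_charZero := inferInstance, to_finiteDimensional := hL }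
  obtain ⟨u, hu⟩ := exists_unit_infinite_order (L := L) (algebraMap L ℂ)
  obtain ⟨E, hE', hE⟩ : ∃ E : Subgroup ℂˣ, E = (powMonoidHom (α := ℂˣ) (2 * N)).ker ∧
    ∀ z, z ∈ E ↔ z ^ (2 * N) = 1 := ⟨_, rfl, fun z => Iff.rfl⟩
  rw [← hE']
  refine coefOK_of_field E ?_ ?_ r L ?_ ⟨u, ?_⟩
  · intro z hz
    rw [hE] at hz
    refine IsIntegral.of_pow (n := 2 * N) (by positivity) ?_
    rw [← Units.val_pow_eq_pow_val, hz, Units.val_one]
    exact isIntegral_one
  · rw [hE, pow_mul, neg_one_sq, one_pow]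
  · intro m hm hmr z hz
    rw [hE] at hz
    apply hμ
    obtain ⟨c, hc⟩ := mul_dvd_mul_left (2 * N) (Nat.dvd_factorial hm hmr)
    have h1 : (z : ℂ) ^ (2 * N * m) = 1 := by
      rw [mul_comm (2 * N) m, pow_mul, ← Units.val_pow_eq_pow_val, ← Units.val_pow_eq_pow_val, hz,
        Units.val_one]
    rw [hc, pow_mul, h1, one_pow]
  · intro m hm e he h
    rw [hE] at he
    refine hu (m * (2 * N)) (by positivity) ?_
    rw [pow_mul, h, ← Units.val_pow_eq_pow_val, he, Units.val_one]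

theorem eigIn_roots (C : SpecialLinearGroup (Fin r) ℂ) (N : ℕ) (hN : 0 < N)
    (hC : ∀ z, IsEigenvalue C z → z ^ N = 1) :
    EigIn (powMonoidHom (α := ℂˣ) (2 * N)).ker C.1 := by
  intro z hz
  have h1 : z ^ N = 1 := hC z hz
  have h0 : z ≠ 0 := by
    rintro rfl
    rw [zero_pow hN.ne'] at h1
    exact zero_ne_one h1
  refine ⟨Units.mk0 z h0, ?_, rfl⟩
  change Units.mk0 z h0 ^ (2 * N) = 1
  ext1
  rw [Units.val_pow_eq_pow_val, Units.val_mk0, Units.val_one, mul_comm, pow_mul, h1, one_pow]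

end Vale.Agent.P002R.Product
end

section

/-!
# Density of integral representations without boundary conditions, for products of curves
-/

namespace Vale.Agent.P002R.Product

open Matrix NumberField

/-! ### The fundamental group of a factor -/

/-- Generators: the handles, and all boundary loops except the last one. -/
abbrev KN (g n : ℕ) := (Fin g × Bool) ⊕ Fin (n - 1)

/-- The product of the commutators and of the boundary loops except the last one. -/
def surfW (g n : ℕ) : FreeGroup (KN g n ⊕ Empty) :=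
  (List.ofFn fun l : Fin g => (FreeGroup.of (Sum.inl (Sum.inl (l, false))) *
    FreeGroup.of (Sum.inl (Sum.inl (l, true))) *
    (FreeGroup.of (Sum.inl (Sum.inl (l, false))))⁻¹ *
    (FreeGroup.of (Sum.inl (Sum.inl (l, true))))⁻¹ : FreeGroup (KN g n ⊕ Empty))).prod *
  (List.ofFn fun j : Fin (n - 1) =>
    (FreeGroup.of (Sum.inl (Sum.inr j)) : FreeGroup (KN g n ⊕ Empty))).prod

/-- The relator, if there are no boundary loops. -/
def surfRel (g n : ℕ) : Set (FreeGroup (KN g n ⊕ Empty)) := {w | n = 0 ∧ w = surfW g n}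

theorem surfRel_charOK (g n : ℕ) : CharOK (surfRel g n) := by
  rintro w ⟨rfl, rfl⟩ A _ χ -
  unfold surfW
  rw [map_mul, map_list_prod, map_list_prod, List.map_ofFn, List.map_ofFn]
  simp only [Function.comp_def, map_mul, map_inv]
  simp

theorem surfRel_irrDense (g n : ℕ) {r : ℕ} {R : Type*} [CommRing R] (φ : R →+* ℂ)
    (E : Subgroup ℂˣ) (hc : CoefOK φ E r) :
    ∀ r' ≤ r, 0 < r' → IrrDense (surfRel g n) φ E r' := by
  intro r' hr' hr'0
  rcases Nat.eq_zero_or_pos n with rfl | hn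
  · have hE : IsEmpty (Fin (0 - 1)) := Fin.isEmpty
    refine IrrDense.congr (Equiv.sumEmpty (Fin g × Bool) (Fin (0 - 1))).symm
      (Equiv.equivOfIsEmpty (Fin 0) Empty) _ _ ?_
      (surface_irrDense (g := g) (n := 0) φ E hc (Or.inr rfl) r' hr' hr'0)
    intro y
    have h1 : renE (Equiv.sumEmpty (Fin g × Bool) (Fin (0 - 1))).symm.symm
        (Equiv.equivOfIsEmpty (Fin 0) Empty).symm (surfW g 0) = relatorU g 0 := by
      unfold surfW relatorU
      rw [map_mul, map_list_prod, map_list_prod, List.map_ofFn, List.map_ofFn]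
      simp only [Function.comp_def, map_mul, map_inv, renE_inl]
      simp only [Nat.zero_sub_one, Equiv.symm_symm, Equiv.sumEmpty_apply_inl, zero_tsub, List.ofFn_zero, List.prod_nil, mul_one, one_mul]
    constructor
    · rintro hy w ⟨-, rfl⟩
      rw [h1]
      exact hy _ rfl
    · rintro hy w hw
      rw [Set.mem_singleton_iff.1 hw, ← h1]
      exact hy _ ⟨rfl, rfl⟩
  · refine IrrDense.congr (Fintype.equivFin (KN g n)).symm (Equiv.refl Empty) _ _ ?_
      (free_irrDense (N := Fintype.card (KN g n)) φ E r' hr'0)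
    intro y
    constructor
    · rintro - w ⟨h0, -⟩
      omega
    · rintro - w hw
      exact absurd hw (Set.notMem_empty w)

/-! ### The fundamental group of the product -/

variable {k r : ℕ} {g n : Fin k → ℕ}

/-- The generators of the product. -/
abbrev KP (g n : Fin k → ℕ) := (Σ i, KN (g i) (n i)) ⊕ (Σ _ : Fin k, Empty)

/-- The relators of the product. -/
def relP (g n : Fin k → ℕ) : Set (FreeGroup (KP g n)) := famRel fun i => surfRel (g i) (n i)

/-- Inclusion of a factor. -/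
def incP (g n : Fin k → ℕ) (i : Fin k) : FreeGroup (KN (g i) (n i) ⊕ Empty) →*
    FreeGroup (KP g n) :=
  FreeGroup.map (incS (κ := fun i => KN (g i) (n i)) (ι := fun _ => Empty) i)

/-- The word of a generator. -/
def wordG : Gens g n → FreeGroup (KP g n)
  | Sum.inl ⟨i, p⟩ => incP g n i (FreeGroup.of (Sum.inl (Sum.inl p)))
  | Sum.inr ⟨i, j⟩ => if h : j.1 < n i - 1 then
      incP g n i (FreeGroup.of (Sum.inl (Sum.inr ⟨j, h⟩))) else (incP g n i (surfW (g i) (n i)))⁻¹

/-- Tuples in a group which satisfy the relations. -/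
def IsRepG {H : Type*} [Group H] (X : Gens g n → H) : Prop :=
  (∀ i, (List.ofFn fun l : Fin (g i) => X (Sum.inl ⟨i, l, false⟩) * X (Sum.inl ⟨i, l, true⟩) *
    (X (Sum.inl ⟨i, l, false⟩))⁻¹ * (X (Sum.inl ⟨i, l, true⟩))⁻¹).prod *
      (List.ofFn fun j : Fin (n i) => X (Sum.inr ⟨i, j⟩)).prod = 1) ∧
  ∀ p q : Gens g n, factor p ≠ factor q → X p * X q = X q * X p

theorem wordG_mem (p : Gens g n) : ∃ w, wordG p = incP g n (factor p) w := by
  rcases p with ⟨i, p⟩ | ⟨i, j⟩
  · exact ⟨_, rfl⟩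
  · simp only [wordG]
    split_ifs with h
    · exact ⟨_, rfl⟩
    · exact ⟨(surfW (g i) (n i))⁻¹, (map_inv (incP g n i) _).symm⟩

/-- Different factors commute. -/
theorem commute_of_hom {H : Type*} [Group H] (x : FreeGroup (KP g n) →* H)
    (hx : ∀ w ∈ relP g n, x w = 1) {i j : Fin k} (hij : i ≠ j)
    (w : FreeGroup (KN (g i) (n i) ⊕ Empty)) (w' : FreeGroup (KN (g j) (n j) ⊕ Empty)) :
    Commute (x (incP g n i w)) (x (incP g n j w')) := by
  have h0 : ∀ p q, Commute (x (incP g n i (FreeGroup.of p))) (x (incP g n j (FreeGroup.of q))) := by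
    intro p q
    have := hx _ (Or.inr ⟨i, j, p, q, hij, rfl⟩)
    rw [map_mul, map_mul, map_mul, map_inv, map_inv, mul_inv_eq_one, mul_inv_eq_iff_eq_mul] at this
    exact this
  have step : ∀ {K : Type} (z : FreeGroup K →* H) (y : H), (∀ p, Commute y (z (FreeGroup.of p))) →
      ∀ w, Commute y (z w) := by
    intro K z y hy w
    have : (⊤ : Subgroup (FreeGroup K)) ≤ (Subgroup.centralizer {y}).comap z := by
      rw [← FreeGroup.closure_range_of, Subgroup.closure_le]
      rintro _ ⟨p, rfl⟩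
      rw [SetLike.mem_coe, Subgroup.mem_comap, Subgroup.mem_centralizer_singleton_iff]
      exact (hy p).symm
    have h := this (Subgroup.mem_top w)
    rw [Subgroup.mem_comap, Subgroup.mem_centralizer_singleton_iff] at h
    exact h.symm
  have h1 : ∀ q, Commute (x (incP g n i w)) (x (incP g n j (FreeGroup.of q))) := fun q =>
    (step (x.comp (incP g n i)) _ (fun p => (h0 p q).symm) w).symm
  exact step (x.comp (incP g n j)) _ h1 w'

theorem rel_of_hom {H : Type*} [Group H] (x : FreeGroup (KP g n) →* H)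
    (hx : ∀ w ∈ relP g n, x w = 1) : IsRepG (fun p : Gens g n => x (wordG p)) := by
  constructor
  · intro i
    have hW : x (incP g n i (surfW (g i) (n i))) =
        (List.ofFn fun l : Fin (g i) => x (wordG (Sum.inl ⟨i, l, false⟩ : Gens g n)) *
          x (wordG (Sum.inl ⟨i, l, true⟩ : Gens g n)) *
          (x (wordG (Sum.inl ⟨i, l, false⟩ : Gens g n)))⁻¹ *
          (x (wordG (Sum.inl ⟨i, l, true⟩ : Gens g n)))⁻¹).prod *
        (List.ofFn fun j : Fin (n i - 1) =>
          x (wordG (Sum.inr ⟨i, ⟨j, by omega⟩⟩ : Gens g n))).prod := by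
      unfold surfW
      rw [map_mul, map_mul, map_list_prod, map_list_prod, map_list_prod, map_list_prod,
        List.map_ofFn, List.map_ofFn, List.map_ofFn, List.map_ofFn]
      congr 1
      · congr 2
        funext l
        simp only [Function.comp, map_mul, map_inv]
        rfl
      · congr 2
        funext j
        simp only [Function.comp, wordG]
        rw [dif_pos j.isLt]
    rcases Nat.eq_zero_or_pos (n i) with h0 | h0
    · have h1 : x (incP g n i (surfW (g i) (n i))) = 1 :=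
        hx _ (Or.inl ⟨i, _, ⟨h0, rfl⟩, rfl⟩)
      rw [hW] at h1
      have e1 : (List.ofFn fun j : Fin (n i - 1) =>
          x (wordG (Sum.inr ⟨i, ⟨j, by omega⟩⟩ : Gens g n))) = [] :=
        List.eq_nil_of_length_eq_zero (by rw [List.length_ofFn]; omega)
      have e2 : (List.ofFn fun j : Fin (n i) =>
          x (wordG (Sum.inr ⟨i, j⟩ : Gens g n))) = [] :=
        List.eq_nil_of_length_eq_zero (by rw [List.length_ofFn]; omega)
      rw [e1] at h1
      rw [e2]
      exact h1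
    · have h2 : (List.ofFn fun j : Fin (n i) => x (wordG (Sum.inr ⟨i, j⟩ : Gens g n))) =
          (List.ofFn fun j : Fin (n i - 1) =>
            x (wordG (Sum.inr ⟨i, ⟨j, by omega⟩⟩ : Gens g n))) ++
          [(x (incP g n i (surfW (g i) (n i))))⁻¹] := by
        have h3 := List.ofFn_congr (show n i = n i - 1 + 1 by omega)
          (fun j : Fin (n i) => x (wordG (Sum.inr ⟨i, j⟩ : Gens g n)))
        rw [h3, List.ofFn_succ', List.concat_eq_append]
        congr 2
        rw [← map_inv]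
        congr 1
        simp only [wordG]
        rw [dif_neg]
        simp only [Fin.val_cast, Fin.val_last, lt_self_iff_false, not_false_eq_true]
      rw [h2, List.prod_append, ← mul_assoc, List.prod_singleton, ← hW, mul_inv_cancel]
  · intro p q hpq
    obtain ⟨w, hw⟩ := wordG_mem p
    obtain ⟨w', hw'⟩ := wordG_mem q
    simp only
    rw [hw, hw']
    exact commute_of_hom x hx hpq w w'

/-- Values at the generators. -/
def liftFun {H : Type*} (X : Gens g n → H) : KP g n → H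
  | Sum.inl ⟨i, Sum.inl p⟩ => X (Sum.inl ⟨i, p⟩)
  | Sum.inl ⟨i, Sum.inr j⟩ => X (Sum.inr ⟨i, ⟨j, by omega⟩⟩)
  | Sum.inr ⟨_, e⟩ => e.elim

theorem hom_of_rel {H : Type*} [Group H] (X : Gens g n → H) (hX : IsRepG X) :
    ∃ x : FreeGroup (KP g n) →* H, (∀ w ∈ relP g n, x w = 1) ∧ ∀ p, x (wordG p) = X p := by
  obtain ⟨x, hxa, hxb⟩ : ∃ x : FreeGroup (KP g n) →* H,
      (∀ i p, x (incP g n i (FreeGroup.of (Sum.inl (Sum.inl p)))) = X (Sum.inl ⟨i, p⟩)) ∧
      ∀ i (j : Fin (n i - 1)), x (incP g n i (FreeGroup.of (Sum.inl (Sum.inr j)))) =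
        X (Sum.inr ⟨i, ⟨j, by omega⟩⟩) := by
    refine ⟨FreeGroup.lift (liftFun X), fun i p => ?_, fun i j => ?_⟩
    · rw [incP, FreeGroup.map.of, FreeGroup.lift_apply_of]; rfl
    · rw [incP, FreeGroup.map.of, FreeGroup.lift_apply_of]; rfl
  have hW : ∀ i, x (incP g n i (surfW (g i) (n i))) =
      (List.ofFn fun l : Fin (g i) => X (Sum.inl ⟨i, l, false⟩) * X (Sum.inl ⟨i, l, true⟩) *
        (X (Sum.inl ⟨i, l, false⟩))⁻¹ * (X (Sum.inl ⟨i, l, true⟩))⁻¹).prod *
      (List.ofFn fun j : Fin (n i - 1) => X (Sum.inr ⟨i, ⟨j, by omega⟩⟩)).prod := by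
    intro i
    unfold surfW
    rw [map_mul, map_mul, map_list_prod, map_list_prod, map_list_prod, map_list_prod,
      List.map_ofFn, List.map_ofFn, List.map_ofFn, List.map_ofFn]
    simp only [Function.comp_def, map_mul, map_inv, hxa, hxb]
  have hword : ∀ p, x (wordG p) = X p := by
    rintro (⟨i, p⟩ | ⟨i, j⟩)
    · exact hxa i p
    · simp only [wordG]
      split_ifs with h
      · exact hxb i _
      · have h1 := hX.1 i
        have h0 : 0 < n i := by have := j.isLt; omega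
        have h2 : (List.ofFn fun j : Fin (n i) => X (Sum.inr ⟨i, j⟩)) =
            (List.ofFn fun j : Fin (n i - 1) => X (Sum.inr ⟨i, ⟨j, by omega⟩⟩)) ++
            [X (Sum.inr ⟨i, j⟩)] := by
          have h3 := List.ofFn_congr (show n i = n i - 1 + 1 by omega)
            (fun j : Fin (n i) => X (Sum.inr ⟨i, j⟩))
          rw [h3, List.ofFn_succ', List.concat_eq_append]
          congr 2
          have h4 : Fin.cast (show n i - 1 + 1 = n i by omega) (Fin.last (n i - 1)) = j := by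
            apply Fin.ext
            have := j.isLt
            simp only [Fin.val_cast, Fin.val_last]
            omega
          exact congrArg (fun j => X (Sum.inr ⟨i, j⟩)) h4
        rw [h2, List.prod_append, ← mul_assoc, List.prod_singleton, ← hW] at h1
        rw [map_inv]
        exact inv_eq_of_mul_eq_one_right h1
  refine ⟨x, ?_, hword⟩
  rintro w (⟨i, v, ⟨h0, rfl⟩, rfl⟩ | ⟨i, j, p, q, hij, rfl⟩)
  · change x (incP g n i (surfW (g i) (n i))) = 1
    rw [hW]
    have h1 := hX.1 i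
    have e1 : (List.ofFn fun j : Fin (n i - 1) =>
        X (Sum.inr ⟨i, ⟨j, by omega⟩⟩)) = [] :=
      List.eq_nil_of_length_eq_zero (by rw [List.length_ofFn]; omega)
    have e2 : (List.ofFn fun j : Fin (n i) => X (Sum.inr ⟨i, j⟩)) = [] :=
      List.eq_nil_of_length_eq_zero (by rw [List.length_ofFn]; omega)
    rw [e2] at h1
    rw [e1]
    exact h1
  · have hgen : ∀ (i : Fin k) (p : KN (g i) (n i) ⊕ Empty), ∃ s : Gens g n, factor s = i ∧
        x (FreeGroup.of (incS (κ := fun i => KN (g i) (n i)) (ι := fun _ => Empty) i p)) = X s := by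
      rintro i ((p | j) | e)
      · exact ⟨Sum.inl ⟨i, p⟩, rfl, by rw [← hxa]; rfl⟩
      · exact ⟨Sum.inr ⟨i, ⟨j, by omega⟩⟩, rfl, by rw [← hxb]; rfl⟩
      · exact e.elim
    obtain ⟨s, hs, hs'⟩ := hgen i p
    obtain ⟨t, ht, ht'⟩ := hgen j q
    rw [map_mul, map_mul, map_mul, map_inv, map_inv, mul_inv_eq_one, mul_inv_eq_iff_eq_mul,
      hs', ht']
    exact hX.2 s t (by rw [hs, ht]; exact hij)

/-! ### Polynomials in the entries of words -/

/-- The entries of a word in matrices of determinant one are polynomials in the entries of the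
generators. -/
theorem exists_word_matrix {K : Type} (r : ℕ) (w : FreeGroup K) :
    ∃ M : Matrix (Fin r) (Fin r) (MvPolynomial (K × Fin r × Fin r) ℂ),
      ∀ x : FreeGroup K →* SpecialLinearGroup (Fin r) ℂ,
        M.map (MvPolynomial.aeval (R := ℂ) fun p => (x (FreeGroup.of p.1)).1 p.2.1 p.2.2) =
          (x w).1 := by
  obtain ⟨S, hS⟩ : ∃ S : Subgroup (FreeGroup K), ∀ w, w ∈ S ↔
      ∃ M : Matrix (Fin r) (Fin r) (MvPolynomial (K × Fin r × Fin r) ℂ),
        ∀ x : FreeGroup K →* SpecialLinearGroup (Fin r) ℂ,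
          M.map (MvPolynomial.aeval (R := ℂ) fun p => (x (FreeGroup.of p.1)).1 p.2.1 p.2.2) =
            (x w).1 := by
    refine ⟨{
      carrier := {w | ∃ M : Matrix (Fin r) (Fin r) (MvPolynomial (K × Fin r × Fin r) ℂ),
        ∀ x : FreeGroup K →* SpecialLinearGroup (Fin r) ℂ,
          M.map (MvPolynomial.aeval (R := ℂ) fun p => (x (FreeGroup.of p.1)).1 p.2.1 p.2.2) =
            (x w).1}
      mul_mem' := ?_
      one_mem' := ?_
      inv_mem' := ?_ }, fun w => Iff.rfl⟩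
    · rintro a b ⟨M, hM⟩ ⟨N, hN⟩
      refine ⟨M * N, fun x => ?_⟩
      have h1 := RingHom.map_mul (RingHom.mapMatrix (m := Fin r)
        (MvPolynomial.aeval (R := ℂ) fun p : K × Fin r × Fin r =>
          (x (FreeGroup.of p.1)).1 p.2.1 p.2.2).toRingHom) M N
      have h2 : (x (a * b)).1 = (x a).1 * (x b).1 := by rw [map_mul]; rfl
      rw [h2, ← hM x, ← hN x]
      exact h1
    · refine ⟨1, fun x => ?_⟩
      rw [Matrix.map_one _ (map_zero _) (map_one _), map_one]
      rfl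
    · rintro a ⟨M, hM⟩
      refine ⟨M.adjugate, fun x => ?_⟩
      have h1 := RingHom.map_adjugate (MvPolynomial.aeval (R := ℂ)
        fun p : K × Fin r × Fin r => (x (FreeGroup.of p.1)).1 p.2.1 p.2.2).toRingHom M
      have h2 : (x a⁻¹).1 = (x a).1.adjugate := by
        rw [map_inv]
        exact Matrix.SpecialLinearGroup.coe_inv _
      rw [h2, ← hM x]
      exact h1
  have h : (⊤ : Subgroup (FreeGroup K)) ≤ S := by
    rw [← FreeGroup.closure_range_of, Subgroup.closure_le]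
    rintro _ ⟨p, rfl⟩
    rw [SetLike.mem_coe, hS]
    refine ⟨Matrix.of fun i j => MvPolynomial.X (p, i, j), fun x => ?_⟩
    ext i j
    simp only [MvPolynomial.aeval_eq_eval, map_apply, of_apply, MvPolynomial.eval_X]
  exact (hS w).1 (h (Subgroup.mem_top w))

/-- Pull back of a function to the tuples of generators. -/
theorem exists_pullback (F : MvPolynomial (Gens g n × Fin r × Fin r) ℂ) :
    ∃ f : MvPolynomial (KP g n × Fin r × Fin r) ℂ,
      ∀ x : FreeGroup (KP g n) →* SpecialLinearGroup (Fin r) ℂ,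
        evalG (SpecialLinearGroup.toGL.comp x) f = value F fun p => x (wordG p) := by
  choose M hM using fun p : Gens g n => exists_word_matrix r (wordG p)
  refine ⟨MvPolynomial.aeval (fun p => M p.1 p.2.1 p.2.2) F, fun x => ?_⟩
  have h : (evalG (SpecialLinearGroup.toGL.comp x)).comp
      (MvPolynomial.aeval (R := ℂ) (fun p : Gens g n × Fin r × Fin r => M p.1 p.2.1 p.2.2)) =
      MvPolynomial.aeval (fun p : Gens g n × Fin r × Fin r => (x (wordG p.1)).1 p.2.1 p.2.2) := by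
    apply MvPolynomial.algHom_ext
    intro p
    rw [AlgHom.comp_apply, MvPolynomial.aeval_X, MvPolynomial.aeval_X, ← hM p.1 x]
    rfl
  exact DFunLike.congr_fun h F

/-! ### Invariant subspaces -/

theorem stable_iff_hom (x : FreeGroup (KP g n) →* SpecialLinearGroup (Fin r) ℂ)
    (hgen : ∀ p, ∃ q : Gens g n, x (FreeGroup.of p) = x (wordG q))
    (W : Submodule ℂ (Fin r → ℂ)) :
    (∀ w, ∀ v ∈ W, ((SpecialLinearGroup.toGL.comp x) w : Mat r ℂ) *ᵥ v ∈ W) ↔
      IsInvSubspace (fun p : Gens g n => x (wordG p)) W := by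
  constructor
  · intro h p
    exact h (wordG p)
  · intro h w
    obtain ⟨H, hH⟩ : ∃ H : Subgroup (Mat r ℂ)ˣ, ∀ M, M ∈ H ↔
        ∀ v ∈ W, (M : Mat r ℂ) *ᵥ v ∈ W :=
      ⟨{ carrier := {M | ∀ v ∈ W, (M : Mat r ℂ) *ᵥ v ∈ W}
         mul_mem' := fun {a b} ha hb v hv => by
          rw [Units.val_mul, ← Matrix.mulVec_mulVec]
          exact ha _ (hb _ hv)
         one_mem' := fun v hv => by
          rw [Units.val_one, Matrix.one_mulVec]
          exact hv
         inv_mem' := fun {a} ha => Statement.inv_stable a W ha }, fun M => Iff.rfl⟩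
    have h1 : (⊤ : Subgroup (FreeGroup (KP g n))) ≤ H.comap (SpecialLinearGroup.toGL.comp x) := by
      rw [← FreeGroup.closure_range_of, Subgroup.closure_le]
      rintro _ ⟨p, rfl⟩
      rw [SetLike.mem_coe, Subgroup.mem_comap, hH]
      obtain ⟨q, hq⟩ := hgen p
      intro v hv
      have := h q v hv
      simp only at this
      rw [← hq] at this
      exact this
    exact (hH _).1 (h1 (Subgroup.mem_top w))

theorem of_eq_word (p : KP g n) : ∃ q : Gens g n, FreeGroup.of p = wordG q := by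
  rcases p with ⟨i, p | j⟩ | ⟨i, e⟩
  · refine ⟨Sum.inl ⟨i, p⟩, ?_⟩
    rw [wordG, incP, FreeGroup.map.of]
    rfl
  · refine ⟨Sum.inr ⟨i, ⟨j, by omega⟩⟩, ?_⟩
    rw [wordG, dif_pos j.isLt, incP, FreeGroup.map.of]
    rfl
  · exact e.elim

theorem SS_iff_hom (x : FreeGroup (KP g n) →* SpecialLinearGroup (Fin r) ℂ) :
    SS (SpecialLinearGroup.toGL.comp x) ↔ ∀ W : Submodule ℂ (Fin r → ℂ),
      IsInvSubspace (fun p : Gens g n => x (wordG p)) W → ∃ W' : Submodule ℂ (Fin r → ℂ),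
        IsInvSubspace (fun p : Gens g n => x (wordG p)) W' ∧ IsCompl W W' := by
  have h := stable_iff_hom x fun p => (of_eq_word p).imp fun q hq => by rw [hq]
  unfold SS
  simp only [h]

/-- **Density of the integral representations, for a product of curves and without boundary
conditions.** -/
theorem none_density_prod (g n : Fin k → ℕ) (r : ℕ) :
    ∃ L : IntermediateField ℚ ℂ, FiniteDimensional ℚ L ∧
      IsZariskiDenseRep {X ∈ YNone g n r | IsIntegralRep L X} (YNone g n r) := by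
  obtain ⟨L, hL, hc⟩ := exists_field_E ∅ Set.finite_empty (fun z hz => absurd hz (by simp)) r
  refine ⟨L, hL, fun X hX => hX.1, fun F hF X hX => ?_⟩
  rcases Nat.eq_zero_or_pos r with hr | hr
  · subst hr
    exact hF X ⟨hX, fun p i => i.elim0⟩
  obtain ⟨φ, hφ⟩ : ∃ φ, φ = phiO (algebraMap L ℂ) := ⟨_, rfl⟩
  rw [← hφ] at hc
  obtain ⟨ζ, hζ⟩ := hc.root r hr le_rfl
    (Units.mk0 (Complex.exp (2 * Real.pi * Complex.I / r)) (Complex.exp_ne_zero _)) (by
      have h1 : (Units.mk0 (Complex.exp (2 * Real.pi * Complex.I / r)) (Complex.exp_ne_zero _)) ^ r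
          = 1 := by
        apply Units.ext
        rw [Units.val_pow_eq_pow_val, Units.val_mk0,
          (Complex.isPrimitiveRoot_exp r hr.ne').pow_eq_one, Units.val_one]
      rw [h1]
      exact one_mem _)
  rw [Units.val_mk0] at hζ
  have hζp : IsPrimitiveRoot (φ ζ) r := by
    rw [hζ]
    exact Complex.isPrimitiveRoot_exp r hr.ne'
  obtain ⟨x, hx1, hx2⟩ := hom_of_rel X hX.1
  have hX' : (fun p : Gens g n => x (wordG p)) = X := funext hx2
  obtain ⟨f, hf⟩ := exists_pullback F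
  have hchar : CharOK (relP g n) := famRel_charOK _ fun i => surfRel_charOK _ _
  have hirr : ∀ r' ≤ r, 0 < r' → IrrDense (relP g n) φ _ r' :=
    fam_irrDense φ _ r k _ _ _ fun i => surfRel_irrDense (g i) (n i) φ _ hc
  have hemp : IsEmpty (Σ _ : Fin k, Empty) := ⟨fun s => s.2.elim⟩
  obtain ⟨C, hC⟩ : ∃ C : (Σ _ : Fin k, Empty) → (Mat r ℂ)ˣ, C = fun _ => 1 := ⟨_, rfl⟩
  have hxY : SpecialLinearGroup.toGL.comp x ∈ YG (relP g n) C := by
    refine ⟨fun w hw => ?_, fun j => isEmptyElim j, ?_⟩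
    · rw [MonoidHom.comp_apply, hx1 w hw, map_one]
    · rw [SS_iff_hom, hX']
      exact hX.2
  rw [← hX', ← hf x]
  refine unscaleG φ hc.inj ζ (hc.inj ?_) hζp hr (relP g n) hchar C (fun j => isEmptyElim j) f ?_
    (SpecialLinearGroup.toGL.comp x) (fun w => (x w).2) (fun f' hf' => partIVG φ _ hc (relP g n)
      hchar hirr C (fun j => isEmptyElim j) _ hxY f' hf')
  · rw [map_pow, map_one]
    exact hζp.pow_eq_one
  · intro y hy _ hyS
    obtain ⟨z, hz⟩ : ∃ z : FreeGroup (KP g n) →* SpecialLinearGroup (Fin r) ℂ,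
        z = (SpecialLinearGroup.map φ).comp y := ⟨_, rfl⟩
    have h1 : (slU φ).comp y = SpecialLinearGroup.toGL.comp z := by rw [hz]; rfl
    rw [h1, hf z]
    rw [h1, SS_iff_hom] at hyS
    refine hF _ ⟨⟨rel_of_hom z fun w hw => ?_, hyS⟩, fun p i j => ?_⟩
    · rw [hz, MonoidHom.comp_apply, hy w hw, map_one]
    · refine ⟨(y (wordG p)).1 i j, ?_⟩
      rw [hz, hφ]
      rfl

end Vale.Agent.P002R.Product
end
namespace AFast46104cx4417a
theorem a0.{u1} {x1 : ℕ} {x2 : Fin x1 → ℕ} {x3 : Fin x1 → ℕ} {x4 : Type u1} [x5 : Group x4] : MulHomClass (FreeGroup (Vale.Agent.P002R.Product.KP x2 x3) →* x4) (FreeGroup (Vale.Agent.P002R.Product.KP x2 x3)) x4 := inferInstance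
@[reducible] def a1 {x1 : ℕ} {x2 : Fin x1 → ℕ} {x3 : Fin x1 → ℕ} : MulOne (FreeGroup (Vale.Agent.P002R.Product.KP x2 x3)) := inferInstance
@[reducible] def a2 {x1 : ℕ} {x2 : Fin x1 → ℕ} {x3 : Fin x1 → ℕ} : MulOneClass (FreeGroup (Vale.Agent.P002R.Product.KP x2 x3)) := inferInstance
@[reducible] def a3 {x1 : ℕ} {x2 : Fin x1 → ℕ} {x3 : Fin x1 → ℕ} : Monoid (FreeGroup (Vale.Agent.P002R.Product.KP x2 x3)) := inferInstance
@[reducible] def a4 {x1 : ℕ} {x2 : Fin x1 → ℕ} {x3 : Fin x1} {x4 : Fin x1 → ℕ} : MulOne (FreeGroup (Vale.Agent.P002R.Product.KN (x2 x3) (x4 x3) ⊕ Empty)) := inferInstance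
@[reducible] def a5 {x1 : ℕ} {x2 : Fin x1 → ℕ} {x3 : Fin x1} {x4 : Fin x1 → ℕ} : MulOneClass (FreeGroup (Vale.Agent.P002R.Product.KN (x2 x3) (x4 x3) ⊕ Empty)) := inferInstance
@[reducible] def a6 {x1 : ℕ} {x2 : Fin x1 → ℕ} {x3 : Fin x1} {x4 : Fin x1 → ℕ} : Monoid (FreeGroup (Vale.Agent.P002R.Product.KN (x2 x3) (x4 x3) ⊕ Empty)) := inferInstance
theorem a7 {x1 : ℕ} {x2 : Fin x1 → ℕ} {x3 : Fin x1} {x4 : Fin x1 → ℕ} : MulHomClass (FreeGroup (Vale.Agent.P002R.Product.KN (x2 x3) (x4 x3) ⊕ Empty) →* FreeGroup (Vale.Agent.P002R.Product.KP x2 x4)) (FreeGroup (Vale.Agent.P002R.Product.KN (x2 x3) (x4 x3) ⊕ Empty)) (FreeGroup (Vale.Agent.P002R.Product.KP x2 x4)) := inferInstance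
end AFast46104cx4417a
attribute [local instance] AFast46104cx4417a.a0 AFast46104cx4417a.a1 AFast46104cx4417a.a2
  AFast46104cx4417a.a3 AFast46104cx4417a.a4 AFast46104cx4417a.a5 AFast46104cx4417a.a6
  AFast46104cx4417a.a7

section

/-!
# Density of the integral representations of a finitely presented group with prescribed classes
-/

namespace Vale.Agent.P002R.Orb

open Matrix NumberField

variable {ι : Type} {r : ℕ}

/-- The representation of the free group attached to a complex representation. -/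
noncomputable def toU (X : ι → SpecialLinearGroup (Fin r) ℂ) :
    FreeGroup ι →* (Mat r ℂ)ˣ :=
  SpecialLinearGroup.toGL.comp (FreeGroup.lift X)

theorem toU_coe (X : ι → SpecialLinearGroup (Fin r) ℂ) (w : FreeGroup ι) :
    (toU X w : Mat r ℂ) = (FreeGroup.lift X w).1 := rfl

theorem toU_of (X : ι → SpecialLinearGroup (Fin r) ℂ) (p : ι) :
    toU X (FreeGroup.of p) = SpecialLinearGroup.toGL (X p) := by
  rw [toU, MonoidHom.comp_apply, FreeGroup.lift_apply_of]

theorem evalG_toU (F : MvPolynomial (ι × Fin r × Fin r) ℂ)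
    (X : ι → SpecialLinearGroup (Fin r) ℂ) : evalG (toU X) F = value F X := by
  rw [evalG_eqn, MvPolynomial.aeval_def, value]
  congr 1
  funext p
  rw [toU_of]
  rfl

theorem stable_iff (X : ι → SpecialLinearGroup (Fin r) ℂ) (W : Submodule ℂ (Fin r → ℂ)) :
    (∀ w, ∀ v ∈ W, (toU X w : Mat r ℂ) *ᵥ v ∈ W) ↔ IsInv X W := by
  constructor
  · intro h p
    have := h (FreeGroup.of p)
    rw [toU_of] at this
    exact this
  · intro h w
    obtain ⟨H, hH⟩ : ∃ H : Subgroup (Mat r ℂ)ˣ, ∀ M, M ∈ H ↔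
        ∀ v ∈ W, (M : Mat r ℂ) *ᵥ v ∈ W :=
      ⟨{ carrier := {M | ∀ v ∈ W, (M : Mat r ℂ) *ᵥ v ∈ W}
         mul_mem' := fun {a b} ha hb v hv => by
          rw [Units.val_mul, ← Matrix.mulVec_mulVec]
          exact ha _ (hb v hv)
         one_mem' := fun v hv => by rwa [Units.val_one, Matrix.one_mulVec]
         inv_mem' := fun {a} ha => Statement.inv_stable a W ha }, fun M => Iff.rfl⟩
    have h1 : (⊤ : Subgroup (FreeGroup ι)) ≤ H.comap (toU X) := by
      rw [← FreeGroup.closure_range_of, Subgroup.closure_le]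
      rintro _ ⟨k, rfl⟩
      rw [SetLike.mem_coe, Subgroup.mem_comap, hH, toU_of]
      exact h k
    exact (hH _).1 (h1 (Subgroup.mem_top w))

/-- Complete reducibility. -/
def IsSS (X : ι → SpecialLinearGroup (Fin r) ℂ) : Prop :=
  ∀ W, IsInv X W → ∃ W', IsInv X W' ∧ IsCompl W W'

theorem SS_toU (X : ι → SpecialLinearGroup (Fin r) ℂ) : SS (toU X) ↔ IsSS X := by
  unfold SS IsSS
  simp only [stable_iff]

theorem IsIntegralRep.exists_lift {L : IntermediateField ℚ ℂ}
    {X : ι → SpecialLinearGroup (Fin r) ℂ} (h : IsIntegralRep L X) :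
    ∃ Z : ι → SpecialLinearGroup (Fin r) (𝓞 L),
      ∀ p, X p = SpecialLinearGroup.map (phiO (algebraMap L ℂ)) (Z p) := by
  choose a ha using h
  have h1 : ∀ p, (X p).1 = (Matrix.of (a p)).map (phiO (algebraMap L ℂ)) := by
    intro p
    ext i j
    exact ha p i j
  have h2 : ∀ p, (Matrix.of (a p)).det = 1 := by
    intro p
    apply phiO_injective (algebraMap L ℂ)
    rw [map_one, RingHom.map_det]
    have := (X p).2
    rw [h1] at this
    exact this
  refine ⟨fun p => ⟨Matrix.of (a p), h2 p⟩, fun p => Subtype.ext ?_⟩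
  rw [h1]
  rfl

theorem isIntegralRep_map {L : IntermediateField ℚ ℂ}
    (Z : ι → SpecialLinearGroup (Fin r) (𝓞 L)) :
    IsIntegralRep L fun p => SpecialLinearGroup.map (phiO (algebraMap L ℂ)) (Z p) :=
  fun p i j => ⟨(Z p).1 i j, rfl⟩

theorem IsIntegralRep.isIntegralPoint {L : IntermediateField ℚ ℂ} {R : Set (FreeGroup ι)}
    {X : ι → SpecialLinearGroup (Fin r) ℂ} (h : IsIntegralRep L X) :
    IsIntegralPoint R L X := by
  obtain ⟨Z, hZ⟩ := h.exists_lift
  intro F _
  refine ⟨value F Z, ?_⟩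
  have h1 : (phiO (algebraMap L ℂ)).comp (algebraMap ℤ (𝓞 L)) = algebraMap ℤ ℂ :=
    RingHom.ext_int _ _
  rw [value, value, ← h1]
  change _ = phiO (algebraMap L ℂ) _
  rw [MvPolynomial.hom_eval₂]
  congr 1
  funext p
  rw [hZ]
  rfl

theorem IsDenseRep.isDense {L : IntermediateField ℚ ℂ} {R : Set (FreeGroup ι)}
    {T : Set (ι → SpecialLinearGroup (Fin r) ℂ)} (h : IsDenseRep L T) : IsDense R L T :=
  fun F _ hF X hX => h F (fun X' hX' hX'' => hF X' hX' hX''.isIntegralPoint) X hX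

/-- Words in integral matrices are integral. -/
theorem IsIntegralRep.lift {ι' : Type} {L : IntermediateField ℚ ℂ}
    {X : ι → SpecialLinearGroup (Fin r) ℂ} (h : IsIntegralRep L X) (a : ι' → FreeGroup ι) :
    IsIntegralRep L fun p => FreeGroup.lift X (a p) := by
  obtain ⟨Z, hZ⟩ := h.exists_lift
  have h1 : FreeGroup.lift X =
      (SpecialLinearGroup.map (phiO (algebraMap L ℂ))).comp (FreeGroup.lift Z) := by
    apply FreeGroup.ext_hom
    intro p
    rw [MonoidHom.comp_apply, FreeGroup.lift_apply_of, FreeGroup.lift_apply_of, hZ]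
  have h2 : (fun p => FreeGroup.lift X (a p)) =
      fun p => SpecialLinearGroup.map (phiO (algebraMap L ℂ)) (FreeGroup.lift Z (a p)) := by
    funext p
    rw [h1, MonoidHom.comp_apply]
  rw [h2]
  exact isIntegralRep_map _

/-- Semisimple representations with given relators and given classes of the generators in `ι`. -/
def TG {κ ι : Type} (Rel : Set (FreeGroup (κ ⊕ ι))) (C : ι → SpecialLinearGroup (Fin r) ℂ) :
    Set (κ ⊕ ι → SpecialLinearGroup (Fin r) ℂ) :=
  {X | (∀ w ∈ Rel, FreeGroup.lift X w = 1) ∧ (∀ j, IsConj (C j) (X (Sum.inr j))) ∧ IsSS X}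

theorem density_gen {κ ι : Type} [Finite κ] [Finite ι] (Rel : Set (FreeGroup (κ ⊕ ι)))
    (hchar : CharOK Rel) (C : ι → SpecialLinearGroup (Fin r) ℂ) (E : Subgroup ℂˣ)
    (Q : ι → ∀ r : ℕ, Mat r ℂ → Prop) (hQ : ∀ j, ClassOK E (Q j)) (hC : ∀ j, Q j r ((C j).1))
    (L : IntermediateField ℚ ℂ) (hL : FiniteDimensional ℚ L)
    (hc : CoefOK (phiO (algebraMap L ℂ)) E r)
    (hirr : ∀ r' ≤ r, 0 < r' → IrrDenseQ Q Rel (phiO (algebraMap L ℂ)) r') :
    IsDenseRep L (TG Rel C) := by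
  have : NumberField L := { to_charZero := inferInstance, to_finiteDimensional := hL }
  obtain ⟨φ, hφ⟩ : ∃ φ, φ = phiO (algebraMap L ℂ) := ⟨_, rfl⟩
  rw [← hφ] at hc hirr
  have hφi : Function.Injective φ := hc.inj
  obtain ⟨C', hC'⟩ : ∃ C' : ι → (Mat r ℂ)ˣ,
      C' = fun p => SpecialLinearGroup.toGL (C p) := ⟨_, rfl⟩
  intro F hF X hX
  rw [← evalG_toU]
  -- integral representations
  have key : ∀ y : FreeGroup (κ ⊕ ι) →* SpecialLinearGroup (Fin r) (𝓞 L),
      (∀ w ∈ Rel, y w = 1) →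
      (∀ p, IsConj (C' p) (slU φ (y (FreeGroup.of (Sum.inr p))))) →
      SS ((slU φ).comp y) → evalG ((slU φ).comp y) F = 0 := by
    intro y hy hyC hyS
    obtain ⟨Z, hZ⟩ : ∃ Z : κ ⊕ ι → SpecialLinearGroup (Fin r) (𝓞 L),
        ∀ p, Z p = y (FreeGroup.of p) := ⟨_, fun _ => rfl⟩
    obtain ⟨X', hX'⟩ : ∃ X' : κ ⊕ ι → SpecialLinearGroup (Fin r) ℂ,
        X' = fun p => SpecialLinearGroup.map (phiO (algebraMap L ℂ)) (Z p) := ⟨_, rfl⟩
    have h0 : FreeGroup.lift X' = (SpecialLinearGroup.map (phiO (algebraMap L ℂ))).comp y := by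
      apply FreeGroup.ext_hom
      intro p
      rw [FreeGroup.lift_apply_of, hX', MonoidHom.comp_apply, ← hZ]
    have h1 : (slU φ).comp y = toU X' := by
      rw [toU, h0, hφ]; rfl
    rw [h1, evalG_toU]
    refine hF _ ⟨fun w hw => ?_, fun j => Statement.isConj_toGL _ _ ?_, ?_⟩ ?_
    · rw [h0, MonoidHom.comp_apply, hy w hw, map_one]
    · have := hyC j
      rw [hC', ← MonoidHom.comp_apply, h1, toU_of] at this
      exact this
    · rw [← SS_toU, ← h1]; exact hyS
    · rw [hX']; exact isIntegralRep_map Z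
  rcases Nat.eq_zero_or_pos r with hr | hr
  · subst hr
    have h1 : toU X = (slU φ).comp 1 := by
      ext w i
      exact i.elim0
    rw [h1]
    refine key 1 (fun w _ => rfl) (fun p => ?_) ?_
    · have : C' p = slU φ ((1 : FreeGroup (κ ⊕ ι) →* SpecialLinearGroup (Fin 0) (𝓞 L))
          (FreeGroup.of (Sum.inr p))) := Units.ext (Subsingleton.elim _ _)
      rw [← this]
    · rw [← h1]; exact (SS_toU X).2 hX.2.2
  · have hEig : ∀ p : ι, Q p r (C' p : Mat r ℂ) := by
      intro p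
      rw [hC']
      exact hC p
    have hYG : toU X ∈ YG Rel C' := by
      refine ⟨fun w hw => ?_, fun p => ?_, (SS_toU X).2 hX.2.2⟩
      · rw [toU, MonoidHom.comp_apply, hX.1 w hw, map_one]
      · rw [hC', toU_of]
        exact Statement.toGL_isConj _ _ (hX.2.1 p)
    obtain ⟨ζ, hζ⟩ := hc.root r hr le_rfl
      (Units.mk0 (Complex.exp (2 * Real.pi * Complex.I / r)) (Complex.exp_ne_zero _)) (by
        have h1 : (Units.mk0 (Complex.exp (2 * Real.pi * Complex.I / r))
            (Complex.exp_ne_zero _)) ^ r = 1 := by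
          ext1
          rw [Units.val_pow_eq_pow_val, Units.val_mk0, Units.val_one,
            (Complex.isPrimitiveRoot_exp r hr.ne').pow_eq_one]
        rw [h1]
        exact one_mem _)
    rw [Units.val_mk0] at hζ
    have hζp : IsPrimitiveRoot (φ ζ) r := by
      rw [hζ]
      exact Complex.isPrimitiveRoot_exp r hr.ne'
    refine unscaleG φ hφi ζ (hφi ?_) hζp hr Rel hchar C' ?_ F key (toU X) ?_
      fun f' hf' => partIVQ φ E hQ hc.weak Rel hchar hirr C' hEig (toU X) hYG f' hf'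
    · rw [map_pow, map_one]
      exact hζp.pow_eq_one
    · intro p
      rw [hC']
      exact (C p).2
    · intro w
      rw [toU_coe]
      exact (FreeGroup.lift X w).2

/-! ### Change of generators -/

theorem exists_pullback {ι' : Type} (a : ι → FreeGroup ι')
    (F : MvPolynomial (ι × Fin r × Fin r) ℂ) :
    ∃ f : MvPolynomial (ι' × Fin r × Fin r) ℂ,
      ∀ X : ι' → SpecialLinearGroup (Fin r) ℂ,
        value f X = value F fun p => FreeGroup.lift X (a p) := by
  choose M hM using fun p : ι => Product.exists_word_matrix r (a p)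
  refine ⟨MvPolynomial.aeval (fun p => M p.1 p.2.1 p.2.2) F, fun X => ?_⟩
  rw [← evalG_toU]
  have h : (evalG (toU X)).comp
      (MvPolynomial.aeval (R := ℂ) (fun p : ι × Fin r × Fin r => M p.1 p.2.1 p.2.2)) =
      MvPolynomial.aeval (fun p : ι × Fin r × Fin r =>
        (FreeGroup.lift X (a p.1)).1 p.2.1 p.2.2) := by
    apply MvPolynomial.algHom_ext
    intro p
    rw [AlgHom.comp_apply, MvPolynomial.aeval_X, MvPolynomial.aeval_X, ← hM p.1 (FreeGroup.lift X)]
    rfl
  exact DFunLike.congr_fun h F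

/-- Invariant subspaces are stable under words. -/
theorem IsInv.lift {ι' : Type} {X : ι → SpecialLinearGroup (Fin r) ℂ}
    {W : Submodule ℂ (Fin r → ℂ)} (h : IsInv X W) (a : ι' → FreeGroup ι) :
    IsInv (fun p => FreeGroup.lift X (a p)) W :=
  fun p v hv => (stable_iff X W).2 h (a p) v hv

/-- Tietze transformations: the generators of the second presentation are a part of the generators
of the first one. -/
theorem tietze {ι' : Type} {L : IntermediateField ℚ ℂ}
    (T : Set (ι → SpecialLinearGroup (Fin r) ℂ)) (T' : Set (ι' → SpecialLinearGroup (Fin r) ℂ))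
    (a : ι → FreeGroup ι') (β : ι' → ι)
    (h1 : ∀ X ∈ T, X ∘ β ∈ T' ∧ ∀ p, FreeGroup.lift (X ∘ β) (a p) = X p)
    (h2 : ∀ X ∈ T', (fun p => FreeGroup.lift X (a p)) ∈ T)
    (h : IsDenseRep L T') : IsDenseRep L T := by
  intro F hF X hX
  obtain ⟨f, hf⟩ := exists_pullback a F
  obtain ⟨h3, h4⟩ := h1 X hX
  have h5 : X = fun p => FreeGroup.lift (X ∘ β) (a p) := funext fun p => (h4 p).symm
  rw [h5, ← hf]
  refine h f (fun Y hY hY' => ?_) _ h3
  rw [hf]
  exact hF _ (h2 Y hY) (hY'.lift a)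

end Vale.Agent.P002R.Orb
end

section

/-!
# Products of curves with free punctures and prescribed classes
-/

namespace Vale.Agent.P002R.Orb

open Matrix NumberField

section fam

variable {k r : ℕ} {g n : Fin k → ℕ}

/-- The generators. -/
abbrev GF (g : Fin k → ℕ) (P : ∀ i, Fin (n i) → Prop) (o : ∀ i, Option (Fin (n i))) :=
  (Σ i, KO (g i) (P i) (o i)) ⊕ (Σ i, IO (P i))

/-- The relators. -/
def RelF (g : Fin k → ℕ) (P : ∀ i, Fin (n i) → Prop) (o : ∀ i, Option (Fin (n i))) :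
    Set (FreeGroup (GF g P o)) := famRel fun i => RelO (g i) (P i) (o i)

variable (g) (P : ∀ i, Fin (n i) → Prop) (o : ∀ i, Option (Fin (n i)))

/-- Inclusion of a factor. -/
def incF (i : Fin k) : FreeGroup (KO (g i) (P i) (o i) ⊕ IO (P i)) →* FreeGroup (GF g P o) :=
  FreeGroup.map (incS (κ := fun i => KO (g i) (P i) (o i)) (ι := fun i => IO (P i)) i)

/-- The generators as words. -/
noncomputable def aF : Gens g n → FreeGroup (GF g P o)
  | Sum.inl ⟨i, p⟩ => incF g P o i (wO (g i) (P i) (o i) (Sum.inl p))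
  | Sum.inr ⟨i, j⟩ => incF g P o i (wO (g i) (P i) (o i) (Sum.inr j))

/-- The generators are a part of the given generators. -/
def bF : GF g P o → Gens g n
  | Sum.inl ⟨i, Sum.inl p⟩ => Sum.inl ⟨i, p⟩
  | Sum.inl ⟨i, Sum.inr j⟩ => Sum.inr ⟨i, j.1⟩
  | Sum.inr ⟨i, j⟩ => Sum.inr ⟨i, j.1⟩

variable {g P o}

theorem aF_incG (i : Fin k) (p : GenU (g i) (n i)) :
    aF g P o (Product.incG i p) = incF g P o i (wO (g i) (P i) (o i) p) := by
  rcases p with p | p <;> rfl

theorem bF_incS (i : Fin k) (p : KO (g i) (P i) (o i) ⊕ IO (P i)) :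
    bF g P o (incS (κ := fun i => KO (g i) (P i) (o i)) (ι := fun i => IO (P i)) i p) =
      Product.incG i (bO (g i) (P i) (o i) p) := by
  rcases p with (p | p) | p <;> rfl

theorem exists_incS (q : GF g P o) : ∃ (i : Fin k) (p : KO (g i) (P i) (o i) ⊕ IO (P i)),
    q = incS (κ := fun i => KO (g i) (P i) (o i)) (ι := fun i => IO (P i)) i p := by
  rcases q with ⟨i, p⟩ | ⟨i, p⟩
  · exact ⟨i, Sum.inl p, rfl⟩
  · exact ⟨i, Sum.inr p, rfl⟩

theorem aF_bF (ho : ∀ i j, o i = some j → ¬ P i j) (q : GF g P o) :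
    aF g P o (bF g P o q) = FreeGroup.of q := by
  obtain ⟨i, p, rfl⟩ := exists_incS q
  rw [bF_incS, aF_incG, wO_bO (ho i), incF, FreeGroup.map.of]

/-- The semisimple representations with prescribed classes at the marked points in `P`. -/
def TP (g : Fin k → ℕ) (P : ∀ i, Fin (n i) → Prop)
    (C : ∀ i, Fin (n i) → SpecialLinearGroup (Fin r) ℂ) :
    Set (Gens g n → SpecialLinearGroup (Fin r) ℂ) :=
  {X | (∀ i, SRel fun p => X (Product.incG i p)) ∧
    (∀ p q : Gens g n, Product.factor p ≠ Product.factor q → X p * X q = X q * X p) ∧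
    (∀ i j, P i j → IsConj (C i j) (X (Sum.inr ⟨i, j⟩))) ∧ IsSS X}

theorem tp_to_tg (C : ∀ i, Fin (n i) → SpecialLinearGroup (Fin r) ℂ)
    (X : Gens g n → SpecialLinearGroup (Fin r) ℂ) (hX : X ∈ TP g P C) :
    X ∘ bF g P o ∈ TG (RelF g P o) (fun p => C p.1 p.2.1) ∧
      ∀ p, FreeGroup.lift (X ∘ bF g P o) (aF g P o p) = X p := by
  obtain ⟨h1, h2, h3, h4⟩ := hX
  have key : ∀ i, (∀ w ∈ RelO (g i) (P i) (o i),
      FreeGroup.lift (X ∘ bF g P o) (incF g P o i w) = 1) ∧
      ∀ p, FreeGroup.lift (X ∘ bF g P o) (incF g P o i (wO (g i) (P i) (o i) p)) =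
        X (Product.incG i p) := by
    intro i
    refine word_comp (fun p => X (Product.incG i p)) (h1 i)
      ((FreeGroup.lift (X ∘ bF g P o)).comp (incF g P o i)) fun p => ?_
    rw [MonoidHom.comp_apply, incF, FreeGroup.map.of, FreeGroup.lift_apply_of, Function.comp,
      bF_incS]
  have key2 : ∀ p, FreeGroup.lift (X ∘ bF g P o) (aF g P o p) = X p := by
    intro p
    obtain ⟨q, hq⟩ := Product.exists_incG p
    rw [hq, aF_incG]
    exact (key _).2 q
  refine ⟨⟨?_, fun j => h3 j.1 j.2.1 j.2.2, ?_⟩, key2⟩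
  · rintro w (⟨i, v, hv, rfl⟩ | ⟨i, j, p, q, hij, rfl⟩)
    · exact (key i).1 v hv
    · rw [map_mul, map_mul, map_mul, map_inv, map_inv, mul_inv_eq_one, mul_inv_eq_iff_eq_mul,
        FreeGroup.lift_apply_of, FreeGroup.lift_apply_of, Function.comp, Function.comp,
        bF_incS, bF_incS]
      exact h2 _ _ (by rw [Product.factor_incG, Product.factor_incG]; exact hij)
  · intro W hW
    have hW' : IsInv X W := by
      have := hW.lift (aF g P o)
      rwa [funext key2] at this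
    obtain ⟨W', h5, h6⟩ := h4 W hW'
    exact ⟨W', fun q => h5 _, h6⟩

/-- Words in different factors commute. -/
theorem commute_words {H : Type*} [Group H] (x : FreeGroup (GF g P o) →* H)
    (hx : ∀ w ∈ RelF g P o, x w = 1) {i j : Fin k} (hij : i ≠ j)
    (w : FreeGroup (KO (g i) (P i) (o i) ⊕ IO (P i)))
    (w' : FreeGroup (KO (g j) (P j) (o j) ⊕ IO (P j))) :
    Commute (x (incF g P o i w)) (x (incF g P o j w')) := by
  have h0 : ∀ p q, Commute (x (incF g P o i (FreeGroup.of p)))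
      (x (incF g P o j (FreeGroup.of q))) := by
    intro p q
    have := hx _ (Or.inr ⟨i, j, p, q, hij, rfl⟩)
    rw [map_mul, map_mul, map_mul, map_inv, map_inv, mul_inv_eq_one, mul_inv_eq_iff_eq_mul] at this
    rw [incF, incF, FreeGroup.map.of, FreeGroup.map.of]
    exact this
  have step : ∀ {K : Type} (z : FreeGroup K →* H) (y : H), (∀ p, Commute y (z (FreeGroup.of p))) →
      ∀ w, Commute y (z w) := by
    intro K z y hy w
    have : (⊤ : Subgroup (FreeGroup K)) ≤ (Subgroup.centralizer {y}).comap z := by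
      rw [← FreeGroup.closure_range_of, Subgroup.closure_le]
      rintro _ ⟨p, rfl⟩
      rw [SetLike.mem_coe, Subgroup.mem_comap, Subgroup.mem_centralizer_singleton_iff]
      exact (hy p).symm
    have h := this (Subgroup.mem_top w)
    rw [Subgroup.mem_comap, Subgroup.mem_centralizer_singleton_iff] at h
    exact h.symm
  have h1 : ∀ q, Commute (x (incF g P o i w)) (x (incF g P o j (FreeGroup.of q))) := fun q =>
    (step (x.comp (incF g P o i)) _ (fun p => (h0 p q).symm) w).symm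
  exact step (x.comp (incF g P o j)) _ h1 w'

theorem tg_to_tp (ho : ∀ i j, o i = some j → ¬ P i j)
    (C : ∀ i, Fin (n i) → SpecialLinearGroup (Fin r) ℂ)
    (X : GF g P o → SpecialLinearGroup (Fin r) ℂ)
    (hX : X ∈ TG (RelF g P o) (fun p => C p.1 p.2.1)) :
    (fun p => FreeGroup.lift X (aF g P o p)) ∈ TP g P C := by
  obtain ⟨h1, h2, h3⟩ := hX
  have hb : ∀ q, FreeGroup.lift X (aF g P o (bF g P o q)) = X q := by
    intro q
    rw [aF_bF ho, FreeGroup.lift_apply_of]
  refine ⟨fun i => ?_, fun p q hpq => ?_, fun i j h => ?_, fun W hW => ?_⟩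
  · simp only [aF_incG]
    exact srel_word ((FreeGroup.lift X).comp (incF g P o i)) fun w hw =>
      h1 _ (Or.inl ⟨i, w, hw, rfl⟩)
  · obtain ⟨p', hp'⟩ := Product.exists_incG p
    obtain ⟨q', hq'⟩ := Product.exists_incG q
    dsimp only
    rw [hp', hq', aF_incG, aF_incG]
    exact commute_words (FreeGroup.lift X) h1 hpq _ _
  · have h4 := hb (Sum.inr ⟨i, ⟨j, h⟩⟩)
    change FreeGroup.lift X (aF g P o (Sum.inr ⟨i, j⟩)) = _ at h4
    simp only
    rw [h4]
    exact h2 ⟨i, ⟨j, h⟩⟩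
  · have hW' : IsInv X W := by
      intro q v hv
      have := hW (bF g P o q) v hv
      simp only at this
      rwa [hb] at this
    obtain ⟨W', h5, h6⟩ := h3 W hW'
    exact ⟨W', h5.lift _, h6⟩

/-- Reduction to the presentation with one generator less for every curve with a free
puncture. -/
theorem tp_dense {L : IntermediateField ℚ ℂ} (ho : ∀ i j, o i = some j → ¬ P i j)
    (C : ∀ i, Fin (n i) → SpecialLinearGroup (Fin r) ℂ)
    (h : IsDenseRep L (TG (RelF g P o) (fun p => C p.1 p.2.1))) : IsDenseRep L (TP g P C) :=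
  tietze _ _ (aF g P o) (bF g P o) (tp_to_tg C) (tg_to_tp ho C) h

end fam

end Vale.Agent.P002R.Orb
end
namespace AFast46104cx4853a
@[reducible] def a0 {x1 : ℕ} {x2 : Fin x1 → ℕ} {x3 : Fin x1 → ℕ} {x4 : (i : Fin x1) → Fin (x2 i) → Prop} {x5 : (i : Fin x1) → Option (Fin (x2 i))} : MulOne (FreeGroup (Vale.Agent.P002R.Orb.GF x3 x4 x5)) := inferInstance
@[reducible] def a1 {x1 : ℕ} {x2 : Fin x1 → ℕ} {x3 : Fin x1 → ℕ} {x4 : (i : Fin x1) → Fin (x2 i) → Prop} {x5 : (i : Fin x1) → Option (Fin (x2 i))} : MulOneClass (FreeGroup (Vale.Agent.P002R.Orb.GF x3 x4 x5)) := inferInstance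
@[reducible] def a2 {x1 : ℕ} {x2 : Fin x1 → ℕ} {x3 : Fin x1 → ℕ} {x4 : (i : Fin x1) → Fin (x2 i) → Prop} {x5 : (i : Fin x1) → Option (Fin (x2 i))} : Monoid (FreeGroup (Vale.Agent.P002R.Orb.GF x3 x4 x5)) := inferInstance
end AFast46104cx4853a
attribute [local instance] AFast46104cx4853a.a0 AFast46104cx4853a.a1 AFast46104cx4853a.a2
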