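import Mathlib
import Vale.Agent.P002.Bd3.B10
import Vale.Agent.P002.Bd3.B4
import Vale.Agent.P002.Bd3.K_P002B_Defs
import Vale.Agent.P002.Bd3.B9
import Vale.Agent.P002.Bd3.B13
import Vale.Agent.P002.Bd3.B11
import Vale.Agent.P002.Bd3.B1

set_option linter.all false

@[reducible] def Vale.Agent.P002Fast.coeU15 {M : Type*} [Monoid M] (u : Mˣ) : CoeT Mˣ u M := ⟨Units.val u⟩
attribute [local instance] Vale.Agent.P002Fast.coeU15

section

/-!
# The inverse eigenvalue problem for `N * diagonal z`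

If all principal minors of the complex matrix `N` are nonzero, then `N * diagonal z` takes every
characteristic polynomial (`inv_eig`).
-/

set_option autoImplicit false

namespace Vale.Agent.P002G.InvEig

open Matrix

section Height

open MvPolynomial

variable {m : ℕ}

/-- set the first `j` variables to zero -/
noncomputable def kill (m j : ℕ) : MvPolynomial (Fin m) ℂ →ₐ[ℂ] MvPolynomial (Fin m) ℂ :=
  aeval fun i : Fin m => if i.val < j then 0 else X i

theorem kill_X (j : ℕ) (i : Fin m) :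
    kill m j (X i) = if i.val < j then 0 else X i := by
  simp only [kill, aeval_eq_bind₁, bind₁_X_right]

theorem kill_comp (j l : ℕ) (hjl : j ≤ l) (f : MvPolynomial (Fin m) ℂ) :
    kill m l (kill m j f) = kill m l f := by
  have h : (kill m l).comp (kill m j) = kill m l := by
    ext1 i
    rw [AlgHom.comp_apply, kill_X, kill_X]
    split_ifs with h1 h2
    · simp
    · omega
    · rw [kill_X]; simp [*]
    · rw [kill_X]; simp [*]
  exact DFunLike.congr_fun h f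

instance (j : ℕ) : (RingHom.ker (kill m j)).IsPrime := RingHom.ker_isPrime _

theorem height_kill (j : ℕ) (hj : j ≤ m) : (j : ℕ∞) ≤ (RingHom.ker (kill m j)).height := by
  induction j with
  | zero => simp only [CharP.cast_eq_zero, zero_le]
  | succ j ih =>
    have hlt : RingHom.ker (kill m j) < RingHom.ker (kill m (j + 1)) := by
      refine lt_of_le_of_ne ?_ ?_
      · intro f hf
        rw [RingHom.mem_ker] at hf ⊢
        rw [← kill_comp j (j + 1) (Nat.le_succ j), hf, map_zero]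
      · intro h
        have h1 : (X (⟨j, hj⟩ : Fin m) : MvPolynomial (Fin m) ℂ) ∈
            RingHom.ker (kill m (j + 1)) := by
          rw [RingHom.mem_ker, kill_X]; simp only [lt_add_iff_pos_right, Order.lt_one_iff, ↓reduceIte]
        rw [← h, RingHom.mem_ker, kill_X] at h1
        simp at h1
    have h1 := Ideal.height_add_one_le_of_lt_of_isPrime hlt
    refine le_trans ?_ h1
    push_cast
    gcongr
    exact ih (by omega)

theorem height_vanishing :
    (m : ℕ∞) ≤ (vanishingIdeal ℂ {(0 : Fin m → ℂ)} : Ideal (MvPolynomial (Fin m) ℂ)).height := by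
  refine (height_kill m le_rfl).trans (Ideal.height_mono fun f hf => ?_)
  rw [RingHom.mem_ker] at hf
  rw [mem_vanishingIdeal_singleton_iff]
  have h : (aeval (0 : Fin m → ℂ)).comp (kill m m) = aeval (0 : Fin m → ℂ) := by
    ext1 i
    rw [AlgHom.comp_apply, kill_X]; simp only [Fin.is_lt, ↓reduceIte, aeval_zero, Algebra.algebraMap_self, map_zero, RingHom.id_apply, aeval_X, Pi.zero_apply]
  rw [← h, AlgHom.comp_apply, hf, map_zero]

/-- Fewer than `m` polynomials in `m` variables which vanish at `0` have another common zero. -/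
theorem exists_zero {k : ℕ} (hk : k < m) (F : Fin k → MvPolynomial (Fin m) ℂ)
    (hF : ∀ j, aeval (0 : Fin m → ℂ) (F j) = 0) :
    ∃ x : Fin m → ℂ, x ≠ 0 ∧ ∀ j, aeval x (F j) = 0 := by
  by_contra hcon
  push Not at hcon
  set I : Ideal (MvPolynomial (Fin m) ℂ) := Ideal.span (Set.range F) with hI
  have hz : zeroLocus ℂ I = {(0 : Fin m → ℂ)} := by
    rw [hI, zeroLocus_span]
    ext x
    simp only [Set.mem_range, forall_exists_index, forall_apply_eq_imp_iff, Set.mem_ofPred_eq,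
      Set.mem_singleton_iff]
    constructor
    · intro h
      by_contra hx
      obtain ⟨j, hj⟩ := hcon x hx
      exact hj (h j)
    · rintro rfl j
      exact hF j
  have hrad : (vanishingIdeal ℂ {(0 : Fin m → ℂ)} : Ideal (MvPolynomial (Fin m) ℂ)) = I.radical := by
    rw [← hz, vanishingIdeal_zeroLocus_eq_radical]
  have hmin : (vanishingIdeal ℂ {(0 : Fin m → ℂ)} : Ideal (MvPolynomial (Fin m) ℂ)) ∈
      I.minimalPrimes := by
    refine ⟨⟨inferInstance, ?_⟩, ?_⟩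
    · rw [hrad]; exact Ideal.le_radical
    · rintro J ⟨hJ, hIJ⟩ -
      change (vanishingIdeal ℂ {(0 : Fin m → ℂ)} : Ideal (MvPolynomial (Fin m) ℂ)) ≤ J
      rw [hrad]
      exact hJ.radical_le_iff.2 hIJ
  have h1 := Ideal.height_le_card_of_mem_minimalPrimes_span (Set.finite_range F) hmin
  have h2 := (height_vanishing (m := m)).trans h1
  have h3 : (Set.range F).ncard ≤ k := by
    rw [← Set.image_univ]
    refine (Set.ncard_image_le Set.finite_univ).trans ?_
    simp only [Set.ncard_univ, Nat.card_eq_fintype_card, Fintype.card_fin, Std.le_refl]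
  have : m ≤ k := le_trans (by exact_mod_cast h2) h3
  omega

end Height


section Charpoly

open Polynomial

variable {r : ℕ}

/-- a matrix whose columns outside `S` vanish: powers and principal blocks -/
theorem pow_block {M : Matrix (Fin r) (Fin r) ℂ} {S : Finset (Fin r)}
    (hM : ∀ i j, j ∉ S → M i j = 0) (k : ℕ) :
    (∀ i ∈ S, ∀ j, j ∉ S → (M ^ k) i j = 0) ∧
    ((M.submatrix Subtype.val Subtype.val : Matrix S S ℂ)) ^ k =
      ((M ^ k).submatrix Subtype.val Subtype.val : Matrix S S ℂ) := by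
  induction k with
  | zero =>
    refine ⟨fun i hi j hj => ?_, ?_⟩
    · rw [pow_zero, Matrix.one_apply_ne]; rintro rfl; exact hj hi
    · rw [pow_zero, pow_zero, Matrix.submatrix_one _ Subtype.val_injective]
  | succ k ih =>
    refine ⟨fun i hi j hj => ?_, ?_⟩
    · rw [pow_succ, Matrix.mul_apply]
      exact Finset.sum_eq_zero fun l _ => by rw [hM l j hj, mul_zero]
    · ext i j
      rw [pow_succ, ih.2, Matrix.mul_apply, Matrix.submatrix_apply, pow_succ, Matrix.mul_apply]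
      simp only [submatrix_apply]
      rw [← Finset.sum_subset (Finset.subset_univ S)]
      · exact (Finset.sum_coe_sort S fun l => (M ^ k) i l * M l j)
      · intro l _ hl
        rw [ih.1 i i.2 l hl, zero_mul]

theorem charpoly_ne {N : Matrix (Fin r) (Fin r) ℂ}
    (hN : ∀ S : Finset (Fin r), (N.submatrix (Subtype.val : S → Fin r) Subtype.val).det ≠ 0)
    {z : Fin r → ℂ} (hz : z ≠ 0) : (N * diagonal z).charpoly ≠ X ^ r := by
  intro h
  set S : Finset (Fin r) := Finset.univ.filter fun i => z i ≠ 0 with hS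
  have hM : ∀ i j, j ∉ S → (N * diagonal z) i j = 0 := by
    intro i j hj
    rw [Matrix.mul_diagonal]
    have : z j = 0 := by simpa only [hS, ne_eq, Finset.mem_filter, Finset.mem_univ, true_and, Decidable.not_not] using hj
    rw [this, mul_zero]
  have hpow := (pow_block hM r).2
  have h0 : (N * diagonal z) ^ r = 0 := by
    have := Matrix.aeval_self_charpoly (N * diagonal z)
    rwa [h, map_pow, aeval_X] at this
  rw [h0] at hpow
  have hdet := congrArg Matrix.det hpow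
  rw [Matrix.det_pow] at hdet
  obtain ⟨i, hi⟩ : ∃ i, z i ≠ 0 := by
    by_contra hcon
    push Not at hcon
    exact hz (funext hcon)
  have hne : Nonempty S := ⟨⟨i, by simp only [hS, ne_eq, Finset.mem_filter, Finset.mem_univ, hi, not_false_eq_true, and_self]⟩⟩
  have h1 : ((0 : Matrix (Fin r) (Fin r) ℂ).submatrix Subtype.val Subtype.val :
      Matrix S S ℂ).det = 0 := by
    have : ((0 : Matrix (Fin r) (Fin r) ℂ).submatrix Subtype.val Subtype.val :
        Matrix S S ℂ) = 0 := by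
      ext; simp
    rw [this, Matrix.det_zero]
  rw [h1] at hdet
  have h2 : ((N * diagonal z).submatrix (Subtype.val : S → Fin r) Subtype.val) =
      N.submatrix (Subtype.val : S → Fin r) Subtype.val *
        diagonal (fun i : S => z i) := by
    ext i j
    simp [Matrix.mul_diagonal]
  have h3 := eq_zero_of_pow_eq_zero hdet
  rw [h2, Matrix.det_mul, Matrix.det_diagonal] at h3
  rcases mul_eq_zero.1 h3 with h4 | h4
  · exact hN S h4
  · obtain ⟨j, -, hj⟩ := Finset.prod_eq_zero_iff.1 h4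
    exact (Finset.mem_filter.1 (hS ▸ j.2 : (j : Fin r) ∈ Finset.univ.filter fun i => z i ≠ 0)).2 hj

/-- scaling a matrix scales the coefficients of its characteristic polynomial -/
theorem coeff_charpoly_smul (M : Matrix (Fin r) (Fin r) ℂ) (c : ℂ) (k : ℕ) :
    (c • M).charpoly.coeff k * c ^ k = c ^ r * M.charpoly.coeff k := by
  have h : ((c • M).charpoly).comp (Polynomial.C c * X) = Polynomial.C (c ^ r) * M.charpoly := by
    rw [Matrix.charpoly, Matrix.charpoly, ← Polynomial.coe_compRingHom_apply,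
      RingHom.map_det]
    have : (compRingHom (Polynomial.C c * X)).mapMatrix (c • M).charmatrix =
        Polynomial.C c • M.charmatrix := by
      ext1 i j
      simp only [RingHom.mapMatrix_apply, Matrix.map_apply, Matrix.charmatrix_apply,
        Matrix.smul_apply, smul_eq_mul, map_sub, map_mul, coe_compRingHom_apply, C_comp]
      by_cases hij : i = j
      · subst hij; simp; ring
      · simp [Matrix.diagonal_apply_ne _ hij]
    rw [this, Matrix.det_smul, Fintype.card_fin, Polynomial.C_pow]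
  have h2 := congrArg (fun p => p.coeff k) h
  simp only [coeff_C_mul] at h2
  rw [comp_C_mul_X_coeff] at h2
  exact h2

/-- The inverse eigenvalue problem for `N * diagonal z`. -/
theorem inv_eig (N : Matrix (Fin r) (Fin r) ℂ)
    (hN : ∀ S : Finset (Fin r), (N.submatrix (Subtype.val : S → Fin r) Subtype.val).det ≠ 0)
    (χ : ℂ[X]) (hχ : χ.Monic) (hdeg : χ.natDegree = r) (h0 : χ.coeff 0 ≠ 0) :
    ∃ z : Fin r → ℂ, (∀ i, z i ≠ 0) ∧ (N * diagonal z).charpoly = χ := by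
  let G : Matrix (Fin r) (Fin r) (MvPolynomial (Fin (r + 1)) ℂ) :=
    N.map MvPolynomial.C * diagonal (fun i => MvPolynomial.X i.castSucc)
  let F : Fin r → MvPolynomial (Fin (r + 1)) ℂ := fun k =>
    G.charpoly.coeff k - MvPolynomial.C (χ.coeff k) * MvPolynomial.X (Fin.last r) ^ (r - k.val)
  have hG : ∀ x : Fin (r + 1) → ℂ, ∀ k, MvPolynomial.aeval x (G.charpoly.coeff k) =
      (N * diagonal (fun i : Fin r => x i.castSucc)).charpoly.coeff k := by
    intro x k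
    have h1 : G.map (MvPolynomial.aeval x) = N * diagonal (fun i : Fin r => x i.castSucc) := by
      ext i j
      simp [G, Matrix.mul_diagonal]
    rw [← h1]
    have h2 := Matrix.charpoly_map G (MvPolynomial.aeval x : _ →ₐ[ℂ] ℂ).toRingHom
    change _ = ((G.map (MvPolynomial.aeval x : _ →ₐ[ℂ] ℂ).toRingHom).charpoly).coeff k
    rw [h2, coeff_map]
    rfl
  have hF : ∀ (x : Fin (r + 1) → ℂ) k, MvPolynomial.aeval x (F k) =
      (N * diagonal (fun i : Fin r => x i.castSucc)).charpoly.coeff k -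
        χ.coeff k * x (Fin.last r) ^ (r - k.val) := by
    intro x k
    simp only [F, map_sub, hG, map_mul, map_pow, MvPolynomial.aeval_X, MvPolynomial.aeval_C]
    rfl
  obtain ⟨x, hx, hxF⟩ := exists_zero (Nat.lt_succ_self r) F (by
    intro j
    rw [hF]
    have h1 : (fun i : Fin r => (0 : Fin (r + 1) → ℂ) i.castSucc) = 0 := rfl
    have h2 : (N * diagonal (0 : Fin r → ℂ)).charpoly = X ^ r := by
      rw [show diagonal (0 : Fin r → ℂ) = 0 from Matrix.diagonal_zero, mul_zero,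
        Matrix.charpoly_zero, Fintype.card_fin]
    rw [h1, h2, coeff_X_pow, if_neg (by omega), Pi.zero_apply, zero_pow (by omega)]
    simp)
  have hcoef : ∀ k : Fin r, (N * diagonal (fun i : Fin r => x i.castSucc)).charpoly.coeff k =
      χ.coeff k * x (Fin.last r) ^ (r - k.val) := by
    intro k
    have := hxF k
    rw [hF] at this
    exact sub_eq_zero.1 this
  have hdegM : ∀ M : Matrix (Fin r) (Fin r) ℂ, M.charpoly.natDegree = r := by
    intro M
    rw [Matrix.charpoly_natDegree_eq_dim, Fintype.card_fin]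
  have hs : x (Fin.last r) ≠ 0 := by
    intro hs
    have hz : (fun i : Fin r => x i.castSucc) ≠ 0 := by
      intro hz
      apply hx
      funext i
      refine Fin.lastCases ?_ (fun j => ?_) i
      · exact hs
      · exact congrFun hz j
    refine charpoly_ne hN hz ?_
    ext k
    rw [coeff_X_pow]
    rcases lt_trichotomy k r with hk | hk | hk
    · rw [if_neg (by omega), hcoef ⟨k, hk⟩, hs, zero_pow (by simp only [ne_eq]; omega), mul_zero]
    · rw [if_pos hk, hk]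
      have := (Matrix.charpoly_monic (N * diagonal (fun i : Fin r => x i.castSucc))).coeff_natDegree
      rwa [hdegM] at this
    · rw [if_neg (by omega), coeff_eq_zero_of_natDegree_lt (by rw [hdegM]; exact hk)]
  set c : ℂ := (x (Fin.last r))⁻¹ with hc
  have hc0 : c ≠ 0 := inv_ne_zero hs
  have hsm : N * diagonal (fun i : Fin r => c * x i.castSucc) =
      c • (N * diagonal (fun i : Fin r => x i.castSucc)) := by
    ext i j
    simp only [Matrix.mul_diagonal, Matrix.smul_apply, smul_eq_mul]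
    ring
  have hchar : (N * diagonal (fun i : Fin r => c * x i.castSucc)).charpoly = χ := by
    ext k
    rcases lt_trichotomy k r with hk | hk | hk
    · have h1 := coeff_charpoly_smul (N * diagonal (fun i : Fin r => x i.castSucc)) c k
      rw [← hsm, hcoef ⟨k, hk⟩] at h1
      have h2 : c ^ r * (χ.coeff k * x (Fin.last r) ^ (r - k)) = χ.coeff k * c ^ k := by
        have h3 : c ^ r = c ^ k * c ^ (r - k) := by
          rw [← pow_add]; congr 1; omega
        have h4 : c ^ (r - k) * x (Fin.last r) ^ (r - k) = 1 := by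
          rw [← mul_pow, hc, inv_mul_cancel₀ hs, one_pow]
        rw [h3]
        linear_combination (χ.coeff k * c ^ k) * h4
      rw [h2] at h1
      exact mul_right_cancel₀ (pow_ne_zero _ hc0) h1
    · subst hk
      have h1 := (Matrix.charpoly_monic
        (N * diagonal (fun i : Fin k => c * x i.castSucc))).coeff_natDegree
      rw [hdegM] at h1
      have h2 := hχ.coeff_natDegree
      rw [hdeg] at h2
      rw [h1, h2]
    · rw [coeff_eq_zero_of_natDegree_lt (by rw [hdegM]; exact hk),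
        coeff_eq_zero_of_natDegree_lt (by rw [hdeg]; exact hk)]
  refine ⟨fun i => c * x i.castSucc, ?_, hchar⟩
  have hdet : (N * diagonal (fun i : Fin r => c * x i.castSucc)).det ≠ 0 := by
    rw [Matrix.det_eq_sign_charpoly_coeff, hchar]
    exact mul_ne_zero (pow_ne_zero _ (by norm_num)) h0
  rw [Matrix.det_mul, Matrix.det_diagonal] at hdet
  intro i
  exact Finset.prod_ne_zero_iff.1 (right_ne_zero_of_mul hdet) i (Finset.mem_univ i)

end Charpoly

end Vale.Agent.P002G.InvEig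
end

section

/-!
# P002: generic position for dual tuples
-/

namespace Vale.Agent.P002R

open Matrix

/-- The first columns. -/
def dB {n e : ℕ} (Ξ : Matrix (Fin n) (Fin (n + e)) ℂ) : Mat n ℂ :=
  Matrix.of fun i j => Ξ i (Fin.castAdd e j)

/-- Generic position of a dual tuple. -/
structure DGood {n e : ℕ} (Ξ : Matrix (Fin n) (Fin (n + e)) ℂ)
    (Υ : Matrix (Fin (n + e)) (Fin n) ℂ) : Prop where
  basis : (dB Ξ).det ≠ 0
  cell : ∀ l : Fin e, ∃ X : Mat n ℂ, (∀ i, X i i ≠ 0) ∧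
    dB Ξ * zZ X = ((List.ofFn (dR Ξ Υ)).take (n + l + 1)).prod * dB Ξ ∧
    ∀ i, (lL X *ᵥ ((dB Ξ)⁻¹ *ᵥ fun a => Ξ a (Fin.natAdd n l))) i ≠ 0

/-- The claim on generic position: near every irreducible dual tuple there is one in generic
position, with the same determinants of the reflections and with the product in the same class. -/
def DNear (n e : ℕ) : Prop :=
  ∀ (Ξ : Matrix (Fin n) (Fin (n + e)) ℂ) (Υ : Matrix (Fin (n + e)) (Fin n) ℂ),
    (∀ i, (fun a => Ξ a i) ≠ 0) → (∀ i, Υ i ≠ 0) →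
    (∀ i, 1 + Υ i ⬝ᵥ (fun a => Ξ a i) ≠ 0) →
    (∀ H : Submodule ℂ (Fin n → ℂ), (∀ i, ∀ x ∈ H, dR Ξ Υ i *ᵥ x ∈ H) → H = ⊥ ∨ H = ⊤) →
    ∀ N ∈ nhds (Ξ, Υ), ∃ z ∈ N, DGood z.1 z.2 ∧
      (∀ i, z.2 i ⬝ᵥ (fun a => z.1 a i) = Υ i ⬝ᵥ (fun a => Ξ a i)) ∧
      P002G.Cj (List.ofFn (dR Ξ Υ)).prod (List.ofFn (dR z.1 z.2)).prod

end Vale.Agent.P002R
end

section

/-!
# P002, genus 0, arbitrary classes: statements of the parts
-/

namespace Vale.Agent.P002B

open Matrix Vale.Agent.P002R Vale.Agent.P002L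

/-- Index shift for the two kinds of sections. -/
def sh : Bool → ℕ
  | false => 0
  | true => 1

/-- T1. Paths of orders exist; the initial segments of their members are the standard ones. -/
def PathStmt : Prop :=
  ∀ (N : ℕ) (κ : Fin N → ℕ), ∃ ks : List (Fin N → ℕ), KP κ (bk N) ks ∧
    (∀ k ∈ ks, ∀ n : ℕ, ∃ l s s' : ℕ, s' ≤ s ∧ ∀ c, k c < n ↔ Seg κ l s s' c) ∧
    ∀ l s s' : ℕ, s' ≤ s → ∃ k ∈ ks, ∃ n : ℕ, ∀ c, k c < n ↔ Seg κ l s s' c

/-- T4. The lifting theorem: all choices of lifts of the variables are allowed. -/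
def LiftStmt : Prop :=
  ∀ {R : Type} [CommRing R] (φ : R →+* ℂ) {r N : ℕ} (nm : Fin r → Fin N) (m : ℕ)
    (κ : ℕ → Fin N → ℕ) (l : ℕ → ℕ → Rˣ) (c u M : ℕ → Mat r ℂ) (ks : ℕ → List (Fin N → ℕ)),
    (∀ i < m, BU nm (bk N) (u i)) → (∀ i < m, Kup (κ i ∘ nm) (fun j => φ (l i j)) (M i)) →
    (∀ i < m, c i * u i = u i * M i) → (∀ i < m, KP (κ i) (bk N) (ks i)) →
    (∀ i < m, ∀ e : Bool, ∀ k ∈ ks i, ∀ n : ℕ, TP nm (PP c (i + sh e) * u i) fun a => k a < n) →
    ∃ (L : List (Sy R N)) (y₀ : ℕ → Mat r ℂ × Mat r ℂ) (p : ℕ → Bool → (Fin N → ℕ) → ℕ),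
      Circ L ∧ Valid nm y₀ L ∧
      ∀ {A : Type} [CommRing A] (ι : R →+* A) (ψ : A →+* ℂ), (∀ x, ψ (ι x) = φ x) →
        Function.Surjective ψ → ∀ y : ℕ → Mat r A × Mat r A, Valid nm y L →
        (∀ a b n, Sy.Y a b n ∈ L → (y n).1.map ψ = (y₀ n).1 ∧ (y n).2.map ψ = (y₀ n).2) →
        ∃ c' u' M' : ℕ → Mat r A, (∀ i < m, BU nm (bk N) (u' i)) ∧
          (∀ i < m, Kup (κ i ∘ nm) (fun j => ι (l i j)) (M' i)) ∧
          (∀ i < m, c' i * u' i = u' i * M' i) ∧
          (∀ i < m, (c' i).map ψ = c i) ∧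
          (∀ i < m, ∀ e : Bool, ∀ k ∈ ks i,
            InCell nm k (cev nm ι y (L.take (p i e k))) (PP c' (i + sh e) * u' i)) ∧
          InCell nm (bk N) (cev nm ι y L) (PP c' m)

/-- T5. Absorption of the errors. -/
def AbsorbStmt : Prop :=
  ∀ {A B : Type} [CommRing A] [CommRing B] (ψ : A →+* B) {r N : ℕ} (nm : Fin r → Fin N)
    (m : ℕ) (κ : ℕ → Fin N → ℕ) (l : ℕ → ℕ → A) (ks : ℕ → List (Fin N → ℕ))
    (π : ℕ → Bool → (Fin N → ℕ) → Equiv.Perm (Fin N)) (κ₀ : Fin N → ℕ) (τ : ℕ → Aˣ)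
    (rk : Fin N → Fin N → ℕ), Monotone κ₀ →
    (∀ i < m, KP (κ i) (bk N) (ks i)) →
    (∀ p' p q q' : Fin N, p' ≤ p → p < q → q ≤ q' → rk p' q' ≤ rk p q) →
    (∀ p q : Fin N, p < q → κ₀ p = κ₀ q → (∃ i < m, κ i p < κ i q) ∨
      ∃ i < m, ∃ e : Bool, ∃ k ∈ ks i, ∃ n l s s' : ℕ, (∀ c, k c < n ↔ Seg (κ i) l s s' c) ∧
        k ((π i e k).symm p) < n ∧ ¬ k ((π i e k).symm q) < n ∧
        ∀ p' q' : Fin N, p' < q' → (((p' : ℕ) < s ∧ s ≤ (q' : ℕ)) ∨
          ((p' : ℕ) < s' ∧ s' ≤ (q' : ℕ))) → rk p' q' < rk p q) →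
    ∀ c u M : ℕ → Mat r A, (∀ i < m, BU nm (bk N) (u i)) →
      (∀ i < m, Kup (κ i ∘ nm) (l i) (M i)) → (∀ i < m, c i * u i = u i * M i) →
      (∀ i < m, ∀ e : Bool, ∀ k ∈ ks i, ∃ W : Mat r A, BM nm (π i e k) W ∧ IsUnit W ∧
        InCell nm k W (PP c (i + sh e) * u i)) →
      (∀ i j, ¬ nm i < nm j → PP c m i j = if i = j then (τ (κ₀ (nm i)) : A) else 0) →
      (∀ i j, nm i < nm j → κ₀ (nm i) = κ₀ (nm j) → ψ (PP c m i j) = 0) →
      ∃ c' u' M' : ℕ → Mat r A, (∀ i < m, BU nm (bk N) (u' i)) ∧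
        (∀ i < m, Kup (κ i ∘ nm) (l i) (M' i)) ∧ (∀ i < m, c' i * u' i = u' i * M' i) ∧
        (∀ i < m, (c' i).map ψ = (c i).map ψ) ∧
        Kup (κ₀ ∘ nm) (fun j => (τ j : A)) (PP c' m)

/-- T6. Existence of a stable flag with its history (complex linear algebra). `g⁻¹ * c i * g` is
the tuple in the adapted basis. -/
def FlagStmt : Prop :=
  ∀ {r : ℕ} (m : ℕ) (c : ℕ → Mat r ℂ) (ξ : ℕ → ℕ → ℂ) (s : ℕ → ℕ) (ξ₀ : ℕ → ℂ) (s₀ : ℕ),
    (∀ i < m, IsUnit (c i)) → (∀ i < m, Qp (c i) (ξ i) (s i) = 0) → Qp (PP c m) ξ₀ s₀ = 0 →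
    ∃ (g : (Mat r ℂ)ˣ) (N : ℕ) (nm : Fin r → Fin N) (κ : ℕ → Fin N → ℕ) (κ₀ : Fin N → ℕ)
      (d u M : ℕ → Mat r ℂ) (rk : Fin N → Fin N → ℕ),
      (∀ i, d i = ((g⁻¹ : (Mat r ℂ)ˣ) : Mat r ℂ) * c i * (g : Mat r ℂ)) ∧
      Monotone nm ∧ Function.Surjective nm ∧ Monotone κ₀ ∧
      (∀ i < m, BU nm (bk N) (u i) ∧ Kup (κ i ∘ nm) (ξ i) (M i) ∧ d i * u i = u i * M i ∧
        (∀ x, κ i x < s i) ∧
        ∀ j ≤ s i, Module.finrank ℂ (LinearMap.ker (Qp (d i) (ξ i) j).mulVecLin) =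
          (Finset.univ.filter fun x => κ i (nm x) < j).card) ∧
      (Kup (κ₀ ∘ nm) ξ₀ (PP d m) ∧ (∀ x, κ₀ x < s₀) ∧
        ∀ j ≤ s₀, Module.finrank ℂ (LinearMap.ker (Qp (PP d m) ξ₀ j).mulVecLin) =
          (Finset.univ.filter fun x => κ₀ (nm x) < j).card) ∧
      (∀ i < m, ∀ e : Bool, ∀ l t t' : ℕ, t' ≤ t →
        TP nm (PP d (i + sh e) * u i) (Seg (κ i) l t t')) ∧
      (∀ p' p q q' : Fin N, p' ≤ p → p < q → q ≤ q' → rk p' q' ≤ rk p q) ∧
      ∀ p q : Fin N, p < q → κ₀ p = κ₀ q → (∃ i < m, κ i p < κ i q) ∨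
        ∃ i < m, ∃ e : Bool, ∃ l t t' : ℕ, t' ≤ t ∧
          IP nm (PP d (i + sh e) * u i) (Seg (κ i) l t t') p ∧
          ¬ IP nm (PP d (i + sh e) * u i) (Seg (κ i) l t t') q ∧
          ∀ p' q' : Fin N, p' < q' → (((p' : ℕ) < t ∧ t ≤ (q' : ℕ)) ∨
            ((p' : ℕ) < t' ∧ t' ≤ (q' : ℕ))) → rk p' q' < rk p q

/-- T7. The class of a matrix is an open condition among the matrices of the given type. -/
def TypeStmt : Prop :=
  ∀ {r : ℕ} (c : (Mat r ℂ)ˣ) (ξ : ℕ → ℂ) (s : ℕ) (κ : Fin r → ℕ), Qp (c : Mat r ℂ) ξ s = 0 →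
    (∀ x, κ x < s) →
    (∀ j ≤ s, Module.finrank ℂ (LinearMap.ker (Qp (c : Mat r ℂ) ξ j).mulVecLin) =
      (Finset.univ.filter fun x => κ x < j).card) →
    ∃ h : MvPolynomial (Fin r × Fin r) ℂ,
      MvPolynomial.eval (fun p => (c : Mat r ℂ) p.1 p.2) h ≠ 0 ∧
      ∀ (c' : (Mat r ℂ)ˣ) (u' M' : Mat r ℂ), UU u' → Kup κ ξ M' →
        (c' : Mat r ℂ) * u' = u' * M' →
        MvPolynomial.eval (fun p => (c' : Mat r ℂ) p.1 p.2) h ≠ 0 → IsConj c c'

/-- T8. Extension of the ring `A` by a point in the Zariski closure of a set of `R`-points. -/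
def ExtStmt : Prop :=
  ∀ {R A : Type} [CommRing R] [CommRing A] {φ : R →+* ℂ} {ι : R →+* A} {ψ : A →+* ℂ},
    Lifting φ ι ψ → ∀ {σ : Type} (Sol : Set (σ → R)) (y : σ → ℂ),
    (∀ f : MvPolynomial σ ℂ, (∀ x ∈ Sol, MvPolynomial.eval (fun i => φ (x i)) f = 0) →
      MvPolynomial.eval y f = 0) →
    ∃ (A' : Type) (_ : CommRing A') (ι' : R →+* A') (ψ' : A' →+* ℂ) (j : A →+* A') (Y : σ → A'),
      Lifting φ ι' ψ' ∧ (∀ a, ψ' (j a) = ψ a) ∧ (∀ a, j (ι a) = ι' a) ∧ (∀ i, ψ' (Y i) = y i) ∧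
      ∀ p : MvPolynomial σ R, (∀ x ∈ Sol, MvPolynomial.eval x p = 0) →
        MvPolynomial.eval₂ ι' Y p = 0

/-- The surface word. -/
def swd {G : Type*} [Group G] {g : ℕ} (a b : Fin g → G) : G :=
  (List.ofFn fun i => a i * b i * (a i)⁻¹ * (b i)⁻¹).prod

/-- T10. Every complex solution of the surface relation (with central value) lifts. -/
def SurfStmt : Prop :=
  ∀ {R A : Type} [CommRing R] [CommRing A] {φ : R →+* ℂ} {ι : R →+* A} {ψ : A →+* ℂ}
    (E : Subgroup ℂˣ) {r d g : ℕ}, 0 < d → d ≤ r → CoefOK φ E (r * r) → Lifting φ ι ψ →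
    ∀ (μ : Rˣ) (a b : Fin g → (Mat d ℂ)ˣ),
      ((swd a b : (Mat d ℂ)ˣ) : Mat d ℂ) = φ μ • (1 : Mat d ℂ) →
    ∃ (A' : Type) (_ : CommRing A') (ι' : R →+* A') (ψ' : A' →+* ℂ) (j : A →+* A')
      (a' b' : Fin g → (Mat d A')ˣ), Lifting φ ι' ψ' ∧ (∀ x, ψ' (j x) = ψ x) ∧
      (∀ x, j (ι x) = ι' x) ∧ (∀ i, (a' i : Mat d A').map ψ' = a i) ∧
      (∀ i, (b' i : Mat d A').map ψ' = b i) ∧
      ((swd a' b' : (Mat d A')ˣ) : Mat d A') = ι' μ • (1 : Mat d A')

/-- T10'. The same as a density statement. -/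
def SurfCl (g : ℕ) : Prop :=
  ∀ {R : Type} [CommRing R] {φ : R →+* ℂ} (E : Subgroup ℂˣ) {r d : ℕ}, 0 < d → d ≤ r →
    CoefOK φ E (r * r) → ∀ (μ : Rˣ) (a b : Fin g → (Mat d ℂ)ˣ),
      ((swd a b : (Mat d ℂ)ˣ) : Mat d ℂ) = φ μ • (1 : Mat d ℂ) →
    ∀ f : MvPolynomial ((Fin g × Bool) × Fin d × Fin d) ℂ,
      (∀ a' b' : Fin g → (Mat d R)ˣ,
        ((swd a' b' : (Mat d R)ˣ) : Mat d R) = (μ : R) • (1 : Mat d R) →
        MvPolynomial.eval (fun x => φ (((if x.1.2 then b' x.1.1 else a' x.1.1 : (Mat d R)ˣ) :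
          Mat d R) x.2.1 x.2.2)) f = 0) →
      MvPolynomial.eval (fun x => ((if x.1.2 then b x.1.1 else a x.1.1 : (Mat d ℂ)ˣ) :
          Mat d ℂ) x.2.1 x.2.2) f = 0

/-- T9. The Levi equation lifts. -/
def LeviStmt : Prop :=
  ∀ {R A : Type} [CommRing R] [CommRing A] {φ : R →+* ℂ} {ι : R →+* A} {ψ : A →+* ℂ}
    (E : Subgroup ℂˣ) {r N : ℕ}, CoefOK φ E (r * r) → Lifting φ ι ψ →
    ∀ (nm : Fin r → Fin N), Function.Surjective nm → ∀ (L : List (Sy R N)) 
      (y₀ : ℕ → Mat r ℂ × Mat r ℂ) (lam : Fin N → Rˣ), Circ L → Valid nm y₀ L →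
      cev nm φ y₀ L = Matrix.diagonal (fun i => φ (lam (nm i))) →
    ∃ (A' : Type) (_ : CommRing A') (ι' : R →+* A') (ψ' : A' →+* ℂ)
      (y : ℕ → Mat r A' × Mat r A'), Lifting φ ι' ψ' ∧ Valid nm y L ∧
      (∀ a b n, Sy.Y a b n ∈ L → (y n).1.map ψ' = (y₀ n).1 ∧ (y n).2.map ψ' = (y₀ n).2) ∧
      cev nm ι' y L = Matrix.diagonal (fun i => ι' (lam (nm i)))

/-- The main theorem in genus zero for irreducible representations, arbitrary classes. -/
def G0All : Prop :=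
  ∀ {m r : ℕ}, 0 < r → ∀ {R : Type} [CommRing R] (φ : R →+* ℂ) (E : Subgroup ℂˣ),
    CoefOK φ E (r * r) →
    ∀ C : Fin (m + 1) → (Mat r ℂ)ˣ, (∀ j, EigIn E (C j : Mat r ℂ)) →
    ∀ x ∈ YG ({relatorU 0 (m + 1)} : Set (FreeGroup ((Fin 0 × Bool) ⊕ Fin (m + 1)))) C,
    (∀ M : Mat r ℂ, (∀ w, Commute M (x w : Mat r ℂ)) → ∃ c : ℂ, M = c • (1 : Mat r ℂ)) →
    ∀ f : MvPolynomial (((Fin 0 × Bool) ⊕ Fin (m + 1)) × Fin r × Fin r) ℂ,
    (∀ y ∈ DGT ({relatorU 0 (m + 1)} : Set (FreeGroup ((Fin 0 × Bool) ⊕ Fin (m + 1)))) φ C,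
      evalG y f = 0) → evalG x f = 0

/-- T15. Assembly. -/
def AssemblyStmt : Prop :=
  PathStmt → LiftStmt → AbsorbStmt → FlagStmt → TypeStmt → LeviStmt → G0All

end Vale.Agent.P002B
end

section

/-!
# P002B, T1: paths of orders
-/

namespace Vale.Agent.P002B

namespace PathA

variable {N : ℕ}

/-- Two keys give the same order. -/
def Same (k k' : Fin N → ℕ) : Prop := ∀ a b, k a < k b ↔ k' a < k' b

lemma Same.refl (k : Fin N → ℕ) : Same k k := fun _ _ => Iff.rfl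

lemma Same.symm {k k' : Fin N → ℕ} (h : Same k k') : Same k' k := fun a b => (h a b).symm

lemma Same.trans {k k' k'' : Fin N → ℕ} (h : Same k k') (h' : Same k' k'') : Same k k'' :=
  fun a b => (h a b).trans (h' a b)

lemma adj_of_same {k0 k k' : Fin N → ℕ} {a b : Fin N} (h : Same k0 k) (ha : Adj k k' a b) :
    Adj k0 k' a b := by
  obtain ⟨h1, h2, h3, h4⟩ := ha
  refine ⟨(h a b).2 h1, h2, fun c d hc hd => (h c d).trans (h3 c d hc hd), fun c hc hd => ?_⟩
  exact (h c a).trans ((h4 c hc hd).trans (h c b).symm)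

lemma chain (κ : Fin N → ℕ) (f : ℕ → Fin N → ℕ) (T : ℕ)
    (hlast : ∀ a b, f T a < f T b ↔ (κ a < κ b ∨ (κ a = κ b ∧ a < b)))
    (hstep : ∀ t < T, Same (f t) (f (t + 1)) ∨
      ∃ a b, a < b ∧ κ b < κ a ∧ Adj (f t) (f (t + 1)) a b) :
    ∀ n t, t + n = T → ∀ k0, Same k0 (f t) → ∃ ks : List (Fin N → ℕ), KP κ k0 ks ∧
      (∀ k ∈ ks, ∃ t', Same k (f t')) ∧ ∀ t', t ≤ t' → t' ≤ T → ∃ k ∈ ks, Same k (f t') := by
  intro n
  induction n with
  | zero =>
    intro t ht k0 hk0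
    have ht' : t = T := by omega
    subst ht'
    refine ⟨[k0], KP.last k0 (fun a b => (hk0 a b).trans (hlast a b)), ?_, ?_⟩
    · intro k hk
      rw [List.mem_singleton] at hk
      subst hk
      exact ⟨t, hk0⟩
    · intro t' h1 h2
      have : t' = t := by omega
      subst this
      exact ⟨k0, List.mem_singleton.2 rfl, hk0⟩
  | succ n ih =>
    intro t ht k0 hk0
    rcases hstep t (by omega) with hs | ⟨a, b, hab, hκ, hadj⟩
    · obtain ⟨ks, h1, h2, h3⟩ := ih (t + 1) (by omega) k0 (hk0.trans hs)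
      refine ⟨ks, h1, h2, fun t' ht1 ht2 => ?_⟩
      rcases Nat.eq_or_lt_of_le ht1 with he | hl
      · subst he
        obtain ⟨k, hk, hks⟩ := h3 (t + 1) le_rfl (by omega)
        exact ⟨k, hk, hks.trans hs.symm⟩
      · exact h3 t' hl ht2
    · obtain ⟨ks, h1, h2, h3⟩ := ih (t + 1) (by omega) (f (t + 1)) (Same.refl _)
      refine ⟨k0 :: ks, KP.step k0 (f (t + 1)) ks a b hab hκ (adj_of_same hk0 hadj) h1, ?_, ?_⟩
      · intro k hk
        rcases List.mem_cons.1 hk with he | hk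
        · subst he
          exact ⟨t, hk0⟩
        · exact h2 k hk
      · intro t' ht1 ht2
        rcases Nat.eq_or_lt_of_le ht1 with he | hl
        · subst he
          exact ⟨k0, List.mem_cons.2 (Or.inl rfl), hk0⟩
        · obtain ⟨k, hk, hks⟩ := h3 t' hl ht2
          exact ⟨k, List.mem_cons.2 (Or.inr hk), hks⟩

/-- Initial segments only depend on the order. -/
lemma seg_of_same {k k1 : Fin N → ℕ} (h : Same k k1) (n : ℕ) :
    ∃ n' : ℕ, ∀ c, k c < n' ↔ k1 c < n := by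
  classical
  by_cases hall : ∀ c, k1 c < n
  · refine ⟨Finset.univ.sup k + 1, fun c => ⟨fun _ => hall c, fun _ => ?_⟩⟩
    exact Nat.lt_succ_of_le (Finset.le_sup (f := k) (Finset.mem_univ c))
  · have hne : (Finset.univ.filter fun c : Fin N => ¬ k1 c < n).Nonempty := by
      by_contra hcon
      apply hall
      intro c
      by_contra hc
      exact hcon ⟨c, Finset.mem_filter.2 ⟨Finset.mem_univ c, hc⟩⟩
    obtain ⟨d, hd, hmin⟩ := Finset.exists_min_image _ k1 hne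
    have hd' : ¬ k1 d < n := (Finset.mem_filter.1 hd).2
    refine ⟨k d, fun c => (h c d).trans ⟨fun hc => ?_, fun hc => by omega⟩⟩
    by_contra hcn
    have := hmin c (Finset.mem_filter.2 ⟨Finset.mem_univ c, hcn⟩)
    omega

/-- The final key. -/
def w (κ : Fin N → ℕ) (c : Fin N) : ℕ := κ c * N + c

lemma w_lt (κ : Fin N → ℕ) (c : Fin N) (l s : ℕ) (hs : s ≤ N) :
    w κ c < l * N + s ↔ κ c < l ∨ (κ c = l ∧ (c : ℕ) < s) := by
  unfold w
  have hc := c.isLt
  rcases Nat.lt_trichotomy (κ c) l with h | h | h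
  · have h1 : (κ c + 1) * N ≤ l * N := Nat.mul_le_mul_right N h
    rw [Nat.add_mul, Nat.one_mul] at h1
    constructor
    · intro _
      exact Or.inl h
    · intro _
      omega
  · subst h
    constructor
    · intro h2
      exact Or.inr ⟨rfl, by omega⟩
    · intro h2
      omega
  · have h1 : (l + 1) * N ≤ κ c * N := Nat.mul_le_mul_right N h
    rw [Nat.add_mul, Nat.one_mul] at h1
    constructor
    · intro h2
      omega
    · intro h2
      omega

lemma w_inj (κ : Fin N → ℕ) {c d : Fin N} (h : w κ c = w κ d) : c = d := by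
  have h1 : ¬ w κ c < κ d * N + (d : ℕ) := by
    have : w κ d = κ d * N + (d : ℕ) := rfl
    omega
  have h2 : ¬ w κ d < κ c * N + (c : ℕ) := by
    have : w κ c = κ c * N + (c : ℕ) := rfl
    omega
  rw [w_lt κ c _ _ d.isLt.le] at h1
  rw [w_lt κ d _ _ c.isLt.le] at h2
  apply Fin.ext
  omega

/-- The keys of the path. -/
def key (κ : Fin N → ℕ) (K q j : ℕ) (c : Fin N) : ℕ :=
  if w κ c < q then w κ c else if w κ c = q then K + 2 * ((c : ℕ) - j) else K + 2 * c + 1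

lemma same_start (κ : Fin N → ℕ) (K : ℕ) : Same (bk N) (key κ K 0 0) := by
  intro a b
  change (a : ℕ) < (b : ℕ) ↔ _
  have h0 : (a : ℕ) = (b : ℕ) → w κ a = w κ b := fun h => by rw [Fin.ext h]
  unfold key
  split_ifs <;> omega

lemma same_next (κ : Fin N → ℕ) {K : ℕ} (hK : ∀ c, w κ c < K) (q : ℕ) :
    Same (key κ K q N) (key κ K (q + 1) 0) := by
  intro a b
  by_cases hab : a = b
  · subst hab
    exact ⟨fun h => absurd h (lt_irrefl _), fun h => absurd h (lt_irrefl _)⟩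
  have h1 : (a : ℕ) ≠ (b : ℕ) := fun h => hab (Fin.ext h)
  have h2 := hK a
  have h3 := hK b
  have h4 := a.isLt
  have h5 := b.isLt
  have h6 : w κ a ≠ w κ b := fun h => hab (w_inj κ h)
  unfold key
  split_ifs <;> omega

lemma step_j (κ : Fin N → ℕ) {K : ℕ} (hK : ∀ c, w κ c < K) (q j : ℕ) :
    Same (key κ K q j) (key κ K q (j + 1)) ∨
      ∃ a b, a < b ∧ κ b < κ a ∧ Adj (key κ K q j) (key κ K q (j + 1)) a b := by
  by_cases hb : ∃ b : Fin N, w κ b = q ∧ j < (b : ℕ)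
  · obtain ⟨b, hbq, hbj⟩ := hb
    have hbN := b.isLt
    have haN : (b : ℕ) - j - 1 < N := by omega
    obtain ⟨a, ha⟩ : ∃ a : Fin N, (a : ℕ) = (b : ℕ) - j - 1 := ⟨⟨_, haN⟩, rfl⟩
    have hne : ∀ c : Fin N, c ≠ b → w κ c ≠ q := fun c hc h => hc (w_inj κ (h.trans hbq.symm))
    have hab : a ≠ b := fun h => by
      rw [h] at ha
      omega
    by_cases haq : w κ a < q
    · left
      intro c d
      have h2 := hK c
      have h3 := hK d
      have hca : c = a ∨ (c : ℕ) ≠ (a : ℕ) := by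
        by_cases h : c = a
        · exact Or.inl h
        · exact Or.inr fun h' => h (Fin.ext h')
      have hda : d = a ∨ (d : ℕ) ≠ (a : ℕ) := by
        by_cases h : d = a
        · exact Or.inl h
        · exact Or.inr fun h' => h (Fin.ext h')
      have hcb : (c : ℕ) = (b : ℕ) ∨ w κ c ≠ q := by
        by_cases h : c = b
        · exact Or.inl (by rw [h])
        · exact Or.inr (hne c h)
      have hdb : (d : ℕ) = (b : ℕ) ∨ w κ d ≠ q := by
        by_cases h : d = b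
        · exact Or.inl (by rw [h])
        · exact Or.inr (hne d h)
      have hca' : w κ c < q ∨ (c : ℕ) ≠ (a : ℕ) := by
        rcases hca with h | h
        · left
          rw [h]
          exact haq
        · exact Or.inr h
      have hda' : w κ d < q ∨ (d : ℕ) ≠ (a : ℕ) := by
        rcases hda with h | h
        · left
          rw [h]
          exact haq
        · exact Or.inr h
      unfold key
      split_ifs <;> omega
    · right
      have haq' : q < w κ a := by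
        have := hne a hab
        omega
      have hablt : a < b := by
        rw [Fin.lt_def]
        omega
      have hκ : κ b < κ a := by
        have h1 : ¬ w κ a < κ b * N + (b : ℕ) := by
          have : w κ b = κ b * N + (b : ℕ) := rfl
          omega
        rw [w_lt κ a _ _ b.isLt.le] at h1
        have h2 : ¬ (κ a = κ b ∧ (a : ℕ) < (b : ℕ)) := fun h => h1 (Or.inr h)
        have h3 : ¬ κ a < κ b := fun h => h1 (Or.inl h)
        rw [Fin.lt_def] at hablt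
        omega
      refine ⟨a, b, hablt, hκ, ?_, ?_, ?_, ?_⟩
      · unfold key
        split_ifs <;> omega
      · unfold key
        split_ifs <;> omega
      · intro c d hcd hdc
        by_cases hcd' : c = d
        · subst hcd'
          exact ⟨fun h => absurd h (lt_irrefl _), fun h => absurd h (lt_irrefl _)⟩
        have h1 : (c : ℕ) ≠ (d : ℕ) := fun h => hcd' (Fin.ext h)
        have h2 := hK c
        have h3 := hK d
        by_cases hcb : c = b
        · subst hcb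
          have h4 : w κ d ≠ q := hne d (Ne.symm hcd')
          have h5 : d ≠ a := fun h => hdc ⟨rfl, h⟩
          have h6 : (d : ℕ) ≠ (a : ℕ) := fun h => h5 (Fin.ext h)
          unfold key
          split_ifs <;> omega
        · have h4 : w κ c ≠ q := hne c hcb
          by_cases hdb : d = b
          · subst hdb
            have h5 : c ≠ a := fun h => hcd ⟨h, rfl⟩
            have h6 : (c : ℕ) ≠ (a : ℕ) := fun h => h5 (Fin.ext h)
            unfold key
            split_ifs <;> omega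
          · have h5 : w κ d ≠ q := hne d hdb
            unfold key
            split_ifs <;> omega
      · intro c hca hcb
        have h2 := hK c
        have h4 : w κ c ≠ q := hne c hcb
        have h6 : (c : ℕ) ≠ (a : ℕ) := fun h => hca (Fin.ext h)
        unfold key
        split_ifs <;> omega
  · left
    have : key κ K q j = key κ K q (j + 1) := by
      funext c
      unfold key
      by_cases h1 : w κ c < q
      · rw [if_pos h1, if_pos h1]
      · rw [if_neg h1, if_neg h1]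
        by_cases h2 : w κ c = q
        · rw [if_pos h2, if_pos h2]
          have h3 : ¬ j < (c : ℕ) := fun h => hb ⟨c, h2, h⟩
          have h4 : (c : ℕ) - j = (c : ℕ) - (j + 1) := by omega
          rw [h4]
        · rw [if_neg h2, if_neg h2]
    rw [this]
    exact Same.refl _

/-- Segments of the keys of the path. -/
lemma key_seg (κ : Fin N → ℕ) {K : ℕ} (hK : ∀ c, w κ c < K) (q j n : ℕ) :
    ∃ l s s' : ℕ, s' ≤ s ∧ ∀ c, key κ K q j c < n ↔ Seg κ l s s' c := by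
  by_cases hn : n ≤ K
  · refine ⟨min q n / N, min q n % N, 0, Nat.zero_le _, fun c => ?_⟩
    have hN : 0 < N := Fin.pos c
    have h1 := w_lt κ c (min q n / N) (min q n % N) (Nat.mod_lt _ hN).le
    rw [Nat.div_add_mod'] at h1
    have h2 := hK c
    have h3 : key κ K q j c < n ↔ w κ c < min q n := by
      unfold key
      split_ifs <;> omega
    rw [h3, h1]
    unfold Seg
    omega
  · by_cases hb : ∃ b : Fin N, w κ b = q ∧ n ≤ K + 2 * b + 1 ∧ 2 * ((b : ℕ) - j) < n - K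
    · obtain ⟨b, hb1, hb2, hb3⟩ := hb
      refine ⟨κ b, b + 1, (n - K) / 2, by omega, fun c => ?_⟩
      have hbN := b.isLt
      have h1 := w_lt κ c (κ b) (b + 1) hbN
      have hbw : w κ b = κ b * N + (b : ℕ) := rfl
      have h2 : key κ K q j c < n ↔ (w κ c < κ b * N + ((b : ℕ) + 1) ∨ (c : ℕ) < (n - K) / 2) := by
        have h3 := hK c
        by_cases hcb : c = b
        · subst hcb
          unfold key
          split_ifs <;> omega
        · have h4 : w κ c ≠ q := fun h => hcb (w_inj κ (h.trans hb1.symm))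
          unfold key
          split_ifs <;> omega
      rw [h2, h1]
      unfold Seg
      omega
    · refine ⟨q / N, max (q % N) ((n - K) / 2), (n - K) / 2, le_max_right _ _, fun c => ?_⟩
      have hN : 0 < N := Fin.pos c
      have h1 := w_lt κ c (q / N) (q % N) (Nat.mod_lt _ hN).le
      rw [Nat.div_add_mod'] at h1
      have h2 : key κ K q j c < n ↔ (w κ c < q ∨ (c : ℕ) < (n - K) / 2) := by
        have h3 := hK c
        have h4 : ¬ (w κ c = q ∧ n ≤ K + 2 * c + 1 ∧ 2 * ((c : ℕ) - j) < n - K) :=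
          fun h => hb ⟨c, h⟩
        unfold key
        split_ifs <;> omega
      rw [h2, h1]
      unfold Seg
      omega

end PathA

open PathA in
theorem pathStmt : PathStmt := by
  intro N κ
  obtain ⟨L, hL⟩ : ∃ L : ℕ, ∀ c, κ c < L :=
    ⟨Finset.univ.sup κ + 1, fun c => Nat.lt_succ_of_le (Finset.le_sup (Finset.mem_univ c))⟩
  have hK : ∀ c, w κ c < L * N := fun c => by
    have := (w_lt κ c L 0 (Nat.zero_le _)).2 (Or.inl (hL c))
    simpa only [gt_iff_lt, add_zero] using this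
  have hdm : ∀ q j : ℕ, j < N + 1 →
      ((N + 1) * q + j) / (N + 1) = q ∧ ((N + 1) * q + j) % (N + 1) = j := by
    intro q j hj
    refine ⟨?_, ?_⟩
    · rw [Nat.mul_add_div (Nat.succ_pos N), Nat.div_eq_of_lt hj, Nat.add_zero]
    · rw [Nat.mul_add_mod, Nat.mod_eq_of_lt hj]
  obtain ⟨ks, h1, h2, h3⟩ := chain κ (fun t => key κ (L * N) (t / (N + 1)) (t % (N + 1)))
    ((N + 1) * (L * N)) (by
      intro a b
      have h := hdm (L * N) 0 (Nat.succ_pos N)
      rw [Nat.add_zero] at h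
      simp only [h.1, h.2]
      unfold key
      rw [if_pos (hK a), if_pos (hK b)]
      have := w_lt κ a (κ b) b b.isLt.le
      unfold w at this ⊢
      rw [this, Fin.lt_def]) (by
      intro t _
      obtain ⟨q, j, hj, rfl⟩ : ∃ q j, j < N + 1 ∧ t = (N + 1) * q + j :=
        ⟨t / (N + 1), t % (N + 1), Nat.mod_lt _ (Nat.succ_pos N), (Nat.div_add_mod t (N + 1)).symm⟩
      have h := hdm q j hj
      simp only [h.1, h.2]
      rcases Nat.eq_or_lt_of_le (Nat.le_of_lt_succ hj) with he | hl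
      · left
        subst he
        have e : (j + 1) * q + j + 1 = (j + 1) * (q + 1) + 0 := by ring
        have h' := hdm (q + 1) 0 (Nat.succ_pos j)
        rw [e]
        simp only [h'.1, h'.2]
        exact same_next κ hK q
      · have h' := hdm q (j + 1) (Nat.succ_lt_succ hl)
        have e : (N + 1) * q + j + 1 = (N + 1) * q + (j + 1) := by ring
        rw [e]
        simp only [h'.1, h'.2]
        exact step_j κ hK q j) _ 0 (Nat.zero_add _) (bk N) (by
      simp only [Nat.zero_div, Nat.zero_mod]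
      exact same_start κ _)
  refine ⟨ks, h1, ?_, ?_⟩
  · intro k hk n
    obtain ⟨t', ht'⟩ := h2 k hk
    obtain ⟨n', hn'⟩ := seg_of_same ht'.symm n
    obtain ⟨l, s, s', hs, hc⟩ := key_seg κ hK (t' / (N + 1)) (t' % (N + 1)) n'
    exact ⟨l, s, s', hs, fun c => (hn' c).symm.trans (hc c)⟩
  · intro l s s' hs
    by_cases hl : L ≤ l
    · obtain ⟨k, hk, _⟩ := h3 0 le_rfl (Nat.zero_le _)
      refine ⟨k, hk, Finset.univ.sup k + 1, fun c => ⟨fun _ => ?_, fun _ => ?_⟩⟩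
      · exact Or.inl (lt_of_lt_of_le (hL c) hl)
      · exact Nat.lt_succ_of_le (Finset.le_sup (f := k) (Finset.mem_univ c))
    · have hl' : (l + 1) * N ≤ L * N := Nat.mul_le_mul_right N (by omega)
      rw [Nat.add_mul, Nat.one_mul] at hl'
      have hq : l * N + min s N ≤ L * N := by omega
      obtain ⟨k, hk, hks⟩ := h3 ((N + 1) * (l * N + min s N)) (Nat.zero_le _)
        (Nat.mul_le_mul_left _ hq)
      have h := hdm (l * N + min s N) 0 (Nat.succ_pos N)
      rw [Nat.add_zero] at h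
      simp only [h.1, h.2] at hks
      obtain ⟨n', hn'⟩ := seg_of_same hks (L * N + 2 * min s' N)
      refine ⟨k, hk, n', fun c => (hn' c).trans ?_⟩
      have hcN := c.isLt
      have h5 := hK c
      have h6 := w_lt κ c l (min s N) (min_le_right _ _)
      have h7 : key κ (L * N) (l * N + min s N) 0 c < L * N + 2 * min s' N ↔
          (w κ c < l * N + min s N ∨ (c : ℕ) < min s' N) := by
        unfold key
        split_ifs <;> omega
      rw [h7, h6]
      unfold Seg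
      (clear * - h hcN h6 h7; omega)

end Vale.Agent.P002B
end

section

/-!
# P002, genus 0, arbitrary classes: statements inside T4 (LiftStmt)
-/

namespace Vale.Agent.P002B

open Matrix Vale.Agent.P002R Vale.Agent.P002L

/-- The block `(a, b)` of `v` plus `ζ`. -/
def yy {S : Type*} [CommRing S] {r N : ℕ} (nm : Fin r → Fin N) (a b : Fin N) (v ζ : Mat r S) :
    Mat r S := ee nm a * v * ee nm b + ζ

/-- Inverse blocks. -/
def BInv {S : Type*} [CommRing S] {r N : ℕ} (nm : Fin r → Fin N) (a b : Fin N) (y z : Mat r S) :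
    Prop := BB nm a b y ∧ BB nm b a z ∧ y * z = ee nm a ∧ z * y = ee nm b

/-- T4.1: the letter step, cases up and uncross. -/
def PassStmt : Prop :=
  ∀ {r N : ℕ} (nm : Fin r → Fin N) (k k' : Fin N → ℕ) (a b : Fin N), Adj k k' a b →
    ∀ (π : Equiv.Perm (Fin N)) (v₀ ζ₀ : Mat r ℂ), BU nm k v₀ → BB nm a b ζ₀ →
    (π a < π b ∨ yy nm a b v₀ ζ₀ = 0) →
    ∃ v₀' : Mat r ℂ, BU nm k' v₀' ∧ ∀ {A : Type} [CommRing A] (ψ : A →+* ℂ),
      Function.Surjective ψ → ∀ v : Mat r A, BU nm k v → v.map ψ = v₀ →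
      ∀ W : Mat r A, BM nm π W → IsUnit W →
      ∃ ζ b' v' : Mat r A, BB nm a b ζ ∧ ζ.map ψ = ζ₀ ∧ BU nm (bk N) b' ∧ BU nm k' v' ∧
        v'.map ψ = v₀' ∧ W * v * (1 + ζ) = b' * W * v'

/-- T4.2: the letter step, case stay. -/
def StayStmt : Prop :=
  ∀ {r N : ℕ} (nm : Fin r → Fin N) (k k' : Fin N → ℕ) (a b : Fin N), Adj k k' a b →
    ∀ (π : Equiv.Perm (Fin N)) (v₀ ζ₀ z₀ : Mat r ℂ), BU nm k v₀ → BB nm a b ζ₀ → π b < π a →
    BInv nm a b (yy nm a b v₀ ζ₀) z₀ →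
    ∃ v₀' : Mat r ℂ, BU nm k' v₀' ∧ ∀ {A : Type} [CommRing A] (ψ : A →+* ℂ),
      ∀ y z : Mat r A, BInv nm a b y z → y.map ψ = yy nm a b v₀ ζ₀ → z.map ψ = z₀ →
      ∀ v : Mat r A, BU nm k v → v.map ψ = v₀ → ∀ W : Mat r A, BM nm π W → IsUnit W →
      ∃ ζ b' v' : Mat r A, BB nm a b ζ ∧ ζ.map ψ = ζ₀ ∧ BU nm (bk N) b' ∧ BU nm k' v' ∧
        v'.map ψ = v₀' ∧ W * v * (1 + ζ) = b' * (W * (1 - ee nm a - ee nm b + y - z)) * v'

/-- T4.3: the dichotomy from trivial position. -/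
def DichStmt : Prop :=
  ∀ {r N : ℕ} (nm : Fin r → Fin N) (k k' : Fin N → ℕ) (a b : Fin N), Adj k k' a b →
    ∀ (π : Equiv.Perm (Fin N)) (b₀ W v₀ ζ₀ u₁ : Mat r ℂ), BU nm (bk N) b₀ → BM nm π W →
    IsUnit W → BU nm k v₀ → BB nm a b ζ₀ → BU nm k' u₁ → π b < π a →
    TP nm (b₀ * W * v₀ * (1 + ζ₀) * u₁) (fun c => k' c < k' b + 1) →
    yy nm a b v₀ ζ₀ = 0 ∨ ∃ z₀, BInv nm a b (yy nm a b v₀ ζ₀) z₀

/-- T4.4: one class, from the key `k` on (recursion on `KP`). -/
def ClassStmt : Prop :=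
  ∀ {R : Type} [CommRing R] (φ : R →+* ℂ) {r N : ℕ} (nm : Fin r → Fin N) (κ : Fin N → ℕ)
    (l : ℕ → Rˣ) (k : Fin N → ℕ) (ks : List (Fin N → ℕ)), KP κ k ks →
    (∀ a b : Fin N, a < b → κ a ≤ κ b → k a < k b) →
    ∀ (L₀ : List (Sy R N)) (y₀ : ℕ → Mat r ℂ × Mat r ℂ) (n₀ : ℕ) (b₀ v₀ u₀ M₀ : Mat r ℂ),
    Circ L₀ → (∀ n ∈ L₀.filterMap Sy.vr, n < n₀) → Valid nm y₀ L₀ → BU nm (bk N) b₀ →
    BU nm k v₀ → BU nm (bk N) u₀ → BU nm k u₀ → Kup (κ ∘ nm) (fun j => φ (l j)) M₀ →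
    (∀ k₁ ∈ ks, ∀ n : ℕ, TP nm (b₀ * cev nm φ y₀ L₀ * v₀ * u₀) (fun a => k₁ a < n) ∧
      TP nm (b₀ * cev nm φ y₀ L₀ * v₀ * u₀ * M₀) (fun a => k₁ a < n)) →
    ∃ (L₁ : List (Sy R N)) (y₁ : ℕ → Mat r ℂ × Mat r ℂ) (n₁ : ℕ) (v₁ : Mat r ℂ)
      (p : Bool → (Fin N → ℕ) → ℕ),
      (∀ n < n₀, y₁ n = y₀ n) ∧ n₀ ≤ n₁ ∧ Circ (L₀ ++ L₁) ∧
      (∀ n ∈ (L₀ ++ L₁).filterMap Sy.vr, n < n₁) ∧ Valid nm y₁ (L₀ ++ L₁) ∧ BU nm k v₁ ∧
      ∀ {A : Type} [CommRing A] (ι : R →+* A) (ψ : A →+* ℂ), (∀ x, ψ (ι x) = φ x) →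
        Function.Surjective ψ → ∀ y : ℕ → Mat r A × Mat r A, Valid nm y (L₀ ++ L₁) →
        (∀ a b n, Sy.Y a b n ∈ L₀ ++ L₁ → (y n).1.map ψ = (y₁ n).1 ∧ (y n).2.map ψ = (y₁ n).2) →
        ∀ v : Mat r A, BU nm k v → v.map ψ = v₀ →
        ∃ u M b v' : Mat r A, BU nm (bk N) u ∧ BU nm k u ∧ u.map ψ = u₀ ∧
          Kup (κ ∘ nm) (fun j => ι (l j)) M ∧ M.map ψ = M₀ ∧ BU nm (bk N) b ∧ BU nm k v' ∧
          v'.map ψ = v₁ ∧
          cev nm ι y L₀ * v * u * M = b * cev nm ι y (L₀ ++ L₁) * v' ∧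
          ∀ k₁ ∈ ks,
            InCell nm k₁ (cev nm ι y ((L₀ ++ L₁).take (p false k₁))) (cev nm ι y L₀ * v * u) ∧
            InCell nm k₁ (cev nm ι y ((L₀ ++ L₁).take (p true k₁))) (cev nm ι y L₀ * v * u * M)

/-- T4.4'. -/
def ClassAsmStmt : Prop := PassStmt → StayStmt → DichStmt → ClassStmt

/-- T4.5: the chain over the classes. -/
def ChainAsmStmt : Prop := ClassStmt → LiftStmt

end Vale.Agent.P002B
end

section

/-!
# P002, genus 0, arbitrary classes: the letter steps (T4.1, T4.2)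
-/

namespace Vale.Agent.P002B

open Matrix Vale.Agent.P002R Vale.Agent.P002L

namespace LL

section general

variable {S T : Type*} [CommRing S] [CommRing T] {r N : ℕ} {nm : Fin r → Fin N}

theorem ee_mul_apply (a : Fin N) (M : Mat r S) (i j : Fin r) :
    ((ee nm a : Mat r S) * M) i j = if nm i = a then M i j else 0 := by
  rw [ee, diagonal_mul]
  split_ifs
  · rw [one_mul]
  · rw [zero_mul]

theorem mul_ee_apply (a : Fin N) (M : Mat r S) (i j : Fin r) :
    (M * (ee nm a : Mat r S)) i j = if nm j = a then M i j else 0 := by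
  rw [ee, mul_diagonal]
  split_ifs
  · rw [mul_one]
  · rw [mul_zero]

theorem ee_mul_ee_same (a : Fin N) : (ee nm a : Mat r S) * ee nm a = ee nm a := by
  ext i j
  rw [ee_mul_apply]
  split_ifs with h
  · rfl
  · rw [ee, diagonal_apply]
    split_ifs <;> rfl

theorem ee_mul_ee_ne {a b : Fin N} (h : a ≠ b) : (ee nm a : Mat r S) * ee nm b = 0 := by
  ext i j
  rw [ee_mul_apply, Matrix.zero_apply]
  split_ifs with h1
  · rw [ee, diagonal_apply]
    split_ifs with h2 h3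
    · exact absurd (h1.symm.trans h3) h
    · rfl
    · rfl
  · rfl

theorem ee_map (a : Fin N) (f : S →+* T) : (ee nm a : Mat r S).map f = ee nm a := by
  rw [ee, ee, diagonal_map (map_zero f)]
  congr 1
  funext i
  split_ifs
  · exact map_one f
  · exact map_zero f

theorem bb_left {a b : Fin N} {y : Mat r S} (hy : BB nm a b y) : ee nm a * y = y := by
  ext i j
  rw [ee_mul_apply]
  split_ifs with h
  · rfl
  · exact (hy i j fun h' => h h'.1).symm

theorem bb_right {a b : Fin N} {y : Mat r S} (hy : BB nm a b y) : y * ee nm b = y := by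
  ext i j
  rw [mul_ee_apply]
  split_ifs with h
  · rfl
  · exact (hy i j fun h' => h h'.2).symm

theorem bb_of {a b : Fin N} {y : Mat r S} (h1 : ee nm a * y = y) (h2 : y * ee nm b = y) :
    BB nm a b y := by
  intro i j hij
  by_cases h : nm i = a
  · have h3 : nm j ≠ b := fun h' => hij ⟨h, h'⟩
    rw [← h2, mul_ee_apply, if_neg h3]
  · rw [← h1, ee_mul_apply, if_neg h]

theorem bb_mul_zero {a b c d : Fin N} (h : b ≠ c) {y z : Mat r S} (hy : BB nm a b y)
    (hz : BB nm c d z) : y * z = 0 := by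
  rw [← bb_right hy, ← bb_left hz, Matrix.mul_assoc, ← Matrix.mul_assoc (ee nm b),
    ee_mul_ee_ne h, Matrix.zero_mul, Matrix.mul_zero]

theorem bb_neg {a b : Fin N} {y : Mat r S} (hy : BB nm a b y) : BB nm a b (-y) := by
  intro i j hij
  rw [Matrix.neg_apply, hy i j hij, neg_zero]

theorem bb_add {a b : Fin N} {y z : Mat r S} (hy : BB nm a b y) (hz : BB nm a b z) :
    BB nm a b (y + z) := by
  intro i j hij
  rw [Matrix.add_apply, hy i j hij, hz i j hij, add_zero]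

theorem bb_sub {a b : Fin N} {y z : Mat r S} (hy : BB nm a b y) (hz : BB nm a b z) :
    BB nm a b (y - z) := by
  intro i j hij
  rw [Matrix.sub_apply, hy i j hij, hz i j hij, sub_zero]

theorem bb_ee (a b : Fin N) (v : Mat r S) : BB nm a b (ee nm a * v * ee nm b) := by
  refine bb_of ?_ ?_
  · rw [← Matrix.mul_assoc, ← Matrix.mul_assoc, ee_mul_ee_same]
  · rw [Matrix.mul_assoc, ee_mul_ee_same]

theorem bu_one_add {k : Fin N → ℕ} {a b : Fin N} (h : k a < k b) {y : Mat r S}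
    (hy : BB nm a b y) : BU nm k (1 + y) := by
  intro i j hij
  rw [Matrix.add_apply, hy i j, add_zero]
  rintro ⟨rfl, rfl⟩
  exact hij h

theorem bu_one {k : Fin N → ℕ} : BU nm k (1 : Mat r S) := fun _ _ _ => rfl

theorem bu_mul {k : Fin N → ℕ} {u v : Mat r S} (hu : BU nm k u) (hv : BU nm k v) :
    BU nm k (u * v) := by
  intro i j hij
  rw [mul_apply, Finset.sum_eq_single i]
  · rw [hv i j hij, hu i i (lt_irrefl _), one_apply_eq, one_mul]
  · intro l _ hl
    by_cases h1 : k (nm i) < k (nm l)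
    · have h2 : ¬ k (nm l) < k (nm j) := fun h' => hij (h1.trans h')
      rw [hv l j h2, one_apply]
      split_ifs with h3
      · subst h3
        exact absurd h1 hij
      · rw [mul_zero]
    · rw [hu i l h1, one_apply_ne hl.symm, zero_mul]
  · intro h
    exact absurd (Finset.mem_univ _) h

theorem bu_ee_same {k : Fin N → ℕ} {v : Mat r S} (hv : BU nm k v) (a : Fin N) :
    ee nm a * v * ee nm a = ee nm a := by
  ext i j
  rw [mul_ee_apply, ee_mul_apply, ee, diagonal_apply]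
  by_cases h1 : nm j = a
  · by_cases h2 : nm i = a
    · rw [if_pos h1, if_pos h2, if_pos h2, hv i j (by rw [h1, h2]; exact lt_irrefl _), one_apply]
    · rw [if_pos h1, if_neg h2, if_neg h2, ite_self]
  · rw [if_neg h1]
    by_cases h3 : i = j
    · subst h3
      rw [if_pos rfl, if_neg h1]
    · rw [if_neg h3]

theorem bu_ee_zero {k : Fin N → ℕ} {v : Mat r S} (hv : BU nm k v) {a b : Fin N} (h : k a < k b) :
    ee nm b * v * ee nm a = 0 := by
  have hne : a ≠ b := fun h' => by rw [h'] at h; exact lt_irrefl _ h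
  ext i j
  rw [mul_ee_apply, ee_mul_apply, Matrix.zero_apply]
  split_ifs with h1 h2
  · rw [hv i j (by rw [h1, h2]; exact not_lt.2 h.le), one_apply_ne]
    rintro rfl
    exact hne (h1.symm.trans h2)
  · rfl
  · rfl

/-- the elimination of the block `(a, b)` -/
theorem bu_elim {k k' : Fin N → ℕ} {a b : Fin N} (hA : Adj k k' a b) {v ζ : Mat r S}
    (hv : BU nm k v) (hζ : BB nm a b ζ) : BU nm k' ((1 - yy nm a b v ζ) * v * (1 + ζ)) := by
  obtain ⟨h1, h2, h3, -⟩ := hA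
  have hne : a ≠ b := fun h' => by rw [h'] at h1; exact lt_irrefl _ h1
  have hy : BB nm a b (yy nm a b v ζ) := bb_add (bb_ee a b v) hζ
  have hk : BU nm k ((1 - yy nm a b v ζ) * v * (1 + ζ)) := by
    rw [sub_eq_add_neg]
    exact bu_mul (bu_mul (bu_one_add h1 (bb_neg hy)) hv) (bu_one_add h1 hζ)
  have h0 : ee nm a * ((1 - yy nm a b v ζ) * v * (1 + ζ)) * ee nm b = 0 := by
    have e1 : ee nm a * v * ζ = ζ := by
      rw [← bb_left hζ, ← Matrix.mul_assoc, bu_ee_same hv, bb_left hζ]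
    have e2 : yy nm a b v ζ * v * ee nm b = yy nm a b v ζ := by
      rw [← bb_right hy, Matrix.mul_assoc, Matrix.mul_assoc, ← Matrix.mul_assoc (ee nm b),
        bu_ee_same hv]
    have e3 : yy nm a b v ζ * v * ζ = 0 := by
      have h5 : yy nm a b v ζ * v * ζ =
          (yy nm a b v ζ * ee nm b) * v * (ee nm a * ζ) := by
        rw [bb_right hy, bb_left hζ]
      have h6 : (yy nm a b v ζ * ee nm b) * v * (ee nm a * ζ) =
          yy nm a b v ζ * (ee nm b * v * ee nm a) * ζ := by simp only [Matrix.mul_assoc]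
      rw [h5, h6, bu_ee_zero hv h1, Matrix.mul_zero, Matrix.zero_mul]
    have e4 : ee nm a * ((1 - yy nm a b v ζ) * v * (1 + ζ)) * ee nm b =
        ee nm a * v * ee nm b + ee nm a * v * (ζ * ee nm b) -
          (ee nm a * yy nm a b v ζ) * v * ee nm b -
          (ee nm a * yy nm a b v ζ) * v * (ζ * ee nm b) := by
      noncomm_ring
    rw [e4, bb_right hζ, bb_left hy, e1, e2, e3, sub_zero]
    rw [yy]
    exact sub_self _
  intro i j hij
  by_cases h4 : nm i = a ∧ nm j = b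
  · have h5 := congrFun (congrFun h0 i) j
    rw [mul_ee_apply, if_pos h4.2, ee_mul_apply, if_pos h4.1, Matrix.zero_apply] at h5
    rw [h5, one_apply_ne]
    rintro rfl
    exact hne (h4.1.symm.trans h4.2)
  · by_cases h5 : nm i = b ∧ nm j = a
    · rw [h5.1, h5.2] at hij
      exact absurd h2 hij
    · exact hk i j fun h' => hij ((h3 _ _ h4 h5).1 h')

theorem yy_sq {a b : Fin N} (h : a ≠ b) {y : Mat r S} (hy : BB nm a b y) : y * y = 0 :=
  bb_mul_zero h.symm hy hy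

theorem elim_eq {a b : Fin N} (h : a ≠ b) {v ζ : Mat r S} (hζ : BB nm a b ζ) :
    v * (1 + ζ) = (1 + yy nm a b v ζ) * ((1 - yy nm a b v ζ) * v * (1 + ζ)) := by
  have hy : BB nm a b (yy nm a b v ζ) := bb_add (bb_ee a b v) hζ
  have h1 : (1 + yy nm a b v ζ) * (1 - yy nm a b v ζ) = 1 := by
    have := yy_sq h hy
    have h2 : (1 + yy nm a b v ζ) * (1 - yy nm a b v ζ) = 1 - yy nm a b v ζ * yy nm a b v ζ := by
      noncomm_ring
    rw [h2, this, sub_zero]
  rw [Matrix.mul_assoc (1 - _), ← Matrix.mul_assoc (1 + _), h1, Matrix.one_mul]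

theorem bm_ee {π : Equiv.Perm (Fin N)} {W : Mat r S} (hW : BM nm π W) (c : Fin N) :
    W * ee nm c = ee nm (π c) * W := by
  ext i j
  rw [mul_ee_apply, ee_mul_apply]
  by_cases h : nm i = π (nm j)
  · rw [h]
    simp only [EmbeddingLike.apply_eq_iff_eq]
  · rw [hW i j h]
    split_ifs <;> rfl

/-- conjugation of a block by a block monomial matrix -/
theorem bm_conj {π : Equiv.Perm (Fin N)} {W : Mat r S} (hW : BM nm π W) (hu : IsUnit W)
    {a b : Fin N} {y : Mat r S} (hy : BB nm a b y) :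
    ∃ y' : Mat r S, BB nm (π a) (π b) y' ∧ W * (1 + y) = (1 + y') * W := by
  obtain ⟨w, rfl⟩ := hu
  have hinv : ∀ c, ee nm c * (↑w⁻¹ : Mat r S) = (↑w⁻¹ : Mat r S) * ee nm (π c) := by
    intro c
    have h1 := bm_ee hW c
    calc ee nm c * (↑w⁻¹ : Mat r S) = (↑w⁻¹ : Mat r S) * ((w : Mat r S) * ee nm c) *
        (↑w⁻¹ : Mat r S) := by
          rw [← Matrix.mul_assoc, w.inv_mul, Matrix.one_mul]
      _ = _ := by
          rw [h1, Matrix.mul_assoc, Matrix.mul_assoc, w.mul_inv, Matrix.mul_one]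
  refine ⟨(w : Mat r S) * y * (↑w⁻¹ : Mat r S), bb_of ?_ ?_, ?_⟩
  · rw [← Matrix.mul_assoc, ← Matrix.mul_assoc, ← bm_ee hW, Matrix.mul_assoc (w : Mat r S),
      bb_left hy]
  · rw [Matrix.mul_assoc, ← hinv, ← Matrix.mul_assoc, Matrix.mul_assoc (w : Mat r S), bb_right hy]
  · rw [Matrix.add_mul, Matrix.one_mul, Matrix.mul_add, Matrix.mul_one,
      Matrix.mul_assoc _ (↑w⁻¹ : Mat r S), w.inv_mul, Matrix.mul_one]

theorem yy_map {a b : Fin N} (v ζ : Mat r S) (f : S →+* T) :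
    (yy nm a b v ζ).map f = yy nm a b (v.map f) (ζ.map f) := by
  rw [yy, yy, Matrix.map_add f (map_add f), Matrix.map_mul, Matrix.map_mul, ee_map, ee_map]

theorem elim_map {a b : Fin N} (v ζ : Mat r S) (f : S →+* T) :
    ((1 - yy nm a b v ζ) * v * (1 + ζ)).map f =
      (1 - yy nm a b (v.map f) (ζ.map f)) * v.map f * (1 + ζ.map f) := by
  rw [Matrix.map_mul, Matrix.map_mul, Matrix.map_sub f (map_sub f), Matrix.map_add f (map_add f),
    Matrix.map_one f (map_zero f) (map_one f), yy_map]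

theorem exists_lift_bb {f : S →+* T} (hf : Function.Surjective f) {a b : Fin N} {y₀ : Mat r T}
    (hy₀ : BB nm a b y₀) : ∃ y : Mat r S, BB nm a b y ∧ y.map f = y₀ := by
  choose s hs using hf
  refine ⟨Matrix.of fun i j => if nm i = a ∧ nm j = b then s (y₀ i j) else 0, ?_, ?_⟩
  · intro i j hij
    rw [of_apply, if_neg hij]
  · ext i j
    rw [map_apply, of_apply]
    split_ifs with h
    · exact hs _
    · rw [map_zero, hy₀ i j h]

/-- the stay identity -/
theorem stay_id {a b : Fin N} (h : a ≠ b) {y z : Mat r S} (hy : BB nm a b y) (hz : BB nm b a z)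
    (hyz : y * z = ee nm a) (hzy : z * y = ee nm b) :
    (1 + y : Mat r S) = (1 + z) * (1 - ee nm a - ee nm b + y - z) * (1 + z) := by
  have hzz : z * z = 0 := bb_mul_zero h hz hz
  have hyy : y * y = 0 := bb_mul_zero h.symm hy hy
  have e1 : ee nm a * z = 0 := by
    rw [← bb_left hz, ← Matrix.mul_assoc, ee_mul_ee_ne h, Matrix.zero_mul]
  have e2 : z * ee nm b = 0 := by
    rw [← bb_right hz, Matrix.mul_assoc, ee_mul_ee_ne h, Matrix.mul_zero]
  have e3 : ee nm b * z = z := bb_left hz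
  have s1 : (1 - ee nm a - ee nm b + y - z) * (1 + z) = 1 - ee nm b + y - z := by
    have : (1 - ee nm a - ee nm b + y - z) * (1 + z) = 1 - ee nm a - ee nm b + y - z +
        (z - ee nm a * z - ee nm b * z + y * z - z * z) := by noncomm_ring
    rw [this, e1, e3, hyz, hzz]
    abel
  rw [Matrix.mul_assoc, s1]
  have : (1 + z) * (1 - ee nm b + y - z) = 1 - ee nm b + y - z +
      (z - z * ee nm b + z * y - z * z) := by noncomm_ring
  rw [this, e2, hzy, hzz]
  abel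

end general

end LL

open LL

/-- T4.1. -/
theorem passStmt : PassStmt := by
  intro r N nm k k' a b hA π v₀ ζ₀ hv₀ hζ₀ hcase
  have hne : a ≠ b := fun h' => by
    have := hA.1
    rw [h'] at this
    exact lt_irrefl _ this
  refine ⟨(1 - yy nm a b v₀ ζ₀) * v₀ * (1 + ζ₀), bu_elim hA hv₀ hζ₀, ?_⟩
  intro A _ ψ hψ v hv hv0 W hW hWu
  rcases hcase with hπ | h0
  · obtain ⟨ζ, hζ, hζ0⟩ := exists_lift_bb hψ hζ₀
    have hy : BB nm a b (yy nm a b v ζ) := bb_add (bb_ee a b v) hζ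
    obtain ⟨y', hy', he⟩ := bm_conj hW hWu hy
    refine ⟨ζ, 1 + y', (1 - yy nm a b v ζ) * v * (1 + ζ), hζ, hζ0, bu_one_add hπ hy',
      bu_elim hA hv hζ, ?_, ?_⟩
    · rw [elim_map, hv0, hζ0]
    · rw [Matrix.mul_assoc, elim_eq hne hζ, ← Matrix.mul_assoc, he]
  · have hζ : BB nm a b (-(ee nm a * v * ee nm b)) := bb_neg (bb_ee a b v)
    have hy0 : yy nm a b v (-(ee nm a * v * ee nm b)) = 0 := by
      rw [yy, add_neg_cancel]
    have hζ0 : (-(ee nm a * v * ee nm b)).map ψ = ζ₀ := by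
      rw [yy] at h0
      rw [Matrix.map_neg ψ (map_neg ψ), Matrix.map_mul, Matrix.map_mul, ee_map, ee_map, hv0]
      exact (eq_neg_of_add_eq_zero_right h0).symm
    refine ⟨-(ee nm a * v * ee nm b), 1,
      (1 - yy nm a b v (-(ee nm a * v * ee nm b))) * v * (1 + -(ee nm a * v * ee nm b)), hζ, hζ0,
      bu_one, bu_elim hA hv hζ, ?_, ?_⟩
    · rw [elim_map, hv0, hζ0]
    · rw [hy0, sub_zero, Matrix.one_mul, Matrix.one_mul, Matrix.mul_assoc]

/-- T4.2. -/
theorem stayStmt : StayStmt := by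
  intro r N nm k k' a b hA π v₀ ζ₀ z₀ hv₀ hζ₀ hπ hI
  have hne : a ≠ b := fun h' => by
    have := hA.1
    rw [h'] at this
    exact lt_irrefl _ this
  refine ⟨(1 + z₀) * ((1 - yy nm a b v₀ ζ₀) * v₀ * (1 + ζ₀)),
    bu_mul (bu_one_add hA.2.1 hI.2.1) (bu_elim hA hv₀ hζ₀), ?_⟩
  intro A _ ψ y z hyz hy0 hz0 v hv hv0 W hW hWu
  obtain ⟨hy, hz, h1, h2⟩ := hyz
  have hζ : BB nm a b (y - ee nm a * v * ee nm b) := bb_sub hy (bb_ee a b v)
  have hyy : yy nm a b v (y - ee nm a * v * ee nm b) = y := by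
    rw [yy]
    abel
  have hζ0 : (y - ee nm a * v * ee nm b).map ψ = ζ₀ := by
    rw [Matrix.map_sub ψ (map_sub ψ), Matrix.map_mul, Matrix.map_mul, ee_map, ee_map, hv0, hy0, yy]
    abel
  obtain ⟨z', hz', he⟩ := bm_conj hW hWu hz
  refine ⟨y - ee nm a * v * ee nm b, 1 + z',
    (1 + z) * ((1 - yy nm a b v (y - ee nm a * v * ee nm b)) * v *
      (1 + (y - ee nm a * v * ee nm b))), hζ, hζ0, bu_one_add hπ hz',
    bu_mul (bu_one_add hA.2.1 hz) (bu_elim hA hv hζ), ?_, ?_⟩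
  · rw [Matrix.map_mul, elim_map, hv0, hζ0, Matrix.map_add ψ (map_add ψ),
      Matrix.map_one ψ (map_zero ψ) (map_one ψ), hz0]
  · rw [Matrix.mul_assoc W v, elim_eq (v := v) hne hζ, hyy]
    have e : W * ((1 + y) * ((1 - y) * v * (1 + (y - ee nm a * v * ee nm b)))) =
        (W * (1 + z)) * (1 - ee nm a - ee nm b + y - z) *
          ((1 + z) * ((1 - y) * v * (1 + (y - ee nm a * v * ee nm b)))) := by
      rw [stay_id hne hy hz h1 h2]
      simp only [Matrix.mul_assoc]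
    rw [e, he]
    simp only [Matrix.mul_assoc]

end Vale.Agent.P002B
end

section

/-!
# P002, genus 0, arbitrary classes: algebra of block matrices
-/

namespace Vale.Agent.P002B

open Matrix Vale.Agent.P002R Vale.Agent.P002L

section balg

variable {S T : Type*} [CommRing S] [CommRing T] {r N : ℕ} {nm : Fin r → Fin N}

/-! ### The idempotents -/

theorem ee_mul_apply (a : Fin N) (M : Mat r S) (i j : Fin r) :
    ((ee nm a : Mat r S) * M) i j = if nm i = a then M i j else 0 := by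
  rw [ee, diagonal_mul, ite_mul, one_mul, zero_mul]

theorem mul_ee_apply (a : Fin N) (M : Mat r S) (i j : Fin r) :
    (M * (ee nm a : Mat r S)) i j = if nm j = a then M i j else 0 := by
  rw [ee, mul_diagonal, mul_ite, mul_one, mul_zero]

theorem ee_mul_ee (a : Fin N) : (ee nm a : Mat r S) * ee nm a = ee nm a := by
  ext i j
  rw [ee_mul_apply]
  split_ifs with h
  · rfl
  · rw [ee, diagonal_apply]
    split_ifs <;> rfl

theorem ee_mul_ee_ne {a b : Fin N} (h : a ≠ b) : (ee nm a : Mat r S) * ee nm b = 0 := by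
  ext i j
  rw [ee_mul_apply, ee, diagonal_apply]
  split_ifs with h1 h2 h3
  · exact absurd (h1.symm.trans h3) h
  · rfl
  · rfl
  · rfl

/-! ### Matrices in one block -/

theorem BB.zero (a b : Fin N) : BB nm a b (0 : Mat r S) := fun _ _ _ => rfl

theorem BB.add {a b : Fin N} {y z : Mat r S} (hy : BB nm a b y) (hz : BB nm a b z) :
    BB nm a b (y + z) := fun i j h => by rw [Matrix.add_apply, hy i j h, hz i j h, add_zero]

theorem BB.neg {a b : Fin N} {y : Mat r S} (hy : BB nm a b y) : BB nm a b (-y) :=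
  fun i j h => by rw [Matrix.neg_apply, hy i j h, neg_zero]

theorem bb_ee (a b : Fin N) (M : Mat r S) : BB nm a b (ee nm a * M * ee nm b) := by
  intro i j h
  rw [mul_ee_apply, ee_mul_apply]
  split_ifs with h1 h2
  · exact absurd ⟨h2, h1⟩ h
  · rfl
  · rfl

theorem BB.ee_mul {a b : Fin N} {y : Mat r S} (hy : BB nm a b y) : ee nm a * y = y := by
  ext i j
  rw [ee_mul_apply]
  split_ifs with h
  · rfl
  · exact (hy i j fun h' => h h'.1).symm

theorem BB.mul_ee {a b : Fin N} {y : Mat r S} (hy : BB nm a b y) : y * ee nm b = y := by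
  ext i j
  rw [mul_ee_apply]
  split_ifs with h
  · rfl
  · exact (hy i j fun h' => h h'.2).symm

theorem BB.ee_mul_ne {a b c : Fin N} {y : Mat r S} (hy : BB nm a b y) (h : c ≠ a) :
    ee nm c * y = 0 := by rw [← hy.ee_mul, ← mul_assoc, ee_mul_ee_ne h, zero_mul]

theorem BB.mul_ee_ne {a b c : Fin N} {y : Mat r S} (hy : BB nm a b y) (h : b ≠ c) :
    y * ee nm c = 0 := by rw [← hy.mul_ee, mul_assoc, ee_mul_ee_ne h, mul_zero]

theorem BB.mul_ne {a b b' c : Fin N} {y z : Mat r S} (hy : BB nm a b y) (hz : BB nm b' c z)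
    (h : b ≠ b') : y * z = 0 := by
  rw [← hz.ee_mul, ← mul_assoc, hy.mul_ee_ne h, zero_mul]

theorem BB.mul_self {a b : Fin N} {y : Mat r S} (hy : BB nm a b y) (h : a ≠ b) : y * y = 0 :=
  hy.mul_ne hy h.symm

theorem BB.one_add_mul {a b : Fin N} {y z : Mat r S} (hy : BB nm a b y) (hz : BB nm a b z)
    (h : a ≠ b) : (1 + y) * (1 + z) = 1 + (y + z) := by
  rw [mul_add, mul_one, add_mul, one_mul, hy.mul_ne hz h.symm, add_zero, add_assoc]

theorem BB.one_add_mul_neg {a b : Fin N} {y : Mat r S} (hy : BB nm a b y) (h : a ≠ b) :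
    (1 + y) * (1 - y) = 1 := by
  rw [sub_eq_add_neg, hy.one_add_mul hy.neg h, add_neg_cancel, add_zero]

/-! ### Block unipotent matrices -/

theorem bu_one (k : Fin N → ℕ) : BU nm k (1 : Mat r S) := fun _ _ _ => rfl

theorem BU.mul {k : Fin N → ℕ} {u v : Mat r S} (hu : BU nm k u) (hv : BU nm k v) :
    BU nm k (u * v) := by
  intro i j h
  rw [mul_apply, Finset.sum_eq_single i]
  · rw [hu i i (lt_irrefl _), one_apply_eq, one_mul, hv i j h]
  · intro l _ hl
    by_cases h1 : k (nm i) < k (nm l)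
    · rw [hv l j fun h2 => h (h1.trans h2)]
      by_cases h3 : l = j
      · subst h3
        exact absurd h1 h
      · rw [one_apply_ne h3, mul_zero]
    · rw [hu i l h1, one_apply_ne (Ne.symm hl), zero_mul]
  · intro h'
    exact absurd (Finset.mem_univ _) h'

theorem BU.bt {k : Fin N → ℕ} {u : Mat r S} (hu : BU nm k u) :
    BlockTriangular u fun i => k (nm i) := fun i j h => by
  rw [hu i j (not_lt.2 h.le), one_apply_ne]
  rintro rfl
  exact lt_irrefl _ h

theorem BU.det {k : Fin N → ℕ} {u : Mat r S} (hu : BU nm k u) : u.det = 1 := by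
  rw [hu.bt.det]
  refine Finset.prod_eq_one fun a _ => ?_
  have h : u.toSquareBlock (fun i => k (nm i)) a = 1 := by
    ext i j
    rw [toSquareBlock_def, of_apply, hu _ _ (by rw [i.2, j.2]; exact lt_irrefl _), one_apply,
      one_apply]
    simp only [Subtype.ext_iff]
  rw [h, det_one]

theorem BU.isUnit_det {k : Fin N → ℕ} {u : Mat r S} (hu : BU nm k u) : IsUnit u.det := by
  rw [hu.det]
  exact isUnit_one

theorem BU.mul_inv {k : Fin N → ℕ} {u : Mat r S} (hu : BU nm k u) : u * u⁻¹ = 1 :=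
  mul_nonsing_inv _ hu.isUnit_det

theorem BU.inv_mul {k : Fin N → ℕ} {u : Mat r S} (hu : BU nm k u) : u⁻¹ * u = 1 :=
  nonsing_inv_mul _ hu.isUnit_det

theorem BU.inv {k : Fin N → ℕ} {u : Mat r S} (hu : BU nm k u) : BU nm k u⁻¹ := by
  have := Matrix.invertibleOfIsUnitDet u hu.isUnit_det
  have h1 : BlockTriangular u⁻¹ fun i => k (nm i) :=
    Matrix.blockTriangular_inv_of_blockTriangular hu.bt
  intro i j h
  rcases lt_or_eq_of_le (not_lt.1 h) with h2 | h2
  · rw [h1 h2, one_apply_ne]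
    rintro rfl
    exact lt_irrefl _ h2
  · have h3 : (u * u⁻¹) i j = (1 : Mat r S) i j := by rw [hu.mul_inv]
    rw [mul_apply, Finset.sum_eq_single i] at h3
    · rw [hu i i (lt_irrefl _), one_apply_eq, one_mul] at h3
      exact h3
    · intro l _ hl
      by_cases h4 : k (nm i) < k (nm l)
      · rw [h1 (i := l) (j := j) (by change k (nm j) < k (nm l); rw [h2]; exact h4), mul_zero]
      · rw [hu i l h4, one_apply_ne (Ne.symm hl), zero_mul]
    · intro h'
      exact absurd (Finset.mem_univ _) h'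

theorem BU.map_inv {k : Fin N → ℕ} {u : Mat r S} (hu : BU nm k u) (f : S →+* T) :
    (u⁻¹).map f = (u.map f)⁻¹ := by
  symm
  refine Matrix.inv_eq_left_inv ?_
  rw [← Matrix.map_mul, hu.inv_mul, Matrix.map_one _ (map_zero f) (map_one f)]

theorem bu_one_add {k : Fin N → ℕ} {a b : Fin N} (h : k a < k b) {y : Mat r S}
    (hy : BB nm a b y) : BU nm k (1 + y) := fun i j h' => by
  rw [Matrix.add_apply, hy i j, add_zero]
  rintro ⟨rfl, rfl⟩
  exact h' h

theorem bu_one_sub {k : Fin N → ℕ} {a b : Fin N} (h : k a < k b) {y : Mat r S}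
    (hy : BB nm a b y) : BU nm k (1 - y) := by
  rw [sub_eq_add_neg]
  exact bu_one_add h hy.neg

/-! ### Block monomial matrices -/

theorem bm_diagonal (d : Fin r → S) : BM nm 1 (diagonal d) := fun i j h => by
  rw [diagonal_apply_ne]
  rintro rfl
  exact h rfl

theorem bm_one : BM nm 1 (1 : Mat r S) := fun i j h => by
  rw [one_apply_ne]
  rintro rfl
  exact h rfl

theorem BM.mul {π π' : Equiv.Perm (Fin N)} {W W' : Mat r S} (hW : BM nm π W)
    (hW' : BM nm π' W') : BM nm (π * π') (W * W') := fun i j h => by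
  rw [mul_apply]
  refine Finset.sum_eq_zero fun l _ => ?_
  by_cases h1 : nm i = π (nm l)
  · rw [hW' l j, mul_zero]
    intro h2
    exact h (by rw [h1, h2, Equiv.Perm.mul_apply])
  · rw [hW i l h1, zero_mul]

/-! ### The stay identity -/

theorem stay_mul {a b : Fin N} (hab : a ≠ b) {y z : Mat r S} (hy : BB nm a b y)
    (hz : BB nm b a z) (h1 : y * z = ee nm a) (h2 : z * y = ee nm b) :
    (1 - ee nm a - ee nm b + y - z) * (1 - ee nm a - ee nm b - y + z) = 1 := by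
  have e1 : ee nm a * z = 0 := hz.ee_mul_ne hab
  have e2 : z * ee nm b = 0 := hz.mul_ee_ne hab
  have e3 : z * ee nm a = z := hz.mul_ee
  have e4 : ee nm b * z = z := hz.ee_mul
  have e5 : z * z = 0 := hz.mul_self hab.symm
  have f1 : ee nm b * y = 0 := hy.ee_mul_ne hab.symm
  have f2 : y * ee nm a = 0 := hy.mul_ee_ne hab.symm
  have f3 : y * ee nm b = y := hy.mul_ee
  have f4 : ee nm a * y = y := hy.ee_mul
  have f5 : y * y = 0 := hy.mul_self hab
  have g1 : (ee nm a : Mat r S) * ee nm a = ee nm a := ee_mul_ee a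
  have g2 : (ee nm b : Mat r S) * ee nm b = ee nm b := ee_mul_ee b
  have g3 : (ee nm a : Mat r S) * ee nm b = 0 := ee_mul_ee_ne hab
  have g4 : (ee nm b : Mat r S) * ee nm a = 0 := ee_mul_ee_ne hab.symm
  simp only [mul_add, add_mul, mul_sub, sub_mul, one_mul, mul_one, h1, h2, e1, e2, e3, e4, e5,
    f1, f2, f3, f4, f5, g1, g2, g3, g4]
  abel

theorem stay_isUnit {a b : Fin N} (hab : a ≠ b) {y z : Mat r S} (hy : BB nm a b y)
    (hz : BB nm b a z) (h1 : y * z = ee nm a) (h2 : z * y = ee nm b) :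
    IsUnit (1 - ee nm a - ee nm b + y - z : Mat r S) := by
  rw [isUnit_iff_isUnit_det]
  exact isUnit_det_of_right_inverse (stay_mul hab hy hz h1 h2)

theorem stay_bm {a b : Fin N} {y z : Mat r S} (hy : BB nm a b y)
    (hz : BB nm b a z) : BM nm (Equiv.swap a b) (1 - ee nm a - ee nm b + y - z : Mat r S) := by
  intro i j h
  have e1 : (ee nm a : Mat r S) i j = if i = j then (if nm i = a then 1 else 0) else 0 := by
    rw [ee, diagonal_apply]
  have e2 : (ee nm b : Mat r S) i j = if i = j then (if nm i = b then 1 else 0) else 0 := by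
    rw [ee, diagonal_apply]
  have e3 : y i j = 0 := hy i j fun h' => h (by rw [h'.1, h'.2, Equiv.swap_apply_right])
  have e4 : z i j = 0 := hz i j fun h' => h (by rw [h'.1, h'.2, Equiv.swap_apply_left])
  rw [Matrix.sub_apply, Matrix.add_apply, Matrix.sub_apply, Matrix.sub_apply, e1, e2, e3, e4,
    one_apply]
  by_cases hij : i = j
  · subst hij
    rw [if_pos rfl, if_pos rfl, if_pos rfl]
    by_cases ha : nm i = a
    · by_cases hb : nm i = b
      · exfalso
        rw [← ha, ← hb, Equiv.swap_self] at h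
        exact h rfl
      · rw [if_pos ha, if_neg hb]
        ring
    · by_cases hb : nm i = b
      · rw [if_neg ha, if_pos hb]
        ring
      · exfalso
        rw [Equiv.swap_apply_of_ne_of_ne ha hb] at h
        exact h rfl
  · rw [if_neg hij, if_neg hij, if_neg hij]
    ring

end balg

/-! ### Symbols and circuits -/

section sym

variable {R S T : Type} [CommRing R] [CommRing S] [CommRing T] {r N : ℕ} {nm : Fin r → Fin N}

theorem Valid.mono {y : ℕ → Mat r S × Mat r S} {L L' : List (Sy R N)} (h : Valid nm y L)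
    (h' : ∀ s ∈ L', s ∈ L) : Valid nm y L' := fun a b n hn => h a b n (h' _ hn)

theorem Sy.ev_bm (ι : R →+* S) {y : ℕ → Mat r S × Mat r S} {L : List (Sy R N)}
    (h : Valid nm y L) {s : Sy R N} (hs : s ∈ L) : BM nm s.pm (Sy.ev nm ι y s) := by
  cases s with
  | D d => exact bm_diagonal _
  | Y a b n => exact stay_bm (h a b n hs).1 (h a b n hs).2.1

theorem Sy.ev_isUnit (ι : R →+* S) {y : ℕ → Mat r S × Mat r S} {L : List (Sy R N)}
    (h : Valid nm y L) (hL : ∀ a b n, Sy.Y a b n ∈ L → a ≠ b) {s : Sy R N} (hs : s ∈ L) :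
    IsUnit (Sy.ev nm ι y s) := by
  cases s with
  | D d =>
    rw [isUnit_iff_isUnit_det]
    refine isUnit_det_of_right_inverse
      (B := diagonal fun i => ι (((d (nm i))⁻¹ : Rˣ) : R)) ?_
    change diagonal (fun i => ι (d (nm i))) * _ = _
    rw [diagonal_mul_diagonal, ← diagonal_one]
    congr 1
    funext i
    rw [← map_mul, Units.mul_inv, map_one]
  | Y a b n =>
    obtain ⟨h1, h2, h3, h4⟩ := h a b n hs
    exact stay_isUnit (hL a b n hs) h1 h2 h3 h4

theorem cev_nil (ι : R →+* S) (y : ℕ → Mat r S × Mat r S) :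
    cev nm ι y ([] : List (Sy R N)) = 1 := rfl

theorem cev_append (ι : R →+* S) (y : ℕ → Mat r S × Mat r S) (L L' : List (Sy R N)) :
    cev nm ι y (L ++ L') = cev nm ι y L * cev nm ι y L' := by
  rw [cev, List.map_append, List.prod_append, cev, cev]

theorem cev_singleton (ι : R →+* S) (y : ℕ → Mat r S × Mat r S) (s : Sy R N) :
    cev nm ι y [s] = Sy.ev nm ι y s := by
  rw [cev, List.map_singleton, List.prod_singleton]

theorem cev_bm (ι : R →+* S) {y : ℕ → Mat r S × Mat r S} {L : List (Sy R N)}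
    (h : Valid nm y L) : BM nm (cpm L) (cev nm ι y L) := by
  induction L with
  | nil => exact bm_one
  | cons s L ih =>
    rw [cev, cpm, List.map_cons, List.prod_cons, List.map_cons, List.prod_cons]
    exact (Sy.ev_bm ι h (List.mem_cons_self)).mul (ih (h.mono fun s hs => List.mem_cons_of_mem _ hs))

theorem cev_isUnit (ι : R →+* S) {y : ℕ → Mat r S × Mat r S} {L : List (Sy R N)}
    (h : Valid nm y L) (hL : ∀ a b n, Sy.Y a b n ∈ L → a ≠ b) : IsUnit (cev nm ι y L) := by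
  induction L with
  | nil => exact isUnit_one
  | cons s L ih =>
    rw [cev, List.map_cons, List.prod_cons]
    exact (Sy.ev_isUnit ι h hL (List.mem_cons_self)).mul
      (ih (h.mono fun s hs => List.mem_cons_of_mem _ hs)
        fun a b n hn => hL a b n (List.mem_cons_of_mem _ hn))

/-- The value depends only on the variables which occur. -/
theorem cev_congr (ι : R →+* S) {y y' : ℕ → Mat r S × Mat r S} {L : List (Sy R N)}
    (h : ∀ a b n, Sy.Y a b n ∈ L → y n = y' n) : cev nm ι y L = cev nm ι y' L := by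
  rw [cev, cev]
  congr 1
  refine List.map_congr_left fun s hs => ?_
  cases s with
  | D d => rfl
  | Y a b n =>
    simp only [Sy.ev]
    rw [h a b n hs]

/-! ### Cells -/

theorem InCell.bu_mul {k : Fin N → ℕ} {W X : Mat r S} (h : InCell nm k W X) {b : Mat r S}
    (hb : BU nm (bk N) b) : InCell nm k W (b * X) := by
  obtain ⟨b', v, hb', hv, rfl⟩ := h
  exact ⟨b * b', v, hb.mul hb', hv, by simp only [mul_assoc]⟩

theorem InCell.mul_bu {k : Fin N → ℕ} {W X : Mat r S} (h : InCell nm k W X) {v : Mat r S}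
    (hv : BU nm k v) : InCell nm k W (X * v) := by
  obtain ⟨b', v', hb', hv', rfl⟩ := h
  exact ⟨b', v' * v, hb', hv'.mul hv, by simp only [mul_assoc]⟩

end sym

end Vale.Agent.P002B
end

section

/-!
# P002, genus 0, arbitrary classes: the class step (T4.4)
-/

namespace Vale.Agent.P002B

open Matrix Vale.Agent.P002R Vale.Agent.P002L

namespace LC

section lifts

variable {A B : Type} [CommRing A] [CommRing B] {r N : ℕ} {nm : Fin r → Fin N}

theorem exists_lift_bu2 {ψ : A →+* B} (hψ : Function.Surjective ψ) {k k' : Fin N → ℕ}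
    {u₀ : Mat r B} (h1 : BU nm k u₀) (h2 : BU nm k' u₀) :
    ∃ u : Mat r A, BU nm k u ∧ BU nm k' u ∧ u.map ψ = u₀ := by
  choose s hs using hψ
  refine ⟨Matrix.of fun i j => if k (nm i) < k (nm j) ∧ k' (nm i) < k' (nm j) then s (u₀ i j)
    else (1 : Mat r A) i j, fun i j h => ?_, fun i j h => ?_, ?_⟩
  · rw [of_apply, if_neg fun h' => h h'.1]
  · rw [of_apply, if_neg fun h' => h h'.2]
  · ext i j
    rw [map_apply, of_apply]
    split_ifs with h
    · exact hs _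
    · have h3 : u₀ i j = (1 : Mat r B) i j := by
        by_cases h4 : k (nm i) < k (nm j)
        · exact h2 i j fun h5 => h ⟨h4, h5⟩
        · exact h1 i j h4
      rw [h3, one_apply, one_apply]
      split_ifs
      · exact map_one ψ
      · exact map_zero ψ

theorem exists_lift_kup2 {ψ : A →+* B} (hψ : Function.Surjective ψ) {κ : Fin r → ℕ} {l : ℕ → A}
    {M₀ : Mat r B} (hM₀ : Kup κ (fun j => ψ (l j)) M₀) :
    ∃ M : Mat r A, Kup κ l M ∧ M.map ψ = M₀ := by
  choose s hs using hψ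
  refine ⟨Matrix.of fun i j => if i = j then l (κ i) else if κ i < κ j then s (M₀ i j) else 0,
    ⟨fun i => ?_, fun i j h h' => ?_⟩, ?_⟩
  · rw [of_apply, if_pos rfl]
  · rw [of_apply, if_neg h, if_neg h']
  · ext i j
    rw [map_apply, of_apply]
    split_ifs with h1 h2
    · rw [← h1, hM₀.1]
    · exact hs _
    · rw [map_zero, hM₀.2 i j h1 h2]

theorem bu_mul_kup {k κ : Fin N → ℕ} {X M : Mat r A} {l : ℕ → A} (hX : BU nm k X)
    (hM : Kup (κ ∘ nm) l M) (hk : ∀ c d, κ c < κ d → k c < k d) (i j : Fin r)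
    (h : ¬ k (nm i) < k (nm j)) : (X * M) i j = if i = j then l (κ (nm i)) else 0 := by
  rw [mul_apply]
  have key : ∀ m : Fin r, m ≠ i ∨ m ≠ j → X i m * M m j = 0 := by
    intro m hm
    by_cases h1 : m = i
    · have h2 : m ≠ j := hm.resolve_left fun h' => h' h1
      have h3 : ¬ (κ ∘ nm) m < (κ ∘ nm) j := by
        intro h4
        refine h ?_
        rw [← h1]
        exact hk _ _ h4
      rw [hM.2 m j h2 h3, mul_zero]
    · by_cases h2 : k (nm i) < k (nm m)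
      · have h3 : m ≠ j := by
          rintro rfl
          exact h h2
        have h4 : ¬ (κ ∘ nm) m < (κ ∘ nm) j := fun h5 => h (h2.trans (hk _ _ h5))
        rw [hM.2 m j h3 h4, mul_zero]
      · rw [hX i m h2, one_apply_ne (Ne.symm h1), zero_mul]
  by_cases hij : i = j
  · subst hij
    rw [if_pos rfl, Finset.sum_eq_single i]
    · rw [hX i i (lt_irrefl _), one_apply_eq, one_mul, hM.1]
      rfl
    · intro m _ hm
      exact key m (Or.inl hm)
    · intro h'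
      exact absurd (Finset.mem_univ _) h'
  · rw [if_neg hij]
    refine Finset.sum_eq_zero fun m _ => key m ?_
    by_contra h'
    push Not at h'
    exact hij (h'.1.symm.trans h'.2)

theorem bu_last {k κ : Fin N → ℕ} {X M : Mat r A} {l : ℕ → Aˣ} (hX : BU nm k X)
    (hM : Kup (κ ∘ nm) (fun j => (l j : A)) M) (hk : ∀ c d, κ c < κ d → k c < k d) :
    BU nm k (diagonal (fun i => (((l (κ (nm i)))⁻¹ : Aˣ) : A)) * (X * M)) := by
  intro i j h
  rw [diagonal_mul, bu_mul_kup hX hM hk i j h, one_apply]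
  split_ifs with h1
  · rw [Units.inv_mul]
  · rw [mul_zero]

/-- `Kup` is stable under letters on the right. -/
theorem kup_mul_bb {κ : Fin N → ℕ} {l : ℕ → A} {M ζ : Mat r A} (hM : Kup (κ ∘ nm) l M)
    {a b : Fin N} (h : κ a < κ b) (hζ : BB nm a b ζ) : Kup (κ ∘ nm) l (M * (1 + ζ)) := by
  have h0 : ∀ i j, ¬ (κ ∘ nm) i < (κ ∘ nm) j → (M * ζ) i j = 0 := by
    intro i j hij
    rw [mul_apply]
    refine Finset.sum_eq_zero fun m _ => ?_
    by_cases h1 : nm m = a ∧ nm j = b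
    · have h2 : i ≠ m := by
        rintro rfl
        refine hij ?_
        change κ (nm i) < κ (nm j)
        rw [h1.1, h1.2]
        exact h
      have h3 : ¬ (κ ∘ nm) i < (κ ∘ nm) m := by
        intro h4
        refine hij (h4.trans ?_)
        change κ (nm m) < κ (nm j)
        rw [h1.1, h1.2]
        exact h
      rw [hM.2 i m h2 h3, zero_mul]
    · rw [hζ m j h1, mul_zero]
  refine ⟨fun i => ?_, fun i j hij hκ => ?_⟩
  · rw [mul_add, mul_one, Matrix.add_apply, hM.1, h0 i i (lt_irrefl _), add_zero]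
  · rw [mul_add, mul_one, Matrix.add_apply, hM.2 i j hij hκ, h0 i j hκ, add_zero]

/-- from the next key back to the previous one -/
theorem bu_back {k k' : Fin N → ℕ} {a b : Fin N} (hA : Adj k k' a b) (hab : a < b)
    {u : Mat r A} (h1 : BU nm (bk N) u) (h2 : BU nm k' u) : BU nm k u := by
  intro i j h
  by_cases h3 : nm i = a ∧ nm j = b
  · rw [h3.1, h3.2] at h
    exact absurd hA.1 h
  · by_cases h4 : nm i = b ∧ nm j = a
    · refine h1 i j ?_
      rw [h4.1, h4.2]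
      exact not_lt.2 (le_of_lt hab)
    · exact h2 i j fun h5 => h ((hA.2.2.1 _ _ h3 h4).2 h5)

theorem adj_symm {k k' : Fin N → ℕ} {a b : Fin N} (hA : Adj k k' a b) : Adj k' k b a := by
  obtain ⟨h1, h2, h3, h4⟩ := hA
  refine ⟨h2, h1, fun c d hc hd => (h3 c d hd hc).symm, fun c hcb hca => ?_⟩
  rw [← h3 c b (fun h => hca h.1) (fun h => hcb h.1), ← h3 c a (fun h => hca h.1)
    (fun h => hcb h.1)]
  exact (h4 c hca hcb).symm

theorem kp_head {κ : Fin N → ℕ} {k : Fin N → ℕ} {ks : List (Fin N → ℕ)} (h : KP κ k ks) :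
    k ∈ ks := by
  cases h with
  | last h => exact List.mem_singleton.2 rfl
  | step k' ks a b _ _ _ _ => exact List.mem_cons_self

/-- exchanged pairs stay exchanged -/
theorem kp_exch {κ : Fin N → ℕ} {k : Fin N → ℕ} {ks : List (Fin N → ℕ)} (h : KP κ k ks)
    {b a : Fin N} (hba : κ b < κ a) (hk : k b < k a) : ∀ k₁ ∈ ks, k₁ b < k₁ a := by
  induction h with
  | last k h =>
    intro k₁ hk₁
    rw [List.mem_singleton.1 hk₁]
    exact hk
  | step k k' ks c d hcd hκ hA hks ih =>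
    intro k₁ hk₁
    rcases List.mem_cons.1 hk₁ with rfl | h1
    · exact hk
    · refine ih ?_ k₁ h1
      refine (hA.2.2.1 b a ?_ ?_).1 hk
      · rintro ⟨rfl, rfl⟩
        exact absurd hba (not_lt.2 hκ.le)
      · rintro ⟨rfl, rfl⟩
        exact absurd hk (not_lt.2 hA.1.le)

end lifts

section letters

variable {R : Type} [CommRing R] {r N : ℕ}

/-- The lifting property of a letter step. -/
def LStep (nm : Fin r → Fin N) (φ : R →+* ℂ) (k k' : Fin N → ℕ) (a b : Fin N)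
    (L₀ : List (Sy R N)) (v₀ ζ₀ : Mat r ℂ) (Lx : List (Sy R N)) (y₁ : ℕ → Mat r ℂ × Mat r ℂ)
    (v₁ : Mat r ℂ) : Prop :=
  ∀ {A : Type} [CommRing A] (ι : R →+* A) (ψ : A →+* ℂ), (∀ x, ψ (ι x) = φ x) →
    Function.Surjective ψ → ∀ y : ℕ → Mat r A × Mat r A, Valid nm y (L₀ ++ Lx) →
    (∀ a b n, Sy.Y a b n ∈ L₀ ++ Lx → (y n).1.map ψ = (y₁ n).1 ∧ (y n).2.map ψ = (y₁ n).2) →
    ∀ v : Mat r A, BU nm k v → v.map ψ = v₀ →
    ∃ ζ b' v' : Mat r A, BB nm a b ζ ∧ ζ.map ψ = ζ₀ ∧ BU nm (bk N) b' ∧ BU nm k' v' ∧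
      v'.map ψ = v₁ ∧ cev nm ι y L₀ * v * (1 + ζ) = b' * cev nm ι y (L₀ ++ Lx) * v'

theorem mem_vr {L : List (Sy R N)} {a b : Fin N} {n : ℕ} (h : Sy.Y a b n ∈ L) :
    n ∈ L.filterMap Sy.vr := List.mem_filterMap.2 ⟨_, h, rfl⟩

theorem letter (hP : PassStmt) (hS : StayStmt) (hD : DichStmt) (φ : R →+* ℂ)
    (nm : Fin r → Fin N) {k k' : Fin N → ℕ} {a b : Fin N} (hA : Adj k k' a b)
    {L₀ : List (Sy R N)} {y₀ : ℕ → Mat r ℂ × Mat r ℂ} {n₀ : ℕ} {b₀ v₀ ζ₀ u₁ : Mat r ℂ}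
    (hC : Circ L₀) (hn : ∀ n ∈ L₀.filterMap Sy.vr, n < n₀) (hV : Valid nm y₀ L₀)
    (hb₀ : BU nm (bk N) b₀) (hv₀ : BU nm k v₀) (hζ₀ : BB nm a b ζ₀) (hu₁ : BU nm k' u₁)
    (hTP : TP nm (b₀ * cev nm φ y₀ L₀ * v₀ * (1 + ζ₀) * u₁) (fun c => k' c < k' b + 1)) :
    ∃ (Lx : List (Sy R N)) (y₁ : ℕ → Mat r ℂ × Mat r ℂ) (n₁ : ℕ) (v₁ : Mat r ℂ),
      (∀ n < n₀, y₁ n = y₀ n) ∧ n₀ ≤ n₁ ∧ Circ (L₀ ++ Lx) ∧
      (∀ n ∈ (L₀ ++ Lx).filterMap Sy.vr, n < n₁) ∧ Valid nm y₁ (L₀ ++ Lx) ∧ BU nm k' v₁ ∧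
      LStep nm φ k k' a b L₀ v₀ ζ₀ Lx y₁ v₁ := by
  have hne : a ≠ b := fun h' => by
    have := hA.1
    rw [h'] at this
    exact lt_irrefl _ this
  have hW : BM nm (cpm L₀) (cev nm φ y₀ L₀) := cev_bm φ hV
  have hWu : IsUnit (cev nm φ y₀ L₀) := cev_isUnit φ hV hC.2
  have hpass : (cpm L₀ a < cpm L₀ b ∨ yy nm a b v₀ ζ₀ = 0) →
      ∃ (Lx : List (Sy R N)) (y₁ : ℕ → Mat r ℂ × Mat r ℂ) (n₁ : ℕ) (v₁ : Mat r ℂ),
      (∀ n < n₀, y₁ n = y₀ n) ∧ n₀ ≤ n₁ ∧ Circ (L₀ ++ Lx) ∧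
      (∀ n ∈ (L₀ ++ Lx).filterMap Sy.vr, n < n₁) ∧ Valid nm y₁ (L₀ ++ Lx) ∧ BU nm k' v₁ ∧
      LStep nm φ k k' a b L₀ v₀ ζ₀ Lx y₁ v₁ := by
    intro h
    obtain ⟨v₁, hv₁, hl⟩ := hP nm k k' a b hA (cpm L₀) v₀ ζ₀ hv₀ hζ₀ h
    refine ⟨[], y₀, n₀, v₁, fun _ _ => rfl, le_rfl, ?_, ?_, ?_, hv₁, ?_⟩
    · rw [List.append_nil]
      exact hC
    · rw [List.append_nil]
      exact hn
    · rw [List.append_nil]
      exact hV
    · intro A _ ι ψ _ hψ y hy _ v hv hv0
      rw [List.append_nil] at hy ⊢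
      exact hl ψ hψ v hv hv0 _ (cev_bm ι hy) (cev_isUnit ι hy hC.2)
  rcases lt_or_gt_of_ne (fun h => hne ((cpm L₀).injective h) : cpm L₀ a ≠ cpm L₀ b) with hπ | hπ
  · exact hpass (Or.inl hπ)
  rcases hD nm k k' a b hA (cpm L₀) b₀ _ v₀ ζ₀ u₁ hb₀ hW hWu hv₀ hζ₀ hu₁ hπ hTP with h0 | ⟨z₀, hz₀⟩
  · exact hpass (Or.inr h0)
  obtain ⟨v₁, hv₁, hl⟩ := hS nm k k' a b hA (cpm L₀) v₀ ζ₀ z₀ hv₀ hζ₀ hπ hz₀
  have hvr : (L₀ ++ [Sy.Y a b n₀]).filterMap Sy.vr = L₀.filterMap Sy.vr ++ [n₀] := by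
    rw [List.filterMap_append]
    rfl
  refine ⟨[Sy.Y a b n₀], Function.update y₀ n₀ (yy nm a b v₀ ζ₀, z₀), n₀ + 1, v₁, fun n hn' => ?_,
    Nat.le_succ _, ⟨?_, ?_⟩, ?_, ?_, hv₁, ?_⟩
  · rw [Function.update_of_ne hn'.ne]
  · rw [hvr]
    refine List.Nodup.append hC.1 (List.nodup_singleton _) ?_
    intro n h1 h2
    rw [List.mem_singleton.1 h2] at h1
    exact lt_irrefl _ (hn _ h1)
  · intro a' b' n h
    rcases List.mem_append.1 h with h | h
    · exact hC.2 a' b' n h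
    · have := List.mem_singleton.1 h
      injection this with h1 h2 h3
      rw [h1, h2]
      exact hne
  · intro n h
    rw [hvr] at h
    rcases List.mem_append.1 h with h | h
    · exact (hn n h).trans (Nat.lt_succ_self _)
    · rw [List.mem_singleton.1 h]
      exact Nat.lt_succ_self _
  · intro a' b' n h
    rcases List.mem_append.1 h with h | h
    · rw [Function.update_of_ne (hn n (mem_vr h)).ne]
      exact hV a' b' n h
    · have := List.mem_singleton.1 h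
      injection this with h1 h2 h3
      rw [h1, h2, h3, Function.update_self]
      exact hz₀
  · intro A _ ι ψ _ _ y hy hyψ v hv hv0
    have hm : Sy.Y a b n₀ ∈ L₀ ++ [Sy.Y a b n₀] :=
      List.mem_append_right _ (List.mem_singleton.2 rfl)
    obtain ⟨e1, e2⟩ := hyψ a b n₀ hm
    rw [Function.update_self] at e1 e2
    have hy0 : Valid nm y L₀ := hy.mono fun s hs => List.mem_append_left _ hs
    obtain ⟨ζ, b', v', h1, h2, h3, h4, h5, h6⟩ := hl ψ (y n₀).1 (y n₀).2 (hy a b n₀ hm) e1 e2 v hv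
      hv0 _ (cev_bm ι hy0) (cev_isUnit ι hy0 hC.2)
    refine ⟨ζ, b', v', h1, h2, h3, h4, h5, ?_⟩
    rw [h6, cev_append, cev_singleton]
    rfl

end letters

end LC

open LC

/-- T4.4'. -/
theorem classAsm : ClassAsmStmt := by
  intro hP hS hD R _ φ r N nm κ l k ks hK
  induction hK with
  | last k h =>
    intro hbase L₀ y₀ n₀ b₀ v₀ u₀ M₀ hC hn hV hb₀ hv₀ hu₀ hu₀k hM₀ hTP
    have hk : ∀ c d, κ c < κ d → k c < k d := fun c d hcd => (h c d).2 (Or.inl hcd)
    have hvr : (L₀ ++ [Sy.D fun c => l (κ c)]).filterMap Sy.vr = L₀.filterMap Sy.vr := by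
      rw [List.filterMap_append]
      exact List.append_nil _
    have hmem : ∀ a b n, Sy.Y a b n ∈ L₀ ++ [Sy.D fun c => l (κ c)] → Sy.Y a b n ∈ L₀ := by
      intro a b n hmm
      rcases List.mem_append.1 hmm with h1 | h1
      · exact h1
      · exact absurd (List.mem_singleton.1 h1) (by intro h2; cases h2)
    refine ⟨[Sy.D fun c => l (κ c)], y₀, n₀,
      diagonal (fun i => (((Units.map (φ : R →* ℂ) (l (κ (nm i))))⁻¹ : ℂˣ) : ℂ)) *
        (v₀ * u₀ * M₀), fun e _ => if e then L₀.length + 1 else L₀.length, fun _ _ => rfl, le_rfl,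
      ⟨?_, ?_⟩, ?_, ?_, bu_last (l := fun j => Units.map (φ : R →* ℂ) (l j)) (hv₀.mul hu₀k) hM₀ hk,
      ?_⟩
    · rw [hvr]
      exact hC.1
    · exact fun a b n hmm => hC.2 a b n (hmem a b n hmm)
    · rw [hvr]
      exact hn
    · exact fun a b n hmm => hV a b n (hmem a b n hmm)
    · intro A _ ι ψ hcomp hψ y hy hyψ v hv hv0
      obtain ⟨u, hu, huk, hu0⟩ := exists_lift_bu2 hψ hu₀ hu₀k
      obtain ⟨M, hM, hM0⟩ := exists_lift_kup2 (l := fun j => ι (l j)) hψ (κ := κ ∘ nm) (M₀ := M₀)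
        (by simpa only [hcomp] using hM₀)
      have hbu := bu_last (l := fun j => Units.map (ι : R →* A) (l j)) (hv.mul huk) hM hk
      have he : cev nm ι y L₀ * v * u * M = 1 * cev nm ι y (L₀ ++ [Sy.D fun c => l (κ c)]) *
          (diagonal (fun i => (((Units.map (ι : R →* A) (l (κ (nm i))))⁻¹ : Aˣ) : A)) *
            (v * u * M)) := by
        have h2 : Sy.ev nm ι y (Sy.D fun c => l (κ c)) *
            diagonal (fun i => (((Units.map (ι : R →* A) (l (κ (nm i))))⁻¹ : Aˣ) : A)) = 1 := by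
          rw [Sy.ev, diagonal_mul_diagonal, ← diagonal_one]
          congr 1
          funext i
          exact (Units.map (ι : R →* A) (l (κ (nm i)))).mul_inv
        have h3 : cev nm ι y L₀ * Sy.ev nm ι y (Sy.D fun c => l (κ c)) *
            (diagonal (fun i => (((Units.map (ι : R →* A) (l (κ (nm i))))⁻¹ : Aˣ) : A)) *
              (v * u * M)) = cev nm ι y L₀ * (Sy.ev nm ι y (Sy.D fun c => l (κ c)) *
            diagonal (fun i => (((Units.map (ι : R →* A) (l (κ (nm i))))⁻¹ : Aˣ) : A))) *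
              (v * u * M) := by simp only [mul_assoc]
        rw [one_mul, cev_append, cev_singleton, h3, h2, mul_one]
        simp only [mul_assoc]
      refine ⟨u, M, 1, _, hu, huk, hu0, hM, hM0, bu_one _, hbu, ?_, he, ?_⟩
      · rw [Matrix.map_mul, Matrix.map_mul, Matrix.map_mul, hv0, hu0, hM0,
          diagonal_map (map_zero ψ)]
        congr 2
        funext i
        rw [← map_inv, ← map_inv]
        exact hcomp _
      · intro k₁ hk₁
        rw [List.mem_singleton.1 hk₁]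
        constructor
        · simp only [Bool.false_eq_true, if_false]
          rw [List.take_left']
          · exact ⟨1, v * u, bu_one _, hv.mul huk, by rw [one_mul, mul_assoc]⟩
          · rfl
        · simp only [if_true]
          rw [List.take_of_length_le (by rw [List.length_append, List.length_singleton])]
          exact ⟨1, _, bu_one _, hbu, he⟩
  | step k k' ks a b hab hκ hA hk ih =>
    intro hbase L₀ y₀ n₀ b₀ v₀ u₀ M₀ hC hn hV hb₀ hv₀ hu₀ hu₀k hM₀ hTP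
    have hne : a ≠ b := hab.ne
    have hz : BB nm a b (0 : Mat r ℂ) := BB.zero a b
    -- the new unipotent matrix
    obtain ⟨ζ₀, hζ₀e⟩ : ∃ ζ₀ : Mat r ℂ, ζ₀ = yy nm a b u₀ 0 := ⟨_, rfl⟩
    have hζ₀ : BB nm a b ζ₀ := by
      rw [hζ₀e]
      exact (bb_ee a b u₀).add hz
    obtain ⟨u₁, hu₁e⟩ : ∃ u₁ : Mat r ℂ, u₁ = (1 - ζ₀) * u₀ := ⟨_, rfl⟩
    have hu₁k' : BU nm k' u₁ := by
      have := LL.bu_elim hA hu₀k hz
      rw [add_zero, mul_one] at this
      rw [hu₁e, hζ₀e]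
      exact this
    have hu₁b : BU nm (bk N) u₁ := by
      rw [hu₁e]
      exact (bu_one_sub hab hζ₀).mul hu₀
    have hu₀₁ : (1 + ζ₀) * u₁ = u₀ := by
      rw [hu₁e, ← mul_assoc, hζ₀.one_add_mul_neg hne, one_mul]
    have hbase' : ∀ c d : Fin N, c < d → κ c ≤ κ d → k' c < k' d := by
      intro c d hcd hκcd
      refine (hA.2.2.1 c d ?_ ?_).1 (hbase c d hcd hκcd)
      · rintro ⟨rfl, rfl⟩
        exact absurd hκ (not_lt.2 hκcd)
      · rintro ⟨rfl, rfl⟩
        exact absurd hab (not_lt.2 hcd.le)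
    have hk'mem : k' ∈ k :: ks := List.mem_cons_of_mem _ (kp_head hk)
    -- the forward letter
    have hTP1 : TP nm (b₀ * cev nm φ y₀ L₀ * v₀ * (1 + ζ₀) * u₁) (fun c => k' c < k' b + 1) := by
      rw [mul_assoc _ (1 + ζ₀), hu₀₁]
      exact (hTP k' hk'mem _).1
    obtain ⟨Lx, y₁, n₁, v₁, hy₁, hn₁, hC₁, hN₁, hV₁, hv₁, hst₁⟩ :=
      letter hP hS hD φ nm hA hC hn hV hb₀ hv₀ hζ₀ hu₁k' hTP1
    -- the complex identity of the forward letter
    have hcf : ∀ {L : List (Sy R N)} {ya yb : ℕ → Mat r ℂ × Mat r ℂ} {m : ℕ},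
        (∀ n ∈ L.filterMap Sy.vr, n < m) → (∀ n < m, ya n = yb n) →
        cev nm φ ya L = cev nm φ yb L := fun hL hy =>
      cev_congr φ fun a b n hmm => hy n (hL n (mem_vr hmm))
    have hid : ∀ M : Mat r ℂ, M.map (RingHom.id ℂ) = M := fun M => by
      ext i j
      rfl
    obtain ⟨ζ', b₁, v', hζ', hζ'0, hb₁, hv', hv'0, he₁⟩ := hst₁ φ (RingHom.id ℂ) (fun _ => rfl)
      Function.surjective_id y₁ hV₁ (fun _ _ n _ => ⟨hid _, hid _⟩) v₀ hv₀ (hid _)
    rw [hid] at hζ'0 hv'0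
    subst hζ'0
    subst hv'0
    rw [hcf hn hy₁] at he₁
    -- the recursive call
    have hTP2 : ∀ k₁ ∈ ks, ∀ n : ℕ,
        TP nm (b₀ * b₁ * cev nm φ y₁ (L₀ ++ Lx) * v' * u₁) (fun a => k₁ a < n) ∧
        TP nm (b₀ * b₁ * cev nm φ y₁ (L₀ ++ Lx) * v' * u₁ * M₀) (fun a => k₁ a < n) := by
      intro k₁ hk₁ n
      have e : b₀ * b₁ * cev nm φ y₁ (L₀ ++ Lx) * v' * u₁ = b₀ * cev nm φ y₀ L₀ * v₀ * u₀ := by
        have : b₀ * b₁ * cev nm φ y₁ (L₀ ++ Lx) * v' * u₁ =
            b₀ * (b₁ * cev nm φ y₁ (L₀ ++ Lx) * v') * u₁ := by simp only [mul_assoc]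
        rw [this, ← he₁, ← hu₀₁]
        simp only [mul_assoc]
      rw [e]
      exact hTP k₁ (List.mem_cons_of_mem _ hk₁) n
    obtain ⟨L₁, y₂, n₂, v₂, p, hy₂, hn₂, hC₂, hN₂, hV₂, hv₂, hst₂⟩ :=
      ih hbase' (L₀ ++ Lx) y₁ n₁ (b₀ * b₁) v' u₁ M₀ hC₁ hN₁ hV₁ (hb₀.mul hb₁) hv₁ hu₁b hu₁k' hM₀ hTP2
    obtain ⟨u', M', b₂, v'', -, -, hu'0, -, hM'0, hb₂, hv'', hv''0, he₂, -⟩ := hst₂ φ
      (RingHom.id ℂ) (fun _ => rfl) Function.surjective_id y₂ hV₂ (fun _ _ n _ => ⟨hid _, hid _⟩)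
      v' hv₁ (hid _)
    rw [hid] at hu'0 hM'0 hv''0
    subst hu'0
    subst hM'0
    subst hv''0
    rw [hcf hN₁ hy₂] at he₂
    -- the return letter
    have hTP3 : TP nm (b₀ * b₁ * b₂ * cev nm φ y₂ (L₀ ++ Lx ++ L₁) * v'' * (1 + 0) * 1)
        (fun c => k c < k a + 1) := by
      have e : b₀ * b₁ * b₂ * cev nm φ y₂ (L₀ ++ Lx ++ L₁) * v'' * (1 + 0) * 1 =
          b₀ * cev nm φ y₀ L₀ * v₀ * u₀ * M' := by
        have h1 : b₀ * b₁ * b₂ * cev nm φ y₂ (L₀ ++ Lx ++ L₁) * v'' * (1 + 0) * 1 =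
            b₀ * b₁ * (b₂ * cev nm φ y₂ (L₀ ++ Lx ++ L₁) * v'') := by
          rw [add_zero, mul_one, mul_one]
          simp only [mul_assoc]
        have h2 : b₀ * b₁ * (cev nm φ y₁ (L₀ ++ Lx) * v' * u' * M') =
            b₀ * (b₁ * cev nm φ y₁ (L₀ ++ Lx) * v') * u' * M' := by simp only [mul_assoc]
        rw [h1, ← he₂, h2, ← he₁, ← hu₀₁]
        simp only [mul_assoc]
      rw [e]
      exact (hTP k List.mem_cons_self _).2
    obtain ⟨Ly, y₃, n₃, v₃, hy₃, hn₃, hC₃, hN₃, hV₃, hv₃, hst₃⟩ :=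
      letter hP hS hD φ nm (adj_symm hA) hC₂ hN₂ hV₂ ((hb₀.mul hb₁).mul hb₂) hv₂
        (BB.zero b a) (bu_one k) hTP3
    have hass : L₀ ++ (Lx ++ L₁ ++ Ly) = L₀ ++ Lx ++ L₁ ++ Ly := by
      simp only [List.append_assoc]
    refine ⟨Lx ++ L₁ ++ Ly, y₃, n₃, v₃, fun e k₁ => if k₁ = k then
        (if e then (L₀ ++ Lx ++ L₁ ++ Ly).length else L₀.length) else
        min (p e k₁) (L₀ ++ Lx ++ L₁).length, fun n hn' => ?_, (hn₁.trans hn₂).trans hn₃, ?_, ?_,
      ?_, hv₃, ?_⟩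
    · rw [hy₃ n (hn'.trans_le (hn₁.trans hn₂)), hy₂ n (hn'.trans_le hn₁), hy₁ n hn']
    · rw [hass]
      exact hC₃
    · rw [hass]
      exact hN₃
    · rw [hass]
      exact hV₃
    · intro A _ ι ψ hcomp hψ y hy hyψ v hv hv0
      rw [hass] at hy hyψ ⊢
      have hy2 : Valid nm y (L₀ ++ Lx ++ L₁) := hy.mono fun s hs => List.mem_append_left _ hs
      have hy1 : Valid nm y (L₀ ++ Lx) := hy2.mono fun s hs => List.mem_append_left _ hs
      have hyψ2 : ∀ a b n, Sy.Y a b n ∈ L₀ ++ Lx ++ L₁ →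
          (y n).1.map ψ = (y₂ n).1 ∧ (y n).2.map ψ = (y₂ n).2 := by
        intro a' b' n hmm
        rw [← hy₃ n (hN₂ n (mem_vr hmm))]
        exact hyψ a' b' n (List.mem_append_left _ hmm)
      have hyψ1 : ∀ a b n, Sy.Y a b n ∈ L₀ ++ Lx →
          (y n).1.map ψ = (y₁ n).1 ∧ (y n).2.map ψ = (y₁ n).2 := by
        intro a' b' n hmm
        rw [← hy₂ n (hN₁ n (mem_vr hmm))]
        exact hyψ2 a' b' n (List.mem_append_left _ hmm)
      obtain ⟨ζ, c₁, w₁, hζ, hζ0, hc₁, hw₁, hw₁0, hf₁⟩ := hst₁ ι ψ hcomp hψ y hy1 hyψ1 v hv hv0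
      obtain ⟨u, M, c₂, w₂, hu, huk', hu0, hM, hM0, hc₂, hw₂, hw₂0, hf₂, hcell⟩ :=
        hst₂ ι ψ hcomp hψ y hy2 hyψ2 w₁ hw₁ hw₁0
      obtain ⟨ξ, c₃, w₃, hξ, hξ0, hc₃, hw₃, hw₃0, hf₃⟩ :=
        hst₃ ι ψ hcomp hψ y hy hyψ w₂ hw₂ hw₂0
      have hone : BU nm k (1 + ζ) := bu_one_add hA.1 hζ
      have huk : BU nm k ((1 + ζ) * u) := hone.mul (bu_back hA hab hu huk')
      have e1 : cev nm ι y L₀ * v * ((1 + ζ) * u) = c₁ * (cev nm ι y (L₀ ++ Lx) * w₁ * u) := by
        rw [← mul_assoc _ (1 + ζ), hf₁]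
        simp only [mul_assoc]
      have e2 : cev nm ι y L₀ * v * ((1 + ζ) * u) * (M * (1 + ξ)) =
          c₁ * (cev nm ι y (L₀ ++ Lx) * w₁ * u * M) * (1 + ξ) := by
        rw [e1]
        simp only [mul_assoc]
      have e3 : cev nm ι y L₀ * v * ((1 + ζ) * u) * (M * (1 + ξ)) =
          c₁ * c₂ * c₃ * cev nm ι y (L₀ ++ Lx ++ L₁ ++ Ly) * w₃ := by
        rw [e2, hf₂]
        have : c₁ * (c₂ * cev nm ι y (L₀ ++ Lx ++ L₁) * w₂) * (1 + ξ) =
            c₁ * c₂ * (cev nm ι y (L₀ ++ Lx ++ L₁) * w₂ * (1 + ξ)) := by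
          simp only [mul_assoc]
        rw [this, hf₃]
        simp only [mul_assoc]
      refine ⟨(1 + ζ) * u, M * (1 + ξ), c₁ * c₂ * c₃, w₃, (bu_one_add hab hζ).mul hu, huk, ?_,
        kup_mul_bb hM hκ hξ, ?_, (hc₁.mul hc₂).mul hc₃, hw₃, hw₃0, e3, ?_⟩
      · rw [Matrix.map_mul, Matrix.map_add ψ (map_add ψ), Matrix.map_one ψ (map_zero ψ) (map_one ψ),
          hζ0, hu0, hu₀₁]
      · rw [Matrix.map_mul, Matrix.map_add ψ (map_add ψ), Matrix.map_one ψ (map_zero ψ) (map_one ψ),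
          hξ0, hM0, add_zero, mul_one]
      · intro k₁ hk₁
        by_cases hkk : k₁ = k
        · subst hkk
          simp only [if_true, Bool.false_eq_true, if_false]
          constructor
          · rw [List.append_assoc, List.append_assoc, List.take_left' rfl]
            exact ⟨1, v * ((1 + ζ) * u), bu_one _, hv.mul huk, by rw [one_mul, mul_assoc]⟩
          · rw [List.take_of_length_le le_rfl]
            exact ⟨_, w₃, (hc₁.mul hc₂).mul hc₃, hw₃, e3⟩
        · have hk₁' : k₁ ∈ ks := (List.mem_cons.1 hk₁).resolve_left hkk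
          simp only [if_neg hkk]
          have htake : ∀ e : Bool, (L₀ ++ Lx ++ L₁ ++ Ly).take
              (min (p e k₁) (L₀ ++ Lx ++ L₁).length) = (L₀ ++ Lx ++ L₁).take (p e k₁) := by
            intro e
            rw [List.take_append_of_le_length (min_le_right _ _)]
            rcases le_total (p e k₁) (L₀ ++ Lx ++ L₁).length with h | h
            · rw [min_eq_left h]
            · rw [min_eq_right h, List.take_length, List.take_of_length_le h]
          obtain ⟨h1, h2⟩ := hcell k₁ hk₁'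
          constructor
          · rw [htake, e1]
            exact h1.bu_mul hc₁
          · rw [htake, e2]
            exact (h2.bu_mul hc₁).mul_bu (bu_one_add (kp_exch hk hκ hA.2.1 k₁ hk₁') hξ)

end Vale.Agent.P002B
end

section

/-!
# P002, genus 0, arbitrary classes: statements of the parts, second file
-/

namespace Vale.Agent.P002B

open Matrix Vale.Agent.P002R Vale.Agent.P002L

/-- T12. Generic points of algebraic sets defined by few equations. -/
def GenStmt : Prop :=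
  ∀ (K₀ : Subfield ℂ), Countable K₀ → ∀ {σ ι τ : Type} [Fintype σ] [Fintype ι] [Fintype τ]
    (F : ι → MvPolynomial σ K₀) (x : σ → ℂ), (∀ i, MvPolynomial.aeval x (F i) = 0) →
    ∃ (Y : σ → ℂ) (T : Submodule ℂ (σ → ℂ)) (c : τ → ℂ),
      (∀ G : MvPolynomial σ K₀, MvPolynomial.aeval Y G = 0 → MvPolynomial.aeval x G = 0) ∧
      (∀ i, MvPolynomial.aeval Y (F i) = 0) ∧
      Fintype.card σ ≤ Module.finrank ℂ T + Fintype.card ι ∧
      ∀ H ∈ T, ∀ γ : τ → ℂ, ∃ δ : Derivation ℤ ℂ ℂ, (∀ z ∈ K₀, δ z = 0) ∧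
        (∀ i, δ (Y i) = H i) ∧ ∀ p, δ (c p) = γ p

/-- The value of a polynomial at a tuple of handles. -/
noncomputable def evH {g d : ℕ} (f : MvPolynomial ((Fin g × Bool) × Fin d × Fin d) ℂ)
    (a b : Fin g → (Mat d ℂ)ˣ) : ℂ :=
  MvPolynomial.eval (fun x => ((if x.1.2 then b x.1.1 else a x.1.1 : (Mat d ℂ)ˣ) :
    Mat d ℂ) x.2.1 x.2.2) f

/-- T13a. Every solution of the surface relation of genus at least two is in the closure of those
all of whose handles have scalar commutant. -/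
def Star1Stmt : Prop :=
  ∀ {g d : ℕ}, 0 < d → ∀ (z : ℂ) (a b : Fin (g + 2) → (Mat d ℂ)ˣ),
    ((swd a b : (Mat d ℂ)ˣ) : Mat d ℂ) = z • (1 : Mat d ℂ) →
    ∀ f : MvPolynomial ((Fin (g + 2) × Bool) × Fin d × Fin d) ℂ,
    (∀ a' b' : Fin (g + 2) → (Mat d ℂ)ˣ,
      ((swd a' b' : (Mat d ℂ)ˣ) : Mat d ℂ) = z • (1 : Mat d ℂ) →
      (∀ i, ∀ X : Mat d ℂ, Commute X (a' i : Mat d ℂ) → Commute X (b' i : Mat d ℂ) →
        ∃ c : ℂ, X = c • (1 : Mat d ℂ)) → evH f a' b' = 0) → evH f a b = 0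

/-- T13b. The same with irreducible representations. -/
def Star2Stmt : Prop :=
  ∀ {g d : ℕ}, 0 < d → ∀ (z : ℂ) (a b : Fin (g + 2) → (Mat d ℂ)ˣ),
    ((swd a b : (Mat d ℂ)ˣ) : Mat d ℂ) = z • (1 : Mat d ℂ) →
    ∀ f : MvPolynomial ((Fin (g + 2) × Bool) × Fin d × Fin d) ℂ,
    (∀ a' b' : Fin (g + 2) → (Mat d ℂ)ˣ,
      ((swd a' b' : (Mat d ℂ)ˣ) : Mat d ℂ) = z • (1 : Mat d ℂ) →
      Algebra.adjoin ℂ (Set.range fun x : Fin (g + 2) × Bool =>
        ((if x.2 then b' x.1 else a' x.1 : (Mat d ℂ)ˣ) : Mat d ℂ)) = ⊤ →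
      evH f a' b' = 0) → evH f a b = 0

section flag

variable {r N : ℕ}

/-- The standard flag of the blocks. -/
def Fl (nm : Fin r → Fin N) (t : ℕ) : Submodule ℂ (Fin r → ℂ) where
  carrier := {v | ∀ i, t ≤ (nm i : ℕ) → v i = 0}
  add_mem' := fun {v w} hv hw i hi => by rw [Pi.add_apply, hv i hi, hw i hi, add_zero]
  zero_mem' := fun i _ => rfl
  smul_mem' := fun c v hv i hi => by rw [Pi.smul_apply, hv i hi, smul_zero]

/-- The coordinate subspace of a set of names. -/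
def Co (nm : Fin r → Fin N) (T : Fin N → Prop) : Submodule ℂ (Fin r → ℂ) where
  carrier := {v | ∀ i, ¬ T (nm i) → v i = 0}
  add_mem' := fun {v w} hv hw i hi => by rw [Pi.add_apply, hv i hi, hw i hi, add_zero]
  zero_mem' := fun i _ => rfl
  smul_mem' := fun c v hv i hi => by rw [Pi.smul_apply, hv i hi, smul_zero]

end flag

/-- T6a. Stable refinements of a chain of subspaces, with the history `τ`. -/
def ChainStmt : Prop :=
  ∀ {r : ℕ} (ℰ : Set (Submodule ℂ (Fin r → ℂ))) {J : Type}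
    (w : J → Submodule ℂ (Fin r → ℂ) → Submodule ℂ (Fin r → ℂ) → Submodule ℂ (Fin r → ℂ))
    (ℱ₀ : Set (Submodule ℂ (Fin r → ℂ))), ⊥ ∈ ℱ₀ → ⊤ ∈ ℱ₀ → IsChain (· ≤ ·) ℱ₀ →
    ∃ (ℱ : Set (Submodule ℂ (Fin r → ℂ))) (τ : Submodule ℂ (Fin r → ℂ) → ℕ),
      IsChain (· ≤ ·) ℱ ∧ ℱ₀ ⊆ ℱ ∧ (∀ G ∈ ℱ₀, τ G = 0) ∧
      (∀ A ∈ ℱ, ∀ B ∈ ℱ, A ≤ B → (∀ C ∈ ℱ, A < C → ¬ C < B) → ∀ W,
        (W ∈ ℰ ∨ ∃ j, ∃ F ∈ ℱ, ∃ F' ∈ ℱ, F' ≤ F ∧ W = w j F F') → A ⊔ (B ⊓ W) ∈ ℱ) ∧
      (∀ G ∈ ℱ, G ∉ ℱ₀ → 0 < τ G) ∧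
      (∀ G ∈ ℱ, ∀ G' ∈ ℱ, G ∉ ℱ₀ → G' ∉ ℱ₀ → τ G = τ G' → G = G') ∧
      ∀ G ∈ ℱ, G ∉ ℱ₀ → ∃ A ∈ ℱ, ∃ B ∈ ℱ, A < G ∧ G < B ∧ τ A < τ G ∧ τ B < τ G ∧
        (∀ C ∈ ℱ, A < C → C < B → τ G ≤ τ C) ∧ ∃ W, (W ∈ ℰ ∨ ∃ j, ∃ F ∈ ℱ, ∃ F' ∈ ℱ, F' ≤ F ∧
          τ F < τ G ∧ τ F' < τ G ∧ W = w j F F') ∧ G = A ⊔ (B ⊓ W)

/-- T6b. Adapted bases of chains. -/
def BasisStmt : Prop :=
  ∀ {r : ℕ} (ℱ : Set (Submodule ℂ (Fin r → ℂ))), ⊥ ∈ ℱ → ⊤ ∈ ℱ → IsChain (· ≤ ·) ℱ →
    ∃ (g : (Mat r ℂ)ˣ) (N : ℕ) (nm : Fin r → Fin N), Monotone nm ∧ Function.Surjective nm ∧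
      ∀ G, G ∈ ℱ ↔ ∃ t ≤ N, G = (Fl nm t).map (Matrix.mulVecLin (g : Mat r ℂ))

/-- T6c. Flags in trivial position with respect to the blocks. -/
def PosStmt : Prop :=
  ∀ {r N : ℕ} (nm : Fin r → Fin N), Monotone nm → Function.Surjective nm →
    ∀ (c : Mat r ℂ) (ξ : ℕ → ℂ) (s : ℕ) (E : ℕ → Submodule ℂ (Fin r → ℂ)), E 0 = ⊥ → E s = ⊤ →
    Monotone E → (∀ j, ∀ v ∈ E (j + 1), c *ᵥ v - ξ j • v ∈ E j) →
    (∀ j, ∀ t < N, Fl nm t ⊔ (Fl nm (t + 1) ⊓ E j) = Fl nm t ∨
      Fl nm t ⊔ (Fl nm (t + 1) ⊓ E j) = Fl nm (t + 1)) →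
    ∃ (κ : Fin N → ℕ) (u M : Mat r ℂ), BU nm (bk N) u ∧ Kup (κ ∘ nm) ξ M ∧ c * u = u * M ∧
      (∀ x, κ x < s) ∧ ∀ j, E j = (Co nm fun a => κ a < j).map (Matrix.mulVecLin u)

/-- T6d. Standard initial segments and trivial position in terms of subspaces. -/
def SegPosStmt : Prop :=
  ∀ {r N : ℕ} (nm : Fin r → Fin N), Monotone nm → Function.Surjective nm →
    (∀ (κ : Fin N → ℕ) (u X : Mat r ℂ) (E : ℕ → Submodule ℂ (Fin r → ℂ)), BU nm (bk N) u →
      (∀ j, E j = (Co nm fun a => κ a < j).map (Matrix.mulVecLin u)) → ∀ l t t' : ℕ, t' ≤ t →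
      (Co nm (Seg κ l t t')).map (Matrix.mulVecLin (X * u)) =
        (E l ⊔ (E (l + 1) ⊓ Fl nm t) ⊔ Fl nm t').map (Matrix.mulVecLin X)) ∧
    (∀ (X : Mat r ℂ) (T : Fin N → Prop),
      (∀ c : Fin N, Fl nm c ⊔ (Fl nm (c + 1) ⊓ (Co nm T).map (Matrix.mulVecLin X)) = Fl nm c ∨
        Fl nm c ⊔ (Fl nm (c + 1) ⊓ (Co nm T).map (Matrix.mulVecLin X)) = Fl nm (c + 1)) →
      TP nm X T) ∧
    ∀ (X : Mat r ℂ) (T : Fin N → Prop) (c : Fin N), IP nm X T c ↔
      Fl nm (c + 1) ≤ Fl nm c ⊔ (Fl nm (c + 1) ⊓ (Co nm T).map (Matrix.mulVecLin X))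

/-- T6e. -/
def FlagAsmStmt : Prop := ChainStmt → BasisStmt → PosStmt → SegPosStmt → FlagStmt

end Vale.Agent.P002B
end

section

/-!
# P002, genus 0, arbitrary classes: T6e, assembly of the stable flag
-/

namespace Vale.Agent.P002B

open Matrix Vale.Agent.P002R Vale.Agent.P002L

namespace FA

variable {r N : ℕ}

/-- multiplication with an invertible matrix -/
noncomputable def ge (g : (Mat r ℂ)ˣ) : (Fin r → ℂ) ≃ₗ[ℂ] (Fin r → ℂ) :=
  LinearEquiv.ofLinearMap (Matrix.mulVecLin (g : Mat r ℂ))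
    (Matrix.mulVecLin ((g⁻¹ : (Mat r ℂ)ˣ) : Mat r ℂ))
    (by rw [← Matrix.mulVecLin_mul, Units.mul_inv, Matrix.mulVecLin_one])
    (by rw [← Matrix.mulVecLin_mul, Units.inv_mul, Matrix.mulVecLin_one])

/-- the action on subspaces -/
noncomputable def gm (g : (Mat r ℂ)ˣ) : Submodule ℂ (Fin r → ℂ) ≃o Submodule ℂ (Fin r → ℂ) :=
  Submodule.orderIsoMapComap (ge g)

theorem gm_apply (g : (Mat r ℂ)ˣ) (G : Submodule ℂ (Fin r → ℂ)) :
    gm g G = G.map (Matrix.mulVecLin (g : Mat r ℂ)) := rfl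

/-- the kernels -/
noncomputable def KK (c : Mat r ℂ) (ξ : ℕ → ℂ) (j : ℕ) : Submodule ℂ (Fin r → ℂ) :=
  LinearMap.ker (Qp c ξ j).mulVecLin

theorem mem_KK {c : Mat r ℂ} {ξ : ℕ → ℂ} {j : ℕ} {v : Fin r → ℂ} :
    v ∈ KK c ξ j ↔ Qp c ξ j *ᵥ v = 0 := by
  rw [KK, LinearMap.mem_ker, Matrix.mulVecLin_apply]

theorem KK_zero (c : Mat r ℂ) (ξ : ℕ → ℂ) : KK c ξ 0 = ⊥ := by
  rw [eq_bot_iff]
  intro v hv
  rw [mem_KK, Qp_zero, Matrix.one_mulVec] at hv
  rw [hv]
  exact Submodule.zero_mem _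

theorem KK_top {c : Mat r ℂ} {ξ : ℕ → ℂ} {s : ℕ} (h : Qp c ξ s = 0) : KK c ξ s = ⊤ := by
  rw [eq_top_iff]
  intro v _
  rw [mem_KK, h, Matrix.zero_mulVec]

theorem KK_mono (c : Mat r ℂ) (ξ : ℕ → ℂ) : Monotone (KK c ξ) := by
  refine monotone_nat_of_le_succ fun j v hv => ?_
  rw [mem_KK] at hv ⊢
  rw [Qp_succ, (Qp_comm c ξ j (ξ j)).eq, ← Matrix.mulVec_mulVec, hv, Matrix.mulVec_zero]

theorem KK_step (c : Mat r ℂ) (ξ : ℕ → ℂ) (j : ℕ) (v : Fin r → ℂ) (hv : v ∈ KK c ξ (j + 1)) :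
    c *ᵥ v - ξ j • v ∈ KK c ξ j := by
  rw [mem_KK] at hv ⊢
  rw [Qp_succ, ← Matrix.mulVec_mulVec, Matrix.sub_mulVec, Matrix.smul_mulVec,
    Matrix.one_mulVec] at hv
  exact hv

theorem gm_map (g : (Mat r ℂ)ˣ) {X Y : Mat r ℂ} (h : X * (g : Mat r ℂ) = (g : Mat r ℂ) * Y)
    (H : Submodule ℂ (Fin r → ℂ)) : gm g (H.map Y.mulVecLin) = (gm g H).map X.mulVecLin := by
  rw [gm_apply, gm_apply, ← Submodule.map_comp, ← Submodule.map_comp, ← Matrix.mulVecLin_mul,
    ← Matrix.mulVecLin_mul, h]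

theorem KK_conj (g : (Mat r ℂ)ˣ) {c d : Mat r ℂ} (h : c * (g : Mat r ℂ) = (g : Mat r ℂ) * d)
    (ξ : ℕ → ℂ) (j : ℕ) : gm g (KK d ξ j) = KK c ξ j := by
  have h1 := Qp_conj ξ h j
  ext v
  rw [gm_apply, Submodule.mem_map]
  constructor
  · rintro ⟨w, hw, rfl⟩
    rw [mem_KK] at hw ⊢
    rw [Matrix.mulVecLin_apply, Matrix.mulVec_mulVec, h1, ← Matrix.mulVec_mulVec, hw,
      Matrix.mulVec_zero]
  · intro hv
    refine ⟨((g⁻¹ : (Mat r ℂ)ˣ) : Mat r ℂ) *ᵥ v, ?_, ?_⟩
    · rw [mem_KK] at hv ⊢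
      have h2 : (g : Mat r ℂ) *ᵥ (Qp d ξ j *ᵥ (((g⁻¹ : (Mat r ℂ)ˣ) : Mat r ℂ) *ᵥ v)) = 0 := by
        rw [Matrix.mulVec_mulVec, Matrix.mulVec_mulVec, ← h1, Matrix.mul_assoc, Units.mul_inv,
          Matrix.mul_one, hv]
      have h3 := congrArg (fun z => ((g⁻¹ : (Mat r ℂ)ˣ) : Mat r ℂ) *ᵥ z) h2
      simp only [Matrix.mulVec_zero] at h3
      rw [Matrix.mulVec_mulVec, Units.inv_mul, Matrix.one_mulVec] at h3
      exact h3
    · rw [Matrix.mulVecLin_apply, Matrix.mulVec_mulVec, Units.mul_inv, Matrix.one_mulVec]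

/-! ### the standard flag -/

theorem mem_Fl {nm : Fin r → Fin N} {t : ℕ} {v : Fin r → ℂ} :
    v ∈ Fl nm t ↔ ∀ i, t ≤ (nm i : ℕ) → v i = 0 := Iff.rfl

theorem mem_Co {nm : Fin r → Fin N} {T : Fin N → Prop} {v : Fin r → ℂ} :
    v ∈ Co nm T ↔ ∀ i, ¬ T (nm i) → v i = 0 := Iff.rfl

theorem Fl_mono (nm : Fin r → Fin N) {t t' : ℕ} (h : t ≤ t') : Fl nm t ≤ Fl nm t' :=
  fun _ hv i hi => hv i (h.trans hi)

theorem single_Fl {nm : Fin r → Fin N} {t : ℕ} {i : Fin r} :
    (Pi.single i 1 : Fin r → ℂ) ∈ Fl nm t ↔ (nm i : ℕ) < t := by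
  constructor
  · intro h
    by_contra hc
    have := h i (not_lt.1 hc)
    rw [Pi.single_eq_same] at this
    exact one_ne_zero this
  · intro h j hj
    rw [Pi.single_apply, if_neg]
    rintro rfl
    omega

theorem Fl_le {nm : Fin r → Fin N} (hs : Function.Surjective nm) {t t' : ℕ} (ht : t ≤ N)
    (h : Fl nm t ≤ Fl nm t') : t ≤ t' := by
  by_contra hc
  obtain ⟨i, hi⟩ := hs ⟨t', by omega⟩
  have h1 : (Pi.single i 1 : Fin r → ℂ) ∈ Fl nm t := single_Fl.2 (by rw [hi]; simp; omega)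
  have h2 := single_Fl.1 (h h1)
  rw [hi] at h2
  simp at h2

theorem Fl_big (nm : Fin r → Fin N) {t : ℕ} (h : N ≤ t) : Fl nm t = ⊤ := by
  rw [eq_top_iff]
  intro v _ i hi
  have := (nm i).2
  omega

section pos

variable {nm : Fin r → Fin N} {g : (Mat r ℂ)ˣ} {ℱ : Set (Submodule ℂ (Fin r → ℂ))}
  (hℱ : ∀ G, G ∈ ℱ ↔ ∃ t ≤ N, G = (Fl nm t).map (Matrix.mulVecLin (g : Mat r ℂ)))

include hℱ

theorem mem_of (t : ℕ) : gm g (Fl nm t) ∈ ℱ := by
  rw [hℱ]
  rcases le_total t N with h | h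
  · exact ⟨t, h, rfl⟩
  · refine ⟨N, le_rfl, ?_⟩
    rw [Fl_big nm h, ← Fl_big nm (le_refl N)]
    rfl

theorem pos_of {H : Submodule ℂ (Fin r → ℂ)} {t : ℕ}
    (h : gm g (Fl nm t) ⊔ (gm g (Fl nm (t + 1)) ⊓ gm g H) ∈ ℱ) :
    Fl nm t ⊔ (Fl nm (t + 1) ⊓ H) = Fl nm t ∨ Fl nm t ⊔ (Fl nm (t + 1) ⊓ H) = Fl nm (t + 1) := by
  rw [← OrderIso.map_inf, ← OrderIso.map_sup, hℱ] at h
  obtain ⟨t', -, h⟩ := h
  have h1 : Fl nm t ⊔ (Fl nm (t + 1) ⊓ H) = Fl nm t' := (gm g).injective h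
  by_cases ht : t' ≤ t
  · left
    refine le_antisymm ?_ le_sup_left
    rw [h1]
    exact Fl_mono nm ht
  · right
    refine le_antisymm (sup_le (Fl_mono nm (Nat.le_succ t)) inf_le_left) ?_
    rw [h1]
    exact Fl_mono nm (by omega)

theorem consec (t : ℕ) : ∀ C ∈ ℱ, gm g (Fl nm t) < C → ¬ C < gm g (Fl nm (t + 1)) := by
  intro C hC h1 h2
  rw [hℱ] at hC
  obtain ⟨t', -, rfl⟩ := hC
  rw [← gm_apply, OrderIso.lt_iff_lt] at h1 h2
  have h3 : t < t' := by
    by_contra hc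
    exact absurd (Fl_mono nm (not_lt.1 hc)) (not_le_of_gt h1)
  have h4 : t' < t + 1 := by
    by_contra hc
    exact absurd (Fl_mono nm (not_lt.1 hc)) (not_le_of_gt h2)
  omega

end pos

/-! ### block unipotent matrices -/

theorem bu_det {nm : Fin r → Fin N} (hm : Monotone nm) {u : Mat r ℂ} (hu : BU nm (bk N) u) :
    u.det = 1 := by
  have h1 : u.BlockTriangular id := by
    intro i j hij
    simp only [id] at hij
    have h2 : nm j ≤ nm i := hm hij.le
    rw [hu i j (by simp only [bk]; exact not_lt.2 h2), Matrix.one_apply_ne hij.ne']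
  rw [Matrix.det_of_isUpperTriangular h1]
  refine Finset.prod_eq_one fun i _ => ?_
  rw [hu i i (lt_irrefl _), Matrix.one_apply_eq]

theorem bu_inj {nm : Fin r → Fin N} (hm : Monotone nm) {u : Mat r ℂ} (hu : BU nm (bk N) u) :
    Function.Injective u.mulVecLin := by
  have h1 : IsUnit u.det := by rw [bu_det hm hu]; exact isUnit_one
  have h2 := Matrix.mulVec_injective_iff_isUnit.2 ((Matrix.isUnit_iff_isUnit_det u).2 h1)
  exact h2

theorem bu_Fl {nm : Fin r → Fin N} (hm : Monotone nm) {u : Mat r ℂ} (hu : BU nm (bk N) u)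
    (t : ℕ) : (Fl nm t).map u.mulVecLin = Fl nm t := by
  refine Submodule.eq_of_le_of_finrank_eq ?_ ?_
  · rintro _ ⟨v, hv, rfl⟩ i hi
    rw [Matrix.mulVecLin_apply, Matrix.mulVec, dotProduct]
    refine Finset.sum_eq_zero fun j _ => ?_
    by_cases h : nm i < nm j
    · have : t ≤ (nm j : ℕ) := hi.trans (Fin.lt_def.1 h).le
      rw [hv j this, mul_zero]
    · rw [hu i j h]
      by_cases hij : i = j
      · subst hij
        rw [hv i hi, mul_zero]
      · rw [Matrix.one_apply_ne hij, zero_mul]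
  · exact (Submodule.equivMapOfInjective _ (bu_inj hm hu) _).finrank_eq.symm

theorem bu_IP {nm : Fin r → Fin N} (hm : Monotone nm) (hs : Function.Surjective nm) {u : Mat r ℂ}
    (hu : BU nm (bk N) u) (T : Fin N → Prop) (c : Fin N) :
    Fl nm (c + 1) ≤ Fl nm c ⊔ (Fl nm (c + 1) ⊓ (Co nm T).map u.mulVecLin) ↔ T c := by
  have hi := bu_inj hm hu
  have h1 : Fl nm c ⊔ (Fl nm (c + 1) ⊓ (Co nm T).map u.mulVecLin) =
      (Fl nm c ⊔ (Fl nm (c + 1) ⊓ Co nm T)).map u.mulVecLin := by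
    rw [Submodule.map_sup, Submodule.map_inf _ hi, bu_Fl hm hu, bu_Fl hm hu]
  rw [h1, ← bu_Fl hm hu (c + 1), Submodule.map_le_map_iff_of_injective hi]
  rw [bu_Fl hm hu (c + 1)]
  obtain ⟨i, hic⟩ := hs c
  constructor
  · intro h
    have h2 : (Pi.single i 1 : Fin r → ℂ) ∈ Fl nm (c + 1) := single_Fl.2 (by rw [hic]; omega)
    obtain ⟨a, ha, b, hb, hab⟩ := Submodule.mem_sup.1 (h h2)
    by_contra hT
    have h3 : a i = 0 := ha i (by rw [hic])
    have h4 : b i = 0 := hb.2 i (by rwa [hic])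
    have h5 := congrFun hab i
    rw [Pi.add_apply, h3, h4, Pi.single_eq_same, add_zero] at h5
    exact zero_ne_one h5
  · intro hT v hv
    refine Submodule.mem_sup.2 ⟨fun j => if nm j = c then 0 else v j, ?_,
      fun j => if nm j = c then v j else 0, ⟨?_, ?_⟩, ?_⟩
    · intro j hj
      by_cases h : nm j = c
      · simp [h]
      · simp only [h, if_false]
        refine hv j ?_
        have : (nm j : ℕ) ≠ c := fun h' => h (Fin.ext h')
        omega
    · intro j hj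
      by_cases h : nm j = c
      · rw [h] at hj; omega
      · simp [h]
    · intro j hj
      by_cases h : nm j = c
      · rw [h] at hj; exact absurd hT hj
      · simp [h]
    · ext j
      by_cases h : nm j = c <;> simp [h]

open Classical in
theorem finrank_Co (nm : Fin r → Fin N) (T : Fin N → Prop) :
    Module.finrank ℂ (Co nm T) = (Finset.univ.filter fun x => T (nm x)).card := by
  have e : (Co nm T) ≃ₗ[ℂ] ({x // T (nm x)} → ℂ) :=
    { toFun := fun v x => (v : Fin r → ℂ) x.1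
      map_add' := fun _ _ => rfl
      map_smul' := fun _ _ => rfl
      invFun := fun w => ⟨fun i => if h : T (nm i) then w ⟨i, h⟩ else 0, fun i hi => dif_neg hi⟩
      left_inv := by
        intro v
        ext i
        by_cases h : T (nm i)
        · simp only [h, ↓reduceDIte]
        · simp only [h, dif_neg, not_false_eq_true]
          exact (v.2 i h).symm
      right_inv := by
        intro w
        ext ⟨x, hx⟩
        simp [hx] }
  rw [e.finrank_eq, Module.finrank_fintype_fun_eq_card, Fintype.card_subtype]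

/-- The standard flag for the product. -/
theorem exists_k0 {nm : Fin r → Fin N} (hs : Function.Surjective nm) {P : Mat r ℂ} {ξ : ℕ → ℂ}
    {s : ℕ} (h0 : Qp P ξ s = 0) (hF : ∀ j, ∃ t, KK P ξ j = Fl nm t) :
    ∃ κ₀ : Fin N → ℕ, Monotone κ₀ ∧ Kup (κ₀ ∘ nm) ξ P ∧ (∀ x, κ₀ x < s) ∧
      ∀ j, KK P ξ j = Co nm fun a => κ₀ a < j := by
  classical
  have hne : ∀ x : Fin N, 0 < s := by
    intro x
    rcases Nat.eq_zero_or_pos s with h | h
    · exfalso
      obtain ⟨i, -⟩ := hs x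
      have h1 := KK_top h0
      rw [h, KK_zero] at h1
      have h2 : (Pi.single i 1 : Fin r → ℂ) ∈ (⊥ : Submodule ℂ (Fin r → ℂ)) := by
        rw [h1]; trivial
      rw [Submodule.mem_bot] at h2
      have h3 := congrFun h2 i
      rw [Pi.single_eq_same] at h3
      exact one_ne_zero h3
    · exact h
  have hex : ∀ x : Fin N, ∃ j, Fl nm (x + 1) ≤ KK P ξ (j + 1) := fun x =>
    ⟨s - 1, by rw [Nat.sub_add_cancel (hne x), KK_top h0]; exact le_top⟩
  refine ⟨fun x => Nat.find (hex x), ?_, ?_⟩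
  · intro x y hxy
    refine Nat.find_min' _ ((Fl_mono nm ?_).trans (Nat.find_spec (hex y)))
    have : (x : ℕ) ≤ y := hxy
    omega
  have hlt : ∀ (x : Fin N) j, Nat.find (hex x) < j ↔ Fl nm (x + 1) ≤ KK P ξ j := by
    intro x j
    constructor
    · intro h
      exact (Nat.find_spec (hex x)).trans (KK_mono P ξ h)
    · intro h
      rcases j with _ | j
      · exfalso
        obtain ⟨i, hi⟩ := hs x
        rw [KK_zero] at h
        have h2 : (Pi.single i 1 : Fin r → ℂ) ∈ Fl nm (x + 1) := single_Fl.2 (by rw [hi]; omega)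
        have h3 := h h2
        rw [Submodule.mem_bot] at h3
        have h3 := congrFun h3 i
        rw [Pi.single_eq_same] at h3
        exact one_ne_zero h3
      · exact Nat.lt_succ_of_le (Nat.find_min' _ h)
  have hCo : ∀ j, KK P ξ j = Co nm fun a => Nat.find (hex a) < j := by
    intro j
    obtain ⟨t, ht⟩ := hF j
    ext v
    rw [ht, mem_Fl, mem_Co]
    refine forall_congr' fun i => ?_
    rw [hlt, ht]
    have : (¬ Fl nm (nm i + 1) ≤ Fl nm t) ↔ t ≤ (nm i : ℕ) := by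
      constructor
      · intro h
        by_contra hc
        exact h (Fl_mono nm (by omega))
      · intro h h'
        have := Fl_le hs (nm i).2 h'
        omega
    rw [this]
  have hcol : ∀ i j : Fin r, ¬ Nat.find (hex (nm i)) < Nat.find (hex (nm j)) →
      P i j - ξ (Nat.find (hex (nm j))) * (1 : Mat r ℂ) i j = 0 := by
    intro i j hij
    have h1 : (Pi.single j 1 : Fin r → ℂ) ∈ KK P ξ (Nat.find (hex (nm j)) + 1) := by
      rw [hCo]
      intro i' hi'
      rw [Pi.single_apply, if_neg]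
      rintro rfl
      exact hi' (Nat.lt_succ_self _)
    have h2 := KK_step P ξ _ _ h1
    rw [hCo] at h2
    have h3 := h2 i hij
    rw [Pi.sub_apply, Matrix.mulVec_single_one, Pi.smul_apply, smul_eq_mul] at h3
    rw [Matrix.one_apply]
    rw [Pi.single_apply] at h3
    exact h3
  refine ⟨⟨fun i => ?_, fun i j hij hk => ?_⟩, fun x => ?_, hCo⟩
  · have h := hcol i i (lt_irrefl _)
    rw [Matrix.one_apply_eq, mul_one, sub_eq_zero] at h
    exact h
  · have h := hcol i j hk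
    rw [Matrix.one_apply_ne hij, mul_zero, sub_zero] at h
    exact h
  · rw [hlt, KK_top h0]
    exact le_top

theorem PP_conj {c d : ℕ → Mat r ℂ} {g : Mat r ℂ} (h : ∀ i, c i * g = g * d i) (n : ℕ) :
    PP c n * g = g * PP d n := by
  induction n with
  | zero => rw [PP, PP, Matrix.one_mul, Matrix.mul_one]
  | succ n ih => rw [PP, PP, Matrix.mul_assoc, h, ← Matrix.mul_assoc, ih, Matrix.mul_assoc]

end FA

open FA in
theorem flagAsm : FlagAsmStmt := by
  classical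
  intro hC hB hP hS r m c ξ s ξ₀ s₀ _ hc h0
  -- the chain
  obtain ⟨ℱ, τ, c1, c2, c3, c4, c5, -, c7⟩ := hC
    {W | ∃ i < m, ∃ j, W = KK (c i) (ξ i) j}
    (J := Fin m × Bool × ℕ)
    (fun j F F' => (KK (c j.1) (ξ j.1) j.2.2 ⊔ (KK (c j.1) (ξ j.1) (j.2.2 + 1) ⊓ F) ⊔ F').map
      (PP c (j.1 + sh j.2.1)).mulVecLin)
    (Set.range (KK (PP c m) ξ₀)) ⟨0, KK_zero _ _⟩ ⟨s₀, KK_top h0⟩ (by
      rintro _ ⟨i, rfl⟩ _ ⟨j, rfl⟩ -
      rcases le_total i j with h | h
      · exact Or.inl (KK_mono _ _ h)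
      · exact Or.inr (KK_mono _ _ h))
  obtain ⟨g, N, nm, nmm, nms, hℱ⟩ := hB ℱ (c2 ⟨0, KK_zero _ _⟩) (c2 ⟨s₀, KK_top h0⟩) c1
  obtain ⟨d, hd⟩ : ∃ d : ℕ → Mat r ℂ, ∀ i, d i = ((g⁻¹ : (Mat r ℂ)ˣ) : Mat r ℂ) * c i * (g : Mat r ℂ) :=
    ⟨_, fun _ => rfl⟩
  have hcd : ∀ i, c i * (g : Mat r ℂ) = (g : Mat r ℂ) * d i := fun i => by
    rw [hd, ← Matrix.mul_assoc, ← Matrix.mul_assoc, Units.mul_inv, Matrix.one_mul]
  have hPP := PP_conj hcd
  have hmem := mem_of hℱ
  have hcon := consec hℱ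
  -- stability in the adapted basis
  have hst1 : ∀ i < m, ∀ j, ∀ t < N, Fl nm t ⊔ (Fl nm (t + 1) ⊓ KK (d i) (ξ i) j) = Fl nm t ∨
      Fl nm t ⊔ (Fl nm (t + 1) ⊓ KK (d i) (ξ i) j) = Fl nm (t + 1) := by
    intro i hi j t _
    refine pos_of hℱ ?_
    rw [KK_conj g (hcd i)]
    exact c4 _ (hmem t) _ (hmem (t + 1)) ((gm g).monotone (Fl_mono nm (Nat.le_succ t))) (hcon t) _
      (Or.inl ⟨i, hi, j, rfl⟩)
  -- positions
  have hpos : ∀ i, ∃ (κ : Fin N → ℕ) (u M : Mat r ℂ), i < m → BU nm (bk N) u ∧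
      Kup (κ ∘ nm) (ξ i) M ∧ d i * u = u * M ∧ (∀ x, κ x < s i) ∧
      ∀ j, KK (d i) (ξ i) j = (Co nm fun a => κ a < j).map (Matrix.mulVecLin u) := by
    intro i
    by_cases hi : i < m
    · have htop : KK (d i) (ξ i) (s i) = ⊤ := by
        refine (gm g).injective ?_
        rw [KK_conj g (hcd i), KK_top (hc i hi), OrderIso.map_top]
      obtain ⟨κ, u, M, h⟩ := hP nm nmm nms (d i) (ξ i) (s i) (KK (d i) (ξ i)) (KK_zero _ _) htop
        (KK_mono _ _) (KK_step _ _) (hst1 i hi)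
      exact ⟨κ, u, M, fun _ => h⟩
    · exact ⟨fun _ => 0, 0, 0, fun h => absurd h hi⟩
  choose κ u M hpos using hpos
  -- the product
  have hQ0 : Qp (PP d m) ξ₀ s₀ = 0 := by
    have h1 := Qp_conj ξ₀ (hPP m) s₀
    rw [h0, Matrix.zero_mul] at h1
    have h2 := congrArg (fun z => ((g⁻¹ : (Mat r ℂ)ˣ) : Mat r ℂ) * z) h1
    simp only [Matrix.mul_zero] at h2
    rw [← Matrix.mul_assoc, Units.inv_mul, Matrix.one_mul] at h2
    exact h2.symm
  have hF0 : ∀ j, ∃ t, KK (PP d m) ξ₀ j = Fl nm t := by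
    intro j
    have h1 : gm g (KK (PP d m) ξ₀ j) ∈ ℱ := by
      rw [KK_conj g (hPP m)]
      exact c2 ⟨j, rfl⟩
    rw [hℱ] at h1
    obtain ⟨t, -, ht⟩ := h1
    exact ⟨t, (gm g).injective ht⟩
  obtain ⟨κ₀, k1, k2, k3, k4⟩ := exists_k0 nms hQ0 hF0
  have hsegs : ∀ i < m, ∀ (e : Bool) (l t t' : ℕ), t' ≤ t →
      gm g ((Co nm (Seg (κ i) l t t')).map (Matrix.mulVecLin (PP d (i + sh e) * u i))) =
      (KK (c i) (ξ i) l ⊔ (KK (c i) (ξ i) (l + 1) ⊓ gm g (Fl nm t)) ⊔ gm g (Fl nm t')).map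
        (PP c (i + sh e)).mulVecLin := by
    intro i hi e l t t' htt
    rw [(hS nm nmm nms).1 (κ i) (u i) (PP d (i + sh e)) (KK (d i) (ξ i)) (hpos i hi).1
      (hpos i hi).2.2.2.2 l t t' htt, gm_map g (hPP (i + sh e)), OrderIso.map_sup, OrderIso.map_sup,
      OrderIso.map_inf, KK_conj g (hcd i), KK_conj g (hcd i)]
  -- rank function
  have hrk : ∃ rk : Fin N → Fin N → ℕ, ∀ p q, rk p q =
      sInf {n | ∃ t : ℕ, (p : ℕ) < t ∧ t ≤ q ∧ n = τ (gm g (Fl nm t))} := ⟨_, fun _ _ => rfl⟩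
  obtain ⟨rk, hrk⟩ := hrk
  have hrk1 : ∀ (p q : Fin N) (t : ℕ), (p : ℕ) < t → t ≤ q → rk p q ≤ τ (gm g (Fl nm t)) := by
    intro p q t h1 h2
    rw [hrk]
    exact Nat.sInf_le ⟨t, h1, h2, rfl⟩
  have hrk2 : ∀ p q : Fin N, p < q → ∃ t : ℕ, (p : ℕ) < t ∧ t ≤ q ∧ rk p q = τ (gm g (Fl nm t)) := by
    intro p q hpq
    have hne : {n | ∃ t : ℕ, (p : ℕ) < t ∧ t ≤ q ∧ n = τ (gm g (Fl nm t))}.Nonempty :=
      ⟨_, q, hpq, le_rfl, rfl⟩
    have := Nat.sInf_mem hne
    rw [← hrk] at this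
    exact this
  refine ⟨g, N, nm, κ, κ₀, d, u, M, rk, hd, nmm, nms, k1, ?_, ⟨k2, k3, ?_⟩, ?_, ?_, ?_⟩
  · intro i hi
    obtain ⟨h1, h2, h3, h4, h5⟩ := hpos i hi
    refine ⟨h1, h2, h3, h4, fun j _ => ?_⟩
    change Module.finrank ℂ (KK (d i) (ξ i) j) = _
    rw [h5 j, ← (Submodule.equivMapOfInjective _ (bu_inj nmm h1) _).finrank_eq, finrank_Co]
    congr!
  · intro j _
    change Module.finrank ℂ (KK (PP d m) ξ₀ j) = _
    rw [k4 j, finrank_Co]
    congr!
  · intro i hi e l t t' htt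
    refine (hS nm nmm nms).2.1 _ _ fun x => pos_of hℱ ?_
    refine c4 _ (hmem x) _ (hmem (x + 1)) ((gm g).monotone (Fl_mono nm (Nat.le_succ x))) (hcon x) _
      (Or.inr ⟨(⟨i, hi⟩, e, l), gm g (Fl nm t), hmem t, gm g (Fl nm t'), hmem t',
        (gm g).monotone (Fl_mono nm htt), ?_⟩)
    exact hsegs i hi e l t t' htt
  · intro p' p q q' h1 h2 h3
    obtain ⟨t, ht1, ht2, ht3⟩ := hrk2 p q h2
    rw [ht3]
    refine hrk1 p' q' t ?_ ?_
    · have : (p' : ℕ) ≤ p := h1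
      omega
    · have : (q : ℕ) ≤ q' := h3
      omega
  · intro p q hpq hk
    obtain ⟨t, ht1, ht2, ht3⟩ := hrk2 p q hpq
    have hG0 : gm g (Fl nm t) ∉ Set.range (KK (PP c m) ξ₀) := by
      rintro ⟨j, hj⟩
      rw [← KK_conj g (hPP m)] at hj
      have h1 : KK (PP d m) ξ₀ j = Fl nm t := (gm g).injective hj
      rw [k4] at h1
      obtain ⟨i, hi⟩ := nms p
      obtain ⟨i', hi'⟩ := nms q
      have h2 : (Pi.single i 1 : Fin r → ℂ) ∈ Fl nm t := single_Fl.2 (by rw [hi]; exact ht1)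
      rw [← h1] at h2
      have h3 : κ₀ p < j := by
        by_contra hc
        have := h2 i (by rwa [hi])
        rw [Pi.single_eq_same] at this
        exact one_ne_zero this
      have h4 : (Pi.single i' 1 : Fin r → ℂ) ∈ Co nm fun a => κ₀ a < j := by
        intro x hx
        rw [Pi.single_apply, if_neg]
        rintro rfl
        rw [hi'] at hx
        exact hx (lt_of_eq_of_lt hk.symm h3)
      rw [h1] at h4
      have h5 := single_Fl.1 h4
      rw [hi'] at h5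
      omega
    obtain ⟨A, hA, B, hB', hAG, hGB, hτA, hτB, -, W, hW, hG⟩ := c7 _ (hmem t) hG0
    rw [hℱ] at hA hB'
    obtain ⟨a, haN, rfl⟩ := hA
    obtain ⟨b, hbN, rfl⟩ := hB'
    rw [← gm_apply] at hAG hGB hτA hτB hG
    rw [← gm_apply] at hG
    have hat : a < t := by
      by_contra hcon'
      exact absurd ((gm g).monotone (Fl_mono nm (not_lt.1 hcon'))) (not_le_of_gt hAG)
    have htb : t < b := by
      by_contra hcon'
      exact absurd ((gm g).monotone (Fl_mono nm (not_lt.1 hcon'))) (not_le_of_gt hGB)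
    have hap : a ≤ p := by
      by_contra hcon'
      have := hrk1 p q a (by omega) (by omega)
      omega
    have hqb : (q : ℕ) < b := by
      by_contra hcon'
      have := hrk1 p q b (by omega) (by omega)
      omega
    obtain ⟨W', rfl⟩ : ∃ W', gm g W' = W := (gm g).surjective W
    have hG' : Fl nm t = Fl nm a ⊔ (Fl nm b ⊓ W') := by
      refine (gm g).injective ?_
      rw [OrderIso.map_sup, OrderIso.map_inf]
      exact hG
    have hWp : Fl nm (p + 1) ≤ Fl nm p ⊔ (Fl nm (p + 1) ⊓ W') := by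
      intro v hv
      have h1 : v ∈ Fl nm t := Fl_mono nm ht1 hv
      rw [hG'] at h1
      obtain ⟨v1, hv1, v2, hv2, rfl⟩ := Submodule.mem_sup.1 h1
      have h2 : v1 ∈ Fl nm (p + 1) := Fl_mono nm (by omega) hv1
      refine Submodule.mem_sup.2 ⟨v1, Fl_mono nm hap hv1, v2, ⟨?_, hv2.2⟩, rfl⟩
      have h3 := Submodule.sub_mem _ hv h2
      rwa [add_sub_cancel_left] at h3
    have hWq : ¬ Fl nm (q + 1) ≤ Fl nm q ⊔ (Fl nm (q + 1) ⊓ W') := by
      intro h
      have h1 : Fl nm (q + 1) ⊓ W' ≤ Fl nm q := by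
        refine (inf_le_inf_right W' (Fl_mono nm (by omega : (q : ℕ) + 1 ≤ b))).trans ?_
        refine (le_sup_right : _ ≤ Fl nm a ⊔ (Fl nm b ⊓ W')).trans ?_
        rw [← hG']
        exact Fl_mono nm ht2
      have h2 := Fl_le nms q.2 (h.trans (sup_le le_rfl h1))
      omega
    rcases hW with ⟨i, hi, l, hW⟩ | ⟨⟨⟨i, hi⟩, e, l⟩, F, hF, F', hF', hFF, hτF, hτF', hW⟩
    · left
      refine ⟨i, hi, ?_⟩
      obtain ⟨h1, -, -, -, h5⟩ := hpos i hi
      rw [← KK_conj g (hcd i)] at hW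
      have hW' := (gm g).injective hW
      rw [hW', h5 l] at hWp hWq
      rw [bu_IP nmm nms h1] at hWp hWq
      omega
    · right
      rw [hℱ] at hF hF'
      obtain ⟨a', ha', rfl⟩ := hF
      obtain ⟨b', hb', rfl⟩ := hF'
      rw [← gm_apply, ← gm_apply, OrderIso.le_iff_le] at hFF
      rw [← gm_apply] at hτF hτF' hW
      rw [← gm_apply] at hW
      have hba : b' ≤ a' := Fl_le nms hb' hFF
      rw [← hsegs i hi e l a' b' hba] at hW
      have hW' := (gm g).injective hW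
      rw [hW'] at hWp hWq
      refine ⟨i, hi, e, l, a', b', hba, ((hS nm nmm nms).2.2 _ _ p).2 hWp,
        fun h => hWq (((hS nm nmm nms).2.2 _ _ q).1 h), ?_⟩
      intro p' q' _ hsep
      rcases hsep with ⟨h1, h2⟩ | ⟨h1, h2⟩
      · have := hrk1 p' q' a' h1 h2
        omega
      · have := hrk1 p' q' b' h1 h2
        omega

end Vale.Agent.P002B
end

section

/-!
# P002, genus 0, arbitrary classes: standard initial segments and trivial position
-/

namespace Vale.Agent.P002B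

open Matrix Vale.Agent.P002R Vale.Agent.P002L

namespace SegPos

section

variable {r N : ℕ} {nm : Fin r → Fin N}

theorem mem_Fl {t : ℕ} {v : Fin r → ℂ} : v ∈ Fl nm t ↔ ∀ i, t ≤ (nm i : ℕ) → v i = 0 := Iff.rfl

theorem mem_Co {T : Fin N → Prop} {v : Fin r → ℂ} : v ∈ Co nm T ↔ ∀ i, ¬ T (nm i) → v i = 0 :=
  Iff.rfl

theorem Fl_eq_Co (t : ℕ) : Fl nm t = Co nm fun a => (a : ℕ) < t := by
  ext v
  rw [mem_Fl, mem_Co]
  exact forall_congr' fun i => by rw [not_lt]

theorem Co_and (S T : Fin N → Prop) : Co nm S ⊓ Co nm T = Co nm fun a => S a ∧ T a := by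
  ext v
  rw [Submodule.mem_inf, mem_Co, mem_Co, mem_Co]
  constructor
  · rintro ⟨h1, h2⟩ i hi
    by_cases hS : S (nm i)
    · exact h2 i fun hT => hi ⟨hS, hT⟩
    · exact h1 i hS
  · intro h
    exact ⟨fun i hi => h i fun hh => hi hh.1, fun i hi => h i fun hh => hi hh.2⟩

theorem Co_or (S T : Fin N → Prop) : Co nm S ⊔ Co nm T = Co nm fun a => S a ∨ T a := by
  classical
  apply le_antisymm
  · exact sup_le (fun v hv i hi => hv i fun hh => hi (Or.inl hh))
      fun v hv i hi => hv i fun hh => hi (Or.inr hh)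
  · intro v hv
    rw [Submodule.mem_sup]
    refine ⟨fun i => if S (nm i) then v i else 0, fun i hi => if_neg hi,
      fun i => if S (nm i) then 0 else v i, fun i hi => ?_, ?_⟩
    · show (if S (nm i) then (0 : ℂ) else v i) = 0
      by_cases hS : S (nm i)
      · exact if_pos hS
      · rw [if_neg hS]
        exact hv i fun hh => hh.elim hS hi
    · funext i
      show (if S (nm i) then v i else 0) + (if S (nm i) then (0 : ℂ) else v i) = v i
      by_cases hS : S (nm i)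
      · rw [if_pos hS, if_pos hS, add_zero]
      · rw [if_neg hS, if_neg hS, zero_add]

theorem BU_diag {u : Mat r ℂ} (hu : BU nm (bk N) u) (i : Fin r) : u i i = 1 := by
  rw [hu i i (lt_irrefl _), Matrix.one_apply_eq]

theorem BU_det (hm : Monotone nm) {u : Mat r ℂ} (hu : BU nm (bk N) u) : u.det = 1 := by
  rw [Matrix.det_of_isUpperTriangular]
  · exact Finset.prod_eq_one fun i _ => BU_diag hu i
  · intro i j hij
    have hji : j < i := hij
    rw [hu i j (fun h => absurd (hm hji.le) (not_le.2 h)), Matrix.one_apply_ne hji.ne']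

theorem BU_inj (hm : Monotone nm) {u : Mat r ℂ} (hu : BU nm (bk N) u) :
    Function.Injective (Matrix.mulVecLin u) := by
  have hun : IsUnit u := by
    rw [Matrix.isUnit_iff_isUnit_det, BU_det hm hu]
    exact isUnit_one
  have := Matrix.mulVec_injective_iff_isUnit.2 hun
  exact this

theorem BU_Fl_le {u : Mat r ℂ} (hu : BU nm (bk N) u) (t : ℕ) :
    (Fl nm t).map (Matrix.mulVecLin u) ≤ Fl nm t := by
  rintro _ ⟨v, hv, rfl⟩ i hi
  rw [Matrix.mulVecLin_apply]
  show ∑ j, u i j * v j = 0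
  refine Finset.sum_eq_zero fun j _ => ?_
  by_cases hj : t ≤ (nm j : ℕ)
  · rw [hv j hj, mul_zero]
  · have h1 : ¬ bk N (nm i) < bk N (nm j) := by
      show ¬ ((nm i : ℕ) < (nm j : ℕ))
      omega
    have h2 : i ≠ j := by
      rintro rfl
      exact hj hi
    rw [hu i j h1, Matrix.one_apply_ne h2, zero_mul]

theorem BU_Fl (hm : Monotone nm) {u : Mat r ℂ} (hu : BU nm (bk N) u) (t : ℕ) :
    (Fl nm t).map (Matrix.mulVecLin u) = Fl nm t := by
  refine Submodule.eq_of_le_of_finrank_eq (BU_Fl_le hu t) ?_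
  exact (Submodule.equivMapOfInjective _ (BU_inj hm hu) _).finrank_eq.symm

end

theorem seg_map {r N : ℕ} {nm : Fin r → Fin N} (hm : Monotone nm) (κ : Fin N → ℕ) (u X : Mat r ℂ)
    (E : ℕ → Submodule ℂ (Fin r → ℂ)) (hu : BU nm (bk N) u)
    (hE : ∀ j, E j = (Co nm fun a => κ a < j).map (Matrix.mulVecLin u)) (l t t' : ℕ) :
    (Co nm (Seg κ l t t')).map (Matrix.mulVecLin (X * u)) =
      (E l ⊔ (E (l + 1) ⊓ Fl nm t) ⊔ Fl nm t').map (Matrix.mulVecLin X) := by
  rw [Matrix.mulVecLin_mul, Submodule.map_comp]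
  congr 1
  rw [← BU_Fl hm hu t, ← BU_Fl hm hu t', hE l, hE (l + 1),
    ← Submodule.map_inf _ (BU_inj hm hu), ← Submodule.map_sup, ← Submodule.map_sup,
    Fl_eq_Co t, Fl_eq_Co t', Co_and, Co_or, Co_or]
  congr 2
  funext a
  apply propext
  show (κ a < l ∨ (κ a = l ∧ (a : ℕ) < t) ∨ (a : ℕ) < t') ↔ _
  constructor
  · rintro (h | ⟨h1, h2⟩ | h)
    · exact Or.inl (Or.inl h)
    · exact Or.inl (Or.inr ⟨by omega, h2⟩)
    · exact Or.inr h
  · rintro ((h | ⟨h1, h2⟩) | h)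
    · exact Or.inl h
    · rcases Nat.lt_or_ge (κ a) l with h3 | h3
      · exact Or.inl h3
      · exact Or.inr (Or.inl ⟨by (clear * - h1 h3; omega), h2⟩)
    · exact Or.inr (Or.inr h)

theorem ip_iff {r N : ℕ} (nm : Fin r → Fin N) (X : Mat r ℂ) (T : Fin N → Prop) (c : Fin N) :
    IP nm X T c ↔
      Fl nm (c + 1) ≤ Fl nm c ⊔ (Fl nm (c + 1) ⊓ (Co nm T).map (Matrix.mulVecLin X)) := by
  classical
  constructor
  · intro h z hz
    obtain ⟨v, h1, h2, h3⟩ := h z
    rw [Submodule.mem_sup]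
    have hX : X *ᵥ v ∈ Fl nm (c + 1) := fun i hi => h2 i (Fin.lt_def.2 hi)
    refine ⟨z - X *ᵥ v, ?_, X *ᵥ v, Submodule.mem_inf.2 ⟨hX, v, h1, rfl⟩, sub_add_cancel _ _⟩
    intro i hi
    rw [Pi.sub_apply]
    rcases Nat.lt_or_ge (c : ℕ) (nm i : ℕ) with h4 | h4
    · rw [hz i h4, hX i h4, sub_zero]
    · rw [h3 i (Fin.ext (le_antisymm h4 hi)), sub_self]
  · intro h w
    have hz : (fun i => if nm i = c then w i else 0) ∈ Fl nm (c + 1) := by
      intro i hi
      refine if_neg fun h4 => ?_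
      rw [h4] at hi
      omega
    obtain ⟨a, ha, b, hb, hab⟩ := Submodule.mem_sup.1 (h hz)
    obtain ⟨hb1, v, hv, hvb⟩ := Submodule.mem_inf.1 hb
    rw [Matrix.mulVecLin_apply] at hvb
    refine ⟨v, hv, fun i hi => ?_, fun i hi => ?_⟩
    · rw [hvb]
      exact hb1 i (Fin.lt_def.1 hi)
    · have h5 := congrFun hab i
      rw [Pi.add_apply, if_pos hi, ha i (by rw [hi]), zero_add] at h5
      rw [hvb, h5]

end SegPos

open SegPos in
/-- T6d. -/
theorem segPosStmt : SegPosStmt := by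
  intro r N nm hm _
  refine ⟨fun κ u X E hu hE l t t' _ => seg_map hm κ u X E hu hE l t t', ?_, ip_iff nm⟩
  intro X T h c
  rcases h c with h | h
  · left
    intro v hv h2 i hi
    have h1 : X *ᵥ v ∈ Fl nm c := by
      rw [← h]
      exact Submodule.mem_sup_right (Submodule.mem_inf.2
        ⟨fun i hi => h2 i (Fin.lt_def.2 hi), v, hv, rfl⟩)
    exact h1 i (by rw [hi])
  · right
    rw [ip_iff]
    exact h.symm.le

end Vale.Agent.P002B
end

section

/-!
# P002, genus 0, arbitrary classes: flags in trivial position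
-/

namespace Vale.Agent.P002B

open Matrix Vale.Agent.P002R Vale.Agent.P002L

namespace PosB

open SegPos

variable {r N : ℕ} {nm : Fin r → Fin N}

theorem Fl_mono {t t' : ℕ} (h : t ≤ t') : Fl nm t ≤ Fl nm t' := fun _ hv i hi => hv i (h.trans hi)

theorem Fl_top : Fl nm N = ⊤ := by
  rw [eq_top_iff]
  intro v _ i hi
  exact absurd (nm i).isLt (not_lt.2 hi)

theorem Fl_zero : Fl nm 0 = ⊥ := by
  rw [eq_bot_iff]
  intro v hv
  rw [Submodule.mem_bot]
  funext i
  exact hv i (Nat.zero_le _)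

/-- The block `a` is met in everything. -/
def PP' (nm : Fin r → Fin N) (E : ℕ → Submodule ℂ (Fin r → ℂ)) (a : Fin N) (j : ℕ) : Prop :=
  Fl nm a ⊔ (Fl nm (a + 1) ⊓ E j) = Fl nm (a + 1)

theorem PP'_zero (hs : Function.Surjective nm) {E : ℕ → Submodule ℂ (Fin r → ℂ)} (h0 : E 0 = ⊥)
    (a : Fin N) : ¬ PP' nm E a 0 := by
  classical
  intro h
  unfold PP' at h
  rw [h0, inf_bot_eq, sup_bot_eq] at h
  obtain ⟨i, hi⟩ := hs a
  have h1 : Pi.single i (1 : ℂ) ∈ Fl nm (a + 1) := by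
    intro k hk
    rw [Pi.single_apply, if_neg]
    rintro rfl
    rw [hi] at hk
    omega
  rw [← h] at h1
  have h2 := h1 i (by rw [hi])
  rw [Pi.single_eq_same] at h2
  exact one_ne_zero h2

theorem PP'_mono {E : ℕ → Submodule ℂ (Fin r → ℂ)} (hE : Monotone E) (a : Fin N) {j j' : ℕ}
    (hj : j ≤ j') (h : PP' nm E a j) : PP' nm E a j' := by
  apply le_antisymm
  · exact sup_le (Fl_mono (Nat.le_succ _)) inf_le_left
  · exact h.symm.le.trans (sup_le_sup_left (inf_le_inf_left _ (hE hj)) _)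

theorem PP'_top {E : ℕ → Submodule ℂ (Fin r → ℂ)} {s : ℕ} (hs : E s = ⊤) (a : Fin N) :
    PP' nm E a s := by
  unfold PP'
  rw [hs, inf_top_eq]
  exact sup_eq_right.2 (Fl_mono (Nat.le_succ _))

theorem exists_key (hs : Function.Surjective nm) {E : ℕ → Submodule ℂ (Fin r → ℂ)} {s : ℕ}
    (h0 : E 0 = ⊥) (h1 : E s = ⊤) (hE : Monotone E) (a : Fin N) :
    ∃ k < s, ∀ j, PP' nm E a j ↔ k < j := by
  classical
  have hex : ∃ j, PP' nm E a j := ⟨s, PP'_top h1 a⟩
  have hpos : 0 < Nat.find hex := by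
    rw [Nat.find_pos]
    exact PP'_zero hs h0 a
  have hle : Nat.find hex ≤ s := Nat.find_min' hex (PP'_top h1 a)
  refine ⟨Nat.find hex - 1, by omega, fun j => ⟨fun h => ?_, fun h => ?_⟩⟩
  · have := Nat.find_min' hex h
    omega
  · exact PP'_mono hE a (by omega) (Nat.find_spec hex)

theorem exists_col {E : ℕ → Submodule ℂ (Fin r → ℂ)} {j : ℕ} (i : Fin r)
    (h : PP' nm E (nm i) j) : ∃ w ∈ E j, ∀ k, nm i ≤ nm k → w k = (1 : Mat r ℂ) k i := by
  classical
  unfold PP' at h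
  have h1 : Pi.single i (1 : ℂ) ∈ Fl nm (nm i + 1) := by
    intro k hk
    rw [Pi.single_apply, if_neg]
    rintro rfl
    omega
  rw [← h] at h1
  obtain ⟨x, hx, w, hw, hxw⟩ := Submodule.mem_sup.1 h1
  refine ⟨w, (Submodule.mem_inf.1 hw).2, fun k hk => ?_⟩
  have h2 := congrFun hxw k
  rw [Pi.add_apply, hx k hk, zero_add] at h2
  rw [h2, Pi.single_apply, Matrix.one_apply]

theorem le_map {E : ℕ → Submodule ℂ (Fin r → ℂ)} {κ : Fin N → ℕ}
    {u : Mat r ℂ} (hu : BU nm (bk N) u) (j : ℕ)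
    (hcol : (Co nm fun a => κ a < j).map (Matrix.mulVecLin u) ≤ E j)
    (hpos : ∀ t : Fin N, ¬ κ t < j → Fl nm t ⊔ (Fl nm (t + 1) ⊓ E j) = Fl nm t) (t : ℕ)
    (ht : t ≤ N) : Fl nm t ⊓ E j ≤ (Co nm fun a => κ a < j).map (Matrix.mulVecLin u) := by
  classical
  induction t with
  | zero =>
    rw [Fl_zero, bot_inf_eq]
    exact bot_le
  | succ t ih =>
    intro z hz
    obtain ⟨hz1, hz2⟩ := Submodule.mem_inf.1 hz
    have htN : t < N := ht
    by_cases hk : κ ⟨t, htN⟩ < j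
    · set v : Fin r → ℂ := fun i => if (nm i : ℕ) = t then z i else 0 with hv
      have hvC : v ∈ Co nm fun a => κ a < j := by
        intro i hi
        rw [hv]
        refine if_neg fun h => hi ?_
        have : nm i = ⟨t, htN⟩ := Fin.ext h
        rw [this]
        exact hk
      have huv : Matrix.mulVecLin u v ∈ (Co nm fun a => κ a < j).map (Matrix.mulVecLin u) :=
        ⟨v, hvC, rfl⟩
      have hd : z - Matrix.mulVecLin u v ∈ Fl nm t := by
        intro i hi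
        have hvF : v ∈ Fl nm (t + 1) := by
          intro k hk'
          rw [hv]
          exact if_neg (by (clear * - htN hk'; omega))
        rw [Pi.sub_apply]
        rcases Nat.lt_or_ge t (nm i : ℕ) with h4 | h4
        · rw [hz1 i h4, BU_Fl_le hu (t + 1) ⟨v, hvF, rfl⟩ i h4, sub_zero]
        · have h5 : (nm i : ℕ) = t := le_antisymm h4 hi
          have h6 : Matrix.mulVecLin u v i = z i := by
            rw [Matrix.mulVecLin_apply]
            show ∑ k, u i k * v k = z i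
            rw [Finset.sum_eq_single i]
            · rw [BU_diag hu, one_mul, hv]
              exact if_pos h5
            · intro k _ hki
              by_cases h7 : (nm k : ℕ) = t
              · rw [hu i k (fun h8 => ?_), Matrix.one_apply_ne hki.symm, zero_mul]
                have h9 : (nm i : ℕ) < (nm k : ℕ) := h8
                omega
              · have : v k = 0 := if_neg h7
                rw [this, mul_zero]
            · intro h
              exact absurd (Finset.mem_univ _) h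
          rw [h6, sub_self]
      have h3 := ih (by omega) (Submodule.mem_inf.2 ⟨hd, (E j).sub_mem hz2 (hcol huv)⟩)
      have h4 := Submodule.add_mem _ h3 huv
      rwa [sub_add_cancel] at h4
    · have h1 := hpos ⟨t, htN⟩ hk
      have h2 : z ∈ Fl nm t := by
        have h3 : z ∈ Fl nm t ⊔ (Fl nm (t + 1) ⊓ E j) := Submodule.mem_sup_right hz
        exact (le_of_eq h1) h3
      exact ih (by omega) (Submodule.mem_inf.2 ⟨h2, hz2⟩)

end PosB

open SegPos PosB in
/-- T6c. -/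
theorem posStmtB : PosStmt := by
  classical
  intro r N nm hm hs c ξ s E h0 h1 hE hc hpos
  choose κ hκs hκ using fun a => exists_key hs h0 h1 hE a
  choose w hw1 hw2 using fun i : Fin r =>
    exists_col (E := E) (j := κ (nm i) + 1) i ((hκ (nm i) _).2 (Nat.lt_succ_self _))
  let u : Mat r ℂ := Matrix.of fun k i => w i k
  have huv : ∀ v : Fin r → ℂ, Matrix.mulVecLin u v = ∑ i, v i • w i := by
    intro v
    funext k
    rw [Matrix.mulVecLin_apply, Finset.sum_apply]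
    show ∑ i, w i k * v i = _
    exact Finset.sum_congr rfl fun i _ => by rw [Pi.smul_apply, smul_eq_mul, mul_comm]
  have hu : BU nm (bk N) u := by
    intro k i h
    exact hw2 i k (not_lt.1 fun hh => h (Fin.lt_def.1 hh))
  have hcol : ∀ j, (Co nm fun a => κ a < j).map (Matrix.mulVecLin u) ≤ E j := by
    rintro j _ ⟨v, hv, rfl⟩
    rw [huv]
    refine Submodule.sum_mem _ fun i _ => ?_
    by_cases hi : κ (nm i) < j
    · exact (E j).smul_mem _ (hE hi (hw1 i))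
    · rw [hv i hi, zero_smul]
      exact (E j).zero_mem
  have hEu : ∀ j, E j = (Co nm fun a => κ a < j).map (Matrix.mulVecLin u) := by
    intro j
    apply le_antisymm
    · have := le_map hu j (hcol j) (fun t ht => ?_) N le_rfl
      · rwa [Fl_top, top_inf_eq] at this
      · rcases hpos j t t.isLt with h | h
        · exact h
        · exact absurd ((hκ t j).1 h) ht
    · exact hcol j
  have hdet : IsUnit u.det := by
    rw [BU_det hm hu]
    exact isUnit_one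
  have hmul : u * (u⁻¹ * c * u) = c * u := by
    rw [← Matrix.mul_assoc, ← Matrix.mul_assoc, Matrix.mul_nonsing_inv u hdet, Matrix.one_mul]
  refine ⟨κ, u, u⁻¹ * c * u, hu, ?_, hmul.symm, hκs, hEu⟩
  have key : ∀ i : Fin r, (fun k => (u⁻¹ * c * u) k i - ξ (κ (nm i)) * (1 : Mat r ℂ) k i) ∈
      Co nm fun a => κ a < κ (nm i) := by
    intro i
    have h2 := hc (κ (nm i)) (w i) (hw1 i)
    rw [hEu (κ (nm i))] at h2
    obtain ⟨v, hv, hvw⟩ := h2
    have h3 : v = fun k => (u⁻¹ * c * u) k i - ξ (κ (nm i)) * (1 : Mat r ℂ) k i := by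
      apply BU_inj hm hu
      rw [hvw]
      have h4 : w i = u *ᵥ (Pi.single i 1) := by
        rw [Matrix.mulVec_single_one]
        rfl
      have h5 : (fun k => (u⁻¹ * c * u) k i - ξ (κ (nm i)) * (1 : Mat r ℂ) k i) =
          (u⁻¹ * c * u) *ᵥ (Pi.single i 1) - ξ (κ (nm i)) • Pi.single i (1 : ℂ) := by
        rw [Matrix.mulVec_single_one]
        funext k
        rw [Pi.sub_apply, Pi.smul_apply, Pi.single_apply, Matrix.one_apply]
        rfl
      rw [h5, map_sub, map_smul, Matrix.mulVecLin_apply, Matrix.mulVecLin_apply,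
        Matrix.mulVec_mulVec, hmul, h4, Matrix.mulVec_mulVec]
    rw [← h3]
    exact hv
  refine ⟨fun i => ?_, fun i j hij h => ?_⟩
  · have h2 : (u⁻¹ * c * u) i i - ξ (κ (nm i)) * (1 : Mat r ℂ) i i = 0 :=
      key i i (lt_irrefl _)
    rw [Matrix.one_apply_eq, mul_one, sub_eq_zero] at h2
    exact h2
  · have h2 : (u⁻¹ * c * u) i j - ξ (κ (nm j)) * (1 : Mat r ℂ) i j = 0 := key j i h
    rw [Matrix.one_apply_ne hij, mul_zero, sub_zero] at h2
    exact h2

end Vale.Agent.P002B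
end

section

/-!
# P002B, T7: the class of a matrix is an open condition among the matrices of the given type
-/

namespace Vale.Agent.P002B

open Matrix Vale.Agent.P002R Vale.Agent.P002L

/-- T7. -/
theorem typeStmt : TypeStmt := by
  intro r c ξ s κ hl hκ hfin
  have hminor := fun j => exists_minor (Qp (c : Mat r ℂ) ξ j)
  choose X Y hXY using hminor
  obtain ⟨P, hP⟩ : ∃ P : ℕ → MvPolynomial (Fin r × Fin r) ℂ, ∀ (j : ℕ) (d : Mat r ℂ),
      MvPolynomial.eval (fun p => d p.1 p.2) (P j) = (X j * Qp d ξ j * Y j).det := by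
    refine ⟨fun j => ((X j).map (MvPolynomial.C : ℂ → MvPolynomial (Fin r × Fin r) ℂ) *
      Qp (Matrix.of fun a b => (MvPolynomial.X (a, b) : MvPolynomial (Fin r × Fin r) ℂ))
      (fun i => MvPolynomial.C (ξ i)) j *
      (Y j).map (MvPolynomial.C : ℂ → MvPolynomial (Fin r × Fin r) ℂ)).det, fun j d => ?_⟩
    rw [RingHom.map_det]
    congr 1
    change (_ * _ * _ : Matrix _ _ _).map _ = _
    rw [Matrix.map_mul, Matrix.map_mul, Qp_map]
    have h1 : ∀ {a b : ℕ} (N : Matrix (Fin a) (Fin b) ℂ),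
        (N.map (MvPolynomial.C : ℂ → MvPolynomial (Fin r × Fin r) ℂ)).map
          (MvPolynomial.eval fun p => d p.1 p.2) = N := by
      intro a b N
      ext i k
      exact MvPolynomial.eval_C _
    rw [h1, h1]
    congr 2
    have h2 : (Matrix.of fun a b => (MvPolynomial.X (a, b) : MvPolynomial (Fin r × Fin r) ℂ)).map
        (MvPolynomial.eval fun p => d p.1 p.2) = d := by
      ext i k
      exact MvPolynomial.eval_X _
    rw [h2]
    congr 1
    funext i
    exact MvPolynomial.eval_C _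
  refine ⟨∏ j ∈ Finset.range (s + 1), P j, ?_, ?_⟩
  · rw [map_prod, Finset.prod_ne_zero_iff]
    intro j _
    rw [hP, hXY, Matrix.det_one]
    exact one_ne_zero
  · intro c' u' M' hu' hM' hcu' hne
    rw [map_prod, Finset.prod_ne_zero_iff] at hne
    have hrank : ∀ j ≤ s, (Qp (c : Mat r ℂ) ξ j).rank = (Qp (c' : Mat r ℂ) ξ j).rank := by
      intro j hj
      have h1 := hne j (Finset.mem_range.2 (by omega))
      rw [hP] at h1
      have h2 := rank_of_minor _ _ _ h1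
      have h3 := card_le_ker hu' hM' hcu' j
      rw [← hfin j hj] at h3
      have h4 := rank_add_ker (Qp (c : Mat r ℂ) ξ j)
      have h5 := rank_add_ker (Qp (c' : Mat r ℂ) ξ j)
      omega
    exact conj_of_rank c c' ξ s hl (Qp_eq_zero hu' hM' hcu' s hκ) hrank

end Vale.Agent.P002B
end

section

/-!
# P002, genus 0, arbitrary classes: interface inside T9 (LeviStmt)
-/

namespace Vale.Agent.P002B

open Matrix Vale.Agent.P002R Vale.Agent.P002L

/-- Value of a word: letters `(n, true)` stand for `Y n`, letters `(n, false)` for its inverse. -/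
def wev {G : Type*} [Group G] (Y : ℕ → G) (w : List (ℕ × Bool)) : G :=
  (w.map fun x => if x.2 then Y x.1 else (Y x.1)⁻¹).prod

/-- Quadratic systems: every variable which occurs in the words (altogether) occurs exactly once
and its inverse occurs exactly once. -/
def Quad (ws : List (List (ℕ × Bool))) : Prop :=
  ws.flatten.Nodup ∧ ∀ n b, (n, b) ∈ ws.flatten → (n, !b) ∈ ws.flatten

/-- T9.2. Quadratic systems in `GL_d` lift. -/
def QuadStmt : Prop :=
  ∀ {R A : Type} [CommRing R] [CommRing A] {φ : R →+* ℂ} {ι : R →+* A} {ψ : A →+* ℂ}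
    (E : Subgroup ℂˣ) {r d : ℕ}, 0 < d → d ≤ r → CoefOK φ E (r * r) → Lifting φ ι ψ →
    ∀ (ws : List (List (ℕ × Bool) × Rˣ)), Quad (ws.map Prod.fst) → ∀ Y₀ : ℕ → (Mat d ℂ)ˣ,
      (∀ p ∈ ws, ((wev Y₀ p.1 : (Mat d ℂ)ˣ) : Mat d ℂ) = φ (p.2 : R) • (1 : Mat d ℂ)) →
    ∃ (A' : Type) (_ : CommRing A') (ι' : R →+* A') (ψ' : A' →+* ℂ) (j : A →+* A')
      (Y : ℕ → (Mat d A')ˣ), Lifting φ ι' ψ' ∧ (∀ x, ψ' (j x) = ψ x) ∧
      (∀ x, j (ι x) = ι' x) ∧ (∀ n, (Y n : Mat d A').map ψ' = Y₀ n) ∧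
      ∀ p ∈ ws, ((wev Y p.1 : (Mat d A')ˣ) : Mat d A') = ι' (p.2 : R) • (1 : Mat d A')

/-- T9.1. -/
def LeviOfQuad : Prop := QuadStmt → LeviStmt

/-- T9.2. -/
def QuadOfSurf : Prop := SurfStmt → QuadStmt

end Vale.Agent.P002B
end

section

/-!
# P002, genus 0, arbitrary classes: quadratic word systems for all sizes of matrices at once
-/

namespace Vale.Agent.P002B

open Matrix Vale.Agent.P002R Vale.Agent.P002L

/-- T9.2'. Every complex solution of a quadratic system of words lifts; all sizes of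
matrices at once. -/
def WordStmt : Prop :=
  ∀ {R A : Type} [CommRing R] [CommRing A] {φ : R →+* ℂ} {ι : R →+* A} {ψ : A →+* ℂ}
    (E : Subgroup ℂˣ) {r : ℕ}, CoefOK φ E (r * r) → Lifting φ ι ψ →
    ∀ (ws : ℕ → List (List (ℕ × Bool) × Rˣ)) (Y₀ : (d : ℕ) → ℕ → (Mat d ℂ)ˣ),
    (∀ d, 0 < d → d ≤ r → Quad ((ws d).map Prod.fst) ∧
      ∀ p ∈ ws d, ((wev (Y₀ d) p.1 : (Mat d ℂ)ˣ) : Mat d ℂ) = φ (p.2 : R) • (1 : Mat d ℂ)) →
    ∃ (A' : Type) (_ : CommRing A') (ι' : R →+* A') (ψ' : A' →+* ℂ) (j : A →+* A')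
      (Y : (d : ℕ) → ℕ → (Mat d A')ˣ), Lifting φ ι' ψ' ∧ (∀ x, ψ' (j x) = ψ x) ∧
      (∀ x, j (ι x) = ι' x) ∧
      ∀ d, 0 < d → d ≤ r → (∀ n, (Y d n : Mat d A').map ψ' = Y₀ d n) ∧
        ∀ p ∈ ws d, ((wev (Y d) p.1 : (Mat d A')ˣ) : Mat d A') = ι' (p.2 : R) • (1 : Mat d A')

end Vale.Agent.P002B
end

section

/-!
# P002, genus 0, arbitrary classes: from one size of matrices to all sizes
-/

namespace Vale.Agent.P002B

open Matrix Vale.Agent.P002R Vale.Agent.P002L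

theorem map_wev {G H : Type*} [Group G] [Group H] (f : G →* H) (Y : ℕ → G)
    (w : List (ℕ × Bool)) : f (wev Y w) = wev (fun n => f (Y n)) w := by
  unfold wev
  rw [map_list_prod, List.map_map]
  congr 1
  apply List.map_congr_left
  intro x _
  simp only [Function.comp]
  split <;> simp only [map_inv]

theorem word_aux (hQ : QuadStmt) {R : Type} [CommRing R] {φ : R →+* ℂ} (E : Subgroup ℂˣ) {r : ℕ}
    (hE : CoefOK φ E (r * r)) (ws : ℕ → List (List (ℕ × Bool) × Rˣ))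
    (Y₀ : (d : ℕ) → ℕ → (Mat d ℂ)ˣ)
    (h : ∀ d, 0 < d → d ≤ r → Quad ((ws d).map Prod.fst) ∧
      ∀ p ∈ ws d, ((wev (Y₀ d) p.1 : (Mat d ℂ)ˣ) : Mat d ℂ) = φ (p.2 : R) • (1 : Mat d ℂ)) :
    ∀ k ≤ r, ∀ {A : Type} [CommRing A] {ι : R →+* A} {ψ : A →+* ℂ}, Lifting φ ι ψ →
    ∃ (A' : Type) (_ : CommRing A') (ι' : R →+* A') (ψ' : A' →+* ℂ) (j : A →+* A')
      (Y : (d : ℕ) → ℕ → (Mat d A')ˣ), Lifting φ ι' ψ' ∧ (∀ x, ψ' (j x) = ψ x) ∧
      (∀ x, j (ι x) = ι' x) ∧
      ∀ d, 0 < d → d ≤ k → (∀ n, (Y d n : Mat d A').map ψ' = Y₀ d n) ∧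
        ∀ p ∈ ws d, ((wev (Y d) p.1 : (Mat d A')ˣ) : Mat d A') = ι' (p.2 : R) • (1 : Mat d A') := by
  intro k
  induction k with
  | zero =>
    intro _ A _ ι ψ hL
    exact ⟨A, inferInstance, ι, ψ, RingHom.id A, fun _ _ => 1, hL, fun _ => rfl, fun _ => rfl,
      fun d hd hd' => by omega⟩
  | succ k ih =>
    intro hk A _ ι ψ hL
    obtain ⟨A₁, _, ι₁, ψ₁, j₁, Y₁, hL₁, hψ₁, hι₁, hY₁⟩ := ih (by omega) hL
    obtain ⟨hq, he⟩ := h (k + 1) (by omega) hk
    obtain ⟨A₂, _, ι₂, ψ₂, j₂, Y₂, hL₂, hψ₂, hι₂, hY₂, hw₂⟩ :=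
      hQ E (by omega) hk hE hL₁ (ws (k + 1)) hq (Y₀ (k + 1)) he
    refine ⟨A₂, inferInstance, ι₂, ψ₂, j₂.comp j₁,
      fun d n => if hd : d = k + 1 then hd ▸ Y₂ n else 
        Units.map ((j₂.mapMatrix : Mat d A₁ →+* Mat d A₂) : Mat d A₁ →* Mat d A₂) (Y₁ d n),
      hL₂, fun x => by rw [RingHom.comp_apply, hψ₂, hψ₁],
      fun x => by rw [RingHom.comp_apply, hι₁, hι₂], ?_⟩
    intro d hd hdk
    by_cases hdk' : d = k + 1
    · subst hdk'
      simp only [dite_true]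
      exact ⟨hY₂, hw₂⟩
    · simp only [hdk', dite_false]
      obtain ⟨h1, h2⟩ := hY₁ d hd (by omega)
      constructor
      · intro n
        rw [Units.coe_map]
        ext a b
        have := congrFun (congrFun (h1 n) a) b
        simp only [map_apply] at this ⊢
        simp only [MonoidHom.coe_coe, RingHom.mapMatrix_apply, map_apply]
        rw [hψ₂, this]
      · intro p hp
        have h3 := congrArg (j₂.mapMatrix : Mat d A₁ →+* Mat d A₂) (h2 p hp)
        rw [← map_wev, Units.coe_map]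
        simp only [MonoidHom.coe_coe]
        rw [h3]
        ext a b
        simp only [RingHom.mapMatrix_apply, map_apply, Matrix.smul_apply, smul_eq_mul, map_mul, hι₂]
        rw [one_apply, one_apply]
        split <;> simp

theorem word_of_quad (hQ : QuadStmt) : WordStmt := by
  intro R A _ _ φ ι ψ E r hE hL ws Y₀ h
  exact word_aux hQ E hE ws Y₀ h r le_rfl hL

end Vale.Agent.P002B
end

section

/-!
# P002B, T8: extension of the ring by a point in the closure of a set of integral points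
-/

namespace Vale.Agent.P002B

open Matrix Vale.Agent.P002R Vale.Agent.P002L

/-- The ideal of the polynomials over `A` which vanish at all pairs (retraction, point). -/
noncomputable def extI {R A : Type} [CommRing R] [CommRing A] (ι : R →+* A) {σ : Type}
    (Sol : Set (σ → R)) : Ideal (MvPolynomial σ A) :=
  ⨅ (p : {η : A →+* R // ∀ s, η (ι s) = s} × Sol),
    RingHom.ker (MvPolynomial.eval₂Hom p.1.1 (p.2 : σ → R))

theorem mem_extI {R A : Type} [CommRing R] [CommRing A] (ι : R →+* A) {σ : Type}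
    (Sol : Set (σ → R)) (F : MvPolynomial σ A) :
    F ∈ extI ι Sol ↔ ∀ η : A →+* R, (∀ s, η (ι s) = s) → ∀ x ∈ Sol,
      MvPolynomial.eval₂ η x F = 0 := by
  simp only [extI, Ideal.mem_iInf, RingHom.mem_ker, MvPolynomial.coe_eval₂Hom, Prod.forall,
    Subtype.forall]

theorem ext_map_eval {R A : Type} [CommRing R] [CommRing A] {B : Type*} [CommRing B]
    (ι : R →+* A) (ψ : A →+* B) {σ : Type} (x : σ → R) (F : MvPolynomial σ A) :
    ψ (MvPolynomial.eval (fun i => ι (x i)) F) =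
      MvPolynomial.eval₂ ψ (fun i => ψ (ι (x i))) F := by
  rw [MvPolynomial.eval, MvPolynomial.coe_eval₂Hom, MvPolynomial.hom_eval₂]
  rfl

theorem ext_aux {R A : Type} [CommRing R] [CommRing A] {φ : R →+* ℂ} {ι : R →+* A} {ψ : A →+* ℂ}
    (hL : Lifting φ ι ψ) {σ : Type} (Sol : Set (σ → R)) (y : σ → ℂ)
    (hy : ∀ f : MvPolynomial σ ℂ, (∀ x ∈ Sol, MvPolynomial.eval (fun i => φ (x i)) f = 0) →
      MvPolynomial.eval y f = 0) {τ : Type} (f : MvPolynomial τ ℂ) (F : τ → MvPolynomial σ A)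
    (h : ∀ η : A →+* R, (∀ s, η (ι s) = s) → ∀ x ∈ Sol,
      MvPolynomial.eval (fun i => φ (MvPolynomial.eval₂ η x (F i))) f = 0) :
    MvPolynomial.eval (fun i => MvPolynomial.eval₂ ψ y (F i)) f = 0 := by
  have key := hy (MvPolynomial.bind₁ (fun i => MvPolynomial.map ψ (F i)) f) ?_
  · have e : ∀ i, MvPolynomial.eval₂ ψ y (F i) = MvPolynomial.eval y (MvPolynomial.map ψ (F i)) :=
      fun i => (MvPolynomial.eval_map ψ y (F i)).symm
    simp only [e]
    rw [← key]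
    exact (MvPolynomial.eval₂Hom_bind₁ (RingHom.id ℂ) y _ f).symm
  · intro x hx
    have e1 : MvPolynomial.eval (fun i => φ (x i))
        (MvPolynomial.bind₁ (fun i => MvPolynomial.map ψ (F i)) f) =
        MvPolynomial.eval (fun i => ψ (MvPolynomial.eval (fun s => ι (x s)) (F i))) f := by
      have e2 : ∀ i, ψ (MvPolynomial.eval (fun s => ι (x s)) (F i)) =
          MvPolynomial.eval (fun s => φ (x s)) (MvPolynomial.map ψ (F i)) := by
        intro i
        rw [ext_map_eval, MvPolynomial.eval_map]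
        simp only [hL.comp]
      simp only [e2]
      exact MvPolynomial.eval₂Hom_bind₁ (RingHom.id ℂ) _ _ f
    rw [e1]
    apply hL.dens
    intro η hη
    have e3 : ∀ i, η (MvPolynomial.eval (fun s => ι (x s)) (F i)) =
        MvPolynomial.eval₂ η x (F i) := by
      intro i
      rw [ext_map_eval]
      simp only [hη]
    simp only [e3]
    exact h η hη x hx

theorem extStmt : ExtStmt := by
  intro R A _ _ φ ι ψ hL σ Sol y hy
  have h0 : ∀ F ∈ extI ι Sol, MvPolynomial.eval₂Hom ψ y F = 0 := by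
    intro F hF
    rw [mem_extI] at hF
    have := ext_aux hL Sol y hy (MvPolynomial.X () : MvPolynomial Unit ℂ) (fun _ => F) (by
      intro η hη x hx
      rw [MvPolynomial.eval_X, hF η hη x hx, map_zero])
    rwa [MvPolynomial.eval_X] at this
  refine ⟨MvPolynomial σ A ⧸ extI ι Sol, inferInstance,
    (Ideal.Quotient.mk (extI ι Sol)).comp (MvPolynomial.C.comp ι),
    Ideal.Quotient.lift (extI ι Sol) (MvPolynomial.eval₂Hom ψ y) h0,
    (Ideal.Quotient.mk (extI ι Sol)).comp MvPolynomial.C,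
    fun i => Ideal.Quotient.mk (extI ι Sol) (MvPolynomial.X i), ?_, ?_, ?_, ?_, ?_⟩
  · refine ⟨?_, hL.inj, ?_, ?_, ?_⟩
    · intro a
      simp only [RingHom.comp_apply, Ideal.Quotient.lift_mk, MvPolynomial.eval₂Hom_C, hL.comp]
    · intro c
      obtain ⟨a, ha⟩ := hL.surj c
      refine ⟨Ideal.Quotient.mk (extI ι Sol) (MvPolynomial.C a), ?_⟩
      rw [Ideal.Quotient.lift_mk, MvPolynomial.eval₂Hom_C, ha]
    · intro c
      obtain ⟨a, ha⟩ := hL.unit c
      refine ⟨Units.map ((Ideal.Quotient.mk (extI ι Sol)).comp MvPolynomial.C : A →* _) a, ?_⟩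
      rw [Units.coe_map]
      change Ideal.Quotient.lift (extI ι Sol) (MvPolynomial.eval₂Hom ψ y) h0
        (Ideal.Quotient.mk (extI ι Sol) (MvPolynomial.C (a : A))) = _
      rw [Ideal.Quotient.lift_mk, MvPolynomial.eval₂Hom_C, ha]
    · intro τ f a h
      choose F hF using fun i => Ideal.Quotient.mk_surjective (I := extI ι Sol) (a i)
      have e : ∀ i, Ideal.Quotient.lift (extI ι Sol) (MvPolynomial.eval₂Hom ψ y) h0 (a i) =
          MvPolynomial.eval₂ ψ y (F i) := by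
        intro i
        rw [← hF i, Ideal.Quotient.lift_mk, MvPolynomial.coe_eval₂Hom]
      simp only [e]
      apply ext_aux hL Sol y hy f F
      intro η hη x hx
      have h1 : ∀ G ∈ extI ι Sol, MvPolynomial.eval₂Hom η x G = 0 := by
        intro G hG
        rw [mem_extI] at hG
        exact hG η hη x hx
      have h2 := h (Ideal.Quotient.lift (extI ι Sol) (MvPolynomial.eval₂Hom η x) h1) (by
        intro s
        simp only [RingHom.comp_apply, Ideal.Quotient.lift_mk, MvPolynomial.eval₂Hom_C, hη])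
      have e2 : ∀ i, Ideal.Quotient.lift (extI ι Sol) (MvPolynomial.eval₂Hom η x) h1 (a i) =
          MvPolynomial.eval₂ η x (F i) := by
        intro i
        rw [← hF i, Ideal.Quotient.lift_mk, MvPolynomial.coe_eval₂Hom]
      simpa only [e2] using h2
  · intro a
    simp only [RingHom.comp_apply, Ideal.Quotient.lift_mk, MvPolynomial.eval₂Hom_C]
  · intro a
    rfl
  · intro i
    rw [Ideal.Quotient.lift_mk, MvPolynomial.eval₂Hom_X']
  · intro p hp
    have e : MvPolynomial.eval₂ ((Ideal.Quotient.mk (extI ι Sol)).comp (MvPolynomial.C.comp ι))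
        (fun i => Ideal.Quotient.mk (extI ι Sol) (MvPolynomial.X i)) p =
        Ideal.Quotient.mk (extI ι Sol) (MvPolynomial.map ι p) := by
      have e' : MvPolynomial.eval₂Hom
          ((Ideal.Quotient.mk (extI ι Sol)).comp (MvPolynomial.C.comp ι))
          (fun i => Ideal.Quotient.mk (extI ι Sol) (MvPolynomial.X i)) =
          (Ideal.Quotient.mk (extI ι Sol)).comp (MvPolynomial.map ι) := by
        refine MvPolynomial.ringHom_ext ?_ ?_
        · intro s
          simp only [MvPolynomial.eval₂Hom_C, RingHom.comp_apply, MvPolynomial.map_C]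
        · intro i
          simp only [MvPolynomial.eval₂Hom_X', RingHom.comp_apply, MvPolynomial.map_X]
      exact RingHom.congr_fun e' p
    rw [e, Ideal.Quotient.eq_zero_iff_mem, mem_extI]
    intro η hη x hx
    rw [MvPolynomial.eval₂_map]
    have e3 : η.comp ι = RingHom.id R := RingHom.ext hη
    rw [e3]
    exact hp x hx

end Vale.Agent.P002B
end

section

/-!
# P002B, T13b: every solution of the surface relation of genus at least two is in the closure of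
the irreducible ones
-/

namespace Vale.Agent.P002B.S2B

open Matrix Vale.Agent.P002R

theorem coe_swd {g d : ℕ} (a b : Fin g → (Mat d ℂ)ˣ) :
    ((swd a b : (Mat d ℂ)ˣ) : Mat d ℂ) =
      Vale.Agent.P002.relT fun k : Fin g × Bool => ((if k.2 then b k.1 else a k.1 : (Mat d ℂ)ˣ) : Mat d ℂ) := by
  unfold swd Vale.Agent.P002.relT
  have h1 := map_list_prod (Units.coeHom (Mat d ℂ))
    (List.ofFn fun i => a i * b i * (a i)⁻¹ * (b i)⁻¹)
  rw [Units.coeHom_apply] at h1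
  rw [h1, List.map_ofFn]
  congr 2
  funext i
  simp only [Function.comp_apply, Units.coeHom_apply, Units.val_mul, coe_units_inv, Bool.false_eq_true, ↓reduceIte]

/-- T13b. -/
theorem star2Stmt (h1 : Star1Stmt) : Star2Stmt := by
  intro g d hd z a b hz f hf
  refine h1 hd z a b hz f fun a' b' hz' hc' => ?_
  by_contra hne
  obtain ⟨X, hX⟩ : ∃ X : Fin (g + 2) × Bool → Mat d ℂ, X = fun k =>
    ((if k.2 then b' k.1 else a' k.1 : (Mat d ℂ)ˣ) : Mat d ℂ) := ⟨_, rfl⟩
  have hXu : ∀ k, IsUnit (X k) := fun k => by rw [hX]; exact Units.isUnit _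
  have hrel : Vale.Agent.P002.relT X = z • (1 : Mat d ℂ) := by rw [← hz', coe_swd, hX]
  have hcont : Continuous fun Y : Fin (g + 2) × Bool → Mat d ℂ =>
      MvPolynomial.eval (fun x : (Fin (g + 2) × Bool) × Fin d × Fin d => Y x.1 x.2.1 x.2.2) f := by
    refine (MvPolynomial.continuous_eval f).comp (continuous_pi fun x => ?_)
    exact (continuous_apply x.2.2).comp ((continuous_apply x.2.1).comp (continuous_apply x.1))
  have hO : {Y : Fin (g + 2) × Bool → Mat d ℂ | MvPolynomial.eval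
      (fun x : (Fin (g + 2) × Bool) × Fin d × Fin d => Y x.1 x.2.1 x.2.2) f ≠ 0} ∈ nhds X := by
    refine (isOpen_ne.preimage hcont).mem_nhds ?_
    rw [hX]
    exact hne
  obtain ⟨X', hX'O, hX'u, hX'rel, hX'top⟩ := star2_core z X hXu hrel
    (fun N hN1 hN2 => hc' 1 N (by rw [hX] at hN1; exact hN1) (by rw [hX] at hN2; exact hN2)) _ hO
  apply hX'O
  have hkey : (fun k : Fin (g + 2) × Bool => ((if k.2 then (hX'u (k.1, true)).unit else
      (hX'u (k.1, false)).unit : (Mat d ℂ)ˣ) : Mat d ℂ)) = X' := by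
    funext k
    obtain ⟨i, b⟩ := k
    cases b <;> rfl
  have h2 := hf (fun i => (hX'u (i, false)).unit) (fun i => (hX'u (i, true)).unit)
    (by rw [coe_swd, hkey, hX'rel]) (by rw [hkey, hX'top])
  unfold evH at h2
  rw [← h2]
  congr 2
  funext x
  exact (congrFun (congrFun (congrFun hkey x.1) x.2.1) x.2.2).symm

end Vale.Agent.P002B.S2B
end

section

/-!
# q-commuting pairs, part 5: the density theorem in genus one
-/

namespace Vale.Agent.P002B.QB

open Matrix Vale.Agent.P002R Vale.Agent.P002L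
open scoped Kronecker

section kron

variable {S T : Type*} [CommRing S] [CommRing T] {n m d : ℕ} (ε : Fin n × Fin m ≃ Fin d)

theorem K_mul (M M' : Matrix (Fin n) (Fin n) S) (a a' : Matrix (Fin m) (Fin m) S) :
    K ε M a * K ε M' a' = K ε (M * M') (a * a') := by
  rw [K, K, K, Matrix.submatrix_mul_equiv, Matrix.mul_kronecker_mul]

theorem K_one : K ε (1 : Matrix (Fin n) (Fin n) S) (1 : Matrix (Fin m) (Fin m) S) = 1 := by
  rw [K, Matrix.one_kronecker_one, Matrix.submatrix_one_equiv]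

theorem K_smul (c : S) (M : Matrix (Fin n) (Fin n) S) (a : Matrix (Fin m) (Fin m) S) :
    K ε (c • M) a = c • K ε M a := by
  ext i j
  simp [K, mul_assoc]

theorem K_map (θ : S →+* T) (M : Matrix (Fin n) (Fin n) S) (a : Matrix (Fin m) (Fin m) S) :
    (K ε M a).map θ = K ε (M.map θ) (a.map θ) := by
  ext i j
  simp only [K, map_apply, submatrix_apply, kroneckerMap_apply, map_mul]

theorem K_unit {M : Matrix (Fin n) (Fin n) S} {a : Matrix (Fin m) (Fin m) S} (hM : IsUnit M)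
    (ha : IsUnit a) : IsUnit (K ε M a) := by
  obtain ⟨M, rfl⟩ := hM
  obtain ⟨a, rfl⟩ := ha
  refine ⟨⟨K ε M a, K ε ((M⁻¹ : (Matrix (Fin n) (Fin n) S)ˣ) : Matrix (Fin n) (Fin n) S)
    ((a⁻¹ : (Matrix (Fin m) (Fin m) S)ˣ) : Matrix (Fin m) (Fin m) S), ?_, ?_⟩, rfl⟩
  · rw [K_mul, Units.mul_inv, Units.mul_inv, K_one]
  · rw [K_mul, Units.inv_mul, Units.inv_mul, K_one]

theorem shiftM_map (n : ℕ) (θ : S →+* T) : (shiftM n S).map θ = shiftM n T := by
  ext i j
  simp only [shiftM, Matrix.map_apply, Matrix.of_apply]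
  split
  · exact map_one θ
  · exact map_zero θ

theorem shiftM_unit (n : ℕ) : IsUnit (shiftM n S) := by
  have h : shiftM n S * (Matrix.of fun i j : Fin (n + 1) => if j = i + 1 then (1 : S) else 0) =
      1 := by
    ext i k
    rw [Matrix.mul_apply, Finset.sum_eq_single (i - 1)]
    · simp only [shiftM, of_apply, sub_add_cancel, if_true, one_mul, Matrix.one_apply]
      by_cases hik : i = k
      · rw [if_pos hik, if_pos hik.symm]
      · rw [if_neg hik, if_neg (Ne.symm hik)]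
    · intro j _ hj
      have h1 : ¬ i = j + 1 := fun h => hj (eq_sub_of_add_eq h.symm)
      simp only [shiftM, Matrix.of_apply, if_neg h1, zero_mul]
    · intro h
      exact absurd (Finset.mem_univ _) h
  exact ⟨⟨_, _, h, mul_eq_one_comm.mp h⟩, rfl⟩

theorem clock_unit {n : ℕ} {μ : S} (hμ : μ ^ (n + 1) = 1) :
    IsUnit (diagonal fun i : Fin (n + 1) => μ ^ (i : ℕ)) := by
  have h : (diagonal fun i : Fin (n + 1) => μ ^ (i : ℕ)) *
      (diagonal fun i : Fin (n + 1) => (μ ^ n) ^ (i : ℕ)) = 1 := by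
    rw [diagonal_mul_diagonal]
    have h1 : ∀ i : Fin (n + 1), μ ^ (i : ℕ) * (μ ^ n) ^ (i : ℕ) = 1 := by
      intro i
      rw [← mul_pow, ← pow_succ', hμ, one_pow]
    simp [h1]
  exact ⟨⟨_, _, h, mul_eq_one_comm.mp h⟩, rfl⟩

theorem clock_shift {n : ℕ} {μ : S} (hμ : μ ^ (n + 1) = 1) :
    (diagonal fun i : Fin (n + 1) => μ ^ (i : ℕ)) * shiftM n S =
      μ • (shiftM n S * diagonal fun i : Fin (n + 1) => μ ^ (i : ℕ)) := by
  ext i j
  rw [diagonal_mul, Matrix.smul_apply, mul_diagonal, smul_eq_mul, shiftM, Matrix.of_apply]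
  by_cases hij : i = j + 1
  · rw [if_pos hij, mul_one, one_mul, ← pow_succ', hij, Fin.val_add, Fin.val_one',
      Nat.add_mod_mod, ← pow_eq_pow_mod _ hμ]
  · rw [if_neg hij, mul_zero, zero_mul, mul_zero]

theorem Sol.kron {n m d : ℕ} (ε : Fin (n + 1) × Fin m ≃ Fin d) {μ : S} (hμ : μ ^ (n + 1) = 1)
    {a b : Matrix (Fin m) (Fin m) S} (h : Sol (1 : S) a b) :
    Sol μ (K ε (diagonal fun i : Fin (n + 1) => μ ^ (i : ℕ)) a) (K ε (shiftM n S) b) := by
  refine ⟨K_unit ε (clock_unit hμ) h.1, K_unit ε (shiftM_unit n) h.2.1, ?_⟩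
  have h1 := h.2.2
  rw [one_smul] at h1
  rw [K_mul, K_mul, clock_shift hμ, K_smul, h1]

end kron

variable {R : Type*} [CommRing R] {φ : R →+* ℂ} {μ : R} {d : ℕ}

theorem GD.kron {n m : ℕ} (ε : Fin (n + 1) × Fin m ≃ Fin d) (hμ : μ ^ (n + 1) = 1)
    {C₀ E₀ : Matrix (Fin m) (Fin m) ℂ} (h : GD φ (1 : R) C₀ E₀) :
    GD φ μ (K ε (diagonal fun i : Fin (n + 1) => (φ μ) ^ (i : ℕ)) C₀)
      (K ε (shiftM n ℂ) E₀) := by
  have hd : ∀ (τ : Type) (t : τ → ℂ), ((diagonal fun i : Fin (n + 1) =>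
      (MvPolynomial.C ((φ μ) ^ (i : ℕ)) : MvPolynomial τ ℂ))).map (MvPolynomial.eval t) =
        diagonal fun i : Fin (n + 1) => (φ μ) ^ (i : ℕ) := by
    intro τ t
    rw [Matrix.diagonal_map (map_zero _)]
    simp
  have h1 := h.subst (μ' := μ)
    (K ε (diagonal fun i : Fin (n + 1) => MvPolynomial.C ((φ μ) ^ (i : ℕ))) (gen m false))
    (K ε (shiftM n _) (gen m true)) (by
      intro a b hab
      refine ⟨_, _, hab.kron ε hμ, ?_, ?_⟩
      · rw [K_map, K_map, hd, gen_false, Matrix.diagonal_map (map_zero _)]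
        simp only [map_pow]
      · rw [K_map, K_map, shiftM_map, shiftM_map, gen_true])
  rw [K_map, K_map, hd, gen_false, shiftM_map, gen_true] at h1
  exact h1

theorem comm_aeval {X Y : Mat d ℂ} (h : X * Y = Y * X) (p : Polynomial ℂ) :
    Polynomial.aeval X p * Y = Y * Polynomial.aeval X p := by
  rw [Polynomial.aeval_eq_sum_range, Finset.sum_mul, Finset.mul_sum]
  refine Finset.sum_congr rfl fun k _ => ?_
  have h1 : Commute X Y := h
  rw [Matrix.smul_mul, Matrix.mul_smul, (h1.pow_left k).eq]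

/-- All q-commuting pairs are in the closure of the integral ones. -/
theorem GD.all (hφ : Function.Injective φ) (u : Rˣ) (hu : ∀ k : ℕ, 0 < k → (φ u) ^ k ≠ 1)
    (hd : 0 < d) (A B : Mat d ℂ) (hA : IsUnit A) (hB : IsUnit B)
    (hAB : A * B = φ μ • (B * A)) : GD φ μ A B := by
  obtain ⟨q, hq⟩ : ∃ q, q = φ μ := ⟨_, rfl⟩
  rw [← hq] at hAB
  have hqd : q ^ d = 1 := by
    have h1 := congrArg Matrix.det hAB
    rw [Matrix.det_smul, Fintype.card_fin, Matrix.det_mul, Matrix.det_mul, mul_comm B.det] at h1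
    have h2 : A.det * B.det ≠ 0 :=
      mul_ne_zero ((Matrix.isUnit_iff_isUnit_det _).mp hA).ne_zero
        ((Matrix.isUnit_iff_isUnit_det _).mp hB).ne_zero
    have h3 : 1 * (A.det * B.det) = q ^ d * (A.det * B.det) := by rw [one_mul]; exact h1
    exact (mul_right_cancel₀ h2 h3).symm
  have hord : 0 < orderOf q := orderOf_pos_iff.mpr (isOfFinOrder_iff_pow_eq_one.mpr ⟨d, hd, hqd⟩)
  obtain ⟨n, hn⟩ : ∃ n, orderOf q = n + 1 := ⟨orderOf q - 1, by omega⟩
  have hprim : IsPrimitiveRoot q (n + 1) := by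
    rw [← hn]
    exact IsPrimitiveRoot.orderOf q
  have hqn : q ^ (n + 1) = 1 := hprim.pow_eq_one
  have hμ : μ ^ (n + 1) = 1 := by
    apply hφ
    rw [map_pow, ← hq, hqn, map_one]
  have hApow : ∀ k : ℕ, A ^ k * B = q ^ k • (B * A ^ k) := by
    intro k
    induction k with
    | zero => simp
    | succ k ih =>
      rw [pow_succ', mul_assoc, ih, Matrix.mul_smul, ← mul_assoc, hAB, Matrix.smul_mul, smul_smul,
        mul_assoc, ← pow_succ', ← pow_succ]
  have hBpow : ∀ k : ℕ, A * B ^ k = q ^ k • (B ^ k * A) := by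
    intro k
    induction k with
    | zero => simp
    | succ k ih =>
      rw [pow_succ, ← mul_assoc, ih, Matrix.smul_mul, mul_assoc, hAB, Matrix.mul_smul, smul_smul,
        ← mul_assoc, ← pow_succ, ← pow_succ]
  have hXB : A ^ (n + 1) * B = B * A ^ (n + 1) := by rw [hApow, hqn, one_smul]
  have hYA : B ^ (n + 1) * A = A * B ^ (n + 1) := by rw [hBpow, hqn, one_smul]
  obtain ⟨p, hp⟩ := exists_root (A ^ (n + 1)) (hA.pow _) (Nat.succ_pos n)
  obtain ⟨p', hp'⟩ := exists_root (B ^ (n + 1)) (hB.pow _) (Nat.succ_pos n)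
  obtain ⟨C, hC⟩ : ∃ C, C = Polynomial.aeval (A ^ (n + 1)) p := ⟨_, rfl⟩
  obtain ⟨E, hE⟩ : ∃ E, E = Polynomial.aeval (B ^ (n + 1)) p' := ⟨_, rfl⟩
  rw [← hC] at hp
  rw [← hE] at hp'
  have hCu : IsUnit C := (isUnit_pow_iff (Nat.succ_ne_zero n)).mp (hp ▸ hA.pow _)
  have hEu : IsUnit E := (isUnit_pow_iff (Nat.succ_ne_zero n)).mp (hp' ▸ hB.pow _)
  have hCA : Commute C A := by
    rw [hC]
    exact comm_aeval (by rw [← pow_succ, ← pow_succ']) p
  have hCB : Commute C B := by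
    rw [hC]
    exact comm_aeval hXB p
  have hEA : Commute E A := by
    rw [hE]
    exact comm_aeval hYA p'
  have hEB : Commute E B := by
    rw [hE]
    exact comm_aeval (by rw [← pow_succ, ← pow_succ']) p'
  have hCE : Commute C E := by
    rw [hE]
    exact (comm_aeval ((hCB.pow_right (n + 1)).symm.eq) p').symm
  obtain ⟨uC, hUC⟩ := hCu
  obtain ⟨uE, hUE⟩ := hEu
  obtain ⟨Ci, hCi⟩ : ∃ Ci : Mat d ℂ, Ci = ((uC⁻¹ : (Mat d ℂ)ˣ) : Mat d ℂ) := ⟨_, rfl⟩
  obtain ⟨Ei, hEi⟩ : ∃ Ei : Mat d ℂ, Ei = ((uE⁻¹ : (Mat d ℂ)ˣ) : Mat d ℂ) := ⟨_, rfl⟩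
  have hCC : C * Ci = 1 := by rw [← hUC, hCi, Units.mul_inv]
  have hCC' : Ci * C = 1 := by rw [← hUC, hCi, Units.inv_mul]
  have hEE : E * Ei = 1 := by rw [← hUE, hEi, Units.mul_inv]
  have hEE' : Ei * E = 1 := by rw [← hUE, hEi, Units.inv_mul]
  have hinvC : ∀ Z : Mat d ℂ, Commute C Z → Commute Ci Z := by
    intro Z hZ
    rw [hCi]
    rw [← hUC] at hZ
    exact hZ.units_inv_left
  have hinvE : ∀ Z : Mat d ℂ, Commute E Z → Commute Ei Z := by
    intro Z hZ
    rw [hEi]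
    rw [← hUE] at hZ
    exact hZ.units_inv_left
  have hA'C : (A * Ci) * C = A := by rw [mul_assoc, hCC', mul_one]
  have hB'E : (B * Ei) * E = B := by rw [mul_assoc, hEE', mul_one]
  have hCCi : Commute C Ci := by
    change C * Ci = Ci * C
    rw [hCC, hCC']
  have hEEi : Commute E Ei := by
    change E * Ei = Ei * E
    rw [hEE, hEE']
  have hCEi : Commute C Ei := (hinvE C hCE.symm).symm
  have hECi : Commute E Ci := (hinvC E hCE).symm
  have hCiEi : Commute Ci Ei := hinvC Ei hCEi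
  obtain ⟨m, ε, C₀, E₀, P, Q, hPQ, hcomm, h1, h2⟩ := structure_aux (A * Ci) (B * Ei) C E hprim
    (by
      rw [(hinvC A hCA).symm.mul_pow, ← hp, ← hCCi.mul_pow, hCC, one_pow])
    (by
      rw [(hinvE B hEB).symm.mul_pow, ← hp', ← hEEi.mul_pow, hEE, one_pow])
    (by
      have e1 : A * Ci * (B * Ei) = A * B * (Ci * Ei) := by
        rw [mul_assoc, ← mul_assoc Ci, (hinvC B hCB).eq, mul_assoc, mul_assoc]
      have e2 : B * Ei * (A * Ci) = B * A * (Ci * Ei) := by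
        rw [mul_assoc, ← mul_assoc Ei, (hinvE A hEA).eq, hCiEi.eq, mul_assoc, mul_assoc]
      rw [e1, e2, hAB, Matrix.smul_mul])
    ((hCA.mul_right hCCi).eq) ((hCB.mul_right hCEi).eq) ((hEA.mul_right hECi).eq)
    ((hEB.mul_right hEEi).eq) hCE.eq
  rw [hA'C] at h1
  rw [hB'E] at h2
  rw [h1, h2, hq]
  exact (GD.kron ε hμ (GD.commuting u hu C₀ E₀ hcomm)).conj P Q hPQ

/-- T11. The density theorem in genus one. -/
theorem surfCl_one : SurfCl 1 := by
  intro R _ φ E r d hd hdr hc μ a b hab f hf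
  have hswd : ∀ {G : Type} [Group G] (a b : Fin 1 → G),
      swd a b = a 0 * b 0 * (a 0)⁻¹ * (b 0)⁻¹ := by
    intro G _ a b
    simp only [swd, List.ofFn_succ, Fin.isValue, List.ofFn_zero, List.prod_cons, List.prod_nil, mul_one]
  obtain ⟨u, hu⟩ := hc.unit
  have hu' : ∀ k : ℕ, 0 < k → (φ u) ^ k ≠ 1 := by
    intro k hk h
    apply hu k hk
    have h1 : Units.map (φ : R →* ℂ) u ^ k = 1 := by
      ext
      rw [Units.val_pow_eq_pow_val]
      exact h
    rw [h1]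
    exact E.one_mem
  rw [hswd] at hab
  have h1 : (a 0 : Mat d ℂ) * (b 0 : Mat d ℂ) = φ μ • ((b 0 : Mat d ℂ) * (a 0 : Mat d ℂ)) := by
    have h2 := congrArg (fun M : Mat d ℂ => M * ((b 0 : Mat d ℂ) * (a 0 : Mat d ℂ))) hab
    simp only [Matrix.smul_mul, Matrix.one_mul] at h2
    rw [← h2, ← Units.val_mul, ← Units.val_mul, ← Units.val_mul]
    congr 1
    group
  have h2 := GD.all (φ := φ) (μ := (μ : R)) hc.inj u hu' hd (a 0 : Mat d ℂ) (b 0 : Mat d ℂ)
    (a 0).isUnit (b 0).isUnit h1 f (by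
      intro a' b' hab'
      obtain ⟨⟨ua, rfl⟩, ⟨ub, rfl⟩, h3⟩ := hab'
      have h4 := hf (fun _ => ua) (fun _ => ub) (by
        rw [hswd, Units.val_mul, Units.val_mul, Units.val_mul, h3, Matrix.smul_mul,
          Matrix.smul_mul, mul_assoc (ub : Mat d R), ← Units.val_mul ua, mul_inv_cancel,
          Units.val_one, mul_one, ← Units.val_mul, mul_inv_cancel, Units.val_one])
      rw [← h4]
      congr 2
      funext x
      rcases x with ⟨⟨i, e⟩, j, k⟩
      cases e <;> rfl)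
  rw [← h2]
  congr 2
  funext x
  rcases x with ⟨⟨i, e⟩, j, k⟩
  have hi : i = 0 := Subsingleton.elim _ _
  subst hi
  cases e <;> rfl

end Vale.Agent.P002B.QB
end

section

/-!
# P002, genus 0, dual chart: general position of the vectors of a generic tuple of reflections
-/

namespace Vale.Agent.P002R

open Matrix Module Vale.Agent.P002

section key

variable {n N : ℕ}

/-- The vanishing of the functional at a generic point. -/
theorem generic_rel {K₀ : Subfield ℂ} {J Y : Fin N → P002R.Mat n ℂ} (hJK : ∀ j a b, J j a b ∈ K₀)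
    (hY : ∀ j, IsUnit (Y j)) (hgen : GenPt K₀ J (List.finRange N) Y) (e : Fin N → Fin n → ℂ)
    (he : ∀ i a, e i a ∈ K₀) (j : ℕ) (α β : Fin N → ℂ) (y : Fin n → ℂ)
    (hv : ∑ i, α i • (Y i *ᵥ e i) + pre (cj J Y) j *ᵥ ∑ i, β i • (Y i *ᵥ e i) = 0)
    (hα : ∀ i, α i ≠ 0 → y ⬝ᵥ (Y i *ᵥ e i) = 0)
    (hβ : ∀ i, β i ≠ 0 → y ⬝ᵥ (pre (cj J Y) j *ᵥ (Y i *ᵥ e i)) = 0)
    (x : Fin N → P002R.Mat n ℂ) (hx : DL (cj J Y) x (List.finRange N) = 0) :
    ∑ i, α i * (y ⬝ᵥ (x i *ᵥ (Y i *ᵥ e i))) +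
        y ⬝ᵥ (DL (cj J Y) x ((List.finRange N).take j) *ᵥ ∑ i, β i • (Y i *ᵥ e i)) +
        ∑ i, β i * (y ⬝ᵥ (pre (cj J Y) j *ᵥ (x i *ᵥ (Y i *ᵥ e i)))) = 0 := by
  obtain ⟨δ, hδ0, hδ⟩ := hgen x hx
  obtain ⟨ξ, hξ⟩ : ∃ ξ : Fin N → Fin n → ℂ, ∀ i, ξ i = Y i *ᵥ e i := ⟨_, fun _ => rfl⟩
  simp only [← hξ] at hv hα hβ ⊢
  have hξδ : ∀ i, (fun a => δ (ξ i a)) = x i *ᵥ ξ i := by
    intro i
    rw [hξ, map_der_mulVec, hδ i, Matrix.mulVec_mulVec]
    have h0 : (fun a => δ (e i a)) = 0 := funext fun a => hδ0 _ (he i a)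
    rw [h0, Matrix.mulVec_zero, add_zero]
  have hPδ : (pre (cj J Y) j).map δ = DL (cj J Y) x ((List.finRange N).take j) := by
    rw [pre, map_der_list hJK hY δ hδ0 x hδ]
  have hsum : ∀ α : Fin N → ℂ, (fun a => δ ((∑ i, α i • ξ i) a)) =
      ∑ i, δ (α i) • ξ i + ∑ i, α i • (x i *ᵥ ξ i) := by
    intro α
    funext a
    have h1 : ∀ i, δ (ξ i a) = (x i *ᵥ ξ i) a := fun i => congrFun (hξδ i) a
    rw [Finset.sum_apply, map_sum, Pi.add_apply, Finset.sum_apply, Finset.sum_apply,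
      ← Finset.sum_add_distrib]
    refine Finset.sum_congr rfl fun i _ => ?_
    rw [Pi.smul_apply, Pi.smul_apply, Pi.smul_apply, smul_eq_mul, smul_eq_mul, smul_eq_mul,
      Derivation.leibniz, h1, smul_eq_mul, smul_eq_mul]
    ring
  have h1 : (fun a => δ ((∑ i, α i • ξ i + pre (cj J Y) j *ᵥ ∑ i, β i • ξ i) a)) = 0 := by
    rw [hv]
    funext a
    simp only [Pi.zero_apply, map_zero]
  have h2 : (fun a => δ ((∑ i, α i • ξ i + pre (cj J Y) j *ᵥ ∑ i, β i • ξ i) a)) =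
      (fun a => δ ((∑ i, α i • ξ i) a)) +
        fun a => δ ((pre (cj J Y) j *ᵥ ∑ i, β i • ξ i) a) := by
    funext a
    rw [Pi.add_apply, Pi.add_apply, map_add]
  rw [h2, hsum, map_der_mulVec, hsum, hPδ] at h1
  have h3 := congrArg (fun v => y ⬝ᵥ v) h1
  simp only [dotProduct_add, Matrix.mulVec_add, dotProduct_zero] at h3
  have h4 : y ⬝ᵥ ∑ i, δ (α i) • ξ i = 0 := by
    rw [dotProduct_sum]
    refine Finset.sum_eq_zero fun i _ => ?_
    rw [dotProduct_smul]
    by_cases h : α i = 0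
    · rw [h, map_zero, zero_smul]
    · rw [hα i h, smul_zero]
  have h5 : y ⬝ᵥ (pre (cj J Y) j *ᵥ ∑ i, δ (β i) • ξ i) = 0 := by
    rw [Matrix.mulVec_sum, dotProduct_sum]
    refine Finset.sum_eq_zero fun i _ => ?_
    rw [Matrix.mulVec_smul, dotProduct_smul]
    by_cases h : β i = 0
    · rw [h, map_zero, zero_smul]
    · rw [hβ i h, smul_zero]
  have h6 : y ⬝ᵥ ∑ i, α i • (x i *ᵥ ξ i) = ∑ i, α i * (y ⬝ᵥ (x i *ᵥ ξ i)) := by
    rw [dotProduct_sum]
    exact Finset.sum_congr rfl fun i _ => by rw [dotProduct_smul, smul_eq_mul]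
  have h7 : y ⬝ᵥ (pre (cj J Y) j *ᵥ ∑ i, β i • (x i *ᵥ ξ i)) =
      ∑ i, β i * (y ⬝ᵥ (pre (cj J Y) j *ᵥ (x i *ᵥ ξ i))) := by
    rw [Matrix.mulVec_sum, dotProduct_sum]
    exact Finset.sum_congr rfl fun i _ => by rw [Matrix.mulVec_smul, dotProduct_smul, smul_eq_mul]
  rw [h4, h5, zero_add, zero_add, h6, h7] at h3
  rw [← h3, ← add_assoc]

/-- The data of a generic tuple: reflections `c i` for `i < m`. -/
structure RP (m : ℕ) (c : Fin N → P002R.Mat n ℂ) (ξ w : Fin N → Fin n → ℂ) : Prop where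
  rel : ((List.finRange N).map c).prod = 1
  irr : ∀ W : Submodule ℂ (Fin n → ℂ), (∀ j, ∀ v ∈ W, c j *ᵥ v ∈ W) → W = ⊥ ∨ W = ⊤
  refl : ∀ i, i.val < m → c i = 1 + vecMulVec (ξ i) (w i)
  xi_ne : ∀ i, i.val < m → ξ i ≠ 0
  w_ne : ∀ i, i.val < m → w i ≠ 0
  unit : ∀ i, i.val < m → 1 + w i ⬝ᵥ ξ i ≠ 0
  pair : ∀ i l, i.val < m → l.val < m → i ≠ l → w i ⬝ᵥ ξ l ≠ 0
  key : ∀ j ≤ N, ∀ (α β : Fin N → ℂ) (y : Fin n → ℂ),
    ∑ i, α i • ξ i + pre c j *ᵥ ∑ i, β i • ξ i = 0 →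
    (∀ i, α i ≠ 0 → i.val < j ∧ y ⬝ᵥ ξ i = 0) →
    (∀ i, β i ≠ 0 → i.val < j ∧ y ⬝ᵥ (pre c j *ᵥ ξ i) = 0) →
    ∃ Λ : P002R.Mat n ℂ, Λ * pre c j = pre c j * Λ ∧
      (∀ i : Fin N, j ≤ i.val → Λ * c i = c i * Λ) ∧
      (∀ i : Fin N, i.val < j →
        c i * dG Λ (pre c j *ᵥ ∑ i, β i • ξ i) y (y ᵥ* pre c j) ξ α β (i + 1) =
        dG Λ (pre c j *ᵥ ∑ i, β i • ξ i) y (y ᵥ* pre c j) ξ α β i * c i)

theorem refl_eq {c G G' : P002R.Mat n ℂ} {ξ w ψ : Fin n → ℂ} (hc : c = 1 + vecMulVec ξ w)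
    (hξ : ξ ≠ 0) (hw : w ≠ 0) (h1 : c * G' = G * c) (h2 : G' = G - vecMulVec ξ ψ) :
    ∃ γ : ℂ, G *ᵥ ξ = γ • ξ ∧ w ᵥ* G = γ • w + (1 + w ⬝ᵥ ξ) • ψ := by
  obtain ⟨p, hp⟩ : ∃ p, p = w ᵥ* G - (1 + w ⬝ᵥ ξ) • ψ := ⟨_, rfl⟩
  have h3 : vecMulVec ξ p = vecMulVec (G *ᵥ ξ) w := by
    have hq : vecMulVec ξ w * vecMulVec ξ ψ = (w ⬝ᵥ ξ) • vecMulVec ξ ψ := by
      ext a b
      simp only [Matrix.mul_apply, vecMulVec_apply, Matrix.smul_apply, smul_eq_mul, dotProduct,
        Finset.sum_mul]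
      exact Finset.sum_congr rfl fun i _ => by ring
    rw [hc, h2, Matrix.add_mul, Matrix.one_mul, Matrix.mul_sub, hq, Matrix.vecMulVec_mul,
      Matrix.mul_add, Matrix.mul_one, Matrix.mul_vecMulVec] at h1
    have h4 : vecMulVec ξ p = vecMulVec ξ (w ᵥ* G) - vecMulVec ξ ψ -
        (w ⬝ᵥ ξ) • vecMulVec ξ ψ := by
      rw [hp]
      ext a b
      simp only [vecMulVec_apply, Pi.sub_apply, Pi.smul_apply, smul_eq_mul, Matrix.sub_apply,
        Matrix.smul_apply]
      ring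
    rw [h4]
    rw [← sub_eq_zero] at h1 ⊢
    rw [← h1]
    abel
  obtain ⟨a, ha⟩ := Function.ne_iff.1 hξ
  obtain ⟨b, hb⟩ := Function.ne_iff.1 hw
  rw [Pi.zero_apply] at ha hb
  have h4 : ∀ i l, ξ i * p l = (G *ᵥ ξ) i * w l := fun i l => congrFun (congrFun h3 i) l
  refine ⟨p b / w b, ?_, ?_⟩
  · funext i
    rw [Pi.smul_apply, smul_eq_mul, div_mul_eq_mul_div, eq_div_iff hb, ← h4]
    ring
  · have h5 : p = (p b / w b) • w := by
      funext l
      rw [Pi.smul_apply, smul_eq_mul]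
      have h6 := h4 a l
      have h7 := h4 a b
      apply mul_left_cancel₀ ha
      rw [h6]
      field_simp
      linear_combination (-(w l)) * h7
    rw [← h5, hp]
    abel

theorem dG_eq (Λ : P002R.Mat n ℂ) {a : Fin n → ℂ} (y η : Fin n → ℂ) {ξ : Fin N → Fin n → ℂ}
    {α β : Fin N → ℂ} (hv : ∑ i, α i • ξ i + a = 0) (s : ℕ) (h1 : ∀ l, α l ≠ 0 → l.val < s)
    (h2 : ∀ l : Fin N, l.val < s → β l = 0) : dG Λ a y η ξ α β s = Λ := by
  have h3 : ∑ l ∈ Finset.univ.filter (fun l : Fin N => l.val < s),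
      vecMulVec (ξ l) (α l • y + β l • η) = vecMulVec (∑ i, α i • ξ i) y := by
    have h4 : ∑ l ∈ Finset.univ.filter (fun l : Fin N => l.val < s),
        vecMulVec (ξ l) (α l • y + β l • η) = ∑ l, vecMulVec (α l • ξ l) y := by
      rw [Finset.sum_filter]
      refine Finset.sum_congr rfl fun l _ => ?_
      by_cases h : l.val < s
      · rw [if_pos h, h2 l h, zero_smul, add_zero]
        ext p q
        simp only [vecMulVec_apply, Pi.smul_apply, smul_eq_mul]
        ring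
      · have : α l = 0 := by
          by_contra h'
          exact h (h1 l h')
        rw [if_neg h, this, zero_smul]
        ext p q
        simp [vecMulVec_apply]
    rw [h4]
    ext p q
    simp only [Matrix.sum_apply, vecMulVec_apply, Finset.sum_apply, Finset.sum_mul]
  have h4 : a = -∑ i, α i • ξ i := by rw [eq_neg_iff_add_eq_zero, add_comm]; exact hv
  rw [dG, h3, h4]
  ext p q
  simp only [neg_vecMulVec, sub_neg_eq_add, Matrix.sub_apply, Matrix.add_apply, vecMulVec_apply, Finset.sum_apply, Pi.smul_apply, smul_eq_mul, add_sub_cancel_right]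

theorem dG_mulVec (Λ : P002R.Mat n ℂ) {a : Fin n → ℂ} {y : Fin n → ℂ} (η : Fin n → ℂ)
    {ξ : Fin N → Fin n → ℂ} {α : Fin N → ℂ} (s : ℕ) {v : Fin n → ℂ} (hv : y ⬝ᵥ v = 0) :
    dG Λ a y η ξ α 0 s *ᵥ v = Λ *ᵥ v := by
  have h1 : ∀ u : Fin n → ℂ, ∀ t : ℂ, vecMulVec u (t • y) *ᵥ v = 0 := by
    intro u t
    rw [Matrix.vecMulVec_mulVec, smul_dotProduct, hv, smul_zero]
    simp
  have h2 : vecMulVec a y *ᵥ v = 0 := by
    have := h1 a 1
    rwa [one_smul] at this
  rw [dG, Matrix.sub_mulVec, Matrix.sub_mulVec, h2, Matrix.sum_mulVec]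
  rw [Finset.sum_eq_zero]
  · simp
  · intro l _
    rw [Pi.zero_apply, zero_smul, add_zero]
    exact h1 _ _

variable {m : ℕ} {c : Fin N → P002R.Mat n ℂ} {ξ w : Fin N → Fin n → ℂ}

/-- Downward step. -/
theorem RP.beta_eq_zero (h : RP m c ξ w) (j : ℕ) (hj : j ≤ m) (hmN : m ≤ N) (k : Fin N)
    (hk : k.val < j) (α β : Fin N → ℂ) (y : Fin n → ℂ)
    (hv : ∑ i, α i • ξ i + pre c j *ᵥ ∑ i, β i • ξ i = 0)
    (hα : ∀ i, α i ≠ 0 → i.val < k.val ∧ y ⬝ᵥ ξ i = 0)
    (hβ : ∀ i, β i ≠ 0 → (k.val ≤ i.val ∧ i.val < j) ∧ y ⬝ᵥ (pre c j *ᵥ ξ i) = 0)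
    (hyk : y ⬝ᵥ ξ k ≠ 0) : β = 0 := by
  obtain ⟨Λ, hΛP, -, hΛ⟩ := h.key j (hj.trans hmN) α β y hv
    (fun i hi => ⟨(hα i hi).1.trans hk, (hα i hi).2⟩) (fun i hi => ⟨(hβ i hi).1.2, (hβ i hi).2⟩)
  have hαk : ∀ i : Fin N, k.val ≤ i.val → α i = 0 := by
    intro i hi
    by_contra h'
    exact absurd (hα i h').1 (by omega)
  -- the equations for `i < j` when `β` vanishes before `i`
  have hE : ∀ i : Fin N, k.val ≤ i.val → i.val < j → (∀ l : Fin N, l.val < i.val → β l = 0) →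
      ∃ γ : ℂ, Λ *ᵥ ξ i = γ • ξ i ∧
        w i ᵥ* Λ = γ • w i + (1 + w i ⬝ᵥ ξ i) • β i • (y ᵥ* pre c j) := by
    intro i hki hij hl
    have h1 := hΛ i hij
    have h2 := dG_succ Λ (pre c j *ᵥ ∑ i, β i • ξ i) y (y ᵥ* pre c j) ξ α β i
    rw [hαk i hki, zero_smul, zero_add] at h2
    have h3 : dG Λ (pre c j *ᵥ ∑ i, β i • ξ i) y (y ᵥ* pre c j) ξ α β i = Λ :=
      dG_eq Λ y _ hv i (fun l hl' => lt_of_lt_of_le (hα l hl').1 hki) hl
    rw [h3] at h1 h2
    exact refl_eq (h.refl i (by omega)) (h.xi_ne i (by omega)) (h.w_ne i (by omega)) h1 h2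
  obtain ⟨z, hz⟩ : ∃ z, pre c j *ᵥ z = ξ k := by
    refine ⟨suf c j *ᵥ ξ k, ?_⟩
    rw [Matrix.mulVec_mulVec, pre_mul_suf h.rel, Matrix.one_mulVec]
  have hηz : (y ᵥ* pre c j) ⬝ᵥ z ≠ 0 := by
    rwa [← Matrix.dotProduct_mulVec, hz]
  have hβlt : ∀ i : Fin N, i.val < k.val → β i = 0 := by
    intro i hi
    by_contra h'
    exact absurd (hβ i h').1.1 (by omega)
  obtain ⟨γ, hγ1, hγ2⟩ := hE k le_rfl hk hβlt
  have hΛz : Λ *ᵥ z = γ • z := by
    have h1 : pre c j *ᵥ (Λ *ᵥ z) = pre c j *ᵥ (γ • z) := by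
      rw [Matrix.mulVec_mulVec, ← hΛP, ← Matrix.mulVec_mulVec, hz, hγ1, Matrix.mulVec_smul, hz]
    have h2 : ∀ v : Fin n → ℂ, suf c j *ᵥ (pre c j *ᵥ v) = v := fun v => by
      rw [Matrix.mulVec_mulVec, suf_mul_pre h.rel, Matrix.one_mulVec]
    rw [← h2 (Λ *ᵥ z), h1, h2]
  -- conclusion for one index
  have hC : ∀ i : Fin N, i.val < j → w i ᵥ* Λ = γ • w i +
      (1 + w i ⬝ᵥ ξ i) • β i • (y ᵥ* pre c j) → β i = 0 := by
    intro i hij hi
    have h1 : (w i ᵥ* Λ) ⬝ᵥ z = γ * (w i ⬝ᵥ z) := by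
      rw [← Matrix.dotProduct_mulVec, hΛz, dotProduct_smul, smul_eq_mul]
    rw [hi, add_dotProduct, smul_dotProduct, smul_dotProduct, smul_dotProduct, smul_eq_mul,
      smul_eq_mul, smul_eq_mul] at h1
    have h2 : (1 + w i ⬝ᵥ ξ i) * (β i * ((y ᵥ* pre c j) ⬝ᵥ z)) = 0 := by
      linear_combination h1
    rcases mul_eq_zero.1 h2 with h3 | h3
    · exact absurd h3 (h.unit i (by omega))
    · rcases mul_eq_zero.1 h3 with h4 | h4
      · exact h4
      · exact absurd h4 hηz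
  have hβk : β k = 0 := hC k hk hγ2
  have hwk : w k ᵥ* Λ = γ • w k := by
    rw [hγ2, hβk, zero_smul, smul_zero, add_zero]
  have hmain : ∀ s : ℕ, ∀ i : Fin N, i.val = s → β i = 0 := by
    intro s
    induction s using Nat.strong_induction_on with
    | _ s ih =>
      rintro i rfl
      by_contra hne
      obtain ⟨⟨hki, hij⟩, -⟩ := hβ i hne
      have hik : k ≠ i := by
        rintro rfl
        exact hne hβk
      obtain ⟨γ', h1, h2⟩ := hE i hki hij fun l hl => ih l hl l rfl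
      have h3 : γ' = γ := by
        have h4 : (w k ᵥ* Λ) ⬝ᵥ ξ i = w k ⬝ᵥ (Λ *ᵥ ξ i) := (Matrix.dotProduct_mulVec _ _ _).symm
        rw [hwk, h1, smul_dotProduct, dotProduct_smul, smul_eq_mul, smul_eq_mul] at h4
        exact (mul_right_cancel₀ (h.pair k i (by omega) (by omega) hik) h4).symm
      rw [h3] at h2
      exact hne (hC i hij h2)
  funext i
  exact hmain i i rfl

/-- The first vectors are independent. -/
theorem RP.indep (h : RP m c ξ w) (hmN : m < N) (s : ℕ) (hs : s < m) (α : Fin N → ℂ)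
    (y : Fin n → ℂ) (hy : y ≠ 0) (hv : ∑ i, α i • ξ i = 0)
    (hα : ∀ i, α i ≠ 0 → i.val < s) (hys : ∀ i : Fin N, i.val < s → y ⬝ᵥ ξ i = 0) : α = 0 := by
  have hv' : ∑ i, α i • ξ i + pre c N *ᵥ ∑ i, (0 : Fin N → ℂ) i • ξ i = 0 := by
    simp only [hv, Pi.zero_apply, zero_smul, Finset.sum_const_zero, mulVec_zero, add_zero]
  obtain ⟨Λ, -, -, hΛ⟩ := h.key N le_rfl α 0 y hv' (fun i hi => ⟨i.isLt, hys i (hα i hi)⟩)
    (fun i hi => absurd rfl hi)
  obtain ⟨a, ha⟩ : ∃ a, a = pre c N *ᵥ ∑ i, (0 : Fin N → ℂ) i • ξ i := ⟨_, rfl⟩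
  have ha0 : a = 0 := by rw [ha]; simp only [Pi.zero_apply, zero_smul, Finset.sum_const_zero, mulVec_zero]
  rw [← ha] at hv' hΛ
  have hG : ∀ i : ℕ, s ≤ i → dG Λ a y (y ᵥ* pre c N) ξ α 0 i = Λ := fun i hi =>
    dG_eq Λ y _ hv' i (fun l hl' => lt_of_lt_of_le (hα l hl') hi) (fun _ _ => rfl)
  -- the matrices after `s` commute with `Λ`
  have hcomm : ∀ i : Fin N, s ≤ i.val → c i * Λ = Λ * c i := by
    intro i hi
    have h1 := hΛ i i.isLt
    rwa [hG _ hi, hG _ (by omega)] at h1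
  -- the equations
  have hE : ∀ i : Fin N, i.val < m → ∃ γ : ℂ,
      dG Λ a y (y ᵥ* pre c N) ξ α 0 i *ᵥ ξ i = γ • ξ i ∧
      w i ᵥ* dG Λ a y (y ᵥ* pre c N) ξ α 0 i = γ • w i + (1 + w i ⬝ᵥ ξ i) • α i • y := by
    intro i him
    have h1 := hΛ i i.isLt
    have h2 := dG_succ Λ a y (y ᵥ* pre c N) ξ α 0 i
    rw [Pi.zero_apply, zero_smul, add_zero] at h2
    exact refl_eq (h.refl i him) (h.xi_ne i him) (h.w_ne i him) h1 h2
  obtain ⟨t, ht⟩ : ∃ t : Fin N, t.val = s := ⟨⟨s, by omega⟩, rfl⟩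
  obtain ⟨γ, hγ1, hγ2⟩ := hE t (by omega)
  rw [ht, hG s le_rfl] at hγ1 hγ2
  have hαt : α t = 0 := by
    by_contra h'
    exact absurd (hα t h') (by omega)
  rw [hαt, zero_smul, smul_zero, add_zero] at hγ2
  have heig : ∀ i : Fin N, i.val < m → Λ *ᵥ ξ i = γ • ξ i := by
    intro i him
    by_cases hit : i = t
    · rw [hit]; exact hγ1
    obtain ⟨γ', h1, -⟩ := hE i him
    have h2 : Λ *ᵥ ξ i = γ' • ξ i := by
      by_cases his : i.val < s
      · rwa [dG_mulVec Λ _ _ (hys i his)] at h1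
      · rwa [hG i (by omega)] at h1
    have h3 : (w t ᵥ* Λ) ⬝ᵥ ξ i = w t ⬝ᵥ (Λ *ᵥ ξ i) := (Matrix.dotProduct_mulVec _ _ _).symm
    rw [hγ2, h2, smul_dotProduct, dotProduct_smul, smul_eq_mul, smul_eq_mul] at h3
    rw [h2, mul_right_cancel₀ (h.pair t i (by omega) him (Ne.symm hit)) h3]
  -- `Λ` is scalar
  have hscal : ∀ v, Λ *ᵥ v = γ • v := by
    obtain ⟨W, hW⟩ : ∃ W : Submodule ℂ (Fin n → ℂ), ∀ v, v ∈ W ↔ Λ *ᵥ v = γ • v := by
      refine ⟨LinearMap.ker (Matrix.mulVecLin Λ - γ • LinearMap.id), fun v => ?_⟩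
      rw [LinearMap.mem_ker, LinearMap.sub_apply, LinearMap.smul_apply, LinearMap.id_apply,
        Matrix.mulVecLin_apply, sub_eq_zero]
    have h1 := h.irr W fun i v hv => by
      rw [hW] at hv ⊢
      by_cases him : i.val < m
      · rw [h.refl i him, Matrix.add_mulVec, Matrix.one_mulVec, Matrix.vecMulVec_mulVec,
          Matrix.mulVec_add, hv, smul_add]
        congr 1
        rw [op_smul_eq_smul, Matrix.mulVec_smul, heig i him, smul_comm]
      · rw [Matrix.mulVec_mulVec, ← hcomm i (by omega), ← Matrix.mulVec_mulVec, hv,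
          Matrix.mulVec_smul]
    rcases h1 with h1 | h1
    · exfalso
      have h2 : ξ t ∈ W := (hW _).2 hγ1
      rw [h1, Submodule.mem_bot] at h2
      exact h.xi_ne t (by omega) h2
    · intro v
      exact (hW v).1 (h1 ▸ Submodule.mem_top)
  have hscal' : ∀ v : Fin n → ℂ, v ᵥ* Λ = γ • v := by
    intro v
    have h1 : Λ = γ • (1 : P002R.Mat n ℂ) := by
      ext p q
      have := congrFun (hscal (Pi.single q 1)) p
      rw [Matrix.mulVec_single_one] at this
      rw [Matrix.smul_apply, Matrix.one_apply, smul_eq_mul]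
      have h2 : Λ p q = γ * (Pi.single q 1 : Fin n → ℂ) p := this
      rw [h2]
      by_cases hpq : p = q
      · subst hpq; simp
      · rw [Pi.single_eq_of_ne hpq, if_neg hpq]
    rw [h1, Matrix.vecMul_smul, Matrix.vecMul_one]
  have hmain : ∀ p : ℕ, ∀ i : Fin N, i.val = p → α i = 0 := by
    intro p
    induction p using Nat.strong_induction_on with
    | _ p ih =>
      rintro i rfl
      by_contra hne
      have his := hα i hne
      obtain ⟨γ', h1, h2⟩ := hE i (by omega)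
      have h3 : dG Λ a y (y ᵥ* pre c N) ξ α 0 i = Λ := by
        rw [dG, ha0, Finset.sum_eq_zero]
        · ext; simp
        · intro l hl
          rw [Finset.mem_filter] at hl
          rw [ih l hl.2 l rfl, Pi.zero_apply, zero_smul, zero_smul, add_zero]
          ext; simp [vecMulVec_apply]
      rw [h3, hscal'] at h2
      rw [h3, hscal] at h1
      have h4 : γ = γ' := smul_left_injective ℂ (h.xi_ne i (by omega)) h1
      rw [h4] at h2
      have h5 : (1 + w i ⬝ᵥ ξ i) • α i • y = 0 := by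
        have := h2
        rwa [left_eq_add] at this
      rw [smul_smul] at h5
      rcases smul_eq_zero.1 h5 with h6 | h6
      · rcases mul_eq_zero.1 h6 with h7 | h7
        · exact h.unit i (by omega) h7
        · exact hne h7
      · exact hy h6
  funext i
  exact hmain i i rfl

end key

end Vale.Agent.P002R
end

section

/-!
# P002, genus 0, dual chart: the prefix products of a generic tuple of reflections lie in the cell
-/

namespace Vale.Agent.P002R

open Matrix Module Vale.Agent.P002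

section good

variable {n N m : ℕ} {c : Fin N → P002R.Mat n ℂ} {ξ w : Fin N → Fin n → ℂ}

/-- the matrix with the first `n` vectors as columns -/
def bM (hN : n ≤ N) (ξ : Fin N → Fin n → ℂ) : P002R.Mat n ℂ :=
  Matrix.of fun a i => ξ (Fin.castLE hN i) a

/-- extension of a vector by zero -/
def extv (N : ℕ) (u : Fin n → ℂ) (l : Fin N) : ℂ := if h : l.val < n then u ⟨l, h⟩ else 0

theorem extv_castLE (hN : n ≤ N) (u : Fin n → ℂ) (i : Fin n) :
    extv N u (Fin.castLE hN i) = u i := by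
  rw [extv, dif_pos (by simp)]
  rfl

theorem extv_ne {u : Fin n → ℂ} {l : Fin N} (h : extv N u l ≠ 0) : l.val < n := by
  by_contra h'
  exact h (by rw [extv, dif_neg h'])

theorem bM_mulVec (hN : n ≤ N) (ξ : Fin N → Fin n → ℂ) (u : Fin n → ℂ) :
    bM hN ξ *ᵥ u = ∑ l, extv N u l • ξ l := by
  have h1 : bM hN ξ *ᵥ u = ∑ i : Fin n, u i • ξ (Fin.castLE hN i) := by
    funext a
    simp only [Matrix.mulVec, dotProduct, bM, Matrix.of_apply, Finset.sum_apply, Pi.smul_apply,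
      smul_eq_mul]
    exact Finset.sum_congr rfl fun i _ => mul_comm _ _
  rw [h1, ← Finset.sum_subset (Finset.subset_univ (Finset.univ.map (Fin.castLEEmb hN)))]
  · rw [Finset.sum_map]
    refine Finset.sum_congr rfl fun i _ => ?_
    rw [Fin.coe_castLEEmb, extv_castLE]
  · intro l _ hl
    have : extv N u l = 0 := by
      by_contra h
      apply hl
      rw [Finset.mem_map]
      exact ⟨⟨l, extv_ne h⟩, Finset.mem_univ _, Fin.ext rfl⟩
    rw [this, zero_smul]

theorem vecMul_bM (hN : n ≤ N) (ξ : Fin N → Fin n → ℂ) (y : Fin n → ℂ) (i : Fin n) :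
    (y ᵥ* bM hN ξ) i = y ⬝ᵥ ξ (Fin.castLE hN i) := rfl

/-- (G1) -/
theorem RP.det_bM (h : RP m c ξ w) (hN : n ≤ N) (hmN : m < N) (hnm : n < m) :
    (bM hN ξ).det ≠ 0 := by
  intro hdet
  obtain ⟨u, hu, hBu⟩ := Matrix.exists_mulVec_eq_zero_iff.2 hdet
  obtain ⟨y, hy, hyB⟩ := Matrix.exists_vecMul_eq_zero_iff.2 hdet
  have h1 := h.indep hmN n hnm (extv N u) y hy (by rw [← bM_mulVec hN, hBu])
    (fun i hi => extv_ne hi) (fun i hi => by
      have := congrFun hyB ⟨i, hi⟩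
      rw [vecMul_bM] at this
      exact this)
  apply hu
  funext i
  rw [← extv_castLE hN u i, h1]
  rfl

/-- a vector in the span of the vectors with indices at least `k` plus one further vector -/
theorem RP.corner (h : RP m c ξ w) (hN : n ≤ N) (hmN : m < N) (j : ℕ) (hnj : n ≤ j) (hjm : j ≤ m)
    (k : Fin n) (q : Fin N) (hq : q.val < j) (hqk : q.val = k.val ∨ n ≤ q.val)
    (g t : Fin n → ℂ) (r : ℂ) (y : Fin n → ℂ)
    (hg : ∀ i, g i ≠ 0 → i < k) (ht : ∀ i, t i ≠ 0 → k < i)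
    (hrel : bM hN ξ *ᵥ g + pre c j *ᵥ (r • ξ q + bM hN ξ *ᵥ t) = 0)
    (hy1 : ∀ i, i < k → (y ᵥ* bM hN ξ) i = 0)
    (hy2 : ∀ i, k < i → (y ᵥ* (pre c j * bM hN ξ)) i = 0)
    (hy3 : y ⬝ᵥ (pre c j *ᵥ ξ q) = 0) (hyk : (y ᵥ* bM hN ξ) k ≠ 0) : r = 0 := by
  have hkN : k.val < N := lt_of_lt_of_le k.isLt hN
  obtain ⟨β, hβ⟩ : ∃ β : Fin N → ℂ, ∀ l, β l = extv N t l + (Pi.single q r : Fin N → ℂ) l :=
    ⟨_, fun _ => rfl⟩
  have hβsum : ∑ l, β l • ξ l = r • ξ q + bM hN ξ *ᵥ t := by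
    rw [bM_mulVec, add_comm]
    simp only [hβ, add_smul, Finset.sum_add_distrib]
    congr 1
    rw [Finset.sum_eq_single q]
    · rw [Pi.single_eq_same]
    · intro l _ hl
      rw [Pi.single_eq_of_ne hl, zero_smul]
    · intro h; exact absurd (Finset.mem_univ _) h
  have hξB : ∀ i : Fin N, ∀ hi : i.val < n, ξ i = bM hN ξ *ᵥ Pi.single ⟨i, hi⟩ 1 := by
    intro i hi
    rw [Matrix.mulVec_single_one]
    rfl
  have hβz := h.beta_eq_zero j hjm hmN.le ⟨k, hkN⟩ (lt_of_lt_of_le k.isLt hnj) (extv N g) β y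
    (by rw [← bM_mulVec hN, hβsum]; exact hrel)
    (fun i hi => by
      have h1 := extv_ne hi
      rw [extv, dif_pos h1] at hi
      have h2 := hg _ hi
      refine ⟨h2, ?_⟩
      have h3 := hy1 ⟨i, h1⟩ h2
      rwa [vecMul_bM] at h3)
    (fun i hi => by
      by_cases hiq : i = q
      · subst hiq
        refine ⟨⟨?_, hq⟩, hy3⟩
        rcases hqk with h1 | h1
        · exact h1.ge
        · exact k.isLt.le.trans h1
      · rw [hβ, Pi.single_eq_of_ne hiq, add_zero] at hi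
        have h1 := extv_ne hi
        rw [extv, dif_pos h1] at hi
        have h2 := ht _ hi
        refine ⟨⟨(Fin.lt_def.1 h2).le, h1.trans_le hnj⟩, ?_⟩
        have h3 := hy2 ⟨i, h1⟩ h2
        rw [← h3, hξB i h1, Matrix.mulVec_mulVec, Matrix.dotProduct_mulVec,
          dotProduct_single_one])
    (by rw [vecMul_bM] at hyk; exact hyk)
  have h1 := hβ q
  rw [hβz, Pi.single_eq_same] at h1
  have h2 : extv N t q = 0 := by
    by_contra h'
    have h3 := extv_ne h'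
    rw [extv, dif_pos h3] at h'
    have h4 := Fin.lt_def.1 (ht _ h')
    rcases hqk with h5 | h5
    · simp only at h4
      omega
    · omega
  rw [h2, zero_add] at h1
  exact h1.symm

/-- singular corners -/
theorem corner_iff (M : P002R.Mat n ℂ) (k : ℕ) :
    (M.submatrix (fun i : {i : Fin n // k ≤ (i : ℕ)} => (i : Fin n))
      (fun i : {i : Fin n // k ≤ (i : ℕ)} => (i : Fin n))).det = 0 ↔
    ∃ v : Fin n → ℂ, v ≠ 0 ∧ (∀ i : Fin n, (i : ℕ) < k → v i = 0) ∧
      ∀ i : Fin n, k ≤ (i : ℕ) → (M *ᵥ v) i = 0 := by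
  have hsum : ∀ (F : Fin n → ℂ), (∀ i : Fin n, (i : ℕ) < k → F i = 0) →
      ∑ i, F i = ∑ i : {i : Fin n // k ≤ (i : ℕ)}, F i := by
    intro F hF
    rw [← Fintype.sum_subtype_add_sum_subtype (fun i : Fin n => k ≤ (i : ℕ)) F,
      add_eq_left]
    refine Finset.sum_eq_zero fun i _ => hF i ?_
    have := i.2
    omega
  rw [← Matrix.exists_mulVec_eq_zero_iff]
  constructor
  · rintro ⟨v, hv0, hv⟩
    obtain ⟨v', hv'⟩ : ∃ v' : Fin n → ℂ, ∀ i, v' i = if h : k ≤ (i : ℕ) then v ⟨i, h⟩ else 0 :=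
      ⟨_, fun _ => rfl⟩
    have h0 : ∀ i : Fin n, (i : ℕ) < k → v' i = 0 := fun i hi => by
      rw [hv', dif_neg (by omega)]
    refine ⟨v', ?_, h0, fun i hi => ?_⟩
    · intro h
      apply hv0
      funext i
      have h1 := hv' i
      rw [h, dif_pos i.2] at h1
      exact h1.symm
    · have h1 := congrFun hv ⟨i, hi⟩
      simp only [Matrix.mulVec, dotProduct, Matrix.submatrix_apply, Pi.zero_apply] at h1 ⊢
      rw [hsum _ fun l hl => by rw [h0 l hl, mul_zero], ← h1]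
      refine Finset.sum_congr rfl fun l _ => ?_
      rw [hv', dif_pos l.2]
  · rintro ⟨v, hv0, h0, hv⟩
    refine ⟨fun i => v i, ?_, ?_⟩
    · intro h
      apply hv0
      funext i
      by_cases hi : k ≤ (i : ℕ)
      · exact congrFun h ⟨i, hi⟩
      · exact h0 i (by omega)
    · funext i
      have h1 := hv i i.2
      simp only [Matrix.mulVec, dotProduct, Matrix.submatrix_apply, Pi.zero_apply] at h1 ⊢
      rw [← h1, hsum _ fun l hl => by rw [h0 l hl, mul_zero]]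

theorem corner_iff' (M : P002R.Mat n ℂ) (k : ℕ) :
    (M.submatrix (fun i : {i : Fin n // k ≤ (i : ℕ)} => (i : Fin n))
      (fun i : {i : Fin n // k ≤ (i : ℕ)} => (i : Fin n))).det = 0 ↔
    ∃ v : Fin n → ℂ, v ≠ 0 ∧ (∀ i : Fin n, (i : ℕ) < k → v i = 0) ∧
      ∀ i : Fin n, k ≤ (i : ℕ) → (v ᵥ* M) i = 0 := by
  have h1 := corner_iff Mᵀ k
  rw [← Matrix.transpose_submatrix, Matrix.det_transpose] at h1
  simpa only [Matrix.mulVec_transpose] using h1

/-- (G2) -/
theorem RP.exists_cell (h : RP m c ξ w) (hN : n ≤ N) (hmN : m < N) (hnm : n < m) (j : ℕ)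
    (hnj : n ≤ j) (hjm : j ≤ m) :
    ∃ X : P002R.Mat n ℂ, (bM hN ξ)⁻¹ * pre c j * bM hN ξ = zZ X ∧ ∀ i, X i i ≠ 0 := by
  obtain ⟨B, hB⟩ : ∃ B, B = bM hN ξ := ⟨_, rfl⟩
  have hdet : IsUnit B.det := by rw [hB]; exact (h.det_bM hN hmN hnm).isUnit
  have hB1 : B * B⁻¹ = 1 := Matrix.mul_nonsing_inv _ hdet
  have hB2 : B⁻¹ * B = 1 := Matrix.nonsing_inv_mul _ hdet
  obtain ⟨M, hM⟩ : ∃ M, M = B⁻¹ * pre c j * B := ⟨_, rfl⟩
  have hBM : B * M = pre c j * B := by
    rw [hM, ← Matrix.mul_assoc, ← Matrix.mul_assoc, hB1, Matrix.one_mul]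
  rw [← hB, ← hM]
  refine exists_UL M fun k hk => ?_
  induction hk using Nat.decreasingInduction with
  | self =>
    have : IsEmpty {i : Fin n // n ≤ (i : ℕ)} := ⟨fun i => absurd i.1.isLt (not_lt.2 i.2)⟩
    rw [Matrix.det_isEmpty]
    exact one_ne_zero
  | of_succ k hk ih =>
    intro hd
    obtain ⟨v, hv0, hv1, hv2⟩ := (corner_iff M k).1 hd
    obtain ⟨z, hz0, hz1, hz2⟩ := (corner_iff' M k).1 hd
    have hvk : v ⟨k, hk⟩ ≠ 0 := by
      intro h0
      refine ih ((corner_iff M (k + 1)).2 ⟨v, hv0, fun i hi => ?_, fun i hi => hv2 i (by omega)⟩)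
      rcases Nat.lt_succ_iff_lt_or_eq.1 hi with h | h
      · exact hv1 i h
      · rw [show i = ⟨k, hk⟩ from Fin.ext h]; exact h0
    have hzk : z ⟨k, hk⟩ ≠ 0 := by
      intro h0
      refine ih ((corner_iff' M (k + 1)).2 ⟨z, hz0, fun i hi => ?_, fun i hi => hz2 i (by omega)⟩)
      rcases Nat.lt_succ_iff_lt_or_eq.1 hi with h | h
      · exact hz1 i h
      · rw [show i = ⟨k, hk⟩ from Fin.ext h]; exact h0
    have hyB : (z ᵥ* B⁻¹) ᵥ* B = z := by
      rw [Matrix.vecMul_vecMul, hB2, Matrix.vecMul_one]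
    have hyP : (z ᵥ* B⁻¹) ᵥ* (pre c j * B) = z ᵥ* M := by
      rw [Matrix.vecMul_vecMul, hM, ← Matrix.mul_assoc]
    have hkN : k < N := lt_of_lt_of_le hk hN
    have hξk : ξ ⟨k, hkN⟩ = B *ᵥ Pi.single ⟨k, hk⟩ 1 := by
      rw [Matrix.mulVec_single_one, hB]
      rfl
    refine hvk (h.corner hN hmN j hnj hjm ⟨k, hk⟩ ⟨k, hkN⟩ (lt_of_lt_of_le hk hnj) (Or.inl rfl)
      (-(M *ᵥ v)) (v - Pi.single ⟨k, hk⟩ (v ⟨k, hk⟩)) _ (z ᵥ* B⁻¹) (fun i hi => ?_)
      (fun i hi => ?_) ?_ (fun i hi => ?_) (fun i hi => ?_) ?_ ?_)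
    · by_contra h'
      rw [Fin.lt_def, not_lt] at h'
      apply hi
      rw [Pi.neg_apply, hv2 i h', neg_zero]
    · by_contra h'
      rw [Fin.lt_def, not_lt] at h'
      apply hi
      rcases Nat.lt_or_eq_of_le h' with h'' | h''
      · rw [Pi.sub_apply, hv1 i h'', Pi.single_eq_of_ne, sub_zero]
        rintro rfl
        exact lt_irrefl _ h''
      · have : i = ⟨k, hk⟩ := Fin.ext h''
        rw [this, Pi.sub_apply, Pi.single_eq_same, sub_self]
    · have h1 : v ⟨k, hk⟩ • ξ ⟨k, hkN⟩ + bM hN ξ *ᵥ (v - Pi.single ⟨k, hk⟩ (v ⟨k, hk⟩)) =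
          B *ᵥ v := by
        rw [hξk, ← hB, ← Matrix.mulVec_smul, ← Matrix.mulVec_add]
        congr 1
        rw [← Pi.single_smul, smul_eq_mul, mul_one, add_sub_cancel]
      rw [h1, ← hB, Matrix.mulVec_neg, Matrix.mulVec_mulVec, hBM, Matrix.mulVec_mulVec,
        neg_add_cancel]
    · rw [← hB, hyB]
      exact hz1 i hi
    · rw [← hB, hyP]
      exact hz2 i (Fin.lt_def.1 hi).le
    · rw [hξk, Matrix.mulVec_mulVec, Matrix.dotProduct_mulVec, dotProduct_single_one, hyP]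
      exact hz2 _ le_rfl
    · rw [← hB, hyB]
      exact hzk

/-- (G3) -/
theorem RP.coord_ne (h : RP m c ξ w) (hN : n ≤ N) (hmN : m < N) (hnm : n < m) (j : ℕ)
    (hnj : n ≤ j) (hjm : j ≤ m) (q : Fin N) (hq : q.val < j) (hnq : n ≤ q.val)
    (X : P002R.Mat n ℂ) (hX : (bM hN ξ)⁻¹ * pre c j * bM hN ξ = zZ X) (hX0 : ∀ i, X i i ≠ 0)
    (k : Fin n) : (lL X *ᵥ ((bM hN ξ)⁻¹ *ᵥ ξ q)) k ≠ 0 := by
  intro hk
  obtain ⟨B, hB⟩ : ∃ B, B = bM hN ξ := ⟨_, rfl⟩
  have hdet : IsUnit B.det := by rw [hB]; exact (h.det_bM hN hmN hnm).isUnit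
  have hB1 : B * B⁻¹ = 1 := Matrix.mul_nonsing_inv _ hdet
  have hB2 : B⁻¹ * B = 1 := Matrix.nonsing_inv_mul _ hdet
  rw [← hB] at hX hk
  have hBM : B * zZ X = pre c j * B := by
    rw [← hX, ← Matrix.mul_assoc, ← Matrix.mul_assoc, hB1, Matrix.one_mul]
  obtain ⟨U, hU⟩ : ∃ U, U = uU X := ⟨_, rfl⟩
  obtain ⟨L, hL⟩ : ∃ L, L = lL X := ⟨_, rfl⟩
  have hUt : UpT U := hU ▸ upT_uU X
  have hUd : ∀ i, U i i ≠ 0 := fun i => by rw [hU, uU_diag]; exact one_ne_zero
  have hLt : LoT L := hL ▸ loT_lL X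
  have hLd : ∀ i, L i i ≠ 0 := fun i => by rw [hL, lL_diag]; exact hX0 i
  have hUdet : IsUnit U.det := by
    rw [hUt.det, isUnit_iff_ne_zero, Finset.prod_ne_zero_iff]
    exact fun i _ => hUd i
  have hLdet : IsUnit L.det := by
    rw [hLt.det, isUnit_iff_ne_zero, Finset.prod_ne_zero_iff]
    exact fun i _ => hLd i
  have hZ : zZ X = U * L := by rw [zZ_eqn, hU, hL]
  have hU1 : U * U⁻¹ = 1 := Matrix.mul_nonsing_inv _ hUdet
  have hU2 : U⁻¹ * U = 1 := Matrix.nonsing_inv_mul _ hUdet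
  have hL1 : L * L⁻¹ = 1 := Matrix.mul_nonsing_inv _ hLdet
  rw [← hL] at hk
  obtain ⟨v, hv⟩ : ∃ v, v = B⁻¹ *ᵥ ξ q := ⟨_, rfl⟩
  obtain ⟨s, hs⟩ : ∃ s, s = L *ᵥ v := ⟨_, rfl⟩
  rw [← hv, ← hs] at hk
  -- the two parts of `s`
  obtain ⟨s₁, hs₁⟩ : ∃ s₁ : Fin n → ℂ, ∀ i, s₁ i = if i < k then s i else 0 := ⟨_, fun _ => rfl⟩
  obtain ⟨s₂, hs₂⟩ : ∃ s₂ : Fin n → ℂ, ∀ i, s₂ i = if k < i then s i else 0 := ⟨_, fun _ => rfl⟩
  have hs12 : s = s₁ + s₂ := by
    funext i
    rw [Pi.add_apply, hs₁, hs₂]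
    rcases lt_trichotomy i k with h1 | h1 | h1
    · rw [if_pos h1, if_neg h1.not_gt, add_zero]
    · rw [h1, hk]
      simp
    · rw [if_neg h1.not_gt, if_pos h1, zero_add]
  have hξ : ξ q = B *ᵥ v := by
    rw [hv, Matrix.mulVec_mulVec, hB1, Matrix.one_mulVec]
  obtain ⟨z, hz⟩ : ∃ z : Fin n → ℂ, z = (Pi.single k 1 : Fin n → ℂ) ᵥ* U⁻¹ := ⟨_, rfl⟩
  have hzi : ∀ i, z i = U⁻¹ k i := fun i => by
    rw [hz, Matrix.single_one_vecMul]
    rfl
  have hzM : z ᵥ* zZ X = fun i => L k i := by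
    rw [hz, hZ, Matrix.vecMul_vecMul, ← Matrix.mul_assoc, hU2, Matrix.one_mul,
      Matrix.single_one_vecMul]
    rfl
  have hyB : (z ᵥ* B⁻¹) ᵥ* B = z := by
    rw [Matrix.vecMul_vecMul, hB2, Matrix.vecMul_one]
  have hyP : (z ᵥ* B⁻¹) ᵥ* (pre c j * B) = z ᵥ* zZ X := by
    rw [Matrix.vecMul_vecMul, ← hBM, ← Matrix.mul_assoc, hB2, Matrix.one_mul]
  have hone := h.corner hN hmN j hnj hjm k q hq (Or.inr hnq) (-(U *ᵥ s₁)) (-(L⁻¹ *ᵥ s₂)) 1
    (z ᵥ* B⁻¹) (fun i hi => ?_) (fun i hi => ?_) ?_ (fun i hi => ?_) (fun i hi => ?_) ?_ ?_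
  · exact one_ne_zero hone
  · by_contra h'
    rw [not_lt] at h'
    apply hi
    rw [Pi.neg_apply, Matrix.mulVec, dotProduct, Finset.sum_eq_zero, neg_zero]
    intro l _
    rcases lt_or_ge l i with h1 | h1
    · rw [hUt i l h1, zero_mul]
    · rw [hs₁, if_neg (not_lt.2 (h'.trans h1)), mul_zero]
  · by_contra h'
    rw [not_lt] at h'
    apply hi
    rw [Pi.neg_apply, Matrix.mulVec, dotProduct, Finset.sum_eq_zero, neg_zero]
    intro l _
    rcases lt_or_ge i l with h1 | h1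
    · rw [hLt.inv hLd i l h1, zero_mul]
    · rw [hs₂, if_neg (not_lt.2 (h1.trans h')), mul_zero]
  · rw [← hB, one_smul, hξ, Matrix.mulVec_neg, Matrix.mulVec_neg, ← sub_eq_add_neg,
      ← Matrix.mulVec_sub, Matrix.mulVec_mulVec (v - L⁻¹ *ᵥ s₂), ← hBM,
      ← Matrix.mulVec_mulVec (v - L⁻¹ *ᵥ s₂), neg_add_eq_zero]
    congr 1
    rw [hZ, ← Matrix.mulVec_mulVec]
    congr 1
    rw [Matrix.mulVec_sub, ← hs, Matrix.mulVec_mulVec, hL1, Matrix.one_mulVec, hs12,
      add_sub_cancel_right]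
  · rw [← hB, hyB, hzi]
    exact hUt.inv hUd k i hi
  · rw [← hB, hyP, hzM]
    exact hLt k i hi
  · rw [hξ, Matrix.mulVec_mulVec, Matrix.dotProduct_mulVec, hyP, hzM]
    have h1 : (fun i => L k i) ⬝ᵥ v = s k := by rw [hs]; rfl
    rw [h1, hk]
  · rw [← hB, hyB, hzi, inv_diag hUt hUd, hU, uU_diag, inv_one]
    exact one_ne_zero

end good

end Vale.Agent.P002R
end

section

/-!
# P002, genus 0, dual chart: existence of dual tuples in general position
-/

namespace Vale.Agent.P002R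

open Matrix Module Vale.Agent.P002

section rot

variable {r : ℕ} {ι : Type}

/-- Rotation of the relation. -/
theorem DL_rotateA (c x : ι → P002R.Mat r ℂ) (l₁ l₂ : List ι)
    (h : ((l₁ ++ l₂).map c).prod = 1) (hx : DL c x (l₂ ++ l₁) = 0) : DL c x (l₁ ++ l₂) = 0 := by
  rw [List.map_append, List.prod_append] at h
  rw [DL_append] at hx ⊢
  obtain ⟨P, hP⟩ : ∃ P, P = (l₁.map c).prod := ⟨_, rfl⟩
  obtain ⟨Q, hQ⟩ : ∃ Q, Q = (l₂.map c).prod := ⟨_, rfl⟩
  rw [← hP, ← hQ] at h hx ⊢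
  have h1 : P * (DL c x l₂ * P + Q * DL c x l₁) * Q = 0 := by
    rw [hx, Matrix.mul_zero, Matrix.zero_mul]
  calc DL c x l₁ * Q + P * DL c x l₂
      = (P * Q) * DL c x l₁ * Q + P * DL c x l₂ * (P * Q) := by
        rw [h, Matrix.one_mul, Matrix.mul_one]
    _ = P * (DL c x l₂ * P + Q * DL c x l₁) * Q := by noncomm_ring
    _ = 0 := h1

/-- Pairwise nonvanishing at a generic point. -/
theorem generic_pair {N n : ℕ} {K₀ : Subfield ℂ} {J Y : Fin N → P002R.Mat n ℂ}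
    (hJK : ∀ j a b, J j a b ∈ K₀) (hJ : ∀ j, IsUnit (J j)) (hY : ∀ j, IsUnit (Y j))
    (hrel : ((List.finRange N).map (cj J Y)).prod = 1)
    (hadj : Algebra.adjoin ℂ (Set.range (cj J Y)) = ⊤)
    (hgen : GenPt K₀ J (List.finRange N) Y) (b t : Fin N) (hbt : t ≠ b)
    (e ε : Fin n → ℂ) (he : ∀ i, e i ∈ K₀) (hε : ∀ i, ε i ∈ K₀) (he0 : e ≠ 0) (hε0 : ε ≠ 0) :
    ε ⬝ᵥ (((Y t)⁻¹ * Y b) *ᵥ e) ≠ 0 := by
  obtain ⟨p, s, hps⟩ := List.append_of_mem (List.mem_finRange b)
  have hrel' : ((p ++ b :: s).map (cj J Y)).prod = 1 := by rw [← hps]; exact hrel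
  have ht : t ∈ s ++ p := by
    have h1 := List.mem_finRange t
    rw [hps, List.mem_append, List.mem_cons] at h1
    rw [List.mem_append]
    rcases h1 with h1 | h1 | h1
    · exact Or.inr h1
    · exact absurd h1 hbt
    · exact Or.inl h1
  obtain ⟨l₂, l₃, hl⟩ := List.append_of_mem ht
  have hperm : (b :: (([] : List (Fin N)) ++ (l₂ ++ t :: l₃))).Perm (List.finRange N) := by
    rw [List.nil_append, ← hl, hps]
    exact (List.perm_append_comm (l₁ := b :: s) (l₂ := p))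
  have hrot : (b :: s) ++ p = b :: (([] : List (Fin N)) ++ (l₂ ++ t :: l₃)) := by
    rw [List.nil_append, ← hl, List.cons_append]
  have hgen' : GenPt K₀ J (b :: (([] : List (Fin N)) ++ (l₂ ++ t :: l₃))) Y := by
    intro x hx
    rw [← hrot] at hx
    exact hgen x (by rw [hps]; exact DL_rotateA _ x p (b :: s) hrel' hx)
  have hrel'' : ((b :: (([] : List (Fin N)) ++ (l₂ ++ t :: l₃))).map (cj J Y)).prod = 1 := by
    rw [← hrot, List.map_append, List.prod_append]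
    rw [List.map_append, List.prod_append] at hrel'
    exact mul_eq_one_comm.1 hrel'
  have h1 := generic_functional hJK hJ hY b t [] l₂ l₃ (hperm.nodup_iff.2 (List.nodup_finRange N))
    (fun j => hperm.mem_iff.2 (List.mem_finRange j)) hrel'' hadj hgen' e ε he hε he0 hε0
  rwa [List.map_nil, List.prod_nil, inv_one, Matrix.mul_one] at h1

end rot

section near

variable {n : ℕ}

/-- conjugate of a reflection -/
theorem conj_refl {A : P002R.Mat n ℂ} (hA : IsUnit A) (ξ w : Fin n → ℂ) :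
    A * (1 + vecMulVec ξ w) * A⁻¹ = 1 + vecMulVec (A *ᵥ ξ) (w ᵥ* A⁻¹) := by
  have hd : IsUnit A.det := (Matrix.isUnit_iff_isUnit_det _).1 hA
  rw [Matrix.mul_add, Matrix.mul_one, Matrix.add_mul, Matrix.mul_nonsing_inv _ hd,
    Matrix.mul_vecMulVec, Matrix.vecMulVec_mul]

theorem isUnit_refl {ξ w : Fin n → ℂ} (h : 1 + w ⬝ᵥ ξ ≠ 0) :
    IsUnit (1 + vecMulVec ξ w : P002R.Mat n ℂ) := by
  refine (Matrix.isUnit_iff_isUnit_det _).2 (isUnit_iff_ne_zero.2 ?_)
  intro hd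
  obtain ⟨v, hv0, hv⟩ := Matrix.exists_mulVec_eq_zero_iff.2 hd
  rw [Matrix.add_mulVec, Matrix.one_mulVec, Matrix.vecMulVec_mulVec, op_smul_eq_smul] at hv
  have h1 : (1 + w ⬝ᵥ ξ) * (w ⬝ᵥ v) = 0 := by
    have := congrArg (fun u => w ⬝ᵥ u) hv
    simp only [dotProduct_add, dotProduct_smul, smul_eq_mul, dotProduct_zero] at this
    linear_combination this
  rcases mul_eq_zero.1 h1 with h2 | h2
  · exact h h2
  · rw [h2, zero_smul, add_zero] at hv
    exact hv0 hv

theorem pre_ofFn {M : ℕ} (c : Fin (M + 1) → P002R.Mat n ℂ) (j : ℕ) (hj : j ≤ M) :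
    pre c j = ((List.ofFn fun i : Fin M => c i.castSucc).take j).prod := by
  rw [pre, List.finRange_succ_last, List.take_append_of_le_length (by simpa only [List.length_map, List.length_finRange] using hj),
    List.ofFn_eq_map, ← List.map_take, List.map_map, List.map_take]
  rfl

/-- continuity of the inverse -/
theorem continuousAt_inv_one : ContinuousAt (fun A : P002R.Mat n ℂ => A⁻¹) 1 := by
  have h1 : (fun A : P002R.Mat n ℂ => A⁻¹) = fun A : P002R.Mat n ℂ => (A.det)⁻¹ • A.adjugate := by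
    funext A
    rw [Matrix.inv_def, Ring.inverse_eq_inv']
  rw [h1]
  have h2 : Continuous fun A : P002R.Mat n ℂ => A.det := Continuous.matrix_det continuous_id
  have h3 : Continuous fun A : P002R.Mat n ℂ => A.adjugate :=
    Continuous.matrix_adjugate continuous_id
  have h4 : (1 : P002R.Mat n ℂ).det ≠ 0 := by rw [Matrix.det_one]; exact one_ne_zero
  exact (h2.continuousAt.inv₀ h4).smul h3.continuousAt

/-- Generic position near an irreducible dual tuple. -/
theorem dNear {n e : ℕ} (hn : 0 < n) (he : 0 < e) : DNear n e := by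
  intro Ξ Υ hΞ hΥ hu hirr V hV
  -- the tuple
  obtain ⟨W, hW⟩ : ∃ W, W = (List.ofFn (dR Ξ Υ)).prod := ⟨_, rfl⟩
  obtain ⟨ξ0, hξ0⟩ : ∃ ξ0 : Fin (n + e + 1) → Fin n → ℂ, ∀ i : Fin (n + e),
      ξ0 i.castSucc = fun a => Ξ a i := by
    exact ⟨fun i => if h : i.val < n + e then fun a => Ξ a ⟨i.val, h⟩ else 0,
      fun i => dif_pos i.isLt⟩
  obtain ⟨w0, hw0⟩ : ∃ w0 : Fin (n + e + 1) → Fin n → ℂ, ∀ i : Fin (n + e),
      w0 i.castSucc = Υ i := by
    exact ⟨fun i => if h : i.val < n + e then Υ ⟨i.val, h⟩ else 0, fun i => dif_pos i.isLt⟩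
  obtain ⟨J, hJ1, hJ2⟩ : ∃ J : Fin (n + e + 1) → P002R.Mat n ℂ,
      (∀ i : Fin (n + e), J i.castSucc = 1 + vecMulVec (ξ0 i.castSucc) (w0 i.castSucc)) ∧
      J (Fin.last _) = W⁻¹ := by
    exact ⟨fun i => if i.val < n + e then 1 + vecMulVec (ξ0 i) (w0 i) else W⁻¹,
      fun i => if_pos i.isLt, if_neg (lt_irrefl _)⟩
  have hJR : ∀ i : Fin (n + e), J i.castSucc = dR Ξ Υ i := fun i => by
    rw [hJ1, hξ0, hw0]
    rfl
  have hRu : ∀ i, IsUnit (dR Ξ Υ i) := fun i => isUnit_refl (hu i)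
  have hWu : IsUnit W := by
    rw [hW]
    refine List.prod_isUnit fun m hm => ?_
    rw [List.mem_ofFn] at hm
    obtain ⟨i, rfl⟩ := hm
    exact hRu i
  have hWd : IsUnit W.det := (Matrix.isUnit_iff_isUnit_det _).1 hWu
  have hJu : ∀ j, IsUnit (J j) := by
    intro j
    refine Fin.lastCases ?_ (fun i => ?_) j
    · rw [hJ2]; exact Matrix.isUnit_nonsing_inv_iff.2 hWu
    · rw [hJR]; exact hRu i
  have hJrel : ((List.finRange (n + e + 1)).map J).prod = 1 := by
    rw [List.finRange_succ_last, List.map_append, List.prod_append, List.map_map,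
      List.map_singleton, List.prod_singleton, hJ2]
    have h1 : (List.finRange (n + e)).map (J ∘ Fin.castSucc) = List.ofFn (dR Ξ Υ) := by
      rw [List.ofFn_eq_map]
      refine List.map_congr_left fun i _ => ?_
      exact hJR i
    rw [h1, ← hW, Matrix.mul_nonsing_inv _ hWd]
  have hcj1 : cj J (fun _ => 1) = J := by
    funext j
    rw [cj_apply, inv_one, Matrix.one_mul, Matrix.mul_one]
  have hadj : Algebra.adjoin ℂ (Set.range J) = ⊤ := by
    obtain ⟨x, hx⟩ : ∃ x : FreeGroup (Fin (n + e + 1)) →* (P002R.Mat n ℂ)ˣ,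
        ∀ j, (x (FreeGroup.of j) : P002R.Mat n ℂ) = J j :=
      ⟨FreeGroup.lift fun j => (hJu j).unit, fun j => by rw [FreeGroup.lift_apply_of]; rfl⟩
    have h1 := adjoin_gen_eq_top x (adjoin_top_of_simple hn x fun H hH =>
      hirr H fun i v hv => by
        rw [← hJR, ← hx]
        exact hH _ v hv)
    have h2 : (fun j => (x (FreeGroup.of j) : P002R.Mat n ℂ)) = J := funext hx
    rwa [h2] at h1
  -- the field
  obtain ⟨K₀, hK₀, hsub⟩ := exists_countable_subfield'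
    ((Set.range fun p : Fin (n + e + 1) × Fin n × Fin n => J p.1 p.2.1 p.2.2) ∪
      ((Set.range fun p : Fin (n + e + 1) × Fin n => ξ0 p.1 p.2) ∪
        Set.range fun p : Fin (n + e + 1) × Fin n => w0 p.1 p.2))
    ((Set.countable_range _).union ((Set.countable_range _).union (Set.countable_range _)))
  have hJK : ∀ j a b, J j a b ∈ K₀ := fun j a b => hsub (Or.inl ⟨(j, a, b), rfl⟩)
  have hξK : ∀ j a, ξ0 j a ∈ K₀ := fun j a => hsub (Or.inr (Or.inl ⟨(j, a), rfl⟩))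
  have hwK : ∀ j a, w0 j a ∈ K₀ := fun j a => hsub (Or.inr (Or.inr ⟨(j, a), rfl⟩))
  -- the map
  obtain ⟨F, hF⟩ : ∃ F : (Fin (n + e + 1) → P002R.Mat n ℂ) →
      Matrix (Fin n) (Fin (n + e)) ℂ × Matrix (Fin (n + e)) (Fin n) ℂ, ∀ Y, F Y =
      (Matrix.of fun a i => (Y (Fin.castSucc i) *ᵥ ξ0 i.castSucc) a,
        Matrix.of fun i => w0 i.castSucc ᵥ* (Y (Fin.castSucc i))⁻¹) := ⟨_, fun _ => rfl⟩
  have hF1 : F (fun _ => 1) = (Ξ, Υ) := by
    rw [hF]
    refine Prod.ext ?_ ?_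
    · ext a i
      simp only [Matrix.of_apply, Matrix.one_mulVec, hξ0]
    · ext i a
      simp only [Matrix.of_apply, inv_one, Matrix.vecMul_one, hw0]
  have hFc : ContinuousAt F (fun _ => 1) := by
    have h0 : F = fun Y => (Matrix.of fun a i => (Y (Fin.castSucc i) *ᵥ ξ0 i.castSucc) a,
        Matrix.of fun i => w0 i.castSucc ᵥ* (Y (Fin.castSucc i))⁻¹) := funext hF
    rw [h0]
    refine ContinuousAt.prodMk ?_ ?_
    · refine continuousAt_pi.2 fun a => continuousAt_pi.2 fun i => ?_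
      show ContinuousAt (fun Y : Fin (n + e + 1) → P002R.Mat n ℂ =>
        (Y (Fin.castSucc i) *ᵥ ξ0 i.castSucc) a) _
      have h1 : Continuous fun Y : Fin (n + e + 1) → P002R.Mat n ℂ => Y (Fin.castSucc i) :=
        continuous_apply _
      have h2 : Continuous fun Y : Fin (n + e + 1) → P002R.Mat n ℂ =>
          Y (Fin.castSucc i) *ᵥ ξ0 i.castSucc := Continuous.matrix_mulVec h1 continuous_const
      exact ((continuous_apply a).comp h2).continuousAt
    · refine continuousAt_pi.2 fun i => ?_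
      show ContinuousAt (fun Y : Fin (n + e + 1) → P002R.Mat n ℂ =>
        w0 i.castSucc ᵥ* (Y (Fin.castSucc i))⁻¹) _
      have h1 : ContinuousAt (fun Y : Fin (n + e + 1) → P002R.Mat n ℂ =>
          (Y (Fin.castSucc i))⁻¹) (fun _ => 1) := by
        have h2 : ContinuousAt (fun Y : Fin (n + e + 1) → P002R.Mat n ℂ => Y (Fin.castSucc i))
          (fun _ => 1) := (continuous_apply _).continuousAt
        exact ContinuousAt.comp (f := fun Y : Fin (n + e + 1) → P002R.Mat n ℂ =>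
          Y (Fin.castSucc i)) (g := fun A : P002R.Mat n ℂ => A⁻¹) continuousAt_inv_one h2
      have h3 : Continuous fun A : P002R.Mat n ℂ => w0 i.castSucc ᵥ* A :=
        Continuous.matrix_vecMul continuous_const continuous_id
      exact ContinuousAt.comp (g := fun A : P002R.Mat n ℂ => w0 i.castSucc ᵥ* A)
        h3.continuousAt h1
  have hpre : F ⁻¹' V ∈ nhds (fun _ => 1 : Fin (n + e + 1) → P002R.Mat n ℂ) := by
    refine hFc ?_
    rw [hF1]
    exact hV
  obtain ⟨Y, hYV, hYu, hYrel, hYadj, hgen⟩ := generic_point hn (List.finRange (n + e + 1))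
    (List.nodup_finRange _) (fun j => List.mem_finRange j) K₀ hK₀ J hJK (fun _ => 1)
    (fun _ => isUnit_one) (by rw [hcj1]; exact hJrel) (by rw [hcj1]; exact hadj) _ hpre
  have hYd : ∀ j, IsUnit (Y j).det := fun j => (Matrix.isUnit_iff_isUnit_det _).1 (hYu j)
  obtain ⟨ξ, hξ⟩ : ∃ ξ : Fin (n + e + 1) → Fin n → ℂ, ∀ i, ξ i = Y i *ᵥ ξ0 i := ⟨_, fun _ => rfl⟩
  obtain ⟨w, hw⟩ : ∃ w : Fin (n + e + 1) → Fin n → ℂ, ∀ i, w i = w0 i ᵥ* (Y i)⁻¹ :=
    ⟨_, fun _ => rfl⟩
  have hlt : ∀ i : Fin (n + e + 1), i.val < n + e → ∃ i' : Fin (n + e), i = i'.castSucc :=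
    fun i hi => ⟨⟨i, hi⟩, Fin.ext rfl⟩
  have hwξ : ∀ i, w i ⬝ᵥ ξ i = w0 i ⬝ᵥ ξ0 i := by
    intro i
    rw [hw, hξ, Matrix.dotProduct_mulVec, Matrix.vecMul_vecMul, Matrix.nonsing_inv_mul _ (hYd i),
      Matrix.vecMul_one]
  have hRP : RP (n + e) (cj J Y) ξ w := by
    refine ⟨hYrel, fun H hH => eq_bot_or_top_of_adjoin (cj J Y) hYadj H hH, fun i hi => ?_,
      fun i hi => ?_, fun i hi => ?_, fun i hi => ?_, fun i l hi hl hil => ?_,
      fun j hj α β y hv hα hβ => ?_⟩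
    · obtain ⟨i', rfl⟩ := hlt i hi
      rw [cj_apply, hJ1, conj_refl (hYu _), hξ, hw]
    · obtain ⟨i', rfl⟩ := hlt i hi
      intro h0
      apply hΞ i'
      rw [← hξ0, ← Matrix.one_mulVec (ξ0 i'.castSucc), ← Matrix.nonsing_inv_mul _ (hYd _),
        ← Matrix.mulVec_mulVec, ← hξ, h0, Matrix.mulVec_zero]
    · obtain ⟨i', rfl⟩ := hlt i hi
      intro h0
      apply hΥ i'
      rw [← hw0, ← Matrix.vecMul_one (w0 i'.castSucc), ← Matrix.nonsing_inv_mul _ (hYd _),
        ← Matrix.vecMul_vecMul, ← hw, h0, Matrix.zero_vecMul]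
    · obtain ⟨i', rfl⟩ := hlt i hi
      rw [hwξ, hξ0, hw0]
      exact hu i'
    · obtain ⟨i', rfl⟩ := hlt i hi
      obtain ⟨l', rfl⟩ := hlt l hl
      have h1 := generic_pair hJK hJu hYu hYrel hYadj hgen l'.castSucc i'.castSucc hil
        (ξ0 l'.castSucc) (w0 i'.castSucc) (hξK _) (hwK _) (by rw [hξ0]; exact hΞ l')
        (by rw [hw0]; exact hΥ i')
      rwa [← Matrix.mulVec_mulVec, Matrix.dotProduct_mulVec, ← hξ, ← hw] at h1
    · have hξ' : ξ = fun i => Y i *ᵥ ξ0 i := funext hξ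
      subst hξ'
      obtain ⟨Λ, h1, h2, h3, -⟩ := dual_eqs hYrel (fun i => Y i *ᵥ ξ0 i) α β y j hj
        (fun i hi => (hα i hi).1) (fun i hi => (hβ i hi).1)
        (generic_rel hJK hYu hgen ξ0 hξK j α β y hv (fun i hi => (hα i hi).2)
          fun i hi => (hβ i hi).2)
      exact ⟨Λ, h1, h2, h3⟩
  -- conclusions
  have hN : n ≤ n + e + 1 := by omega
  have hz1 : ∀ i : Fin (n + e), (fun a => (F Y).1 a i) = ξ i.castSucc := by
    intro i
    rw [hF, hξ]
    rfl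
  have hz2 : ∀ i : Fin (n + e), (F Y).2 i = w i.castSucc := by
    intro i
    rw [hF, hw]
    rfl
  have hdR : ∀ i : Fin (n + e), dR (F Y).1 (F Y).2 i = cj J Y i.castSucc := by
    intro i
    rw [hRP.refl _ (by simp), ← hz1, ← hz2]
    rfl
  have hdR' : dR (F Y).1 (F Y).2 = fun i : Fin (n + e) => cj J Y i.castSucc := funext hdR
  have hdB : dB (F Y).1 = bM hN ξ := by
    ext a i
    have h1 := congrFun (hz1 (Fin.castAdd e i)) a
    exact h1
  refine ⟨F Y, hYV, ⟨?_, fun l => ?_⟩, fun i => ?_, ?_⟩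
  · rw [hdB]
    exact hRP.det_bM hN (by omega) (by omega)
  · obtain ⟨X, hX, hX0⟩ := hRP.exists_cell hN (by omega) (by omega) (n + l + 1) (by omega)
      (by omega)
    refine ⟨X, hX0, ?_, fun i => ?_⟩
    · have hd : IsUnit (bM hN ξ).det := (hRP.det_bM hN (by omega) (by omega)).isUnit
      rw [hdB, hdR', ← pre_ofFn _ _ (by omega), ← hX, ← Matrix.mul_assoc, ← Matrix.mul_assoc,
        Matrix.mul_nonsing_inv _ hd, Matrix.one_mul]
    · have h1 := hRP.coord_ne hN (by omega) (by omega) (n + l + 1) (by omega) (by omega)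
        (Fin.natAdd n l).castSucc (by simp only [Fin.castSucc_natAdd, Fin.val_natAdd, Fin.val_castSucc, lt_add_iff_pos_right, Order.lt_one_iff]) (by simp only [Fin.castSucc_natAdd, Fin.val_natAdd, Fin.val_castSucc, le_add_iff_nonneg_right, zero_le]) X hX hX0 i
      rw [hdB]
      have h2 := hz1 (Fin.natAdd n l)
      rw [h2]
      exact h1
  · rw [hz1, hz2, hwξ, hξ0, hw0]
  · refine ⟨Y (Fin.last _), hYu _, ?_⟩
    have h1 := hYrel
    rw [List.finRange_succ_last, List.map_append, List.prod_append, List.map_map,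
      List.map_singleton, List.prod_singleton, cj_apply, hJ2] at h1
    have h2 : (List.finRange (n + e)).map (cj J Y ∘ Fin.castSucc) =
        List.ofFn (dR (F Y).1 (F Y).2) := by
      rw [List.ofFn_eq_map, hdR']
      rfl
    rw [h2] at h1
    rw [← hW]
    obtain ⟨Q, hQ⟩ : ∃ Q, Q = (List.ofFn (dR (F Y).1 (F Y).2)).prod := ⟨_, rfl⟩
    obtain ⟨A, hA⟩ : ∃ A, A = Y (Fin.last (n + e)) := ⟨_, rfl⟩
    have hAd : IsUnit A.det := by rw [hA]; exact hYd _
    rw [← hQ, ← hA] at h1 ⊢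
    calc A * W = (Q * (A * W⁻¹ * A⁻¹)) * (A * W) := by rw [h1, Matrix.one_mul]
      _ = Q * A * (W⁻¹ * (A⁻¹ * A) * W) := by simp only [Matrix.mul_assoc]
      _ = Q * A := by
        rw [Matrix.nonsing_inv_mul _ hAd, Matrix.mul_one, Matrix.nonsing_inv_mul _ hWd,
          Matrix.mul_one]

end near

end Vale.Agent.P002R
end
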