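import Mathlib
import Vale.Agent.P002.Bd3.B11
import Vale.Agent.P002.Bd3.B4
import Vale.Agent.P002.Bd3.B13
import Vale.Agent.P002.Bd3.B10
import Vale.Agent.P002.Bd3.B8
import Vale.Agent.P002.Bd3.K_P002B_Defs
import Vale.Agent.P002.Bd3.B1
import Vale.Agent.P002.Bd3.B9
import Vale.Agent.P002.Bd3.B2

set_option linter.all false

@[reducible] def Vale.Agent.P002Fast.coeU16 {M : Type*} [Monoid M] (u : Mˣ) : CoeT Mˣ u M := ⟨Units.val u⟩
attribute [local instance] Vale.Agent.P002Fast.coeU16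

section

/-!
# Irreducible representations of a punctured sphere: the number of pseudo-reflections
-/

namespace Vale.Agent.P002R

open Matrix

theorem RO.conj {r : ℕ} {X Y : (Mat r ℂ)ˣ} (h : IsConj X Y) (hX : RO r (X : Mat r ℂ)) :
    RO r (Y : Mat r ℂ) := by
  obtain ⟨U, rfl⟩ := isConj_iff.mp h
  refine hX.of_surj (Matrix.mulVecLin (U : Mat r ℂ)) ?_ fun x => ?_
  · intro y
    refine ⟨((U⁻¹ : (Mat r ℂ)ˣ) : Mat r ℂ) *ᵥ y, ?_⟩
    rw [Matrix.mulVecLin_apply, mulVec_mulVec, Units.mul_inv, one_mulVec]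
  · rw [Matrix.mulVecLin_apply, Matrix.mulVecLin_apply, Units.val_mul, Units.val_mul,
      mulVec_mulVec, mulVec_mulVec, Matrix.mul_assoc, Units.inv_mul, Matrix.mul_one]

theorem conj_scalar' {r : ℕ} {X Y : (Mat r ℂ)ˣ} (h : IsConj X Y) {c : ℂ}
    (hX : (X : Mat r ℂ) = c • (1 : Mat r ℂ)) : (Y : Mat r ℂ) = c • (1 : Mat r ℂ) := by
  obtain ⟨U, rfl⟩ := isConj_iff.mp h
  rw [Units.val_mul, Units.val_mul, hX, Matrix.mul_smul, Matrix.smul_mul, Matrix.mul_one,
    Units.mul_inv]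

/-- If all classes but one are scalar plus rank one, then at least `r` of them are not scalar. -/
theorem exists_refl_set {n r : ℕ} (hr : 2 ≤ r) (C : Fin n → (Mat r ℂ)ˣ) (j₀ : Fin n)
    (hRO : ∀ j, j ≠ j₀ → RO r (C j : Mat r ℂ)) (x : FU 0 n →* (Mat r ℂ)ˣ)
    (hx1 : x (relatorU 0 n) = 1)
    (hx2 : ∀ j, IsConj (C j) (x (FreeGroup.of (Sum.inr j))))
    (hadj : Algebra.adjoin ℂ (Set.range fun w => (x w : Mat r ℂ)) = ⊤) :
    ∃ S : Finset (Fin n), r ≤ S.card ∧ j₀ ∉ S ∧
      ∀ j ∈ S, RO r (C j : Mat r ℂ) ∧ ∀ c : ℂ, (C j : Mat r ℂ) ≠ c • (1 : Mat r ℂ) := by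
  classical
  obtain ⟨S, hS⟩ : ∃ S : Finset (Fin n), ∀ j, j ∈ S ↔ j ≠ j₀ ∧
      ∀ c : ℂ, (C j : Mat r ℂ) ≠ c • (1 : Mat r ℂ) :=
    ⟨Finset.univ.filter fun j => j ≠ j₀ ∧ ∀ c : ℂ, (C j : Mat r ℂ) ≠ c • (1 : Mat r ℂ),
      fun j => by rw [Finset.mem_filter]; simp only [Finset.mem_univ, ne_eq, true_and]⟩
  refine ⟨S, ?_, fun h => ((hS j₀).1 h).1 rfl, fun j hj => ⟨hRO j ((hS j).1 hj).1, ((hS j).1 hj).2⟩⟩
  by_contra hlt
  push Not at hlt
  have h1 : ∀ j : S, ∃ z : ℂ, ((x (FreeGroup.of (Sum.inr (j : Fin n))) : Mat r ℂ) -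
      z • (1 : Mat r ℂ)).rank ≤ 1 := fun j => (hRO j ((hS j).1 j.2).1).conj (hx2 j)
  choose z hz using h1
  obtain ⟨A, hA⟩ : ∃ A : S → Mat r ℂ, ∀ j, A j = (x (FreeGroup.of (Sum.inr (j : Fin n))) : Mat r ℂ) -
      z j • (1 : Mat r ℂ) := ⟨_, fun _ => rfl⟩
  obtain ⟨w₀, hw₀, hw₁⟩ : ∃ w₀ : Fin r → ℂ, w₀ ≠ 0 ∧ ∀ j, A j *ᵥ w₀ = 0 := by
    have h2 : Module.finrank ℂ ((j : S) → LinearMap.range (A j).mulVecLin) <
        Module.finrank ℂ (Fin r → ℂ) := by
      rw [Module.finrank_pi_fintype, Module.finrank_fin_fun]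
      refine lt_of_le_of_lt (Finset.sum_le_card_nsmul _ _ 1 fun j _ => ?_) ?_
      · rw [hA]
        exact hz j
      · rw [Finset.card_univ, Fintype.card_coe, smul_eq_mul, mul_one]
        exact hlt
    have h3 := LinearMap.ker_ne_bot_of_finrank_lt
      (f := LinearMap.pi fun j : S => (A j).mulVecLin.rangeRestrict) h2
    obtain ⟨w₀, hw, hw0⟩ := (Submodule.ne_bot_iff _).1 h3
    refine ⟨w₀, hw0, fun j => ?_⟩
    have h4 := congrFun (LinearMap.mem_ker.1 hw) j
    exact congrArg Subtype.val h4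
  obtain ⟨H, hH⟩ : ∃ H : Subgroup (FU 0 n), ∀ w, w ∈ H ↔
      ∃ c : ℂ, ((x w : (Mat r ℂ)ˣ) : Mat r ℂ) *ᵥ w₀ = c • w₀ := by
    refine ⟨{ carrier := {w | ∃ c : ℂ, ((x w : (Mat r ℂ)ˣ) : Mat r ℂ) *ᵥ w₀ = c • w₀},
              mul_mem' := ?_, one_mem' := ?_, inv_mem' := ?_ }, fun _ => Iff.rfl⟩
    · rintro a b ⟨c, hc⟩ ⟨d, hd⟩
      refine ⟨d * c, ?_⟩
      rw [map_mul, Units.val_mul, ← Matrix.mulVec_mulVec, hd, Matrix.mulVec_smul, hc, smul_smul]
    · exact ⟨1, by rw [map_one, Units.val_one, Matrix.one_mulVec, one_smul]⟩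
    · rintro a ⟨c, hc⟩
      have h5 : w₀ = c • (((x a)⁻¹ : (Mat r ℂ)ˣ) : Mat r ℂ) *ᵥ w₀ := by
        rw [← Matrix.mulVec_smul, ← hc, Matrix.mulVec_mulVec, Units.inv_mul, Matrix.one_mulVec]
      have hc0 : c ≠ 0 := by
        rintro rfl
        rw [zero_smul] at h5
        exact hw₀ h5
      refine ⟨c⁻¹, ?_⟩
      rw [map_inv]
      conv_rhs => rw [h5]
      rw [smul_smul, inv_mul_cancel₀ hc0, one_smul]
  have hgen : ∀ j, j ≠ j₀ → (FreeGroup.of (Sum.inr j) : FU 0 n) ∈ H := by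
    intro j hj
    rw [hH]
    by_cases hjS : j ∈ S
    · refine ⟨z ⟨j, hjS⟩, ?_⟩
      have h6 := hw₁ ⟨j, hjS⟩
      rw [hA, Matrix.sub_mulVec, Matrix.smul_mulVec, Matrix.one_mulVec, sub_eq_zero] at h6
      exact h6
    · rw [hS] at hjS
      push Not at hjS
      obtain ⟨c, hc⟩ := hjS hj
      refine ⟨c, ?_⟩
      rw [conj_scalar' (hx2 j) hc, Matrix.smul_mulVec, Matrix.one_mulVec]
  have hgen₀ : (FreeGroup.of (Sum.inr j₀) : FU 0 n) ∈ H := by
    obtain ⟨s, t, hst⟩ := List.append_of_mem (List.mem_finRange j₀)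
    have hnd := List.nodup_finRange n
    rw [hst, List.nodup_middle, List.nodup_cons] at hnd
    have h7 : x ((s.map fun j => (FreeGroup.of (Sum.inr j) : FU 0 n)).prod *
        (FreeGroup.of (Sum.inr j₀) * (t.map fun j => (FreeGroup.of (Sum.inr j) : FU 0 n)).prod)) =
        1 := by
      rw [← hx1, relatorU_relL, relL, hst, List.map_append, List.prod_append, List.map_cons,
        List.prod_cons, comW]
      simp only [map_mul, List.ofFn_zero, List.prod_nil, map_one, mul_one]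
    have hs : (s.map fun j => (FreeGroup.of (Sum.inr j) : FU 0 n)).prod ∈ H := by
      refine Subgroup.list_prod_mem _ fun w hw => ?_
      obtain ⟨j, hj, rfl⟩ := List.mem_map.1 hw
      refine hgen j ?_
      rintro rfl
      exact hnd.1 (List.mem_append_left _ hj)
    have ht : (t.map fun j => (FreeGroup.of (Sum.inr j) : FU 0 n)).prod ∈ H := by
      refine Subgroup.list_prod_mem _ fun w hw => ?_
      obtain ⟨j, hj, rfl⟩ := List.mem_map.1 hw
      refine hgen j ?_
      rintro rfl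
      exact hnd.1 (List.mem_append_right _ hj)
    obtain ⟨c, hc⟩ := (hH _).1 (H.mul_mem (H.inv_mem hs) (H.inv_mem ht))
    refine (hH _).2 ⟨c, ?_⟩
    have h8 : x (FreeGroup.of (Sum.inr j₀)) = x
        ((s.map fun j => (FreeGroup.of (Sum.inr j) : FU 0 n)).prod⁻¹ *
          (t.map fun j => (FreeGroup.of (Sum.inr j) : FU 0 n)).prod⁻¹) := by
      rw [map_mul, map_mul] at h7
      rw [map_mul, map_inv, map_inv]
      exact eq_mul_inv_of_mul_eq (eq_inv_of_mul_eq_one_right h7)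
    rw [h8]
    exact hc
  have hall : ∀ w : FU 0 n, w ∈ H := by
    intro w
    induction w using FreeGroup.induction_on with
    | C1 => exact H.one_mem
    | of k =>
      rcases k with k | j
      · exact k.1.elim0
      · by_cases hj : j = j₀
        · rw [hj]; exact hgen₀
        · exact hgen j hj
    | inv_of k ih => exact H.inv_mem ih
    | mul a b ha hb => exact H.mul_mem ha hb
  rcases eq_bot_or_top_of_adjoin (fun w => (x w : Mat r ℂ)) hadj (Submodule.span ℂ {w₀})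
    (fun w v hv => by
      obtain ⟨c, rfl⟩ := Submodule.mem_span_singleton.1 hv
      obtain ⟨d, hd⟩ := (hH w).1 (hall w)
      rw [Matrix.mulVec_smul, hd]
      exact Submodule.smul_mem _ _ (Submodule.smul_mem _ _ (Submodule.mem_span_singleton_self _)))
    with h | h
  · exact hw₀ (Submodule.span_singleton_eq_bot.1 h)
  · have h9 := finrank_span_singleton (K := ℂ) hw₀
    rw [h, finrank_top, Module.finrank_fin_fun] at h9
    omega

end Vale.Agent.P002R
end

section

/-!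
# Irreducible representations of punctured spheres: the cases
-/

namespace Vale.Agent.P002R

open Matrix Vale.Agent.P002L

theorem CoefOK.le_mono {R : Type*} [CommRing R] {φ : R →+* ℂ} {E : Subgroup ℂˣ} {r r' : ℕ}
    (hc : CoefOK φ E r) (h : r' ≤ r) : CoefOK φ E r' :=
  ⟨hc.inj, hc.neg, fun k hk hk' => hc.root k hk (hk'.trans h), hc.unit⟩

theorem g02_of_g01 (h : G01Irr) : G02Irr := by
  intro m r hr R _ φ E hc _ C hE h0 _ x hx hirr f hf
  exact h (m := m + 2) hr φ E hc C hE h0 x hx hirr f hf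

/-- One regular class, at an arbitrary place. -/
theorem g01_any (h : G01Irr) {n r : ℕ} (hr : 0 < r) {R : Type} [CommRing R] (φ : R →+* ℂ)
    (E : Subgroup ℂˣ) (hc : CoefOK φ E r) (C : Fin n → (Mat r ℂ)ˣ)
    (hE : ∀ j, EigIn E (C j : Mat r ℂ)) (j₀ : Fin n) (hj₀ : HasCyc r (C j₀ : Mat r ℂ))
    (x : FreeGroup ((Fin 0 × Bool) ⊕ Fin n) →* (Mat r ℂ)ˣ)
    (hx : x ∈ YG ({relatorU 0 n} : Set (FreeGroup ((Fin 0 × Bool) ⊕ Fin n))) C)
    (hirr : ∀ M : Mat r ℂ, (∀ w, Commute M (x w : Mat r ℂ)) → ∃ c : ℂ, M = c • (1 : Mat r ℂ))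
    (f : MvPolynomial (((Fin 0 × Bool) ⊕ Fin n) × Fin r × Fin r) ℂ)
    (hf : ∀ y ∈ DGT ({relatorU 0 n} : Set (FreeGroup ((Fin 0 × Bool) ⊕ Fin n))) φ C,
      evalG y f = 0) : evalG x f = 0 := by
  obtain ⟨m, rfl⟩ : ∃ m, n = m + 1 := ⟨n - 1, by have := j₀.2; omega⟩
  have key : IrrDenseQ (fun j r' M => EigIn E M ∧ (j = j₀ → HasCyc r' M))
      ({relatorU 0 (m + 1)} : Set (FreeGroup ((Fin 0 × Bool) ⊕ Fin (m + 1)))) φ r := by
    refine irrDenseQ_reorder (Equiv.swap 0 j₀) fun C hC x hx hirr f hf => ?_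
    exact h hr φ E hc C (fun j => (hC j).1) ((hC 0).2 (Equiv.swap_apply_left _ _)) x hx hirr f hf
  exact key C (fun j => ⟨hE j, fun hj => by rw [hj]; exact hj₀⟩) x hx hirr f hf

/-- A permutation which moves the last places into a given set. -/
theorem exists_perm_last {m r : ℕ} (S : Finset (Fin (m + r))) (hS : S.card = r) :
    ∃ e : Equiv.Perm (Fin (m + r)), ∀ j : Fin r, e (Fin.natAdd m j) ∈ S := by
  classical
  have h1 : Fintype.card {i : Fin (m + r) // m ≤ (i : ℕ)} = r := by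
    have h2 : Fintype.card {i : Fin (m + r) // m ≤ (i : ℕ)} = Fintype.card (Fin r) := by
      refine Fintype.card_congr ⟨fun i => ⟨i.1 - m, by have := i.1.2; have := i.2; omega⟩,
        fun j => ⟨Fin.natAdd m j, by simp only [Fin.val_natAdd, le_add_iff_nonneg_right, zero_le]⟩, fun i => ?_, fun j => ?_⟩
      · have := i.2
        ext
        simp only [Fin.natAdd_mk]
        omega
      · ext
        simp only [Fin.val_natAdd, add_tsub_cancel_left]
    rw [h2, Fintype.card_fin]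
  have h3 : Fintype.card {i : Fin (m + r) // m ≤ (i : ℕ)} = Fintype.card {i // i ∈ S} := by
    rw [h1, Fintype.card_coe, hS]
  refine ⟨(Fintype.equivOfCardEq h3).extendSubtype, fun j => ?_⟩
  exact (Fintype.equivOfCardEq h3).extendSubtype_mem _ (by simp only [Fin.val_natAdd, le_add_iff_nonneg_right, zero_le])

/-- Enough classes of the form scalar plus rank one. -/
theorem g0R_any (h : G0R) {n r : ℕ} (hr : 0 < r) {R : Type} [CommRing R] (φ : R →+* ℂ)
    (E : Subgroup ℂˣ) (hc : CoefOK φ E r)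
    (hUP : ∀ (u : Rˣ) (D : R), D ≠ 0 → ∃ M : ℕ, 0 < M ∧ D ∣ (u : R) ^ M - 1)
    (C : Fin n → (Mat r ℂ)ˣ)
    (hE : ∀ j, EigIn E (C j : Mat r ℂ)) (j₀ : Fin n) (S : Finset (Fin n)) (hS : r ≤ S.card)
    (hj₀ : j₀ ∉ S) (hRO : ∀ j ∈ S, RO r (C j : Mat r ℂ) ∧ ∀ c : ℂ, (C j : Mat r ℂ) ≠ c • (1 : Mat r ℂ))
    (x : FreeGroup ((Fin 0 × Bool) ⊕ Fin n) →* (Mat r ℂ)ˣ)
    (hx : x ∈ YG ({relatorU 0 n} : Set (FreeGroup ((Fin 0 × Bool) ⊕ Fin n))) C)
    (hirr : ∀ M : Mat r ℂ, (∀ w, Commute M (x w : Mat r ℂ)) → ∃ c : ℂ, M = c • (1 : Mat r ℂ))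
    (f : MvPolynomial (((Fin 0 × Bool) ⊕ Fin n) × Fin r × Fin r) ℂ)
    (hf : ∀ y ∈ DGT ({relatorU 0 n} : Set (FreeGroup ((Fin 0 × Bool) ⊕ Fin n))) φ C,
      evalG y f = 0) : evalG x f = 0 := by
  obtain ⟨S', hS', hcard⟩ := Finset.exists_subset_card_eq hS
  have hn : r + 1 ≤ n := by
    have h1 : (insert j₀ S').card ≤ n := by
      have := Finset.card_le_univ (insert j₀ S')
      rwa [Fintype.card_fin] at this
    rw [Finset.card_insert_of_notMem fun h => hj₀ (hS' h), hcard] at h1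
    exact h1
  obtain ⟨m, rfl⟩ : ∃ m, n = m + 1 + r := ⟨n - 1 - r, by (clear * - hcard hn; omega)⟩
  obtain ⟨e, he⟩ := exists_perm_last S' hcard
  have key : IrrDenseQ (fun j r' M => EigIn E M ∧
      (j ∈ S' → RO r' M ∧ ∀ c : ℂ, M ≠ c • (1 : Mat r' ℂ)))
      ({relatorU 0 (m + 1 + r)} : Set (FreeGroup ((Fin 0 × Bool) ⊕ Fin (m + 1 + r)))) φ r := by
    refine irrDenseQ_reorder e fun C hC x hx hirr f hf => ?_
    exact h hr φ E hc hUP C (fun j => (hC j).1) (fun j => (hC _).2 (he j)) x hx hirr f hf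
  exact key C (fun j => ⟨hE j, fun hj => hRO j (hS' hj)⟩) x hx hirr f hf

/-- Punctured spheres: all cases. -/
theorem g0_cases (h01 : G01Irr) (hR : G0R) {n r : ℕ} (hn : 0 < n) (hr : 0 < r) {R : Type}
    [CommRing R] (φ : R →+* ℂ) (E : Subgroup ℂˣ) (hc : CoefOK φ E r)
    (hUP : ∀ (u : Rˣ) (D : R), D ≠ 0 → ∃ M : ℕ, 0 < M ∧ D ∣ (u : R) ^ M - 1)
    (C : Fin n → (Mat r ℂ)ˣ) (hE : ∀ j, EigIn E (C j : Mat r ℂ))
    (hcond : r ≤ 3 ∨ (∃ j, HasCyc r (C j : Mat r ℂ)) ∨ ∃ j₀, ∀ j, j ≠ j₀ → RO r (C j : Mat r ℂ))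
    (x : FreeGroup ((Fin 0 × Bool) ⊕ Fin n) →* (Mat r ℂ)ˣ)
    (hx : x ∈ YG ({relatorU 0 n} : Set (FreeGroup ((Fin 0 × Bool) ⊕ Fin n))) C)
    (hirr : ∀ M : Mat r ℂ, (∀ w, Commute M (x w : Mat r ℂ)) → ∃ c : ℂ, M = c • (1 : Mat r ℂ))
    (f : MvPolynomial (((Fin 0 × Bool) ⊕ Fin n) × Fin r × Fin r) ℂ)
    (hf : ∀ y ∈ DGT ({relatorU 0 n} : Set (FreeGroup ((Fin 0 × Bool) ⊕ Fin n))) φ C,
      evalG y f = 0) : evalG x f = 0 := by
  by_cases hcyc : ∃ j, HasCyc r (C j : Mat r ℂ)
  · obtain ⟨j, hj⟩ := hcyc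
    exact g01_any h01 hr φ E hc C hE j hj x hx hirr f hf
  have hcond' : ∃ j₀, ∀ j, j ≠ j₀ → RO r (C j : Mat r ℂ) := by
    rcases hcond with h | h | h
    · exact ⟨⟨0, hn⟩, fun j _ => ro_of_not_hasCyc h fun h' => hcyc ⟨j, h'⟩⟩
    · exact absurd h hcyc
    · exact h
  obtain ⟨j₀, hj₀⟩ := hcond'
  have hr2 : 2 ≤ r := by
    by_contra hlt
    have hr1 : r = 1 := by omega
    subst hr1
    refine hcyc ⟨⟨0, hn⟩, fun _ => 1, fun W hW _ => ?_⟩
    rw [Submodule.eq_top_iff']
    intro y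
    have h1 : y = y 0 • (fun _ => 1 : Fin 1 → ℂ) := by
      ext i
      rw [Subsingleton.elim i 0]
      simp
    rw [h1]
    exact W.smul_mem _ hW
  obtain ⟨hx1, hx2, hx3⟩ := id hx
  have hadj := adjoin_top_of_irr x hx3 hirr
  obtain ⟨S, hS, hjS, hSR⟩ := exists_refl_set hr2 C j₀ hj₀ x (hx1 _ rfl) hx2 hadj
  exact g0R_any hR hr φ E hc hUP C hE j₀ S hS hjS hSR x hx hirr f hf

end Vale.Agent.P002R
end

section

/-!
# P002, genus 1: integral points and the polynomial of the chart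
-/

namespace Vale.Agent.P002R

open Matrix

variable {r m : ℕ}

theorem kry_map {S T : Type*} [CommRing S] [CommRing T] (φ : S →+* T) (A : Mat r S)
    (v : Fin r → S) : (P002.kry A v).map φ = P002.kry (A.map φ) fun i => φ (v i) := by
  ext i j
  simp only [P002.kry, map_apply, of_apply]
  have h2 : (A.map φ) ^ (j : ℕ) = (A ^ (j : ℕ)).map φ := by
    have := map_pow φ.mapMatrix A (j : ℕ)
    exact this.symm
  rw [h2, RingHom.map_mulVec]
  rfl

end Vale.Agent.P002R
end

section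

/-!
# P002: total density for the boundary classes
-/

namespace Vale.Agent.P002R

open Matrix

variable {r : ℕ} {R : Type*} [CommRing R]

/-- The elements of `E` are units of the ring. -/
theorem CoefOK.exists_unit {φ : R →+* ℂ} {E : Subgroup ℂˣ} (hc : CoefOK φ E r) (hr : 0 < r)
    {z : ℂˣ} (hz : z ∈ E) : ∃ e : Rˣ, φ e = z := by
  obtain ⟨a, ha⟩ := hc.root 1 one_pos hr z (by rwa [pow_one])
  obtain ⟨b, hb⟩ := hc.root 1 one_pos hr z⁻¹ (by rw [pow_one]; exact E.inv_mem hz)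
  refine ⟨⟨a, b, hc.inj ?_, hc.inj ?_⟩, ha⟩
  · rw [map_mul, ha, hb, map_one, Units.mul_inv]
  · rw [map_mul, ha, hb, map_one, Units.inv_mul]

theorem CoefOK.exists_free {φ : R →+* ℂ} {E : Subgroup ℂˣ} (hc : CoefOK φ E r) :
    ∃ u : Rˣ, ∀ k : ℕ, 0 < k → φ u ^ k ≠ 1 := by
  obtain ⟨u, hu⟩ := hc.unit
  refine ⟨u, fun k hk h => hu k hk ?_⟩
  have h1 : Units.map (φ : R →* ℂ) u ^ k = 1 := by
    apply Units.ext
    rw [Units.val_pow_eq_pow_val, Units.val_one]
    exact h
  rw [h1]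
  exact E.one_mem

theorem totD_of_eigIn {φ : R →+* ℂ} {E : Subgroup ℂˣ} (hc : CoefOK φ E r) (hr : 0 < r)
    (C : (Mat r ℂ)ˣ) (hC : EigIn E (C : Mat r ℂ)) : TotD φ (C : Mat r ℂ) := by
  obtain ⟨u, hu⟩ := hc.exists_free
  refine P002G.totD φ u hu _ C.isUnit fun z hz => ?_
  obtain ⟨e, he, rfl⟩ := hC z hz
  exact hc.exists_unit hr he

end Vale.Agent.P002R
end

section

/-!
# P002, genus 1: the rank one lemma with one frozen factor
-/

namespace Vale.Agent.P002R

open Matrix Module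

variable {r : ℕ} {ι : Type*}

end Vale.Agent.P002R
end

section

/-!
# P002, genus 1: irreducibility of the frozen tuple and minors
-/

namespace Vale.Agent.P002R

open Matrix Module Vale.Agent.P002

variable {r : ℕ}

variable {ι : Type}

/-- the matrices of the sphere with the cut handle -/
noncomputable def qI (J : ι → P002R.Mat r ℂ) (Y : ι ⊕ Bool → P002R.Mat r ℂ) :
    ι ⊕ Bool → P002R.Mat r ℂ := Sum.elim (cI J Y) fun s => if s then
      Y (Sum.inr true) * (Y (Sum.inr false))⁻¹ * (Y (Sum.inr true))⁻¹ else Y (Sum.inr false)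

theorem qI_inl (J : ι → P002R.Mat r ℂ) (Y : ι ⊕ Bool → P002R.Mat r ℂ) (j : ι) :
    qI J Y (Sum.inl j) = cI J Y j := rfl

theorem qI_false (J : ι → P002R.Mat r ℂ) (Y : ι ⊕ Bool → P002R.Mat r ℂ) :
    qI J Y (Sum.inr false) = Y (Sum.inr false) := rfl

theorem qI_true (J : ι → P002R.Mat r ℂ) (Y : ι ⊕ Bool → P002R.Mat r ℂ) :
    qI J Y (Sum.inr true) =
      Y (Sum.inr true) * (Y (Sum.inr false))⁻¹ * (Y (Sum.inr true))⁻¹ := rfl

theorem qI_prod (J : ι → P002R.Mat r ℂ) (Y : ι ⊕ Bool → P002R.Mat r ℂ) (l : List ι) :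
    ((l.map Sum.inl).map (qI J Y)).prod = (l.map (cI J Y)).prod := by
  rw [List.map_map]
  rfl

end Vale.Agent.P002R
end

section

/-!
# P002, genus 1, arbitrary classes: generic points
-/

namespace Vale.Agent.P002R

open Matrix Module Vale.Agent.P002

variable {r : ℕ} {ι : Type}

theorem charpoly_cI (J : ι → P002R.Mat r ℂ) {Y : ι ⊕ Bool → P002R.Mat r ℂ}
    (hY : ∀ j, IsUnit (Y j)) (j : ι) : (cI J Y j).charpoly = (J j).charpoly := by
  obtain ⟨u, hu⟩ := hY (Sum.inl j)
  have h1 : cI J Y j = (u : P002R.Mat r ℂ) * J j * (u : P002R.Mat r ℂ)⁻¹ := by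
    rw [cI_eqn, cj_apply, ← hu]
  rw [h1]
  exact Matrix.charpoly_units_conj u (J j)

/-- logarithmic derivative of a product -/
theorem der_prod {κ : Type*} [DecidableEq κ] (δ : Derivation ℤ ℂ ℂ) (s : Finset κ) (ν l : κ → ℂ)
    (h : ∀ i, δ (ν i) = l i * ν i) : δ (∏ i ∈ s, ν i) = (∑ i ∈ s, l i) * ∏ i ∈ s, ν i := by
  induction s using Finset.induction_on with
  | empty => simp only [Finset.prod_empty, Derivation.map_one_eq_zero, Finset.sum_empty, mul_one]
  | insert i s hi ih =>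
    rw [Finset.prod_insert hi, Derivation.leibniz, ih, h, Finset.sum_insert hi, smul_eq_mul,
      smul_eq_mul]
    ring

/-- The matrices `c_j` and `a` generate an irreducible group. -/
theorem gen_irr2 [Fintype ι] [DecidableEq ι] {K₀ : Subfield ℂ} {J : ι → P002R.Mat r ℂ}
    (hJK : ∀ j a b, J j a b ∈ K₀) (hJE : ∀ j lam, (J j).charpoly.IsRoot lam → lam ∈ K₀)
    {Y : ι ⊕ Bool → P002R.Mat r ℂ} (hJ : ∀ j, IsUnit (J j))
    (hY : ∀ j, IsUnit (Y j)) (L : List ι) (hnd : L.Nodup) (hmem : ∀ j, j ∈ L)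
    (hrel : PhiI J L Y = 1) (hadj : Algebra.adjoin ℂ (Set.range (allI J Y)) = ⊤)
    (hgen : GenPt1 K₀ J L Y) {A : P002R.Mat r ℂ} {ν : Fin r → ℂ} (hA : IsUnit A)
    (hν : Function.Injective ν) (haA : Y (Sum.inr false) * A = A * diagonal ν) (j₀ : ι)
    (hns : ∀ μ : ℂ, J j₀ ≠ μ • (1 : P002R.Mat r ℂ))
    (W : Submodule ℂ (Fin r → ℂ)) (hW : ∀ j, ∀ w ∈ W, cI J Y j *ᵥ w ∈ W)
    (hWa : ∀ w ∈ W, Y (Sum.inr false) *ᵥ w ∈ W) : W = ⊥ ∨ W = ⊤ := by
  classical
  -- no idempotents
  have hno : ∀ e : P002R.Mat r ℂ, e * e = e → (∀ j, Commute e (cI J Y j)) →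
      Commute e (Y (Sum.inr false)) → e = 0 ∨ e = 1 := by
    intro e he hec hea
    by_contra hcon
    push Not at hcon
    obtain ⟨μ, hμ⟩ := gen_idem hJK hJ hY L hnd hrel hgen hA hν haA he hec hea hcon.1 hcon.2 j₀
      (hmem j₀)
    apply hns μ
    have hud : IsUnit (Y (Sum.inl j₀)).det := (Matrix.isUnit_iff_isUnit_det _).1 (hY _)
    have a2 := Matrix.nonsing_inv_mul _ hud
    have h1 : J j₀ = (Y (Sum.inl j₀))⁻¹ * cI J Y j₀ * Y (Sum.inl j₀) := by
      rw [cI_eqn, cj_apply]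
      simp only [Matrix.mul_assoc, mulL a2, a2, Matrix.mul_one]
    rw [h1, hμ, Matrix.mul_smul, Matrix.mul_one, Matrix.smul_mul, a2]
  obtain ⟨a, ha⟩ : ∃ a, a = Y (Sum.inr false) := ⟨_, rfl⟩
  obtain ⟨b, hb⟩ : ∃ b, b = Y (Sum.inr true) := ⟨_, rfl⟩
  have hau : IsUnit a := ha ▸ hY _
  have hbu : IsUnit b := hb ▸ hY _
  have hAd : IsUnit A.det := (Matrix.isUnit_iff_isUnit_det _).1 hA
  have A2 := Matrix.nonsing_inv_mul _ hAd
  obtain ⟨P, hP⟩ : ∃ P, P = (L.map (cI J Y)).prod := ⟨_, rfl⟩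
  have hrel' : P * (a * b * a⁻¹ * b⁻¹) = 1 := by
    rw [← hrel, PhiI, hI, ha, hb, hP]
  have haA2 : a * A = A * diagonal ν := by rw [ha]; exact haA
  obtain ⟨hν0, haA'⟩ := eigen_a' hau hbu hA haA2
  have hν' : Function.Injective fun i => (ν i)⁻¹ := fun i k hik => hν (inv_injective hik)
  obtain ⟨a', ha'⟩ : ∃ a', a' = b * a⁻¹ * b⁻¹ := ⟨_, rfl⟩
  rw [← ha'] at haA'
  have hrel2 : (P * a) * a' = 1 := by
    rw [← hrel', ha']; simp only [Matrix.mul_assoc]
  -- stability
  have hWP : ∀ w ∈ W, P *ᵥ w ∈ W := fun w hw => by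
    rw [hP]
    exact prod_stab (cI J Y) W L (fun j _ => hW j) w hw
  have hWa2 : ∀ w ∈ W, a *ᵥ w ∈ W := fun w hw => by rw [ha]; exact hWa w hw
  have hWPa : ∀ w ∈ W, (P * a) *ᵥ w ∈ W := fun w hw => by
    rw [← Matrix.mulVec_mulVec]
    exact hWP _ (hWa2 w hw)
  have hWa' : ∀ w ∈ W, a' *ᵥ w ∈ W := inv_stab (mul_eq_one_comm.1 hrel2) W hWPa
  -- the index sets
  obtain ⟨I, hI1⟩ : ∃ I : Finset (Fin r), ∀ i, i ∈ I ↔ A *ᵥ Pi.single i 1 ∈ W :=
    ⟨Finset.univ.filter fun i => A *ᵥ Pi.single i 1 ∈ W, fun i => by simp only [mulVec_single, MulOpposite.op_one, one_smul, Finset.mem_filter, Finset.mem_univ, true_and]⟩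
  obtain ⟨I', hI2⟩ : ∃ I' : Finset (Fin r), ∀ i, i ∈ I' ↔ (b * A) *ᵥ Pi.single i 1 ∈ W :=
    ⟨Finset.univ.filter fun i => (b * A) *ᵥ Pi.single i 1 ∈ W, fun i => by simp only [mulVec_single, MulOpposite.op_one, one_smul, Finset.mem_filter, Finset.mem_univ, true_and]⟩
  have hd1 := dSub_eigen hA haA2 hν W hWa2 I hI1
  have hd2 := dSub_eigen (hbu.mul hA) haA' hν' W hWa' I' hI2
  have hd3 : dSub W P ∈ K₀ := by
    have h2 : ∀ l : List ι, dSub W (l.map (cI J Y)).prod ∈ K₀ := by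
      intro l
      induction l with
      | nil =>
        rw [List.map_nil, List.prod_nil, dSub_one]
        exact K₀.one_mem
      | cons k l ih =>
        rw [List.map_cons, List.prod_cons, dSub_mul W _ _ (hW k)
          (prod_stab (cI J Y) W l fun j _ => hW j)]
        refine K₀.mul_mem (dSub_mem (fun lam hlam => hJE k lam ?_) W (hW k)) ih
        rwa [charpoly_cI J hY] at hlam
    rw [hP]
    exact h2 L
  have hd4 : dSub W P * (∏ i ∈ I, ν i) * ∏ i ∈ I', (ν i)⁻¹ = 1 := by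
    rw [← hd1, ← hd2, ← dSub_mul W P a hWP hWa2, ← dSub_mul W (P * a) a' hWPa hWa', hrel2, dSub_one]
  have hd5 : dSub W P * (∏ i ∈ I, ν i) = ∏ i ∈ I', ν i := by
    rw [Finset.prod_inv_distrib] at hd4
    have h3 : (∏ i ∈ I', ν i) ≠ 0 := Finset.prod_ne_zero_iff.2 fun i _ => hν0 i
    field_simp at hd4
    exact hd4
  -- the index sets agree
  obtain ⟨m, hm⟩ : ∃ m : Fin r → ℂ, ∀ i, m i = (if i ∈ I then 1 else 0) - (if i ∈ I' then 1 else 0) :=
    ⟨_, fun i => rfl⟩
  have hm0 : m = 0 := by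
    refine gen_free hJ hY L hnd hmem hrel hA hν haA j₀ hno m fun x hx => ?_
    obtain ⟨δ, hδ, hxδ⟩ := hgen x hx
    obtain ⟨X, hX⟩ : ∃ X, X = x (Sum.inr false) := ⟨_, rfl⟩
    have h1 : a.map δ = X * a := by rw [ha, hX]; exact hxδ _
    have h2 := der_eigenvalues δ h1 hA haA2
    have h3 := der_prod δ I ν (fun i => (A⁻¹ * X * A) i i) h2
    have h4 := der_prod δ I' ν (fun i => (A⁻¹ * X * A) i i) h2
    have h5 := congrArg δ hd5
    rw [Derivation.leibniz, h3, h4, hδ _ hd3, smul_zero, add_zero, smul_eq_mul] at h5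
    have h6 : (∑ i ∈ I, (A⁻¹ * X * A) i i - ∑ i ∈ I', (A⁻¹ * X * A) i i) * ∏ i ∈ I', ν i = 0 := by
      rw [sub_mul, ← h5, ← hd5]
      ring
    have h7 : (∏ i ∈ I', ν i) ≠ 0 := Finset.prod_ne_zero_iff.2 fun i _ => hν0 i
    have h8 := (mul_eq_zero.1 h6).resolve_right h7
    rw [← hX, show A * diagonal m * A⁻¹ * X = A * (diagonal m * A⁻¹ * X) by
      simp only [Matrix.mul_assoc], Matrix.trace_mul_comm, Matrix.trace]
    have h9 : ∀ i, (diagonal m * A⁻¹ * X * A).diag i = m i * (A⁻¹ * X * A) i i := by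
      intro i
      rw [Matrix.diag_apply, show diagonal m * A⁻¹ * X * A = diagonal m * (A⁻¹ * X * A) by
        simp only [Matrix.mul_assoc], Matrix.diagonal_mul]
    simp only [h9, hm, sub_mul, ite_mul, one_mul, zero_mul, Finset.sum_sub_distrib,
      Finset.sum_ite_mem, Finset.univ_inter]
    exact h8
  have hII : ∀ i, i ∈ I → i ∈ I' := by
    intro i hi
    have h1 := hm i
    rw [hm0, if_pos hi, Pi.zero_apply] at h1
    by_contra hcon
    rw [if_neg hcon, sub_zero] at h1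
    exact zero_ne_one h1
  -- `b` preserves `W`
  have hWb : ∀ w ∈ W, b *ᵥ w ∈ W := by
    intro w hw
    have a1 : A * A⁻¹ = 1 := Matrix.mul_nonsing_inv _ hAd
    obtain ⟨c, hc⟩ : ∃ c, c = A⁻¹ *ᵥ w := ⟨_, rfl⟩
    have hwc : w = A *ᵥ c := by rw [hc, Matrix.mulVec_mulVec, a1, Matrix.one_mulVec]
    have hwm : A *ᵥ c ∈ W := hwc ▸ hw
    have h4 : c = ∑ i, c i • (Pi.single i 1 : Fin r → ℂ) := by
      funext k
      rw [Finset.sum_apply, Finset.sum_eq_single k]
      · rw [Pi.smul_apply, Pi.single_eq_same, smul_eq_mul, mul_one]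
      · intro b _ hb
        rw [Pi.smul_apply, Pi.single_eq_of_ne hb.symm, smul_zero]
      · intro h
        exact absurd (Finset.mem_univ _) h
    rw [hwc, Matrix.mulVec_mulVec, h4, Matrix.mulVec_sum]
    refine Submodule.sum_mem _ fun i _ => ?_
    rw [Matrix.mulVec_smul]
    by_cases hci : c i = 0
    · rw [hci, zero_smul]
      exact W.zero_mem
    · exact W.smul_mem _ ((hI2 i).1 (hII i ((hI1 i).2 (col_mem haA2 hν W hWa2 c hwm i hci))))
  refine eq_bot_or_top_of_adjoin (allI J Y) hadj W fun k => ?_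
  rcases k with j | s
  · exact hW j
  · cases s
    · exact hWa
    · rw [allI_inr, ← hb]
      exact hWb

end Vale.Agent.P002R
end

section

/-!
# P002, genus 1: linear algebra
-/

namespace Vale.Agent.P002R

open Matrix

theorem dot_mulVec_left {r : ℕ} {M : Mat r ℂ} {lam : ℂ} {y : Fin r → ℂ} (h : y ᵥ* M = lam • y)
    (w : Fin r → ℂ) : y ⬝ᵥ (M *ᵥ w) = lam * (y ⬝ᵥ w) := by
  rw [Matrix.dotProduct_mulVec, h, smul_dotProduct, smul_eq_mul]

/-- A matrix whose left and right eigenvectors pair nontrivially has distinct eigenvalues. -/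
theorem exists_eigenbasis {r : ℕ} {M : Mat r ℂ} (h : ∀ (lam : ℂ) (y w : Fin r → ℂ), y ≠ 0 →
    w ≠ 0 → y ᵥ* M = lam • y → M *ᵥ w = lam • w → y ⬝ᵥ w ≠ 0) :
    ∃ (A : Mat r ℂ) (nu : Fin r → ℂ), IsUnit A ∧ Function.Injective nu ∧
      M * A = A * diagonal nu := by
  classical
  obtain ⟨f, hf⟩ : ∃ f : Module.End ℂ (Fin r → ℂ), ∀ w, f w = M *ᵥ w :=
    ⟨Matrix.mulVecLin M, fun w => rfl⟩
  -- left eigenvectors
  have hleft : ∀ (lam : ℂ) (w : Fin r → ℂ), w ≠ 0 → M *ᵥ w = lam • w →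
      ∃ y : Fin r → ℂ, y ≠ 0 ∧ y ᵥ* M = lam • y := by
    intro lam w hw hMw
    have h1 : (M - lam • (1 : Mat r ℂ)).det = 0 := by
      rw [← Matrix.exists_mulVec_eq_zero_iff]
      exact ⟨w, hw, by rw [Matrix.sub_mulVec, hMw, Matrix.smul_mulVec, Matrix.one_mulVec,
        sub_self]⟩
    obtain ⟨y, hy, hy0⟩ := Matrix.exists_vecMul_eq_zero_iff.2 h1
    refine ⟨y, hy, ?_⟩
    rw [Matrix.vecMul_sub, Matrix.vecMul_smul, Matrix.vecMul_one, sub_eq_zero] at hy0
    exact hy0
  have hmem : ∀ (lam : ℂ) (w : Fin r → ℂ), w ∈ f.eigenspace lam ↔ M *ᵥ w = lam • w := by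
    intro lam w
    rw [Module.End.mem_eigenspace_iff, hf]
  -- semisimplicity
  have hss : ∀ (lam : ℂ) (u : Fin r → ℂ), (f - lam • (1 : Module.End ℂ (Fin r → ℂ)))
      ((f - lam • (1 : Module.End ℂ (Fin r → ℂ))) u) = 0 →
      (f - lam • (1 : Module.End ℂ (Fin r → ℂ))) u = 0 := by
    intro lam u hu
    by_contra hne
    obtain ⟨w, hw⟩ : ∃ w, w = (f - lam • (1 : Module.End ℂ (Fin r → ℂ))) u := ⟨_, rfl⟩
    rw [← hw] at hu hne
    have h1 : M *ᵥ w = lam • w := by
      have : (f - lam • (1 : Module.End ℂ (Fin r → ℂ))) w = M *ᵥ w - lam • w := by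
        rw [LinearMap.sub_apply, hf]; rfl
      rw [this, sub_eq_zero] at hu
      exact hu
    obtain ⟨y, hy, hyM⟩ := hleft lam w hne h1
    apply h lam y w hy hne hyM h1
    have h2 : w = M *ᵥ u - lam • u := by
      rw [hw, LinearMap.sub_apply, hf]; rfl
    rw [h2, dotProduct_sub, dot_mulVec_left hyM, dotProduct_smul, smul_eq_mul, sub_self]
  have hgen : ∀ (lam : ℂ) (k : ℕ) (u : Fin r → ℂ),
      ((f - lam • (1 : Module.End ℂ (Fin r → ℂ))) ^ k) u = 0 → u ∈ f.eigenspace lam := by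
    intro lam k
    induction k with
    | zero =>
      intro u hu
      rw [pow_zero] at hu
      have : u = 0 := hu
      rw [this]
      exact Submodule.zero_mem _
    | succ k ih =>
      intro u hu
      rw [pow_succ, Module.End.mul_apply] at hu
      have h1 := ih _ hu
      rw [hmem] at h1
      have h2 : (f - lam • (1 : Module.End ℂ (Fin r → ℂ))) u = 0 := by
        apply hss
        rw [LinearMap.sub_apply, hf, h1]
        exact sub_self _
      rw [hmem]
      have : (f - lam • (1 : Module.End ℂ (Fin r → ℂ))) u = M *ᵥ u - lam • u := by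
        rw [LinearMap.sub_apply, hf]; rfl
      rw [this, sub_eq_zero] at h2
      exact h2
  -- eigenvectors
  have hev : ∀ μ : f.Eigenvalues, ∃ w : Fin r → ℂ, w ≠ 0 ∧ M *ᵥ w = (μ : ℂ) • w := by
    intro μ
    obtain ⟨w, hw⟩ := Module.End.HasEigenvalue.exists_hasEigenvector (f := f) (μ := (μ : ℂ)) μ.2
    exact ⟨w, hw.2, (hmem _ _).1 hw.1⟩
  choose w hw0 hw using hev
  have hspan : ∀ (μ : f.Eigenvalues) (u : Fin r → ℂ), M *ᵥ u = (μ : ℂ) • u →
      u ∈ Submodule.span ℂ (Set.range w) := by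
    intro μ u hu
    obtain ⟨y, hy, hyM⟩ := hleft μ (w μ) (hw0 μ) (hw μ)
    have h1 := h μ y (w μ) hy (hw0 μ) hyM (hw μ)
    obtain ⟨z, hz⟩ : ∃ z, z = (y ⬝ᵥ w μ) • u - (y ⬝ᵥ u) • w μ := ⟨_, rfl⟩
    have hz1 : M *ᵥ z = (μ : ℂ) • z := by
      rw [hz, Matrix.mulVec_sub, Matrix.mulVec_smul, Matrix.mulVec_smul, hu, hw, smul_sub,
        smul_comm, smul_comm (y ⬝ᵥ u)]
    have hz2 : y ⬝ᵥ z = 0 := by
      rw [hz, dotProduct_sub, dotProduct_smul, dotProduct_smul, smul_eq_mul, smul_eq_mul]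
      ring
    have hz0 : z = 0 := by
      by_contra hne
      exact h μ y z hy hne hyM hz1 hz2
    have h2 : u = ((y ⬝ᵥ w μ)⁻¹ * (y ⬝ᵥ u)) • w μ := by
      rw [hz0] at hz
      have h3 : (y ⬝ᵥ w μ) • u = (y ⬝ᵥ u) • w μ := (sub_eq_zero.1 hz.symm)
      rw [mul_smul, ← h3, smul_smul, inv_mul_cancel₀ h1, one_smul]
    rw [h2]
    exact Submodule.smul_mem _ _ (Submodule.subset_span ⟨μ, rfl⟩)
  have htop : ⊤ ≤ Submodule.span ℂ (Set.range w) := by
    rw [← Module.End.iSup_maxGenEigenspace_eq_top f]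
    refine iSup_le fun lam => ?_
    intro u hu
    rw [Module.End.mem_maxGenEigenspace] at hu
    obtain ⟨k, hk⟩ := hu
    have h1 := hgen lam k u hk
    by_cases hu0 : u = 0
    · rw [hu0]
      exact Submodule.zero_mem _
    · have h2 : f.HasEigenvalue lam := Module.End.hasEigenvalue_of_hasEigenvector ⟨h1, hu0⟩
      exact hspan ⟨lam, h2⟩ u ((hmem _ _).1 h1)
  have hli : LinearIndependent ℂ w :=
    Module.End.eigenvectors_linearIndependent' f (fun μ : f.Eigenvalues => (μ : ℂ))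
      Subtype.val_injective w fun μ => ⟨(hmem _ _).2 (hw μ), hw0 μ⟩
  obtain ⟨b, hb⟩ : ∃ b : Module.Basis f.Eigenvalues ℂ (Fin r → ℂ), ∀ μ, b μ = w μ :=
    ⟨Module.Basis.mk hli htop, fun μ => Module.Basis.mk_apply hli htop μ⟩
  have hcard : Fintype.card f.Eigenvalues = r := by
    rw [← Module.finrank_eq_card_basis b]
    simp only [Module.finrank_fintype_fun_eq_card, Fintype.card_fin]
  obtain ⟨e⟩ : Nonempty (Fin r ≃ f.Eigenvalues) :=
    ⟨(Fintype.equivFinOfCardEq hcard).symm⟩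
  have hbe := (b.reindex e.symm)
  obtain ⟨A, hA⟩ : ∃ A : Mat r ℂ, A = Matrix.of fun i j => w (e j) i := ⟨_, rfl⟩
  refine ⟨A, fun j => (e j : ℂ), ?_, ?_, ?_⟩
  · have h1 : LinearIndependent ℂ fun j => w (e j) := hli.comp _ e.injective
    have h2 : LinearIndependent ℂ A.col := by
      have : A.col = fun j => w (e j) := by
        funext j i
        rw [hA]
        rfl
      rw [this]
      exact h1
    exact Matrix.linearIndependent_cols_iff_isUnit.1 h2
  · intro i j hij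
    exact e.injective (Subtype.ext hij)
  · ext i j
    rw [Matrix.mul_diagonal, Matrix.mul_apply]
    have h1 := congrFun (hw (e j)) i
    rw [Matrix.mulVec, dotProduct, Pi.smul_apply, smul_eq_mul] at h1
    rw [hA]
    simp only [Matrix.of_apply]
    rw [h1, mul_comm]

end Vale.Agent.P002R
end

section

/-!
# P002, genus 0: from the chart to all irreducible representations
-/

namespace Vale.Agent.P002R

open Matrix

end Vale.Agent.P002R
end

section

/-!
# P002, genus 1: all boundary classes are scalar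
-/

namespace Vale.Agent.P002R

open Matrix

variable {r : ℕ}

/-- Powers of `b` are eigenvectors of `a` when `a b = l b a`. -/
theorem eig_pow {a b : Mat r ℂ} {l : ℂ} (hab : a * b = l • (b * a)) {α : ℂ} {v : Fin r → ℂ}
    (hv : a *ᵥ v = α • v) (k : ℕ) : a *ᵥ (b ^ k *ᵥ v) = (α * l ^ k) • (b ^ k *ᵥ v) := by
  induction k with
  | zero => simp [hv]
  | succ k ih =>
    rw [pow_succ' b, ← mulVec_mulVec, mulVec_mulVec _ a b, hab, smul_mulVec, ← mulVec_mulVec, ih,
      mulVec_smul, smul_smul, pow_succ]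
    congr 1
    ring

theorem commute_pow_of {a b : Mat r ℂ} {l : ℂ} (hab : a * b = l • (b * a)) (k : ℕ) :
    a * b ^ k = l ^ k • (b ^ k * a) := by
  induction k with
  | zero => simp
  | succ k ih =>
    rw [pow_succ, ← mul_assoc, ih, smul_mul_assoc, mul_assoc, hab, mul_smul_comm, smul_smul,
      ← mul_assoc, pow_succ]

/-- The normal form of a Heisenberg pair. -/
theorem heis_form {n : ℕ} {a b : Mat (n + 1) ℂ} {l : ℂ} (hl : l ^ (n + 1) = 1)
    (hab : a * b = l • (b * a)) (ha : IsUnit a.det) (hb : IsUnit b.det)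
    (hcomm : ∀ M : Mat (n + 1) ℂ, Commute M a → Commute M b →
      ∃ c : ℂ, M = c • (1 : Mat (n + 1) ℂ))
    (hst : ∀ W : Submodule ℂ (Fin (n + 1) → ℂ), (∀ v ∈ W, a *ᵥ v ∈ W) → (∀ v ∈ W, b *ᵥ v ∈ W) →
      W = ⊥ ∨ W = ⊤) :
    ∃ (g : Mat (n + 1) ℂ) (α β : ℂ), IsUnit g.det ∧ α ≠ 0 ∧ β ≠ 0 ∧
      a * g = g * (α • Matrix.diagonal fun i : Fin (n + 1) => l ^ (i : ℕ)) ∧
      b * g = g * (β • (Equiv.toPEquiv (Equiv.addLeft (1 : Fin (n + 1))).symm).toMatrix) := by
  classical
  -- an eigenvector of `a`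
  obtain ⟨α, v, hv0, hv⟩ : ∃ (α : ℂ) (v : Fin (n + 1) → ℂ), v ≠ 0 ∧ a *ᵥ v = α • v := by
    obtain ⟨α, hα⟩ := Module.End.exists_eigenvalue (Matrix.toLin' a)
    obtain ⟨v, hv⟩ := hα.exists_hasEigenvector
    exact ⟨α, v, hv.2, by simpa [Matrix.toLin'_apply] using hv.apply_eq_smul⟩
  have hα0 : α ≠ 0 := by
    rintro rfl
    rw [zero_smul] at hv
    apply hv0
    have h1 : a⁻¹ *ᵥ (a *ᵥ v) = v := by
      rw [mulVec_mulVec, nonsing_inv_mul a ha, one_mulVec]
    rw [← h1, hv, mulVec_zero]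
  have hl0 : l ≠ 0 := by
    rintro rfl
    simp at hl
  obtain ⟨d, hd⟩ : ∃ d, d = orderOf l := ⟨_, rfl⟩
  have hd0 : 0 < d := by
    rw [hd]
    exact orderOf_pos_iff.2 (isOfFinOrder_iff_pow_eq_one.2 ⟨n + 1, Nat.succ_pos n, hl⟩)
  have hld : l ^ d = 1 := by
    rw [hd]
    exact pow_orderOf_eq_one l
  obtain ⟨B, hB⟩ : ∃ B : ℂ, b ^ d = B • (1 : Mat (n + 1) ℂ) := by
    refine hcomm _ ?_ ((Commute.refl b).pow_left d)
    have h1 := commute_pow_of hab d
    rw [hld, one_smul] at h1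
    exact h1.symm
  have hB0 : B ≠ 0 := by
    rintro rfl
    rw [zero_smul] at hB
    have h1 : IsUnit (b ^ d).det := by
      rw [det_pow]
      exact hb.pow d
    rw [hB, det_zero] at h1
    exact not_isUnit_zero h1
  obtain ⟨β, hβ⟩ := IsAlgClosed.exists_pow_nat_eq B hd0
  have hβ0 : β ≠ 0 := by
    rintro rfl
    rw [zero_pow hd0.ne'] at hβ
    exact hB0 hβ.symm
  have hbd : ∀ k : ℕ, b ^ (k + d) *ᵥ v = B • (b ^ k *ᵥ v) := by
    intro k
    rw [pow_add, hB, mul_smul_comm, mul_one, smul_mulVec]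
  -- the span of the powers
  obtain ⟨W, hW⟩ : ∃ W : Submodule ℂ (Fin (n + 1) → ℂ),
      W = Submodule.span ℂ (Set.range fun k : Fin d => b ^ (k : ℕ) *ᵥ v) := ⟨_, rfl⟩
  have hWm : ∀ k : ℕ, k < d → b ^ k *ᵥ v ∈ W := fun k hk => by
    rw [hW]
    exact Submodule.subset_span ⟨⟨k, hk⟩, rfl⟩
  have hWtop : W = ⊤ := by
    have h1 := hst W ?_ ?_
    · rcases h1 with h1 | h1
      · exfalso
        have h2 := hWm 0 hd0
        rw [pow_zero, one_mulVec, h1, Submodule.mem_bot] at h2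
        exact hv0 h2
      · exact h1
    · intro u hu
      rw [hW] at hu
      induction hu using Submodule.span_induction with
      | mem x hx =>
        obtain ⟨k, rfl⟩ := hx
        change a *ᵥ (b ^ (k : ℕ) *ᵥ v) ∈ W
        rw [eig_pow hab hv]
        exact W.smul_mem _ (hWm _ k.2)
      | zero => rw [mulVec_zero]; exact W.zero_mem
      | add x y _ _ hx hy => rw [mulVec_add]; exact W.add_mem hx hy
      | smul c x _ hx => rw [mulVec_smul]; exact W.smul_mem _ hx
    · intro u hu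
      rw [hW] at hu
      induction hu using Submodule.span_induction with
      | mem x hx =>
        obtain ⟨k, rfl⟩ := hx
        change b *ᵥ (b ^ (k : ℕ) *ᵥ v) ∈ W
        rw [mulVec_mulVec, ← pow_succ']
        rcases Nat.lt_or_ge ((k : ℕ) + 1) d with h | h
        · exact hWm _ h
        · have h2 : (k : ℕ) + 1 = 0 + d := by
            have := k.2
            (clear * - hd h; omega)
          rw [h2, hbd]
          exact W.smul_mem _ (hWm _ hd0)
      | zero => rw [mulVec_zero]; exact W.zero_mem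
      | add x y _ _ hx hy => rw [mulVec_add]; exact W.add_mem hx hy
      | smul c x _ hx => rw [mulVec_smul]; exact W.smul_mem _ hx
  have hbk0 : ∀ k : ℕ, b ^ k *ᵥ v ≠ 0 := by
    intro k h
    apply hv0
    have hu : IsUnit (b ^ k).det := by
      rw [det_pow]
      exact hb.pow k
    have h1 : (b ^ k)⁻¹ *ᵥ (b ^ k *ᵥ v) = v := by
      rw [mulVec_mulVec, nonsing_inv_mul _ hu, one_mulVec]
    rw [← h1, h, mulVec_zero]
  have hli : LinearIndependent ℂ fun k : Fin d => b ^ (k : ℕ) *ᵥ v := by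
    refine Module.End.eigenvectors_linearIndependent' (Matrix.toLin' a)
      (fun k : Fin d => α * l ^ (k : ℕ)) ?_ _ fun k => ?_
    · intro i j hij
      have h1 : l ^ (i : ℕ) = l ^ (j : ℕ) := mul_left_cancel₀ hα0 hij
      have h2 := pow_injOn_Iio_orderOf (x := l) (by rw [← hd]; exact i.2)
        (by rw [← hd]; exact j.2) h1
      exact Fin.ext h2
    · refine ⟨?_, hbk0 _⟩
      rw [Module.End.mem_eigenspace_iff, Matrix.toLin'_apply]
      exact eig_pow hab hv _
  have hdn : d = n + 1 := by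
    have h1 := finrank_span_eq_card hli
    rw [← hW, hWtop, finrank_top, Fintype.card_fin, Module.finrank_fin_fun] at h1
    exact h1.symm
  subst hdn
  -- the basis
  obtain ⟨u, hu⟩ : ∃ u : ℕ → Fin (n + 1) → ℂ, ∀ k, u k = (β⁻¹) ^ k • (b ^ k *ᵥ v) := ⟨_, fun _ => rfl⟩
  have hper : Function.Periodic u (n + 1) := by
    intro k
    rw [hu, hu, hbd, pow_add, smul_smul, ← hβ]
    congr 1
    rw [mul_assoc, ← mul_pow, inv_mul_cancel₀ hβ0, one_pow, mul_one]
  obtain ⟨g, hg⟩ : ∃ g : Mat (n + 1) ℂ, ∀ i j, g i j = u j i := ⟨Matrix.of fun i j => u j i, fun _ _ => rfl⟩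
  refine ⟨g, α, β, ?_, hα0, hβ0, ?_, ?_⟩
  · rw [← Matrix.isUnit_iff_isUnit_det, ← Matrix.linearIndependent_cols_iff_isUnit]
    have h1 : g.col = fun j : Fin (n + 1) => (Units.mk0 β hβ0)⁻¹ ^ (j : ℕ) • (b ^ (j : ℕ) *ᵥ v) := by
      funext j i
      rw [Matrix.col_apply, hg, hu]
      rfl
    rw [h1]
    exact hli.units_smul fun j => (Units.mk0 β hβ0)⁻¹ ^ (j : ℕ)
  · ext i j
    have h1 : (a * g) i j = (a *ᵥ u j) i := by
      rw [Matrix.mul_apply, Matrix.mulVec, dotProduct]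
      exact Finset.sum_congr rfl fun k _ => by rw [hg]
    rw [h1, hu, mulVec_smul, eig_pow hab hv, Matrix.mul_smul, Matrix.smul_apply,
      Matrix.mul_diagonal, hg, hu]
    simp only [Pi.smul_apply, smul_eq_mul]
    ring
  · ext i j
    have h1 : (b * g) i j = (b *ᵥ u j) i := by
      rw [Matrix.mul_apply, Matrix.mulVec, dotProduct]
      exact Finset.sum_congr rfl fun k _ => by rw [hg]
    have h2 : b *ᵥ u j = β • u (j + 1) := by
      rw [hu, hu, mulVec_smul, mulVec_mulVec, ← pow_succ', smul_smul, pow_succ (β⁻¹)]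
      congr 1
      (clear * - hβ0; field_simp)
    have h3 : u (((1 : Fin (n + 1)) + j : Fin (n + 1)) : ℕ) = u (j + 1) := by
      have h4 : (((1 : Fin (n + 1)) + j : Fin (n + 1)) : ℕ) = ((j : ℕ) + 1) % (n + 1) := by
        rw [Fin.val_add, Fin.val_one', Nat.add_comm, Nat.add_mod_mod]
      rw [h4, hper.map_mod_nat]
    rw [h1, h2, Matrix.mul_smul, Matrix.smul_apply, PEquiv.mul_toMatrix_toPEquiv]
    simp only [Matrix.submatrix_apply, id, Equiv.symm_symm, Equiv.coe_addLeft, hg, h3,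
      Pi.smul_apply, smul_eq_mul]

theorem exists_unit_root_of_mem {R : Type*} [CommRing R] {φ : R →+* ℂ} {E : Subgroup ℂˣ}
    (hc : CoefOK φ E r) (hr : 0 < r) (e : R) (z : ℂˣ) (hz : z ∈ E) (he : φ e = z) :
    ∃ c : Rˣ, e = (c : R) ^ r := by
  obtain ⟨w, hw⟩ := IsAlgClosed.exists_pow_nat_eq (z : ℂ) hr
  have hw0 : w ≠ 0 := by
    rintro rfl
    rw [zero_pow hr.ne'] at hw
    exact z.ne_zero hw.symm
  have h1 : (Units.mk0 w hw0) ^ r = z := by
    ext1
    rw [Units.val_pow_eq_pow_val, Units.val_mk0, hw]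
  obtain ⟨c, hcw⟩ := hc.root r hr le_rfl (Units.mk0 w hw0) (by rw [h1]; exact hz)
  obtain ⟨c', hcw'⟩ := hc.root r hr le_rfl (Units.mk0 w hw0)⁻¹
    (by rw [inv_pow, h1]; exact E.inv_mem hz)
  have h2 : c * c' = 1 := by
    apply hc.inj
    rw [map_mul, hcw, hcw', map_one, ← Units.val_mul, mul_inv_cancel, Units.val_one]
  refine ⟨⟨c, c', h2, by rw [mul_comm, h2]⟩, ?_⟩
  apply hc.inj
  rw [map_pow, he]
  change _ = φ c ^ r
  rw [hcw, Units.val_mk0, hw]

theorem mem_GR_smul {R : Type*} [CommRing R] (φ : R →+* ℂ) (U : (Mat r ℂ)ˣ) (Y : Mat r R) {α : ℂ}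
    (hα : α ≠ 0) (hU : (U : Mat r ℂ) = α • Y.map φ) (c : Rˣ) (hc : Y.det = (c : R) ^ r) :
    U ∈ GR r φ := by
  have h1 : scalarU (Units.mk0 α hα) ∈ GR r φ := ⟨Units.mk0 α hα, 1, by simp only [map_one, mul_one]⟩
  have h2 : U = scalarU (Units.mk0 α hα) * ((scalarU (Units.mk0 α hα))⁻¹ * U) := by
    rw [mul_inv_cancel_left]
  rw [h2]
  refine (GR r φ).mul_mem h1 (mem_GR_of φ _ Y ?_ c hc)
  have h3 : (scalarU (Units.mk0 α hα) : (Mat r ℂ)ˣ) * ((scalarU (Units.mk0 α hα))⁻¹ * U) = U := by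
    rw [mul_inv_cancel_left]
  rw [← map_inv, Units.val_mul]
  change (algebraMap ℂ (Mat r ℂ)) ((Units.mk0 α hα)⁻¹ : ℂˣ) * (U : Mat r ℂ) = _
  rw [hU, ← Algebra.smul_def, smul_smul, Units.val_inv_eq_inv_val, Units.val_mk0,
    inv_mul_cancel₀ hα, one_smul]

/-- The two standard matrices, up to scalars. -/
theorem heis_mem_GR {n : ℕ} {R : Type*} [CommRing R] {φ : R →+* ℂ} {E : Subgroup ℂˣ}
    (hc : CoefOK φ E (n + 1)) {L : ℂˣ} (hL : L ∈ E) {α : ℂ} (hα : α ≠ 0) (U : (Mat (n + 1) ℂ)ˣ)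
    (hU : (U : Mat (n + 1) ℂ) = α • Matrix.diagonal fun i : Fin (n + 1) => (L : ℂ) ^ (i : ℕ)) :
    U ∈ GR (n + 1) φ := by
  obtain ⟨t, ht⟩ := hc.root 1 one_pos (Nat.succ_le_succ (Nat.zero_le n)) L (by rwa [pow_one])
  obtain ⟨c, hcc⟩ := exists_unit_root_of_mem hc (Nat.succ_pos n)
    (Matrix.diagonal fun i : Fin (n + 1) => t ^ (i : ℕ)).det (∏ i : Fin (n + 1), L ^ (i : ℕ))
    (E.prod_mem fun i _ => E.pow_mem hL _) (by
      rw [det_diagonal, map_prod, Units.coe_prod]
      exact Finset.prod_congr rfl fun i _ => by rw [map_pow, ht, Units.val_pow_eq_pow_val])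
  refine mem_GR_smul φ U _ hα ?_ c hcc
  rw [hU, Matrix.diagonal_map (map_zero φ)]
  congr 2
  funext i
  rw [map_pow, ht]

theorem shift_mem_GR {n : ℕ} {R : Type*} [CommRing R] {φ : R →+* ℂ} {E : Subgroup ℂˣ}
    (hc : CoefOK φ E (n + 1)) (σ : Equiv.Perm (Fin (n + 1))) {β : ℂ} (hβ : β ≠ 0)
    (U : (Mat (n + 1) ℂ)ˣ)
    (hU : (U : Mat (n + 1) ℂ) = β • (Equiv.toPEquiv σ).toMatrix) : U ∈ GR (n + 1) φ := by
  have hdet : ((Equiv.toPEquiv σ).toMatrix : Mat (n + 1) R).det = (Equiv.Perm.sign σ : ℤ) :=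
    Matrix.det_permutation σ
  obtain ⟨z, hz, hz'⟩ : ∃ z ∈ E, φ ((Equiv.toPEquiv σ).toMatrix : Mat (n + 1) R).det = (z : ℂˣ) := by
    rw [hdet]
    rcases Int.units_eq_one_or (Equiv.Perm.sign σ) with h | h
    · refine ⟨1, E.one_mem, ?_⟩
      rw [h]
      simp only [Units.val_one, Int.cast_one, map_one]
    · refine ⟨-1, hc.neg, ?_⟩
      rw [h]
      simp
  obtain ⟨c, hcc⟩ := exists_unit_root_of_mem hc (Nat.succ_pos n) _ z hz hz'
  refine mem_GR_smul φ U _ hβ ?_ c hcc
  rw [hU]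
  congr 1
  ext i j
  rw [Matrix.map_apply, PEquiv.toMatrix_apply, PEquiv.toMatrix_apply]
  split_ifs <;> simp

/-- Genus one, all boundary classes scalar. -/
theorem scalar_case {n r : ℕ} (hr : 0 < r) {R : Type} [CommRing R] (φ : R →+* ℂ)
    (E : Subgroup ℂˣ) (hc : CoefOK φ E r)
    (C : Fin n → (Mat r ℂ)ˣ) (hE : ∀ j, EigIn E (C j : Mat r ℂ))
    (hsc : ∀ j, ∃ μ : ℂ, (C j : Mat r ℂ) = μ • (1 : Mat r ℂ))
    (x : FU 1 n →* (Mat r ℂ)ˣ)
    (hx : x ∈ YG ({relatorU 1 n} : Set (FreeGroup ((Fin 1 × Bool) ⊕ Fin n))) C)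
    (hirr : ∀ M : Mat r ℂ, (∀ w, Commute M (x w : Mat r ℂ)) → ∃ c : ℂ, M = c • (1 : Mat r ℂ))
    (f : MvPolynomial (((Fin 1 × Bool) ⊕ Fin n) × Fin r × Fin r) ℂ)
    (hf : ∀ y ∈ DGT ({relatorU 1 n} : Set (FreeGroup ((Fin 1 × Bool) ⊕ Fin n))) φ C,
      evalG y f = 0) : evalG x f = 0 := by
  obtain ⟨hx1, hx2, hx3⟩ := hx
  have hadj := adjoin_top_of_irr x hx3 hirr
  have hxrel : x (relatorU 1 n) = 1 := hx1 _ rfl
  obtain ⟨n', rfl⟩ : ∃ n', r = n' + 1 := ⟨r - 1, by omega⟩
  obtain ⟨a, ha⟩ : ∃ a : Mat (n' + 1) ℂ, a = mt x (Sum.inr false) := ⟨_, rfl⟩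
  obtain ⟨b, hb⟩ : ∃ b : Mat (n' + 1) ℂ, b = mt x (Sum.inr true) := ⟨_, rfl⟩
  -- the boundary generators are scalar
  choose μ hμ using hsc
  have hμE : ∀ j, ∃ e ∈ E, (e : ℂ) = μ j := by
    intro j
    refine hE j (μ j) ?_
    rw [Polynomial.IsRoot.def, Matrix.eval_charpoly, hμ, Matrix.smul_one_eq_diagonal,
      Matrix.scalar_apply, sub_self, det_zero]
  choose e heE he using hμE
  have hcj : ∀ j, mt x (Sum.inl j) = algebraMap ℂ (Mat (n' + 1) ℂ) (e j : ℂ) := by
    intro j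
    obtain ⟨u, hu⟩ := isConj_iff.1 (hx2 j)
    rw [mt_inl, ← hu, Units.val_mul, Units.val_mul, hμ, mul_smul_comm, mul_one, smul_mul_assoc,
      ← Units.val_mul, mul_inv_cancel, Units.val_one, he, Algebra.algebraMap_eq_smul_one]
  obtain ⟨L, hL⟩ : ∃ L : ℂˣ, L = (∏ j, e j)⁻¹ := ⟨_, rfl⟩
  have hLE : L ∈ E := by
    rw [hL]
    exact E.inv_mem (E.prod_mem fun j _ => heE j)
  have haU : IsUnit a.det := by
    rw [ha, mt_inr]
    exact Matrix.isUnits_det_units _
  have hbU : IsUnit b.det := by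
    rw [hb, mt_inr]
    exact Matrix.isUnits_det_units _
  have hab : a * b = (L : ℂ) • (b * a) := by
    have h1 := (relU1_iff x).1 hxrel
    rw [← ha, ← hb] at h1
    have h2 : ((List.finRange n).map fun j => mt x (Sum.inl j)).prod =
        algebraMap ℂ (Mat (n' + 1) ℂ) ((∏ j, e j : ℂˣ) : ℂ) := by
      rw [Fin.prod_univ_def, ← Units.coeHom_apply, map_list_prod, map_list_prod, List.map_map,
        List.map_map]
      congr 1
      exact List.map_congr_left fun j _ => hcj j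
    rw [h2, Algebra.algebraMap_eq_smul_one, smul_mul_assoc, one_mul] at h1
    have h3 : a * b * a⁻¹ * b⁻¹ = (L : ℂ) • (1 : Mat (n' + 1) ℂ) := by
      rw [hL, ← h1, smul_smul, ← Units.val_mul, inv_mul_cancel, Units.val_one, one_smul]
    calc a * b = a * b * a⁻¹ * b⁻¹ * (b * a) := by
          rw [mul_assoc (a * b * a⁻¹), ← mul_assoc b⁻¹, nonsing_inv_mul b hbU, one_mul,
            mul_assoc, nonsing_inv_mul a haU, mul_one]
      _ = _ := by rw [h3, smul_mul_assoc, one_mul]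
  have hLr : (L : ℂ) ^ (n' + 1) = 1 := by
    have h1 := congrArg Matrix.det hab
    rw [det_smul, det_mul, det_mul, Fintype.card_fin, mul_comm b.det] at h1
    have h2 : a.det * b.det ≠ 0 := mul_ne_zero haU.ne_zero hbU.ne_zero
    exact (mul_right_cancel₀ h2 ((one_mul _).trans h1)).symm
  have hadj' := (adjoin_iff1 x).1 hadj
  obtain ⟨g, α, β, hg, hα, hβ, h1, h2⟩ := heis_form hLr hab haU hbU
    (fun M hMa hMb => by
      have h3 : ∀ N ∈ Algebra.adjoin ℂ (Set.range (mt x)), Commute M N := by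
        intro N hN
        induction hN using Algebra.adjoin_induction with
        | mem y hy =>
          obtain ⟨j | s, rfl⟩ := hy
          · rw [hcj]
            exact (Algebra.commutes _ _).symm
          · cases s
            · rwa [← ha]
            · rwa [← hb]
        | algebraMap c => exact (Algebra.commutes _ _).symm
        | add y z _ _ hy hz => exact hy.add_right hz
        | mul y z _ _ hy hz => exact hy.mul_right hz
      refine hirr M fun w => h3 _ ?_
      rw [hadj']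
      exact Algebra.mem_top)
    (fun W hWa hWb => by
      refine eq_bot_or_top_of_adjoin (mt x) hadj' W ?_
      rintro (j | s) v hv
      · rw [hcj, Algebra.algebraMap_eq_smul_one, smul_mulVec, one_mulVec]
        exact W.smul_mem _ hv
      · cases s
        · rw [← ha]
          exact hWa v hv
        · rw [← hb]
          exact hWb v hv)
  -- the integral representation
  obtain ⟨gu, hgu⟩ := (Matrix.isUnit_iff_isUnit_det g).2 hg
  have h3 : ∀ (M N : Mat (n' + 1) ℂ), M * g = g * N → ((gu⁻¹ : (Mat (n' + 1) ℂ)ˣ) : Mat (n' + 1) ℂ) *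
      M * (gu : Mat (n' + 1) ℂ) = N := by
    intro M N h
    rw [mul_assoc, hgu, h, ← hgu, ← mul_assoc, ← Units.val_mul, inv_mul_cancel, Units.val_one,
      one_mul]
  refine upgrade x hadj {y | y (relatorU 1 n) = 1 ∧
    (∀ j, IsConj (C j) (y (FreeGroup.of (Sum.inr j)))) ∧
    ∀ k, y (FreeGroup.of k) ∈ GR (n' + 1) φ} ?_ f ?_
  · intro f' hf'
    have h4 : x = conjH gu (conjH gu⁻¹ x) := by
      apply MonoidHom.ext
      intro w
      rw [conjH_apply, conjH_apply]
      simp only [mul_assoc, inv_inv, mul_inv_cancel_left, mul_inv_cancel, mul_one]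
    rw [h4]
    refine conj_vanish_gen {y | y (relatorU 1 n) = 1 ∧
      (∀ j, IsConj (C j) (y (FreeGroup.of (Sum.inr j)))) ∧
      ∀ k, y (FreeGroup.of k) ∈ GR (n' + 1) φ} ?_ f' hf' _ ⟨?_, fun j => ?_, fun k => ?_⟩ gu
    · rintro z ⟨hz1, hz2, hz3⟩ X
      refine ⟨?_, fun j => ?_, fun k => ?_⟩
      · rw [conjH_apply, hz1, mul_one, mul_inv_cancel]
      · refine (hz2 j).trans ?_
        rw [isConj_iff]
        exact ⟨slU (Int.castRingHom ℂ) X, (conjH_apply _ _ _).symm⟩
      · rw [conjH_apply]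
        exact (GR (n' + 1) φ).mul_mem ((GR (n' + 1) φ).mul_mem (slU_int_mem_GR φ X) (hz3 k))
          ((GR (n' + 1) φ).inv_mem (slU_int_mem_GR φ X))
    · rw [conjH_apply, hxrel, mul_one, mul_inv_cancel]
    · refine (hx2 j).trans ?_
      rw [isConj_iff]
      exact ⟨gu⁻¹, (conjH_apply _ _ _).symm⟩
    · have h5 : (conjH gu⁻¹ x (FreeGroup.of k) : Mat (n' + 1) ℂ) =
          ((gu⁻¹ : (Mat (n' + 1) ℂ)ˣ) : Mat (n' + 1) ℂ) * (x (FreeGroup.of k) : Mat (n' + 1) ℂ) *
            (gu : Mat (n' + 1) ℂ) := by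
        rw [conjH_apply, inv_inv, Units.val_mul, Units.val_mul]
      rcases k with ⟨k, s⟩ | j
      · have hk : k = 0 := Subsingleton.elim _ _
        subst hk
        cases s
        · refine heis_mem_GR hc hLE hα _ ?_
          rw [h5]
          exact h3 _ _ (by rw [← mt_inr x false, ← ha]; exact h1)
        · refine shift_mem_GR hc (Equiv.addLeft (1 : Fin (n' + 1))).symm hβ _ ?_
          rw [h5]
          exact h3 _ _ (by rw [← mt_inr x true, ← hb]; exact h2)
      · refine ⟨e j, 1, ?_⟩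
        ext1
        rw [h5, ← mt_inl, hcj, map_one, mul_one, ← Algebra.commutes, mul_assoc, ← Units.val_mul,
          inv_mul_cancel, Units.val_one, mul_one]
        rfl
  · rintro y ⟨hy1, hy2, hy3⟩ hy4
    refine hf y ⟨⟨⟨?_, hy2, ss_of_adjoin y hy4⟩, hy3⟩, hy4⟩
    rintro w rfl
    exact hy1

end Vale.Agent.P002R
end

section

/-!
# Free products of a free group and of groups with prescribed classes of the generators
-/

namespace Vale.Agent.P002R

open Matrix

/-- Every class with eigenvalues in `E` contains a matrix which is integral up to a scalar. -/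
theorem exists_int_class {R : Type*} [CommRing R] (φ : R →+* ℂ) (E : Subgroup ℂˣ) {r : ℕ}
    (hr : 0 < r) (hc : CoefOK φ E r) (C : (Mat r ℂ)ˣ) (hC : EigIn E (C : Mat r ℂ)) :
    ∃ (c : ℂˣ) (Z : SpecialLinearGroup (Fin r) R), IsConj C (scalarU c * slU φ Z) := by
  obtain ⟨d, ν, -, h2, h3, h4⟩ := P002.exists_jordan (C : Mat r ℂ)
  have hd : ∀ i, ∃ e ∈ E, (e : ℂ) = d i := by
    intro i
    apply hC
    rw [h3, Polynomial.IsRoot.def, Polynomial.eval_prod]
    apply Finset.prod_eq_zero (Finset.mem_univ i)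
    simp
  choose e heE he using hd
  obtain ⟨δ, hδ⟩ : ∃ δ : ℂˣ, δ = ∏ i, e i := ⟨_, rfl⟩
  have hδE : δ ∈ E := by
    rw [hδ]
    exact Subgroup.prod_mem E fun i _ => heE i
  obtain ⟨a, ha⟩ : ∃ a : ℂˣ, a ^ r = δ := by
    obtain ⟨z, hz⟩ := IsAlgClosed.exists_pow_nat_eq (δ : ℂ) hr
    have hz0 : z ≠ 0 := by
      rintro rfl
      rw [zero_pow hr.ne'] at hz
      exact δ.ne_zero hz.symm
    exact ⟨Units.mk0 z hz0, Units.ext (by rw [Units.val_pow_eq_pow_val, Units.val_mk0, hz])⟩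
  have hw : ∀ i, ∃ w : R, φ w = ((e i * a⁻¹ : ℂˣ) : ℂ) := by
    intro i
    obtain ⟨w, hw⟩ := hc.root r hr le_rfl (e i * a⁻¹) (by
      rw [mul_pow, inv_pow, ha]
      exact E.mul_mem (E.pow_mem (heE i) r) (E.inv_mem hδE))
    exact ⟨w, hw⟩
  choose w hw using hw
  have hlow : ∀ i j, j < i → (diagonal w + ν.map (Int.castRingHom R)) i j = 0 := by
    intro i j hij
    rw [Matrix.add_apply, Matrix.diagonal_apply_ne _ hij.ne', Matrix.map_apply,
      h2 i j (not_lt.2 hij.le), map_zero, add_zero]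
  have hdet : (diagonal w + ν.map (Int.castRingHom R)).det = 1 := by
    rw [Matrix.det_of_isUpperTriangular (fun i j hij => hlow i j hij)]
    have h5 : ∀ i, (diagonal w + ν.map (Int.castRingHom R)) i i = w i := by
      intro i
      rw [Matrix.add_apply, Matrix.diagonal_apply_eq, Matrix.map_apply, h2 i i (lt_irrefl i),
        map_zero, add_zero]
    rw [Finset.prod_congr rfl fun i _ => h5 i]
    apply hc.inj
    rw [map_prod, map_one, Finset.prod_congr rfl fun i _ => hw i, ← Units.coe_prod,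
      Finset.prod_mul_distrib, Finset.prod_const, Finset.card_univ, Fintype.card_fin, inv_pow, ha,
      hδ, mul_inv_cancel, Units.val_one]
  obtain ⟨P, hP⟩ := h4 a a.ne_zero
  refine ⟨a, ⟨_, hdet⟩, ?_⟩
  have h6 : (diagonal d + (a : ℂ) • ν.map (Int.cast : ℤ → ℂ) : Mat r ℂ) =
      ((scalarU a * slU φ ⟨_, hdet⟩ : (Mat r ℂ)ˣ) : Mat r ℂ) := by
    change _ = algebraMap ℂ (Mat r ℂ) (a : ℂ) * ((diagonal w + ν.map (Int.castRingHom R)).map φ)
    rw [Algebra.algebraMap_eq_smul_one, Matrix.smul_mul, Matrix.one_mul]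
    ext i j
    simp only [Matrix.add_apply, Matrix.smul_apply, Matrix.map_apply, map_add, smul_eq_mul,
      mul_add, eq_intCast, map_intCast]
    congr 1
    by_cases hij : i = j
    · subst hij
      rw [Matrix.diagonal_apply_eq, Matrix.diagonal_apply_eq, hw, Units.val_mul, he, mul_comm,
        mul_assoc, Units.inv_mul, mul_one]
    · rw [Matrix.diagonal_apply_ne _ hij, Matrix.diagonal_apply_ne _ hij, map_zero, mul_zero]
  rw [h6] at hP
  refine (isConj_iff.2 ⟨P, ?_⟩).symm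
  exact Units.ext (by rw [Units.val_mul, Units.val_mul]; exact hP.symm)

/-- The representations with given classes: all generators are moved by matrices of
determinant one. -/
noncomputable def yV {κ ι : Type} {r : ℕ} (a : κ → ℂˣ) (M : ι → (Mat r ℂ)ˣ)
    (V : κ ⊕ ι → SpecialLinearGroup (Fin r) ℂ) : FreeGroup (κ ⊕ ι) →* (Mat r ℂ)ˣ :=
  FreeGroup.lift (Sum.elim (fun k => scalarU (a k) * SpecialLinearGroup.toGL (V (Sum.inl k)))
    (fun j => SpecialLinearGroup.toGL (V (Sum.inr j)) * M j *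
      (SpecialLinearGroup.toGL (V (Sum.inr j)))⁻¹))

theorem yV_poly {κ ι : Type} {r : ℕ} (a : κ → ℂˣ) (M : ι → (Mat r ℂ)ˣ) {T : Type}
    (Φ : κ ⊕ ι → SpecialLinearGroup (Fin r) (MvPolynomial T ℤ))
    (G : MvPolynomial ((κ ⊕ ι) × Fin r × Fin r) ℂ) :
    ∃ p : MvPolynomial T ℂ, ∀ s : T → ℂ,
      MvPolynomial.eval s p = evalG (yV a M fun k => Statement.spec s (Φ k)) G := by
  obtain ⟨Ψ, hΨ⟩ : ∃ Ψ : κ ⊕ ι → SpecialLinearGroup (Fin r) (MvPolynomial T ℂ), Ψ = fun k =>
      SpecialLinearGroup.map (MvPolynomial.map (Int.castRingHom ℂ)) (Φ k) := ⟨_, rfl⟩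
  have hspec : ∀ (s : T → ℂ) (k : κ ⊕ ι),
      SpecialLinearGroup.map (MvPolynomial.eval s) (Ψ k) = Statement.spec s (Φ k) := by
    intro s k
    rw [hΨ]
    apply Subtype.ext
    ext i j
    change MvPolynomial.eval s (MvPolynomial.map (Int.castRingHom ℂ) ((Φ k).1 i j)) =
      MvPolynomial.eval₂ (Int.castRingHom ℂ) s ((Φ k).1 i j)
    rw [MvPolynomial.eval_map]
  obtain ⟨B, hB⟩ : ∃ B : κ ⊕ ι → Matrix (Fin r) (Fin r) (MvPolynomial T ℂ), B = Sum.elim
      (fun k => (MvPolynomial.C (a k : ℂ) : MvPolynomial T ℂ) • (Ψ (Sum.inl k)).1)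
      (fun j => (Ψ (Sum.inr j)).1 * (M j : Mat r ℂ).map MvPolynomial.C *
        (Ψ (Sum.inr j)).1.adjugate) := ⟨_, rfl⟩
  have hBs : ∀ (s : T → ℂ) (q : κ ⊕ ι), (B q).map (MvPolynomial.eval s) =
      (yV a M (fun k => Statement.spec s (Φ k)) (FreeGroup.of q) : Mat r ℂ) := by
    intro s q
    rw [yV, FreeGroup.lift_apply_of, hB]
    rcases q with k | j
    · simp only [Sum.elim_inl]
      rw [← hspec]
      change _ = algebraMap ℂ (Mat r ℂ) (a k : ℂ) * ((Ψ (Sum.inl k)).1.map (MvPolynomial.eval s))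
      rw [Algebra.algebraMap_eq_smul_one, Matrix.smul_mul, Matrix.one_mul]
      ext i j
      simp only [map_apply, Matrix.smul_apply, smul_eq_mul, map_mul, MvPolynomial.eval_C]
    · simp only [Sum.elim_inr]
      rw [← hspec]
      have h1 : (((SpecialLinearGroup.toGL
          (SpecialLinearGroup.map (MvPolynomial.eval s) (Ψ (Sum.inr j))))⁻¹ : (Mat r ℂ)ˣ) :
          Mat r ℂ) = (Ψ (Sum.inr j)).1.adjugate.map (MvPolynomial.eval s) := by
        rw [← map_inv]
        change ((SpecialLinearGroup.map (MvPolynomial.eval s) (Ψ (Sum.inr j)))⁻¹).1 = _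
        rw [Matrix.SpecialLinearGroup.coe_inv]
        exact (RingHom.map_adjugate (MvPolynomial.eval s) _).symm
      rw [Units.val_mul, Units.val_mul, h1]
      have h2 : ((M j : Mat r ℂ).map (MvPolynomial.C (σ := T))).map (MvPolynomial.eval s) =
          (M j : Mat r ℂ) := by
        ext i j'
        simp only [map_apply, MvPolynomial.eval_C]
      rw [Matrix.map_mul, Matrix.map_mul, h2]
      rfl
  refine ⟨MvPolynomial.aeval (fun p : (κ ⊕ ι) × Fin r × Fin r => B p.1 p.2.1 p.2.2) G,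
    fun s => ?_⟩
  rw [evalG_eq_eval]
  have h3 : ((MvPolynomial.aeval s : MvPolynomial T ℂ →ₐ[ℂ] ℂ)).comp
      (MvPolynomial.aeval (R := ℂ) (fun p : (κ ⊕ ι) × Fin r × Fin r => B p.1 p.2.1 p.2.2)) =
      MvPolynomial.aeval (fun p : (κ ⊕ ι) × Fin r × Fin r =>
        (yV a M (fun k => Statement.spec s (Φ k)) (FreeGroup.of p.1) : Mat r ℂ) p.2.1 p.2.2) := by
    apply MvPolynomial.algHom_ext
    intro p
    rw [AlgHom.comp_apply, MvPolynomial.aeval_X, MvPolynomial.aeval_X, ← hBs]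
    rfl
  exact DFunLike.congr_fun h3 G

theorem free_irrDense_cls {κ ι : Type} {R : Type*} [CommRing R] (φ : R →+* ℂ) (E : Subgroup ℂˣ)
    {r : ℕ} (hr : 0 < r) (hc : CoefOK φ E r) :
    IrrDense (∅ : Set (FreeGroup (κ ⊕ ι))) φ E r := by
  intro C hC x hx hirr f hf
  have htop := adjoin_gen_eq_top x (burnside_top x hx.2.2 hirr)
  obtain ⟨D, hD0, hD⟩ := Statement.exists_generating_poly_at
    (fun k => (x (FreeGroup.of k) : Mat r ℂ)) htop
  choose c Z hZ using fun j => exists_int_class φ E hr hc (C j) (hC j)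
  obtain ⟨M, hM⟩ : ∃ M : ι → (Mat r ℂ)ˣ, M = fun j => scalarU (c j) * slU φ (Z j) := ⟨_, rfl⟩
  -- the given representation
  have hx' : ∃ (a : κ → ℂˣ) (V : κ ⊕ ι → SpecialLinearGroup (Fin r) ℂ), x = yV a M V := by
    have hdet : ∀ U : (Mat r ℂ)ˣ, (U : Mat r ℂ).det ≠ 0 := fun U =>
      ((Matrix.isUnit_iff_isUnit_det _).1 U.isUnit).ne_zero
    have h1 : ∀ k : κ, ∃ (a : ℂˣ) (V : SpecialLinearGroup (Fin r) ℂ),
        x (FreeGroup.of (Sum.inl k)) = scalarU a * SpecialLinearGroup.toGL V := by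
      intro k
      obtain ⟨s, Q, hs, hQ⟩ := Statement.exists_scale hr _ (hdet (x (FreeGroup.of (Sum.inl k))))
      refine ⟨(Units.mk0 s hs)⁻¹, Q, Units.ext ?_⟩
      change _ = algebraMap ℂ (Mat r ℂ) (((Units.mk0 s hs)⁻¹ : ℂˣ) : ℂ) * (Q : Mat r ℂ)
      rw [hQ, Algebra.algebraMap_eq_smul_one, Matrix.smul_mul, Matrix.one_mul, smul_smul,
        Units.val_inv_eq_inv_val, Units.val_mk0, inv_mul_cancel₀ hs, one_smul]
    have h2 : ∀ j : ι, ∃ V : SpecialLinearGroup (Fin r) ℂ,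
        x (FreeGroup.of (Sum.inr j)) =
          SpecialLinearGroup.toGL V * M j * (SpecialLinearGroup.toGL V)⁻¹ := by
      intro j
      have h3 : IsConj (M j) (x (FreeGroup.of (Sum.inr j))) := by
        rw [hM]
        exact (hZ j).symm.trans (hx.2.1 j)
      obtain ⟨U, hU⟩ := isConj_iff.1 h3
      obtain ⟨s, Q, hs, hQ⟩ := Statement.exists_scale hr _ (hdet U)
      refine ⟨Q, ?_⟩
      have h4 : SpecialLinearGroup.toGL Q = scalarU (Units.mk0 s hs) * U := by
        apply Units.ext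
        change (Q : Mat r ℂ) = algebraMap ℂ (Mat r ℂ) ((Units.mk0 s hs : ℂˣ) : ℂ) * (U : Mat r ℂ)
        rw [hQ, Algebra.algebraMap_eq_smul_one, Matrix.smul_mul, Matrix.one_mul, Units.val_mk0]
      have h5 := scalarU_comm (Units.mk0 s hs) (U * M j * U⁻¹)
      calc x (FreeGroup.of (Sum.inr j)) =
          (U * M j * U⁻¹) * scalarU (Units.mk0 s hs) * (scalarU (Units.mk0 s hs))⁻¹ := by
            rw [mul_inv_cancel_right, hU]
        _ = scalarU (Units.mk0 s hs) * (U * M j * U⁻¹) * (scalarU (Units.mk0 s hs))⁻¹ := by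
            rw [h5]
        _ = SpecialLinearGroup.toGL Q * M j * (SpecialLinearGroup.toGL Q)⁻¹ := by
            rw [h4, _root_.mul_inv_rev]
            simp only [mul_assoc]
    choose a V hV using h1
    choose V' hV' using h2
    refine ⟨a, Sum.elim V V', ?_⟩
    apply FreeGroup.ext_hom
    rintro (k | j)
    · rw [yV, FreeGroup.lift_apply_of, Sum.elim_inl, hV, Sum.elim_inl]
    · rw [yV, FreeGroup.lift_apply_of, Sum.elim_inr, hV', Sum.elim_inr]
  obtain ⟨a, V, rfl⟩ := hx'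
  obtain ⟨T, Φ, t, -, ht, -⟩ := Statement.exists_family V V
  obtain ⟨p, hp⟩ := yV_poly a M Φ (D * f)
  have hp0 : p = 0 := by
    apply Statement.eq_zero_of_int
    intro s
    rw [hp]
    obtain ⟨Y, hY⟩ : ∃ Y : κ ⊕ ι → SpecialLinearGroup (Fin r) ℤ,
        Y = fun k => Statement.spec s (Φ k) := ⟨_, rfl⟩
    have h2 : (fun k => Statement.spec (fun i => (s i : ℂ)) (Φ k)) =
        fun k => SpecialLinearGroup.map (Int.castRingHom ℂ) (Y k) := by
      funext k
      rw [hY]
      apply Subtype.ext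
      ext i j
      change MvPolynomial.eval₂ (Int.castRingHom ℂ) (fun i => (s i : ℂ)) ((Φ k).1 i j) =
        Int.castRingHom ℂ (MvPolynomial.eval₂ (Int.castRingHom ℤ) s ((Φ k).1 i j))
      rw [MvPolynomial.hom_eval₂]
      congr 1
    rw [h2]
    obtain ⟨y, hy⟩ : ∃ y, y = yV a M fun k => SpecialLinearGroup.map (Int.castRingHom ℂ) (Y k) :=
      ⟨_, rfl⟩
    rw [← hy, map_mul, mul_eq_zero, or_iff_not_imp_left]
    intro h3
    rw [evalG_eq_eval] at h3
    have h4 := hD (fun k => (y (FreeGroup.of k) : Mat r ℂ)) h3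
    have h5 : Algebra.adjoin ℂ (Set.range fun w => (y w : Mat r ℂ)) = ⊤ := by
      rw [eq_top_iff, ← h4]
      apply Algebra.adjoin_mono
      rintro _ ⟨k, rfl⟩
      exact ⟨FreeGroup.of k, rfl⟩
    have h6 : ∀ k, SpecialLinearGroup.toGL (SpecialLinearGroup.map (Int.castRingHom ℂ) (Y k)) =
        slU φ (SpecialLinearGroup.map (Int.castRingHom R) (Y k)) := by
      intro k
      apply Units.ext
      change (Y k).1.map (Int.castRingHom ℂ) = ((Y k).1.map (Int.castRingHom R)).map φ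
      ext i j
      simp
    have h7 : ∀ Y : SpecialLinearGroup (Fin r) R, slU φ Y ∈ GR r φ := fun Y =>
      ⟨1, Y, by rw [map_one, one_mul]⟩
    refine hf y ⟨⟨⟨fun w hw => absurd hw (Set.notMem_empty w), fun j => ?_,
      ss_of_adjoin y h5⟩, ?_⟩, h5⟩
    · refine (hZ j).trans ?_
      rw [hy, yV, FreeGroup.lift_apply_of, Sum.elim_inr, hM]
      exact isConj_iff.2 ⟨_, rfl⟩
    · rintro (k | j)
      · rw [hy, yV, FreeGroup.lift_apply_of, Sum.elim_inl, h6]
        exact ⟨_, _, rfl⟩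
      · rw [hy, yV, FreeGroup.lift_apply_of, Sum.elim_inr, h6, hM]
        exact (GR r φ).mul_mem ((GR r φ).mul_mem (h7 _) ⟨_, _, rfl⟩) ((GR r φ).inv_mem (h7 _))
  have h8 := hp t
  rw [hp0, map_zero, funext ht, map_mul, eq_comm, mul_eq_zero] at h8
  rcases h8 with h8 | h8
  · rw [evalG_eq_eval] at h8
    exact absurd h8 hD0
  · exact h8

end Vale.Agent.P002R
end

section

/-!
# P002B, assembly: algebra of block matrices
-/

namespace Vale.Agent.P002B.AsmA

open Matrix Vale.Agent.P002R Vale.Agent.P002L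

variable {r N : ℕ} {S : Type*} [CommRing S] {nm : Fin r → Fin N}

theorem bu_mul {k : Fin N → ℕ} {u v : Mat r S} (hu : BU nm k u) (hv : BU nm k v) :
    BU nm k (u * v) := by
  intro i j hij
  rw [Matrix.mul_apply, Finset.sum_eq_single i]
  · rw [hu i i (lt_irrefl _), Matrix.one_apply_eq, one_mul, hv i j hij]
  · intro t _ ht
    by_cases h : k (nm i) < k (nm t)
    · have h2 : ¬ k (nm t) < k (nm j) := fun h2 => hij (h.trans h2)
      rw [hv t j h2, Matrix.one_apply_ne, mul_zero]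
      rintro rfl
      exact hij h
    · rw [hu i t h, Matrix.one_apply_ne (Ne.symm ht), zero_mul]
  · intro h
    exact absurd (Finset.mem_univ i) h

theorem bu_map {T : Type*} [CommRing T] {k : Fin N → ℕ} {u : Mat r S} (hu : BU nm k u)
    (f : S →+* T) : BU nm k (u.map f) := by
  intro i j hij
  rw [Matrix.map_apply, hu i j hij, Matrix.one_apply, Matrix.one_apply]
  split_ifs <;> simp

theorem pow_zero_of {k : Fin N → ℕ} {n : Mat r S} (hn : ∀ i j, ¬ k (nm i) < k (nm j) → n i j = 0) :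
    ∀ (t : ℕ) (i j : Fin r), ¬ k (nm i) + t ≤ k (nm j) → (n ^ t) i j = 0 := by
  intro t
  induction t with
  | zero =>
    intro i j h
    rw [pow_zero, Matrix.one_apply_ne]
    rintro rfl
    exact h (by simp)
  | succ t ih =>
    intro i j h
    rw [pow_succ, Matrix.mul_apply]
    refine Finset.sum_eq_zero fun x _ => ?_
    by_cases h1 : k (nm x) < k (nm j)
    · rw [ih i x (by omega), zero_mul]
    · rw [hn x j h1, mul_zero]

theorem bu_isUnit {k : Fin N → ℕ} {u : Mat r S} (hu : BU nm k u) : IsUnit u := by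
  have h1 : IsNilpotent (1 - u) := by
    refine ⟨(Finset.univ.sup fun i : Fin r => k (nm i)) + 1, ?_⟩
    ext i j
    rw [Matrix.zero_apply]
    refine pow_zero_of (nm := nm) (k := k) ?_ _ i j ?_
    · intro i j h
      rw [Matrix.sub_apply, hu i j h, sub_self]
    · have h2 : k (nm j) ≤ Finset.univ.sup fun i : Fin r => k (nm i) :=
        Finset.le_sup (f := fun i : Fin r => k (nm i)) (Finset.mem_univ j)
      omega
  have h2 := h1.isUnit_one_sub
  rwa [sub_sub_cancel] at h2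

theorem bu_left_inv {k : Fin N → ℕ} {u v : Mat r S} (hu : BU nm k u) (h : v * u = 1) :
    BU nm k v := by
  have key : ∀ (n : ℕ) (i j : Fin r), k (nm j) = n → ¬ k (nm i) < k (nm j) →
      v i j = (1 : Mat r S) i j := by
    intro n
    induction n using Nat.strong_induction_on with
    | _ n ih =>
      intro i j hj hij
      have h1 : (v * u) i j = (1 : Mat r S) i j := by rw [h]
      rw [Matrix.mul_apply, Finset.sum_eq_single j] at h1
      · rwa [hu j j (lt_irrefl _), Matrix.one_apply_eq, mul_one] at h1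
      · intro t _ ht
        by_cases h2 : k (nm t) < k (nm j)
        · rw [ih (k (nm t)) (by omega) i t rfl (by omega), Matrix.one_apply_ne, zero_mul]
          rintro rfl
          exact hij h2
        · rw [hu t j h2, Matrix.one_apply_ne ht, mul_zero]
      · intro h2
        exact absurd (Finset.mem_univ j) h2
  exact fun i j => key _ i j rfl

theorem bu_inv {k : Fin N → ℕ} {u : Mat r S} (hu : BU nm k u) :
    ∃ v : Mat r S, BU nm k v ∧ v * u = 1 ∧ u * v = 1 := by
  obtain ⟨w, rfl⟩ := bu_isUnit hu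
  exact ⟨_, bu_left_inv hu (Units.inv_mul w), Units.inv_mul w, Units.mul_inv w⟩

theorem bm_mul {π π' : Equiv.Perm (Fin N)} {W W' : Mat r S} (h : BM nm π W) (h' : BM nm π' W') :
    BM nm (π * π') (W * W') := by
  intro i j hij
  rw [Matrix.mul_apply]
  refine Finset.sum_eq_zero fun t _ => ?_
  by_cases h1 : nm t = π' (nm j)
  · rw [h i t, zero_mul]
    intro h2
    apply hij
    rw [h2, h1, Equiv.Perm.mul_apply]
  · rw [h' t j h1, mul_zero]

theorem bm_one : BM nm 1 (1 : Mat r S) := by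
  intro i j hij
  rw [Matrix.one_apply_ne]
  rintro rfl
  exact hij rfl

theorem ee_mul_apply (a : Fin N) (X : Mat r S) (i j : Fin r) :
    (ee (S := S) nm a * X : Mat r S) i j = if nm i = a then X i j else 0 := by
  unfold ee
  rw [Matrix.diagonal_mul]
  split_ifs <;> simp

theorem mul_ee_apply (a : Fin N) (X : Mat r S) (i j : Fin r) :
    (X * ee (S := S) nm a : Mat r S) i j = if nm j = a then X i j else 0 := by
  unfold ee
  rw [Matrix.mul_diagonal]
  split_ifs <;> simp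

theorem bm_ee {π : Equiv.Perm (Fin N)} {W : Mat r S} (h : BM nm π W) (a : Fin N) :
    (W * ee (S := S) nm a : Mat r S) = ee (S := S) nm (π a) * W := by
  ext i j
  rw [ee_mul_apply, mul_ee_apply]
  by_cases h1 : nm i = π (nm j)
  · have h2 : (nm j = a) ↔ (nm i = π a) := by
      rw [h1]
      exact ⟨fun h => by rw [h], fun h => π.injective h⟩
    by_cases h3 : nm j = a
    · rw [if_pos h3, if_pos (h2.1 h3)]
    · rw [if_neg h3, if_neg (fun h4 => h3 (h2.2 h4))]
  · rw [h i j h1]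
    split_ifs <;> rfl

theorem bm_inv {π : Equiv.Perm (Fin N)} {W W' : Mat r S} (h : BM nm π W) (h1 : W' * W = 1)
    (h2 : W * W' = 1) : BM nm π⁻¹ W' := by
  intro i j hij
  obtain ⟨a, ha⟩ : ∃ a, nm j = π a := ⟨π⁻¹ (nm j), by simp only [Equiv.Perm.coe_inv, Equiv.apply_symm_apply]⟩
  have h3 : (W' * ee (S := S) nm (π a) : Mat r S) = ee (S := S) nm a * W' := by
    calc (W' * ee (S := S) nm (π a) : Mat r S) = W' * (ee (S := S) nm (π a) * (W * W')) := by
          rw [h2, Matrix.mul_one]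
      _ = W' * ((ee (S := S) nm (π a) * W) * W') := by rw [Matrix.mul_assoc]
      _ = W' * ((W * ee (S := S) nm a) * W') := by rw [bm_ee h a]
      _ = (W' * W) * (ee (S := S) nm a * W') := by simp only [Matrix.mul_assoc]
      _ = ee (S := S) nm a * W' := by rw [h1, Matrix.one_mul]
  have h4 : (W' * ee (S := S) nm (π a) : Mat r S) i j = (ee (S := S) nm a * W' : Mat r S) i j := by
    rw [h3]
  rw [mul_ee_apply, if_pos ha, ee_mul_apply] at h4
  rw [h4, if_neg]
  intro h5
  apply hij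
  rw [ha, h5]
  simp

/-! ### Symbols -/

theorem ee_ee_ne {a b : Fin N} (hab : a ≠ b) :
    (ee (S := S) nm a * ee (S := S) nm b : Mat r S) = 0 := by
  ext i j
  rw [ee_mul_apply]
  unfold ee
  rw [Matrix.zero_apply, Matrix.diagonal_apply]
  split_ifs with h1 h2 h3
  · subst h2
    exact absurd (h1.symm.trans h3) hab
  · rfl
  · rfl
  · rfl

theorem ee_ee (a : Fin N) : (ee (S := S) nm a * ee (S := S) nm a : Mat r S) = ee nm a := by
  ext i j
  rw [ee_mul_apply]
  unfold ee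
  rw [Matrix.diagonal_apply]
  split_ifs <;> simp_all

theorem bb_left {a b : Fin N} {y : Mat r S} (h : BB nm a b y) :
    (ee (S := S) nm a * y : Mat r S) = y := by
  ext i j
  rw [ee_mul_apply]
  split_ifs with h1
  · rfl
  · exact (h i j fun h2 => h1 h2.1).symm

theorem bb_right {a b : Fin N} {y : Mat r S} (h : BB nm a b y) :
    (y * ee (S := S) nm b : Mat r S) = y := by
  ext i j
  rw [mul_ee_apply]
  split_ifs with h1
  · rfl
  · exact (h i j fun h2 => h1 h2.2).symm

theorem sym_mul {p q y z : Mat r S} (hpp : p * p = p) (hqq : q * q = q) (hpq : p * q = 0)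
    (hqp : q * p = 0) (py : p * y = y) (yq : y * q = y) (qz : q * z = z) (zp : z * p = z)
    (hyz : y * z = p) (hzy : z * y = q) : (1 - p - q + y - z) * (1 - p - q - y + z) = 1 := by
  have qy : q * y = 0 := by rw [← py, ← mul_assoc, hqp, zero_mul]
  have yp : y * p = 0 := by rw [← yq, mul_assoc, hqp, mul_zero]
  have pz : p * z = 0 := by rw [← qz, ← mul_assoc, hpq, zero_mul]
  have zq : z * q = 0 := by rw [← zp, mul_assoc, hpq, mul_zero]
  have yy : y * y = 0 := by
    have : y * y = y * q * y := by rw [yq]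
    rw [this, mul_assoc, qy, mul_zero]
  have zz : z * z = 0 := by
    have : z * z = z * p * z := by rw [zp]
    rw [this, mul_assoc, pz, mul_zero]
  have e : (1 - p - q + y - z) * (1 - p - q - y + z) =
      1 - p - q - y + z - (p - p * p - p * q - p * y + p * z) -
      (q - q * p - q * q - q * y + q * z) + (y - y * p - y * q - y * y + y * z) -
      (z - z * p - z * q - z * y + z * z) := by noncomm_ring
  rw [e, hpp, hqq, hpq, hqp, py, yq, qz, zp, hyz, hzy, qy, yp, pz, zq, yy, zz]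
  abel

variable {R : Type} [CommRing R]

theorem sym_good {A : Type} [CommRing A] (ι : R →+* A) (y : ℕ → Mat r A × Mat r A) (s : Sy R N)
    (hs : ∀ a b n, s = Sy.Y a b n → a ≠ b ∧ BB nm a b (y n).1 ∧ BB nm b a (y n).2 ∧
      (y n).1 * (y n).2 = ee nm a ∧ (y n).2 * (y n).1 = ee nm b) :
    BM nm s.pm (s.ev nm ι y) ∧ IsUnit (s.ev nm ι y) := by
  cases s with
  | D d =>
    refine ⟨?_, ?_⟩
    · intro i j hij
      change (Matrix.diagonal fun i => ι (d (nm i))) i j = 0
      rw [Matrix.diagonal_apply_ne]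
      rintro rfl
      exact hij rfl
    · change IsUnit (Matrix.diagonal fun i => ι (d (nm i)))
      rw [Matrix.isUnit_iff_isUnit_det, Matrix.det_diagonal]
      exact (IsUnit.prod_univ_iff).2 fun i => ((d (nm i)).isUnit).map ι
  | Y a b n =>
    obtain ⟨hab, h1, h2, h3, h4⟩ := hs a b n rfl
    refine ⟨?_, ?_⟩
    · intro i j hij
      change ((1 : Mat r A) - ee (S := A) nm a - ee (S := A) nm b + (y n).1 - (y n).2 :
        Mat r A) i j = 0
      change nm i ≠ Equiv.swap a b (nm j) at hij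
      rw [Matrix.sub_apply, Matrix.add_apply, Matrix.sub_apply, Matrix.sub_apply]
      unfold ee
      have hy : (y n).1 i j = 0 := h1 i j (by
        rintro ⟨h5, h6⟩
        apply hij
        rw [h6, Equiv.swap_apply_right, h5])
      have hz : (y n).2 i j = 0 := h2 i j (by
        rintro ⟨h5, h6⟩
        apply hij
        rw [h6, Equiv.swap_apply_left, h5])
      rw [hy, hz]
      by_cases hd : i = j
      · subst hd
        rw [Matrix.one_apply_eq, Matrix.diagonal_apply_eq, Matrix.diagonal_apply_eq]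
        by_cases h5 : nm i = a
        · have h6 : nm i ≠ b := fun h6 => hab (h5.symm.trans h6)
          rw [if_pos h5, if_neg h6]
          ring
        · by_cases h6 : nm i = b
          · rw [if_neg h5, if_pos h6]
            ring
          · exact absurd (Equiv.swap_apply_of_ne_of_ne h5 h6).symm hij
      · rw [Matrix.one_apply_ne hd, Matrix.diagonal_apply_ne _ hd, Matrix.diagonal_apply_ne _ hd]
        ring
    · change IsUnit ((1 : Mat r A) - ee (S := A) nm a - ee (S := A) nm b + (y n).1 - (y n).2 :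
        Mat r A)
      have e1 := sym_mul (ee_ee (nm := nm) (S := A) a) (ee_ee (nm := nm) b) (ee_ee_ne hab)
        (ee_ee_ne (Ne.symm hab)) (bb_left h1) (bb_right h1) (bb_left h2) (bb_right h2) h3 h4
      exact IsUnit.of_mul_eq_one _ e1

theorem cev_good {A : Type} [CommRing A] (ι : R →+* A) (y : ℕ → Mat r A × Mat r A) :
    ∀ L : List (Sy R N), (∀ a b n, Sy.Y a b n ∈ L → a ≠ b) → Valid nm y L →
      BM nm (cpm L) (cev nm ι y L) ∧ IsUnit (cev nm ι y L) := by
  intro L
  induction L with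
  | nil =>
    intro _ _
    exact ⟨bm_one, isUnit_one⟩
  | cons s L ih =>
    intro hab hv
    obtain ⟨h1, h2⟩ := ih (fun a b n h => hab a b n (List.mem_cons_of_mem _ h))
      (fun a b n h => hv a b n (List.mem_cons_of_mem _ h))
    obtain ⟨h3, h4⟩ := sym_good (nm := nm) ι y s (fun a b n h => by
      have h5 : Sy.Y a b n ∈ s :: L := by
        rw [← h]
        exact List.mem_cons_self
      exact ⟨hab a b n h5, hv a b n h5⟩)
    have e1 : cpm (s :: L) = s.pm * cpm L := rfl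
    have e2 : cev nm ι y (s :: L) = s.ev nm ι y * cev nm ι y L := rfl
    rw [e1, e2]
    exact ⟨bm_mul h3 h1, h4.mul h2⟩

theorem take_good {A : Type} [CommRing A] (ι : R →+* A) (y : ℕ → Mat r A × Mat r A)
    {L : List (Sy R N)} (hc : Circ L) (hv : Valid nm y L) (n : ℕ) :
    BM nm (cpm (L.take n)) (cev nm ι y (L.take n)) ∧ IsUnit (cev nm ι y (L.take n)) :=
  cev_good ι y _ (fun a b k h => hc.2 a b k (List.mem_of_mem_take h))
    fun a b k h => hv a b k (List.mem_of_mem_take h)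

/-! ### Block upper matrices with scalar blocks -/

/-- Block upper matrices with the scalars `D` on the diagonal blocks. -/
def BD (nm : Fin r → Fin N) (D : Fin r → S) (X : Mat r S) : Prop :=
  ∀ i j, ¬ nm i < nm j → X i j = if i = j then D i else 0

theorem bd_mul_left {D : Fin r → S} {b X : Mat r S} (hb : BU nm (bk N) b) (hX : BD nm D X) :
    BD nm D (b * X) := by
  intro i j hij
  rw [Matrix.mul_apply, Finset.sum_eq_single i]
  · rw [hb i i (lt_irrefl _), Matrix.one_apply_eq, one_mul, hX i j hij]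
  · intro t _ ht
    by_cases h : nm i < nm t
    · have h2 : ¬ nm t < nm j := fun h2 => hij (h.trans h2)
      rw [hX t j h2, if_neg, mul_zero]
      rintro rfl
      exact hij h
    · rw [hb i t h, Matrix.one_apply_ne (Ne.symm ht), zero_mul]
  · intro h
    exact absurd (Finset.mem_univ i) h

theorem bd_mul_right {D : Fin r → S} {X v : Mat r S} (hX : BD nm D X) (hv : BU nm (bk N) v) :
    BD nm D (X * v) := by
  intro i j hij
  rw [Matrix.mul_apply, Finset.sum_eq_single i]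
  · rw [hX i i (lt_irrefl _), if_pos rfl, hv i j hij, Matrix.one_apply]
    split_ifs <;> simp
  · intro t _ ht
    by_cases h : nm i < nm t
    · have h2 : ¬ nm t < nm j := fun h2 => hij (h.trans h2)
      rw [hv t j h2, Matrix.one_apply_ne, mul_zero]
      rintro rfl
      exact hij h
    · rw [hX i t h, if_neg (Ne.symm ht), zero_mul]
  · intro h
    exact absurd (Finset.mem_univ i) h

theorem bd_diagonal (D : Fin r → S) : BD nm D (Matrix.diagonal D) := by
  intro i j _
  rw [Matrix.diagonal_apply]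

theorem perm_eq_one_of_le {π : Equiv.Perm (Fin N)} (h1 : ∀ a, π a ≤ a) : π = 1 := by
  have h2 : ∀ n : ℕ, ∀ j : Fin N, (j : ℕ) = n → π j = j := by
    intro n
    induction n using Nat.strong_induction_on with
    | _ n ih =>
      intro j hj
      by_contra hne
      have h3 : π j < j := lt_of_le_of_ne (h1 j) hne
      have h4 := ih (π j) (by rw [← hj]; exact h3) (π j) rfl
      exact hne (π.injective h4)
  ext j
  rw [h2 j j rfl, Equiv.Perm.one_apply]

/-- Uniqueness of the monomial part. -/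
theorem mono_unique [Nontrivial S] (hs : Function.Surjective nm) {D : Fin r → S}
    {π : Equiv.Perm (Fin N)}
    {b W v X : Mat r S} (hb : BU nm (bk N) b) (hv : BU nm (bk N) v) (hW : BM nm π W)
    (hU : IsUnit W) (he : X = b * W * v) (hX : BD nm D X) : W = Matrix.diagonal D := by
  obtain ⟨b', hb', hb1, hb2⟩ := bu_inv hb
  obtain ⟨v', hv', hv1, hv2⟩ := bu_inv hv
  have h1 : W = b' * X * v' := by
    rw [he]
    calc W = (b' * b) * W * (v * v') := by rw [hb1, hv2, Matrix.one_mul, Matrix.mul_one]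
      _ = b' * (b * W * v) * v' := by simp only [Matrix.mul_assoc]
  have h2 : BD nm D W := by
    rw [h1]
    exact bd_mul_right (bd_mul_left hb' hX) hv'
  have h3 : π = 1 := by
    refine perm_eq_one_of_le fun a => ?_
    obtain ⟨j, rfl⟩ := hs a
    by_contra hlt
    rw [not_le] at hlt
    -- the column `j` vanishes
    have h4 : ∀ i, W i j = 0 := by
      intro i
      by_cases h5 : nm i = π (nm j)
      · have h6 : ¬ nm i < nm j := by
          rw [h5]
          exact not_lt.2 hlt.le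
        rw [h2 i j h6, if_neg]
        rintro rfl
        rw [← h5] at hlt
        exact lt_irrefl _ hlt
      · exact hW i j h5
    obtain ⟨w, rfl⟩ := hU
    have h7 : (((w⁻¹ : (Mat r S)ˣ) : Mat r S) * (w : Mat r S)) j j = 0 := by
      rw [Matrix.mul_apply]
      exact Finset.sum_eq_zero fun t _ => by rw [h4, mul_zero]
    rw [Units.inv_mul, Matrix.one_apply_eq] at h7
    exact one_ne_zero h7
  subst h3
  ext i j
  by_cases h4 : nm i < nm j
  · rw [hW i j (by rw [Equiv.Perm.one_apply]; exact ne_of_lt h4), Matrix.diagonal_apply_ne]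
    rintro rfl
    exact lt_irrefl _ h4
  · rw [h2 i j h4, Matrix.diagonal_apply]

/-! ### Products -/

theorem pp_congr {c c' : ℕ → Mat r S} : ∀ n : ℕ, (∀ i < n, c i = c' i) → PP c n = PP c' n
  | 0, _ => rfl
  | n + 1, h => by
    change PP c n * c n = PP c' n * c' n
    rw [pp_congr n fun i hi => h i (by omega), h n (by omega)]

theorem pp_map {T : Type*} [CommRing T] (f : S →+* T) (c : ℕ → Mat r S) :
    ∀ n : ℕ, (PP c n).map f = PP (fun i => (c i).map f) n
  | 0 => Matrix.map_one f (map_zero f) (map_one f)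
  | n + 1 => by
    change (PP c n * c n).map f = PP (fun i => (c i).map f) n * (c n).map f
    rw [Matrix.map_mul, pp_map f c n]

theorem pp_ofFn (c : ℕ → Mat r S) : ∀ n : ℕ, PP c n = (List.ofFn fun i : Fin n => c i).prod
  | 0 => by simp [PP]
  | n + 1 => by
    change PP c n * c n = _
    rw [pp_ofFn c n, List.ofFn_succ', List.concat_eq_append, List.prod_append,
      List.prod_singleton]
    rfl

end Vale.Agent.P002B.AsmA
end

section

/-!
# P002B, assembly: positions
-/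

namespace Vale.Agent.P002B.AsmA

open Matrix Vale.Agent.P002R Vale.Agent.P002L

variable {r N : ℕ} {nm : Fin r → Fin N}

/-- The columns with small label span the kernel. -/
theorem ker_small {κ : Fin r → ℕ} {ξ : ℕ → ℂ} {c u M : Mat r ℂ} (hu : IsUnit u)
    (hM : Kup κ ξ M) (h : c * u = u * M) (j : ℕ)
    (hf : Module.finrank ℂ (LinearMap.ker (Qp c ξ j).mulVecLin) =
      (Finset.univ.filter fun x => κ x < j).card) (v : Fin r → ℂ) (hv : Qp M ξ j *ᵥ v = 0)
    (i : Fin r) (hi : j ≤ κ i) : v i = 0 := by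
  classical
  have hdet : IsUnit u.det := (Matrix.isUnit_iff_isUnit_det u).1 hu
  have hrk : (Qp c ξ j).rank = (Qp M ξ j).rank := by
    have h1 := Qp_conj ξ h j
    have h2 := Matrix.rank_mul_eq_left_of_isUnit_det u (Qp c ξ j) hdet
    have h3 := Matrix.rank_mul_eq_right_of_isUnit_det u (Qp M ξ j) hdet
    rw [← h2, h1, h3]
  have h4 := rank_add_ker (Qp c ξ j)
  have h5 := rank_add_ker (Qp M ξ j)
  have hfM : Module.finrank ℂ (LinearMap.ker (Qp M ξ j).mulVecLin) =
      (Finset.univ.filter fun x => κ x < j).card := by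
    rw [← hf]
    omega
  have hlin : LinearIndependent ℂ (fun i : {i // κ i < j} =>
      (Pi.single (i : Fin r) (1 : ℂ) : Fin r → ℂ)) :=
    (Pi.basisFun ℂ (Fin r)).linearIndependent.comp (fun i : {i // κ i < j} => (i : Fin r))
      Subtype.val_injective |> fun h => by
        convert h using 1
        funext i
        simp only [Function.comp_apply, Pi.basisFun_apply]
  have hle : Submodule.span ℂ (Set.range fun i : {i // κ i < j} =>
      (Pi.single (i : Fin r) (1 : ℂ) : Fin r → ℂ)) ≤ LinearMap.ker (Qp M ξ j).mulVecLin := by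
    rw [Submodule.span_le]
    rintro w ⟨⟨i, hi⟩, rfl⟩
    change (Qp M ξ j) *ᵥ (Pi.single i 1) = 0
    rw [Matrix.mulVec_single_one]
    funext a
    exact Qp_col hM j a i hi
  have heq := Submodule.eq_of_le_of_finrank_eq hle (by
    rw [finrank_span_eq_card hlin, hfM, Fintype.card_subtype])
  have hv' : v ∈ Submodule.span ℂ (Set.range fun i : {i // κ i < j} =>
      (Pi.single (i : Fin r) (1 : ℂ) : Fin r → ℂ)) := by
    rw [heq]
    exact hv
  have hle2 : Submodule.span ℂ (Set.range fun i : {i // κ i < j} =>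
      (Pi.single (i : Fin r) (1 : ℂ) : Fin r → ℂ)) ≤
      LinearMap.ker (LinearMap.proj i : (Fin r → ℂ) →ₗ[ℂ] ℂ) := by
    rw [Submodule.span_le]
    rintro w ⟨⟨t, ht⟩, rfl⟩
    change (Pi.single t (1 : ℂ) : Fin r → ℂ) i = 0
    rw [Pi.single_eq_of_ne]
    rintro rfl
    omega
  exact hle2 hv'

/-- Two positions of the same matrix differ by a matrix which respects the standard segments. -/
theorem trans_seg {κ : Fin N → ℕ} {ξ : ℕ → ℂ} {c u M u' M' : Mat r ℂ} {s : ℕ}
    (hu : BU nm (bk N) u) (hu' : BU nm (bk N) u') (hM : Kup (κ ∘ nm) ξ M)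
    (hM' : Kup (κ ∘ nm) ξ M') (h : c * u = u * M) (h' : c * u' = u' * M') (hs : ∀ x, κ x < s)
    (hf : ∀ j ≤ s, Module.finrank ℂ (LinearMap.ker (Qp c ξ j).mulVecLin) =
      (Finset.univ.filter fun x => κ (nm x) < j).card) :
    ∃ w : Mat r ℂ, u' = u * w ∧ ∀ l t t' : ℕ, ∀ i j, Seg κ l t t' (nm j) → ¬ Seg κ l t t' (nm i) →
      w i j = 0 := by
  obtain ⟨v, hv, hv1, hv2⟩ := bu_inv hu
  refine ⟨v * u', by rw [← Matrix.mul_assoc, hv2, Matrix.one_mul], ?_⟩
  have hw := bu_mul hv hu'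
  obtain ⟨w, hw0⟩ : ∃ w, w = v * u' := ⟨_, rfl⟩
  rw [← hw0] at hw ⊢
  have huw : u' = u * w := by rw [hw0, ← Matrix.mul_assoc, hv2, Matrix.one_mul]
  have hMw : M * w = w * M' := by
    have h1 : u * (M * w) = u * (w * M') := by
      rw [← Matrix.mul_assoc, ← h, Matrix.mul_assoc, ← huw, h', huw, Matrix.mul_assoc]
    calc M * w = (v * u) * (M * w) := by rw [hv1, Matrix.one_mul]
      _ = v * (u * (M * w)) := by rw [Matrix.mul_assoc]
      _ = v * (u * (w * M')) := by rw [h1]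
      _ = (v * u) * (w * M') := by rw [Matrix.mul_assoc]
      _ = w * M' := by rw [hv1, Matrix.one_mul]
  have hsmall : ∀ i j, κ (nm j) < κ (nm i) → w i j = 0 := by
    intro i j hij
    have h3 := Qp_conj ξ hMw (κ (nm i))
    refine ker_small (bu_isUnit hu) hM h (κ (nm i)) (hf _ (hs _).le) (fun a => w a j) ?_ i
      (le_refl _)
    funext a
    have h4 : (Qp M ξ (κ (nm i)) *ᵥ fun a => w a j) a = (Qp M ξ (κ (nm i)) * w) a j := rfl
    rw [h4, h3, Matrix.mul_apply]
    exact Finset.sum_eq_zero fun b _ => by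
      rw [Qp_col hM' (κ (nm i)) b j hij, mul_zero]
  intro l t t' i j hj hi
  by_cases h1 : κ (nm j) < κ (nm i)
  · exact hsmall i j h1
  · by_cases h2 : nm i < nm j
    · exfalso
      apply hi
      have h3 : (nm i : ℕ) < (nm j : ℕ) := h2
      unfold Seg at hj ⊢
      omega
    · rw [hw i j h2, Matrix.one_apply_ne]
      rintro rfl
      exact hi hj

theorem ip_mul {P w : Mat r ℂ} {T : Fin N → Prop}
    (hw : ∀ i j, T (nm j) → ¬ T (nm i) → w i j = 0) {c : Fin N} (h : IP nm (P * w) T c) :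
    IP nm P T c := by
  intro z
  obtain ⟨v, hv1, hv2, hv3⟩ := h z
  refine ⟨w *ᵥ v, fun i hi => ?_, fun i hi => ?_, fun i hi => ?_⟩
  · rw [Matrix.mulVec, dotProduct]
    refine Finset.sum_eq_zero fun j _ => ?_
    by_cases hj : T (nm j)
    · rw [hw i j hj hi, zero_mul]
    · rw [hv1 j hj, mul_zero]
  · rw [Matrix.mulVec_mulVec]
    exact hv2 i hi
  · rw [Matrix.mulVec_mulVec]
    exact hv3 i hi

theorem ip_of_cell {k : Fin N → ℕ} {n : ℕ} {π : Equiv.Perm (Fin N)} {b W v X : Mat r ℂ}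
    (hb : BU nm (bk N) b) (hv : BU nm k v) (hW : BM nm π W) (hU : IsUnit W) (he : X = b * W * v)
    {c : Fin N} (hc : k (π.symm c) < n) : IP nm X (fun a => k a < n) c := by
  obtain ⟨v', hv', hv1, hv2⟩ := bu_inv hv
  obtain ⟨Wu, hWu⟩ := hU
  obtain ⟨W', hW'⟩ : ∃ W' : Mat r ℂ, W' = ((Wu⁻¹ : (Mat r ℂ)ˣ) : Mat r ℂ) := ⟨_, rfl⟩
  have hW1 : W' * W = 1 := by rw [hW', ← hWu, Units.inv_mul]
  have hW2 : W * W' = 1 := by rw [hW', ← hWu, Units.mul_inv]
  have hWi := bm_inv hW hW1 hW2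
  intro z
  obtain ⟨zc, hzc⟩ : ∃ zc : Fin r → ℂ, ∀ i, zc i = if nm i = c then z i else 0 :=
    ⟨_, fun _ => rfl⟩
  have hX : X *ᵥ (v' *ᵥ (W' *ᵥ zc)) = b *ᵥ zc := by
    rw [Matrix.mulVec_mulVec, Matrix.mulVec_mulVec, he]
    congr 1
    calc b * W * v * v' * W' = b * W * (v * v') * W' := by simp only [Matrix.mul_assoc]
      _ = b * (W * W') := by rw [hv2, Matrix.mul_one, Matrix.mul_assoc]
      _ = b := by rw [hW2, Matrix.mul_one]
  have hbz : ∀ i, ¬ nm i < c → (b *ᵥ zc) i = zc i := by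
    intro i hi
    rw [Matrix.mulVec, dotProduct, Finset.sum_eq_single i]
    · rw [hb i i (lt_irrefl _), Matrix.one_apply_eq, one_mul]
    · intro t _ ht
      by_cases h1 : nm t = c
      · rw [hb i t (by
          rw [h1]
          exact hi), Matrix.one_apply_ne (Ne.symm ht), zero_mul]
      · rw [hzc, if_neg h1, mul_zero]
    · intro h1
      exact absurd (Finset.mem_univ i) h1
  refine ⟨v' *ᵥ (W' *ᵥ zc), fun i hi => ?_, fun i hi => ?_, fun i hi => ?_⟩
  · have hW'z : ∀ j, nm j ≠ π.symm c → (W' *ᵥ zc) j = 0 := by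
      intro j hj
      rw [Matrix.mulVec, dotProduct]
      refine Finset.sum_eq_zero fun t _ => ?_
      by_cases h1 : nm t = c
      · rw [hWi j t, zero_mul]
        rw [h1]
        exact hj
      · rw [hzc, if_neg h1, mul_zero]
    rw [Matrix.mulVec, dotProduct]
    refine Finset.sum_eq_zero fun t _ => ?_
    by_cases h1 : nm t = π.symm c
    · rw [hv' i t, Matrix.one_apply_ne, zero_mul]
      · rintro rfl
        rw [h1] at hi
        exact hi hc
      · rw [h1]
        intro h2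
        exact hi (h2.trans hc)
    · rw [hW'z t h1, mul_zero]
  · rw [hX, hbz i (not_lt.2 hi.le), hzc, if_neg (ne_of_gt hi)]
  · rw [hX, hbz i (by rw [hi]; exact lt_irrefl _), hzc, if_pos hi]

theorem not_ip_of_cell (hs : Function.Surjective nm) {k : Fin N → ℕ} {n : ℕ}
    {π : Equiv.Perm (Fin N)} {b W v X : Mat r ℂ}
    (hb : BU nm (bk N) b) (hv : BU nm k v) (hW : BM nm π W) (he : X = b * W * v)
    {c : Fin N} (hc : IP nm X (fun a => k a < n) c) : k (π.symm c) < n := by
  by_contra hn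
  obtain ⟨b', hb', hb1, hb2⟩ := bu_inv hb
  obtain ⟨i₀, hi₀⟩ := hs c
  obtain ⟨x, hx1, hx2, hx3⟩ := hc fun _ => 1
  have h1 : b' *ᵥ (X *ᵥ x) = W *ᵥ (v *ᵥ x) := by
    rw [Matrix.mulVec_mulVec, Matrix.mulVec_mulVec, he]
    congr 1
    calc b' * (b * W * v) = (b' * b) * (W * v) := by simp only [Matrix.mul_assoc]
      _ = W * v := by rw [hb1, Matrix.one_mul]
  have h2 : (b' *ᵥ (X *ᵥ x)) i₀ = 1 := by
    rw [← hx3 i₀ hi₀, Matrix.mulVec, dotProduct, Finset.sum_eq_single i₀]
    · rw [hb' i₀ i₀ (lt_irrefl _), Matrix.one_apply_eq, one_mul]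
    · intro t _ ht
      by_cases h3 : c < nm t
      · rw [hx2 t h3, mul_zero]
      · rw [hb' i₀ t, Matrix.one_apply_ne (Ne.symm ht), zero_mul]
        rw [hi₀]
        exact h3
    · intro h3
      exact absurd (Finset.mem_univ i₀) h3
  have h3 : (W *ᵥ (v *ᵥ x)) i₀ = 0 := by
    rw [Matrix.mulVec, dotProduct]
    refine Finset.sum_eq_zero fun j _ => ?_
    by_cases h4 : nm i₀ = π (nm j)
    · have h5 : nm j = π.symm c := by rw [← hi₀, h4, Equiv.symm_apply_apply]
      have h6 : (v *ᵥ x) j = 0 := by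
        rw [Matrix.mulVec, dotProduct]
        refine Finset.sum_eq_zero fun t _ => ?_
        by_cases h7 : k (nm t) < n
        · rw [hv j t, Matrix.one_apply_ne, zero_mul]
          · rintro rfl
            rw [h5] at h7
            exact hn h7
          · rw [h5]
            omega
        · rw [hx1 t h7, mul_zero]
      rw [h6, mul_zero]
    · rw [hW i₀ j h4, zero_mul]
  rw [h1, h3] at h2
  exact zero_ne_one h2

end Vale.Agent.P002B.AsmA
end

section

/-!
# P002, genus 0, one regular class: the ring of exponents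
-/

namespace Vale.Agent.P002L

open Matrix Vale.Agent.P002R

section

variable {G : Type} [CommGroup G]

/-- Evaluation of the group ring. -/
noncomputable def evG {S T : Type*} [CommRing S] [CommRing T] (α : S →+* T) (χ : G →* T) :
    MonoidAlgebra S G →+* T :=
  MonoidAlgebra.liftNCRingHom α χ fun _ _ => Commute.all _ _

theorem evG_single {S T : Type*} [CommRing S] [CommRing T] (α : S →+* T) (χ : G →* T) (g : G)
    (s : S) : evG α χ (MonoidAlgebra.single g s) = α s * χ g :=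
  MonoidAlgebra.liftNCRingHom_single α χ _ g s

theorem evG_map {S T : Type*} [CommRing S] [CommRing T] (α : S →+* T) (χ : G →* T)
    (a : MonoidAlgebra S G) :
    evG (RingHom.id T) χ (MonoidAlgebra.mapRingHom G α a) = evG α χ a := by
  have h : (evG (RingHom.id T) χ).comp (MonoidAlgebra.mapRingHom G α) = evG α χ := by
    refine MonoidAlgebra.ringHom_ext (fun s => ?_) fun g => ?_
    · rw [RingHom.comp_apply, MonoidAlgebra.mapRingHom_single, evG_single, evG_single]
      rfl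
    · rw [RingHom.comp_apply, MonoidAlgebra.mapRingHom_single, evG_single, evG_single, map_one]
      rfl
  exact RingHom.congr_fun h a

theorem comp_evG {S T U : Type*} [CommRing S] [CommRing T] [CommRing U] (α : S →+* T)
    (β : T →+* U) (χ : G →* T) (a : MonoidAlgebra S G) :
    β (evG α χ a) = evG (β.comp α) ((β : T →* U).comp χ) a := by
  have h : β.comp (evG α χ) = evG (β.comp α) ((β : T →* U).comp χ) := by
    refine MonoidAlgebra.ringHom_ext (fun s => ?_) fun g => ?_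
    · rw [RingHom.comp_apply, evG_single, evG_single, map_mul]
      rfl
    · rw [RingHom.comp_apply, evG_single, evG_single, map_mul]
      rfl
  exact RingHom.congr_fun h a

theorem evG_eq_sum {T : Type*} [CommRing T] (χ : G →* T) (a : MonoidAlgebra T G) :
    evG (RingHom.id T) χ a = a.coeff.sum fun g s => s * χ g := by
  conv_lhs => rw [← MonoidAlgebra.sum_coeff_single a]
  rw [map_finsuppSum]
  refine Finsupp.sum_congr fun g _ => ?_
  rw [evG_single]
  rfl

end

theorem evG_eval₂ {G : Type} [CommGroup G] {σ : Type} (χ : G →* ℂ) (a : σ → MonoidAlgebra ℂ G)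
    (f : MvPolynomial σ ℂ) :
    evG (RingHom.id ℂ) χ (MvPolynomial.eval₂ (MonoidAlgebra.singleOneRingHom) a f) =
      MvPolynomial.eval (fun i => evG (RingHom.id ℂ) χ (a i)) f := by
  rw [MvPolynomial.eval₂_comp_left]
  have h : (evG (RingHom.id ℂ) χ).comp
      (MonoidAlgebra.singleOneRingHom : ℂ →+* MonoidAlgebra ℂ G) = RingHom.id ℂ := by
    refine RingHom.ext fun s => ?_
    change evG _ _ (MonoidAlgebra.single 1 s) = s
    rw [evG_single, map_one, mul_one]
    rfl
  rw [h]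
  rfl

/-- The free abelian group on the nonzero complex numbers. -/
abbrev FG : Type := Multiplicative (ℂˣ →₀ ℤ)

/-- The tautological character. -/
noncomputable def tautC : FG →* ℂˣ :=
  AddMonoidHom.toMultiplicativeLeft
    (Finsupp.liftAddHom fun c : ℂˣ => (zmultiplesHom (Additive ℂˣ) (Additive.ofMul c)))

theorem tautC_single (c : ℂˣ) : tautC (Multiplicative.ofAdd (Finsupp.single c 1)) = c := by
  change ((Finsupp.liftAddHom fun c : ℂˣ => (zmultiplesHom (Additive ℂˣ) (Additive.ofMul c)))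
    (Finsupp.single c (1 : ℤ))).toMul = c
  rw [Finsupp.liftAddHom_apply_single, zmultiplesHom_apply, one_zsmul]
  rfl

/-- The character given by a linear form and a unit. -/
noncomputable def chL {R : Type} [CommRing R] (u : Rˣ) (l : (ℂˣ →₀ ℤ) →+ ℤ) : FG →* Rˣ :=
  (zpowersHom Rˣ u).comp (AddMonoidHom.toMultiplicative l)

theorem chL_apply' {R : Type} [CommRing R] (u : Rˣ) (l : (ℂˣ →₀ ℤ) →+ ℤ) (g : FG) :
    chL u l g = u ^ l g.toAdd := rfl

/-- Evaluation at a group element as a character of the dual group. -/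
noncomputable def thG (v : ℂˣ) (g : FG) : Multiplicative ((ℂˣ →₀ ℤ) →+ ℤ) →* ℂ where
  toFun l := ((v ^ (l.toAdd g.toAdd) : ℂˣ) : ℂ)
  map_one' := by
    change ((v ^ (0 : ℤ) : ℂˣ) : ℂ) = 1
    rw [zpow_zero, Units.val_one]
  map_mul' l m := by
    change ((v ^ (l.toAdd g.toAdd + m.toAdd g.toAdd) : ℂˣ) : ℂ) = _
    rw [_root_.zpow_add, Units.val_mul]

theorem thG_injective (v : ℂˣ) (hv : ∀ k : ℕ, 0 < k → v ^ k ≠ 1) :
    Function.Injective (thG v) := by
  intro g h hgh
  by_contra hne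
  have h1 : ∃ c, g.toAdd c ≠ h.toAdd c := by
    by_contra h2
    push Not at h2
    exact hne (Multiplicative.toAdd.injective (Finsupp.ext h2))
  obtain ⟨c, hc⟩ := h1
  have h2 := DFunLike.congr_fun hgh (Multiplicative.ofAdd (Finsupp.applyAddHom c))
  have h3 : v ^ (g.toAdd c) = v ^ (h.toAdd c) := Units.ext h2
  have h4 : ¬ IsOfFinOrder v := by
    rw [isOfFinOrder_iff_pow_eq_one]
    rintro ⟨k, hk, hk'⟩
    exact hv k hk hk'
  exact hc (injective_zpow_iff_not_isOfFinOrder.2 h4 h3)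

/-- An element of the group ring which is killed by all characters with values in the powers
of a unit of infinite order is zero. -/
theorem eq_zero_of_chars (v : ℂˣ) (hv : ∀ k : ℕ, 0 < k → v ^ k ≠ 1) (F : MonoidAlgebra ℂ FG)
    (h : ∀ l : (ℂˣ →₀ ℤ) →+ ℤ, evG (RingHom.id ℂ) ((Units.coeHom ℂ).comp (chL v l)) F = 0) :
    F = 0 := by
  have h1 := (linearIndependent_monoidHom (Multiplicative ((ℂˣ →₀ ℤ) →+ ℤ)) ℂ).comp (thG v)
    (thG_injective v hv)
  rw [linearIndependent_iff] at h1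
  have h2 := h1 F.coeff (by
    funext l
    have h3 := h l.toAdd
    rw [evG_eq_sum] at h3
    rw [Finsupp.linearCombination_apply, Finsupp.sum, Finset.sum_apply]
    rw [Pi.zero_apply, ← h3, Finsupp.sum]
    refine Finset.sum_congr rfl fun g _ => ?_
    rfl)
  ext g
  rw [h2]
  rfl

theorem exists_lifting {R : Type} [CommRing R] (φ : R →+* ℂ) (hφ : Function.Injective φ) (u : Rˣ)
    (hu : ∀ k : ℕ, 0 < k → φ u ^ k ≠ 1) :
    ∃ (A : Type) (_ : CommRing A) (ι : R →+* A) (ψ : A →+* ℂ), Lifting φ ι ψ := by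
  refine ⟨MonoidAlgebra R FG, inferInstance, MonoidAlgebra.singleOneRingHom,
    evG φ ((Units.coeHom ℂ).comp tautC), ?_, hφ, ?_, ?_, ?_⟩
  · intro a
    change evG φ _ (MonoidAlgebra.single 1 a) = _
    rw [evG_single, map_one, mul_one]
  · intro c
    by_cases hc : c = 0
    · exact ⟨0, by rw [map_zero, hc]⟩
    · refine ⟨MonoidAlgebra.single (Multiplicative.ofAdd (Finsupp.single (Units.mk0 c hc) 1)) 1, ?_⟩
      rw [evG_single, map_one, one_mul, MonoidHom.comp_apply, tautC_single]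
      rfl
  · intro c
    refine ⟨(MonoidAlgebra.of R FG).toHomUnits (Multiplicative.ofAdd (Finsupp.single c 1)), ?_⟩
    change evG φ _ (MonoidAlgebra.single _ 1) = _
    rw [evG_single, map_one, one_mul, MonoidHom.comp_apply, tautC_single]
    rfl
  · intro σ f a h
    obtain ⟨v, hv⟩ : ∃ v : ℂˣ, v = Units.map (φ : R →* ℂ) u := ⟨_, rfl⟩
    have hv' : ∀ k : ℕ, 0 < k → v ^ k ≠ 1 := by
      intro k hk h1
      apply hu k hk
      have h2 := congrArg (fun w : ℂˣ => (w : ℂ)) h1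
      rw [hv] at h2
      exact h2
    have hF : MvPolynomial.eval₂ (MonoidAlgebra.singleOneRingHom : ℂ →+* MonoidAlgebra ℂ FG)
        (fun i => MonoidAlgebra.mapRingHom FG φ (a i)) f = 0 := by
      refine eq_zero_of_chars v hv' _ fun l => ?_
      have h1 := h (evG (RingHom.id R) ((Units.coeHom R).comp (chL u l))) (fun s => by
        change evG _ _ (MonoidAlgebra.single 1 s) = s
        rw [evG_single, map_one, mul_one]
        rfl)
      rw [evG_eval₂, ← h1]
      refine congrArg (fun w => MvPolynomial.eval w f) (funext fun i => ?_)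
      rw [evG_map, comp_evG]
      congr 2
      refine MonoidHom.ext fun g => ?_
      change ((chL v l g : ℂˣ) : ℂ) = φ ((chL u l g : Rˣ) : R)
      rw [hv, chL_apply', chL_apply', ← map_zpow]
      rfl
    have h2 := congrArg (evG (RingHom.id ℂ) ((Units.coeHom ℂ).comp tautC)) hF
    rw [evG_eval₂, map_zero] at h2
    rw [← h2]
    refine congrArg (fun w => MvPolynomial.eval w f) (funext fun i => ?_)
    rw [evG_map]

end Vale.Agent.P002L
end

section

/-!
# P002, genus 0, one regular class: all irreducible representations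
-/

namespace Vale.Agent.P002L

open Matrix Vale.Agent.P002R

/-- T5: the type of a matrix. -/
def ExType : Prop :=
  ∀ {R : Type} [CommRing R] (φ : R →+* ℂ) {r : ℕ} (C c : (Mat r ℂ)ˣ),
    EigU φ (C : Mat r ℂ) → IsConj C c →
    ∃ (κ : Fin r → ℕ) (l : ℕ → Rˣ) (u M : Mat r ℂ) (h : MvPolynomial (Fin r × Fin r) ℂ),
      UU u ∧ Kup κ (fun j => φ (l j)) M ∧ (c : Mat r ℂ) * u = u * M ∧
      MvPolynomial.eval (fun p => (c : Mat r ℂ) p.1 p.2) h ≠ 0 ∧
      ∀ (c' : (Mat r ℂ)ˣ) (u' M' : Mat r ℂ), UU u' → Kup κ (fun j => φ (l j)) M' →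
        (c' : Mat r ℂ) * u' = u' * M' →
        MvPolynomial.eval (fun p => (c' : Mat r ℂ) p.1 p.2) h ≠ 0 → IsConj C c'

/-- T7: lifting of tuples. -/
def LiftMain : Prop :=
  ∀ {R A : Type} [CommRing R] [CommRing A] {φ : R →+* ℂ} {ι : R →+* A} {ψ : A →+* ℂ},
    Lifting φ ι ψ → ∀ {r m : ℕ} (κ : Fin m → Fin r → ℕ) (l : Fin m → ℕ → Rˣ)
    (c u M : Fin m → Mat r ℂ), (∀ i, UU (u i)) → (∀ i, Kup (κ i) (fun j => φ (l i j)) (M i)) →
    (∀ i, c i * u i = u i * M i) → ∀ τ : Fin r → Rˣ, UpT (List.ofFn c).prod →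
    (∀ i, (List.ofFn c).prod i i = φ (τ i)) →
    ∃ c' u' M' : Fin m → Mat r A, (∀ i, UU (u' i)) ∧
      (∀ i, Kup (κ i) (fun j => ι (l i j)) (M' i)) ∧ (∀ i, c' i * u' i = u' i * M' i) ∧
      (∀ i, (c' i).map ψ = c i) ∧ UpT (List.ofFn c').prod ∧
      ∀ i, (List.ofFn c').prod i i = ι (τ i)

theorem prod_map_ofFn {S T : Type*} [CommRing S] [CommRing T] (θ : S →+* T) {r m : ℕ}
    (c : Fin m → Mat r S) :
    (List.ofFn fun j => (c j).map θ).prod = ((List.ofFn c).prod).map θ := by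
  have h := map_list_prod (θ.mapMatrix (m := Fin r)) (List.ofFn c)
  rw [List.map_ofFn] at h
  exact h.symm

theorem kry_map {S T : Type*} [CommRing S] [CommRing T] (θ : S →+* T) {r : ℕ} (Z : Mat r S)
    (v : Fin r → S) : P002.kry (Z.map θ) (fun i => θ (v i)) = (P002.kry Z v).map θ := by
  ext i j
  simp only [P002.kry, Matrix.of_apply, Matrix.map_apply]
  have h2 : (Z.map θ) ^ (j : ℕ) = (Z ^ (j : ℕ)).map θ := by
    have := map_pow θ.mapMatrix Z (j : ℕ)
    exact this.symm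
  rw [h2, RingHom.map_mulVec]
  rfl

/-- A polynomial which detects cyclic vectors. -/
theorem exists_cycP {m r : ℕ} (v : Fin r → ℂ) : ∃ q : MvPolynomial (GenU 0 (m + 1) × Fin r × Fin r) ℂ,
    ∀ c : Fin (m + 1) → Mat r ℂ, evT q c = (P002.kry (c 0) v).det := by
  refine ⟨(P002.kry (Matrix.of fun i j => (MvPolynomial.X (Sum.inr 0, i, j) :
    MvPolynomial (GenU 0 (m + 1) × Fin r × Fin r) ℂ)) fun i => MvPolynomial.C (v i)).det,
    fun c => ?_⟩
  rw [evT, RingHom.map_det]
  congr 1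
  have h := kry_map (MvPolynomial.eval fun p : GenU 0 (m + 1) × Fin r × Fin r =>
    (Sum.elim (fun _ => (0 : Mat r ℂ)) c p.1) p.2.1 p.2.2) (Matrix.of fun i j =>
    (MvPolynomial.X (Sum.inr 0, i, j) : MvPolynomial (GenU 0 (m + 1) × Fin r × Fin r) ℂ))
    fun i => MvPolynomial.C (v i)
  rw [RingHom.mapMatrix_apply, ← h]
  congr 1
  · ext i j
    rw [Matrix.map_apply, Matrix.of_apply, MvPolynomial.eval_X]
    rfl
  · funext i
    rw [MvPolynomial.eval_C]

/-- A polynomial in the entries of one member of the tuple. -/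
theorem evT_rename {m r : ℕ} (i : Fin (m + 1)) (h : MvPolynomial (Fin r × Fin r) ℂ)
    (c : Fin (m + 1) → Mat r ℂ) :
    evT (MvPolynomial.rename (fun p => ((Sum.inr i, p) : GenU 0 (m + 1) × Fin r × Fin r)) h) c =
      MvPolynomial.eval (fun p => c i p.1 p.2) h := by
  rw [evT, MvPolynomial.eval_rename]
  rfl

/-- Inverse of an upper triangular matrix with unit diagonal. -/
theorem upT_left_inv {r : ℕ} {A B : Mat r ℂ} (h : A * B = 1) (hB : UpT B) (hd : ∀ i, B i i ≠ 0) :
    UpT A ∧ ∀ i, A i i = (B i i)⁻¹ := by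
  have h1 : A = B⁻¹ := (Matrix.inv_eq_left_inv h).symm
  rw [h1]
  exact ⟨hB.inv hd, inv_diag hB hd⟩

/-- The main step: density in the chart. -/
theorem core (hET : ExType) (hLM : LiftMain) {m r : ℕ} (hr : 0 < r) {R : Type} [CommRing R]
    (φ : R →+* ℂ) (E : Subgroup ℂˣ) (hc : CoefOK φ E r) (C : Fin (m + 1) → (Mat r ℂ)ˣ)
    (hE : ∀ j, EigIn E (C j : Mat r ℂ)) (h0 : HasCyc r (C 0 : Mat r ℂ))
    (x : FU 0 (m + 1) →* (Mat r ℂ)ˣ) (hx1 : x (relatorU 0 (m + 1)) = 1)
    (hx2 : ∀ j, IsConj (C j) (x (FreeGroup.of (Sum.inr j)))) (hup : UpT (bt x 0))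
    (f : MvPolynomial (GenU 0 (m + 1) × Fin r × Fin r) ℂ)
    (hf : ∀ y : FU 0 (m + 1) →* (Mat r ℂ)ˣ, y (relatorU 0 (m + 1)) = 1 →
      (∀ j, IsConj (C j) (y (FreeGroup.of (Sum.inr j)))) →
      (∀ k, y (FreeGroup.of k) ∈ GR r φ) → evalG y f = 0) : evalG x f = 0 := by
  have hrel : bt x 0 * (List.ofFn fun j : Fin m => bt x j.succ).prod = 1 := by
    have h1 := (relU_iff x).1 hx1
    rwa [← List.ofFn_eq_map, List.ofFn_succ, List.prod_cons] at h1
  obtain ⟨P, hP⟩ : ∃ P, P = (List.ofFn fun j : Fin m => bt x j.succ).prod := ⟨_, rfl⟩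
  rw [← hP] at hrel
  have hrel' : P * bt x 0 = 1 := mul_eq_one_comm.1 hrel
  have hcp0 : (bt x 0).charpoly = (C 0 : Mat r ℂ).charpoly := charpoly_of_isConj (hx2 0)
  have heig : ∀ i, ∃ e ∈ E, (e : ℂ) = bt x 0 i i := by
    intro i
    apply hE 0
    rw [← hcp0, charpoly_upT hup, Polynomial.IsRoot, Polynomial.eval_prod]
    refine Finset.prod_eq_zero (Finset.mem_univ i) ?_
    rw [Polynomial.eval_sub, Polynomial.eval_X, Polynomial.eval_C, sub_self]
  choose e heE he using heig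
  have hd0 : ∀ i, bt x 0 i i ≠ 0 := fun i => by rw [← he]; exact (e i).ne_zero
  obtain ⟨hPup, hPd⟩ := upT_left_inv hrel' hup hd0
  have hτ : ∀ i, ∃ t : Rˣ, φ t = ((e i)⁻¹ : ℂˣ) := fun i => hc.exists_unit hr (E.inv_mem (heE i))
  choose τ hτ using hτ
  have hPτ : ∀ i, P i i = φ (τ i) := fun i => by
    rw [hPd, hτ, ← he, Units.val_inv_eq_inv_val]
  have hty := fun i : Fin m => hET φ (C i.succ) (x (FreeGroup.of (Sum.inr i.succ)))
    (fun z hz => by
      obtain ⟨e, he, rfl⟩ := hE i.succ z hz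
      exact hc.exists_unit hr he) (hx2 i.succ)
  choose κ l u M h hu hM hcu hh hcl using hty
  obtain ⟨uf, huf⟩ := hc.exists_free
  obtain ⟨A, hA, ι, ψ, hL⟩ := exists_lifting φ hc.inj uf huf
  obtain ⟨c', u', M', hu', hM', hcu', hcψ, hup', hd'⟩ := hLM hL κ l
    (fun i => bt x i.succ) u M hu hM hcu τ (by rw [← hP]; exact hPup)
    (fun i => by rw [← hP]; exact hPτ i)
  obtain ⟨PA, hPA⟩ : ∃ PA, PA = (List.ofFn c').prod := ⟨_, rfl⟩
  rw [← hPA] at hup' hd'
  obtain ⟨δ, hδ⟩ : ∃ δ : Rˣ, δ = ∏ i, τ i := ⟨_, rfl⟩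
  have hdetPA : PA.det = ι δ := by
    rw [hup'.det, hδ, Units.coe_prod, map_prod]
    exact Finset.prod_congr rfl fun i _ => hd' i
  obtain ⟨c0, hc0⟩ : ∃ c0 : Mat r A, c0 = ι ((δ⁻¹ : Rˣ) : R) • PA.adjugate := ⟨_, rfl⟩
  have hc0P : c0 * PA = 1 := by
    rw [hc0, smul_mul_assoc, Matrix.adjugate_mul, smul_smul, hdetPA, ← map_mul, Units.inv_mul,
      map_one, one_smul]
  obtain ⟨cA, hcA⟩ : ∃ cA : Fin (m + 1) → Mat r A, cA = Fin.cons c0 c' := ⟨_, rfl⟩
  have hcA0 : cA 0 = c0 := by rw [hcA, Fin.cons_zero]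
  have hcAs : ∀ i : Fin m, cA i.succ = c' i := fun i => by rw [hcA, Fin.cons_succ]
  have hprodA : (List.ofFn cA).prod = 1 := by
    rw [List.ofFn_succ, List.prod_cons, hcA0, ← hc0P, hPA]
    congr 3
    funext i
    exact hcAs i
  -- the cyclic vector
  have hcyc : HasCyc r (bt x 0) := by
    obtain ⟨v, hv⟩ := h0
    exact cyc_of_isConj (hx2 0) hv
  obtain ⟨v, hv⟩ := hcyc
  have hv' : P002G.Cyc (bt x 0) v := hv
  rw [P002G.cyc_iff, Matrix.isUnit_iff_isUnit_det, isUnit_iff_ne_zero] at hv'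
  obtain ⟨q, hq⟩ := exists_cycP (m := m) v
  obtain ⟨F, hF⟩ : ∃ F : MvPolynomial (GenU 0 (m + 1) × Fin r × Fin r) ℂ, F = f * (q *
    ∏ i : Fin m, MvPolynomial.rename (fun p => ((Sum.inr i.succ, p) :
      GenU 0 (m + 1) × Fin r × Fin r)) (h i)) := ⟨_, rfl⟩
  have hFev : ∀ c : Fin (m + 1) → Mat r ℂ, evT F c = evT f c * ((P002.kry (c 0) v).det *
      ∏ i : Fin m, MvPolynomial.eval (fun p => c i.succ p.1 p.2) (h i)) := by
    intro c
    have h1 : ∀ a b : MvPolynomial (GenU 0 (m + 1) × Fin r × Fin r) ℂ,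
        evT (a * b) c = evT a c * evT b c := fun a b => map_mul _ a b
    rw [hF, h1, h1, hq]
    congr 2
    have h2 : evT (∏ i : Fin m, MvPolynomial.rename (fun p => ((Sum.inr i.succ, p) :
      GenU 0 (m + 1) × Fin r × Fin r)) (h i)) c = ∏ i : Fin m, evT (MvPolynomial.rename
        (fun p => ((Sum.inr i.succ, p) : GenU 0 (m + 1) × Fin r × Fin r)) (h i)) c :=
      map_prod _ _ _
    rw [h2]
    exact Finset.prod_congr rfl fun i _ => evT_rename i.succ (h i) c
  have hevA : ∀ (θ : A →+* ℂ), MvPolynomial.eval (fun s : GenU 0 (m + 1) × Fin r × Fin r =>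
      θ ((Sum.elim (fun _ => (0 : Mat r A)) cA s.1) s.2.1 s.2.2)) F =
      evT F fun j => (cA j).map θ := by
    intro θ
    rw [evT]
    refine congrArg (fun w => MvPolynomial.eval w F) (funext fun s => ?_)
    obtain ⟨k | j, a, b⟩ := s
    · exact k.1.elim0
    · rfl
  have hkey : evT F (fun j => (cA j).map ψ) = 0 := by
    rw [← hevA ψ]
    refine hL.dens F (fun s : GenU 0 (m + 1) × Fin r × Fin r =>
      (Sum.elim (fun _ => (0 : Mat r A)) cA s.1) s.2.1 s.2.2) fun η hη => ?_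
    have h1 := hevA (φ.comp η)
    refine h1.trans ?_
    obtain ⟨cC, hcC⟩ : ∃ cC : Fin (m + 1) → Mat r ℂ, cC = fun j => (cA j).map (φ.comp η) :=
      ⟨_, rfl⟩
    obtain ⟨cR, hcR⟩ : ∃ cR : Fin (m + 1) → Mat r R, cR = fun j => (cA j).map η := ⟨_, rfl⟩
    have hcCR : ∀ j, cC j = (cR j).map φ := by
      intro j
      rw [hcC, hcR]
      rfl
    have hprodC : (List.ofFn cC).prod = 1 := by
      rw [hcC, prod_map_ofFn, hprodA]
      exact Matrix.map_one _ (map_zero _) (map_one _)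
    rw [← hcC, hFev]
    by_contra hne
    have hne1 := left_ne_zero_of_mul hne
    have hne2 := left_ne_zero_of_mul (right_ne_zero_of_mul hne)
    have hne3 := Finset.prod_ne_zero_iff.1 (right_ne_zero_of_mul (right_ne_zero_of_mul hne))
    obtain ⟨y, hy1, hy2⟩ := exists_hom (m + 1) cC hprodC
    apply hne1
    have hbty : bt y = cC := funext hy2
    rw [← hbty, ← evalG_eq_evT]
    -- the first member
    obtain ⟨PC, hPC⟩ : ∃ PC : Mat r ℂ, PC = PA.map (φ.comp η) := ⟨_, rfl⟩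
    have hPCd : ∀ i, PC i i = φ (τ i) := by
      intro i
      rw [hPC, Matrix.map_apply, hd', RingHom.comp_apply, hη]
    have hPCup : UpT PC := by
      intro i j hij
      rw [hPC, Matrix.map_apply, hup' i j hij, map_zero]
    have hCP : cC 0 * PC = 1 := by
      have h2 : (c0 * PA).map (φ.comp η) = (1 : Mat r A).map (φ.comp η) := by rw [hc0P]
      rw [Matrix.map_mul, Matrix.map_one _ (map_zero _) (map_one _)] at h2
      rw [hPC, hcC]
      simp only
      rw [hcA0]
      exact h2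
    obtain ⟨hC0up, hC0d⟩ := upT_left_inv hCP hPCup (fun i => by
      rw [hPCd, hτ]
      exact Units.ne_zero _)
    have hconj : ∀ j, IsConj (C j) (y (FreeGroup.of (Sum.inr j))) := by
      intro j
      refine Fin.cases ?_ (fun i => ?_) j
      · obtain ⟨w, hw⟩ := h0
        refine isConj_of_cyc (v := w) (w := v) _ _ ?_ hw ?_
        · rw [hy2 0, ← hcp0, charpoly_upT hup, charpoly_upT hC0up]
          refine Finset.prod_congr rfl fun i _ => ?_
          rw [hC0d, hPCd, hτ, Units.val_inv_eq_inv_val, inv_inv, he]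
        · rw [P002G.cyc_iff, Matrix.isUnit_iff_isUnit_det, isUnit_iff_ne_zero, hy2 0]
          exact hne2
      · refine hcl i _ ((u' i).map (φ.comp η)) ((M' i).map (φ.comp η)) ((hu' i).map _) ?_ ?_ ?_
        · have h3 := (hM' i).map (φ.comp η)
          have h4 : (fun j => (φ.comp η) (ι ((l i j : Rˣ) : R))) = fun j => φ ((l i j : Rˣ) : R) :=
            funext fun j => by rw [RingHom.comp_apply, hη]
          rw [h4] at h3
          exact h3
        · rw [hy2, hcC]
          simp only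
          rw [hcAs, ← Matrix.map_mul, hcu' i, Matrix.map_mul]
        · have h3 := hne3 i (Finset.mem_univ i)
          rw [← hbty] at h3
          exact h3
    refine hf y hy1 hconj ?_
    rintro (k | j)
    · exact k.1.elim0
    · obtain ⟨e, he, hed⟩ := (hE j).det
      obtain ⟨c, hcc⟩ := exists_unit_root_of_mem hc hr (cR j).det e he (by
        rw [hed, RingHom.map_det]
        change ((cR j).map φ).det = _
        rw [← hcCR, ← hy2, (cjM_of_isConj (hconj j)).det])
      exact mem_GR_of φ _ (cR j) ((hy2 j).trans (hcCR j)) c hcc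
  have hψ : (fun j => (cA j).map ψ) = bt x := by
    funext j
    refine Fin.cases ?_ (fun i => ?_) j
    · rw [hcA0]
      have h2 : (c0 * PA).map ψ = (1 : Mat r A).map ψ := by rw [hc0P]
      rw [Matrix.map_mul, Matrix.map_one _ (map_zero _) (map_one _)] at h2
      have h3 : PA.map ψ = P := by
        rw [hPA, ← prod_map_ofFn, hP]
        congr 2
        funext i
        exact hcψ i
      rw [h3] at h2
      rw [← mul_one (c0.map ψ), ← hrel', ← mul_assoc, h2, one_mul]
    · rw [hcAs]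
      exact hcψ i
  rw [hψ, hFev] at hkey
  rw [evalG_eq_evT]
  refine (mul_eq_zero.1 hkey).resolve_right (mul_ne_zero hv' ?_)
  exact Finset.prod_ne_zero_iff.2 fun i _ => hh i

/-- Genus zero, one regular class. -/
theorem g01Irr_of (hET : ExType) (hLM : LiftMain) : G01Irr := by
  intro m r hr R _ φ E hc C hE h0 x hx hirr f hf
  obtain ⟨hx1, hx2, hx3⟩ := hx
  have hadj := adjoin_top_of_irr x hx3 hirr
  have hxrel : x (relatorU 0 (m + 1)) = 1 := hx1 _ rfl
  refine upgrade x hadj {y | y (relatorU 0 (m + 1)) = 1 ∧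
    (∀ j, IsConj (C j) (y (FreeGroup.of (Sum.inr j)))) ∧
    ∀ k, y (FreeGroup.of k) ∈ GR r φ} ?_ f ?_
  · intro f' hf'
    obtain ⟨J, hJ, hJup⟩ := exists_upT (x (FreeGroup.of (Sum.inr 0)))
    obtain ⟨P, hP⟩ := isConj_iff.1 hJ
    obtain ⟨f'', hf''⟩ := exists_conjP P⁻¹ f'
    have hback : conjH P⁻¹ (conjH P x) = x := by
      refine MonoidHom.ext fun w => ?_
      rw [conjH_apply, conjH_apply, inv_inv]
      group
    rw [← hback, ← hf'']
    refine core hET hLM hr φ E hc C hE h0 (conjH P x) ?_ (fun j => ?_) ?_ f'' ?_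
    · rw [conjH_apply, hxrel, mul_one, mul_inv_cancel]
    · refine (hx2 j).trans ?_
      rw [isConj_iff]
      exact ⟨P, (conjH_apply _ _ _).symm⟩
    · rw [bt_eqn, conjH_apply, hP]
      exact hJup
    · intro y hy1 hy2 hy3
      rw [hf'']
      refine conj_vanish_gen {y | y (relatorU 0 (m + 1)) = 1 ∧
        (∀ j, IsConj (C j) (y (FreeGroup.of (Sum.inr j)))) ∧
        ∀ k, y (FreeGroup.of k) ∈ GR r φ} ?_ f' hf' y ⟨hy1, hy2, hy3⟩ P⁻¹
      rintro z ⟨hz1, hz2, hz3⟩ X
      refine ⟨?_, fun j => ?_, fun k => ?_⟩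
      · rw [conjH_apply, hz1, mul_one, mul_inv_cancel]
      · refine (hz2 j).trans ?_
        rw [isConj_iff]
        exact ⟨slU (Int.castRingHom ℂ) X, (conjH_apply _ _ _).symm⟩
      · rw [conjH_apply]
        exact (GR r φ).mul_mem ((GR r φ).mul_mem (slU_int_mem_GR φ X) (hz3 k))
          ((GR r φ).inv_mem (slU_int_mem_GR φ X))
  · rintro y ⟨hy1, hy2, hy3⟩ hy4
    refine hf y ⟨⟨⟨?_, hy2, ss_of_adjoin y hy4⟩, hy3⟩, hy4⟩
    rintro w rfl
    exact hy1

end Vale.Agent.P002L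
end

section

/-!
# P002B, T13a (B): the kernel of the derivative of a commutator, coordinates of handles
-/

set_option linter.all false

namespace Vale.Agent.P002B.SB

open Matrix Module Vale.Agent.P002

variable {d : ℕ}

/-- The pair of a handle. -/
def pr (A B : Mat d ℂ) : Bool → Mat d ℂ := fun e => if e then B else A

/-- Derivative of `A B - C B A` for constant `C`. -/
def PhiC (A B C : Mat d ℂ) : (Bool → Mat d ℂ) →ₗ[ℂ] Mat d ℂ where
  toFun w := w false * B + A * w true - C * (w true * A + B * w false)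
  map_add' := fun x y => by
    simp only [Pi.add_apply, Matrix.add_mul, Matrix.mul_add]
    abel
  map_smul' := fun c x => by
    simp only [Pi.smul_apply, Matrix.smul_mul, Matrix.mul_smul, RingHom.id_apply, smul_sub,
      smul_add, Matrix.mul_add]

theorem PhiC_apply (A B C : Mat d ℂ) (w : Bool → Mat d ℂ) :
    PhiC A B C w = w false * B + A * w true - C * (w true * A + B * w false) := rfl

theorem ann_centr {A B C X : Mat d ℂ} (hC : A * B = C * (B * A)) (hA : IsUnit A)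
    (hX : X ∈ annT (LinearMap.range (PhiC A B C))) : B * X * A ∈ centr (pr A B) := by
  have h1 : B * X = X * C * B := by
    apply eq_of_trace_eq
    intro u
    have h := (mem_annT.1 hX) _ ⟨fun e => if e then 0 else u, rfl⟩
    rw [PhiC_apply] at h
    simp only [if_true, Matrix.mul_zero, Matrix.zero_mul, add_zero, zero_add,
      Bool.false_eq_true, if_false] at h
    rw [Matrix.mul_sub, Matrix.trace_sub, sub_eq_zero] at h
    rw [Matrix.mul_assoc B X u, Matrix.trace_mul_comm B (X * u), Matrix.mul_assoc X u B, h]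
    simp only [Matrix.mul_assoc]
  have h2 : X * A = A * X * C := by
    apply eq_of_trace_eq
    intro v
    have h := (mem_annT.1 hX) _ ⟨fun e => if e then v else 0, rfl⟩
    rw [PhiC_apply] at h
    simp only [if_true, Matrix.mul_zero, Matrix.zero_mul, add_zero, zero_add,
      Bool.false_eq_true, if_false] at h
    rw [Matrix.mul_sub, Matrix.trace_sub, sub_eq_zero] at h
    rw [Matrix.mul_assoc X A v, h, Matrix.mul_assoc A X C, Matrix.mul_assoc A (X * C) v,
      Matrix.trace_mul_comm A]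
    simp only [Matrix.mul_assoc]
  have h3 : B * X * A = X * A * B := by
    rw [h1, Matrix.mul_assoc (X * C) B A, Matrix.mul_assoc X C, ← hC, Matrix.mul_assoc]
  have h4 : X * A * B * A = A * (X * A * B) := by
    have : A * (X * A * B) = A * X * C * (B * A) := by
      rw [Matrix.mul_assoc X A B, hC]
      simp only [Matrix.mul_assoc]
    rw [this, ← h2]
    simp only [Matrix.mul_assoc]
  intro e
  cases e
  · show (B * X * A) * A = A * (B * X * A)
    rw [h3, h4]
  · show (B * X * A) * B = B * (B * X * A)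
    conv_rhs => rw [h3]
    simp only [Matrix.mul_assoc]

theorem finrank_ker_PhiC {A B C : Mat d ℂ} (hC : A * B = C * (B * A)) (hA : IsUnit A)
    (hB : IsUnit B) :
    finrank ℂ (LinearMap.ker (PhiC A B C)) ≤ d * d + finrank ℂ (centr (pr A B)) := by
  have h1 := LinearMap.finrank_range_add_finrank_ker (PhiC A B C)
  have h2 := finrank_annT (LinearMap.range (PhiC A B C))
  have h3 : finrank ℂ (Bool → Mat d ℂ) = 2 * (d * d) := by
    rw [Module.finrank_pi_fintype]
    simp only [Fintype.univ_bool, finrank_matrix, Fintype.card_fin, finrank_self, mul_one, Finset.sum_const, Finset.mem_singleton, Bool.true_eq_false, not_false_eq_true, Finset.card_insert_of_notMem, Finset.card_singleton, Nat.reduceAdd, smul_eq_mul]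
  have h4 : finrank ℂ (annT (LinearMap.range (PhiC A B C))) ≤ finrank ℂ (centr (pr A B)) := by
    obtain ⟨T, hT⟩ : ∃ T : Mat d ℂ →ₗ[ℂ] Mat d ℂ, ∀ X, T X = B * X * A :=
      ⟨(LinearMap.mulRight ℂ A).comp (LinearMap.mulLeft ℂ B), fun X => rfl⟩
    have hinj : Function.Injective T := by
      intro X Y h
      rw [hT, hT] at h
      exact hB.mul_left_cancel (hA.mul_right_cancel h)
    rw [← finrank_map_inj T hinj]
    refine Submodule.finrank_mono ?_
    rintro _ ⟨X, hX, rfl⟩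
    rw [hT]
    exact ann_centr hC hA hX
  omega

/-- A factor of a product lies in a subgroup if all the others and the product do. -/
theorem mem_of_prod {G : Type*} [Group G] (S : Subgroup G) :
    ∀ (n : ℕ) (F : Fin n → G) (j : Fin n), (∀ l, l ≠ j → F l ∈ S) →
      (List.ofFn F).prod ∈ S → F j ∈ S := by
  intro n
  induction n with
  | zero => intro F j; exact j.elim0
  | succ n ih =>
    intro F j hF hp
    rw [List.ofFn_succ, List.prod_cons] at hp
    rcases Fin.eq_zero_or_eq_succ j with h | ⟨i, h⟩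
    · subst h
      have h1 : (List.ofFn fun i => F (Fin.succ i)).prod ∈ S := by
        refine Subgroup.list_prod_mem S fun x hx => ?_
        rw [List.mem_ofFn] at hx
        obtain ⟨i, rfl⟩ := hx
        exact hF _ (Fin.succ_ne_zero i)
      exact (Subgroup.mul_mem_cancel_right S h1).1 hp
    · subst h
      have h0 : F 0 ∈ S := hF 0 (Fin.succ_ne_zero i).symm
      have h1 := (Subgroup.mul_mem_cancel_left S h0).1 hp
      exact ih (fun i => F (Fin.succ i)) i (fun l hl => hF _ fun h => hl (Fin.succ_injective _ h)) h1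

/-- The units whose entries are constants of the derivation. -/
def cst (d : ℕ) (δ : Derivation ℤ ℂ ℂ) : Subgroup (Mat d ℂ)ˣ where
  carrier := {g | (g : Mat d ℂ).map δ = 0}
  mul_mem' := fun {x y} hx hy => by
    show ((x * y : (Mat d ℂ)ˣ) : Mat d ℂ).map δ = 0
    have hx' : (x : Mat d ℂ).map δ = 0 := hx
    have hy' : (y : Mat d ℂ).map δ = 0 := hy
    rw [Units.val_mul, map_der_mul, hx', hy', Matrix.zero_mul, Matrix.mul_zero, add_zero]
  one_mem' := by
    show ((1 : (Mat d ℂ)ˣ) : Mat d ℂ).map δ = 0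
    ext i j
    rw [Units.val_one, Matrix.map_apply, Matrix.one_apply]
    split_ifs
    · simp
    · simp
  inv_mem' := fun {x} hx => by
    show ((x⁻¹ : (Mat d ℂ)ˣ) : Mat d ℂ).map δ = 0
    have hx' : (x : Mat d ℂ).map δ = 0 := hx
    have h1 : ((x : Mat d ℂ) * ((x⁻¹ : (Mat d ℂ)ˣ) : Mat d ℂ)).map δ = 0 := by
      rw [← Units.val_mul, mul_inv_cancel, Units.val_one]
      ext i j
      rw [Matrix.map_apply, Matrix.one_apply]
      split_ifs
      · simp
      · simp
    rw [map_der_mul, hx', Matrix.zero_mul, zero_add] at h1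
    have h2 := congrArg (fun M => ((x⁻¹ : (Mat d ℂ)ˣ) : Mat d ℂ) * M) h1
    simp only [Matrix.mul_zero] at h2
    rwa [← Matrix.mul_assoc, ← Units.val_mul, inv_mul_cancel, Units.val_one, Matrix.one_mul] at h2

theorem mem_cst {δ : Derivation ℤ ℂ ℂ} {g : (Mat d ℂ)ˣ} :
    g ∈ cst d δ ↔ (g : Mat d ℂ).map δ = 0 := Iff.rfl

end Vale.Agent.P002B.SB
end

section

/-!
# P002B, T13a (B): the dimension count for products of commutators
-/

set_option linter.all false

namespace Vale.Agent.P002B.SB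

open Matrix Module Vale.Agent.P002

variable {g d : ℕ}

/-- The surface word (copy). -/
def swd' {G : Type*} [Group G] {g : ℕ} (a b : Fin g → G) : G :=
  (List.ofFn fun i => a i * b i * (a i)⁻¹ * (b i)⁻¹).prod

/-- The index type of the coordinates. -/
abbrev Ix (g d : ℕ) := (Fin g × Bool) × Fin d × Fin d

/-- The coordinates of a tuple of handles. -/
def crd (a b : Fin g → Mat d ℂ) : Ix g d → ℂ := fun x => pr (a x.1.1) (b x.1.1) x.1.2 x.2.1 x.2.2

/-- The handle number `i` of a vector. -/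
def hnd (g d : ℕ) (i : Fin g) : (Ix g d → ℂ) →ₗ[ℂ] (Bool → Mat d ℂ) where
  toFun H := fun e => Matrix.of fun p q => H ((i, e), (p, q))
  map_add' := fun x y => by ext e p q; rfl
  map_smul' := fun c x => by ext e p q; rfl

theorem hnd_apply (i : Fin g) (H : Ix g d → ℂ) (e : Bool) (p q : Fin d) :
    hnd g d i H e p q = H ((i, e), (p, q)) := rfl

/-- The handles in a set. -/
def hnds (g d : ℕ) (P : Fin g → Prop) : (Ix g d → ℂ) →ₗ[ℂ] ({i // P i} → Bool → Mat d ℂ) :=
  LinearMap.pi fun i => hnd g d i.1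

theorem map_zero_of {δ : Derivation ℤ ℂ ℂ} {M N : Mat d ℂ} (h : ∀ p q, δ (M p q) = N p q) :
    M.map δ = N := by
  ext p q; exact h p q

/-- The handle `j` of a tangent vector supported in this handle is in the kernel. -/
theorem hnd_ker (a b : Fin g → (Mat d ℂ)ˣ) (z : ℂ)
    (hz : ((swd' a b : (Mat d ℂ)ˣ) : Mat d ℂ) = z • (1 : Mat d ℂ)) (j : Fin g)
    (H : Ix g d → ℂ) (hH : ∀ i, i ≠ j → hnd g d i H = 0) (δ : Derivation ℤ ℂ ℂ) (hδz : δ z = 0)
    (hδ : ∀ x, δ (crd (fun i => (a i : Mat d ℂ)) (fun i => (b i : Mat d ℂ)) x) = H x) :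
    hnd g d j H ∈ LinearMap.ker (PhiC (a j : Mat d ℂ) (b j : Mat d ℂ)
      ((a j * b j * (a j)⁻¹ * (b j)⁻¹ : (Mat d ℂ)ˣ) : Mat d ℂ)) := by
  have ha : ∀ i, ((a i : (Mat d ℂ)ˣ) : Mat d ℂ).map δ = hnd g d i H false := fun i =>
    map_zero_of fun p q => hδ ((i, false), (p, q))
  have hb : ∀ i, ((b i : (Mat d ℂ)ˣ) : Mat d ℂ).map δ = hnd g d i H true := fun i =>
    map_zero_of fun p q => hδ ((i, true), (p, q))
  have hmem : a j * b j * (a j)⁻¹ * (b j)⁻¹ ∈ cst d δ := by
    refine mem_of_prod (cst d δ) g (fun i => a i * b i * (a i)⁻¹ * (b i)⁻¹) j (fun i hi => ?_) ?_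
    · have h1 : a i ∈ cst d δ := by
        rw [mem_cst, ha, hH i hi]; rfl
      have h2 : b i ∈ cst d δ := by
        rw [mem_cst, hb, hH i hi]; rfl
      exact mul_mem (mul_mem (mul_mem h1 h2) (inv_mem h1)) (inv_mem h2)
    · have h3 : swd' a b ∈ cst d δ := by
        rw [mem_cst, hz]
        ext p q
        rw [Matrix.map_apply, Matrix.smul_apply, Matrix.one_apply, Matrix.zero_apply]
        split_ifs
        · rw [smul_eq_mul, mul_one, hδz]
        · rw [smul_zero, map_zero]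
      exact h3
  rw [mem_cst] at hmem
  set C : Mat d ℂ := ((a j * b j * (a j)⁻¹ * (b j)⁻¹ : (Mat d ℂ)ˣ) : Mat d ℂ) with hC
  have hrel : (a j : Mat d ℂ) * (b j : Mat d ℂ) = C * ((b j : Mat d ℂ) * (a j : Mat d ℂ)) := by
    rw [hC, ← Units.val_mul, ← Units.val_mul, ← Units.val_mul]
    congr 1
    group
  have h4 := congrArg (fun M : Mat d ℂ => M.map δ) hrel
  simp only [map_der_mul, hmem, ha, hb, Matrix.zero_mul, zero_add] at h4
  rw [LinearMap.mem_ker, PhiC_apply, h4, sub_self]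

theorem card_hnds (P : Fin g → Prop) [DecidablePred P] :
    finrank ℂ ({i // P i} → Bool → Mat d ℂ) = Fintype.card {i // P i} * (2 * (d * d)) := by
  rw [Module.finrank_pi_fintype]
  have : finrank ℂ (Bool → Mat d ℂ) = 2 * (d * d) := by
    rw [Module.finrank_pi_fintype]
    simp only [Fintype.univ_bool, finrank_matrix, Fintype.card_fin, finrank_self, mul_one, Finset.sum_const, Finset.mem_singleton, Bool.true_eq_false, not_false_eq_true, Finset.card_insert_of_notMem, Finset.card_singleton, Nat.reduceAdd, smul_eq_mul]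
  rw [Finset.sum_const, this, Finset.card_univ, smul_eq_mul]

/-- Linear algebra: splitting off the handles `i` and `j`. -/
theorem split_T (T : Submodule ℂ (Ix (g + 2) d → ℂ)) (i j : Fin (g + 2)) (hij : i ≠ j) (n : ℕ)
    (hn : ∀ K : Submodule ℂ (Bool → Mat d ℂ),
      (∀ w ∈ K, ∃ H ∈ T, (∀ l, l ≠ j → hnd (g + 2) d l H = 0) ∧ hnd (g + 2) d j H = w) →
      finrank ℂ K ≤ n) :
    finrank ℂ T ≤ finrank ℂ (T.map (hnd (g + 2) d i)) + g * (2 * (d * d)) + n := by
  classical
  have h1 := finrank_eq_map_add T (hnd (g + 2) d i)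
  set T1 : Submodule ℂ (Ix (g + 2) d → ℂ) := T ⊓ LinearMap.ker (hnd (g + 2) d i) with hT1
  have h2 := finrank_eq_map_add T1 (hnds (g + 2) d fun l => l ≠ i ∧ l ≠ j)
  have h3 : finrank ℂ (T1.map (hnds (g + 2) d fun l => l ≠ i ∧ l ≠ j)) ≤ g * (2 * (d * d)) := by
    refine (Submodule.finrank_le _).trans ?_
    rw [card_hnds]
    refine Nat.mul_le_mul_right _ ?_
    rw [Fintype.card_subtype]
    have : (Finset.univ.filter fun l : Fin (g + 2) => l ≠ i ∧ l ≠ j) =
        (Finset.univ.erase i).erase j := by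
      ext l
      simp only [ne_eq, Finset.mem_filter, Finset.mem_univ, true_and, Finset.mem_erase, and_comm]
    rw [this, Finset.card_erase_of_mem (Finset.mem_erase.2 ⟨hij.symm, Finset.mem_univ _⟩),
      Finset.card_erase_of_mem (Finset.mem_univ _)]
    simp only [Finset.card_univ, Fintype.card_fin, Nat.add_one_sub_one, add_tsub_cancel_right, Std.le_refl]
  set T2 : Submodule ℂ (Ix (g + 2) d → ℂ) :=
    T1 ⊓ LinearMap.ker (hnds (g + 2) d fun l => l ≠ i ∧ l ≠ j) with hT2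
  have hT2mem : ∀ H ∈ T2, H ∈ T ∧ ∀ l, l ≠ j → hnd (g + 2) d l H = 0 := by
    intro H hH
    obtain ⟨⟨hHT, hHi⟩, hHl⟩ := hH
    refine ⟨hHT, fun l hl => ?_⟩
    by_cases hli : l = i
    · rw [hli]; exact hHi
    · exact congrFun (LinearMap.mem_ker.1 hHl) ⟨l, hli, hl⟩
  have h4 : finrank ℂ T2 ≤ n := by
    have h5 := finrank_eq_map_add T2 (hnd (g + 2) d j)
    have h6 : T2 ⊓ LinearMap.ker (hnd (g + 2) d j) = ⊥ := by
      rw [eq_bot_iff]
      rintro H ⟨hH, hH'⟩
      rw [Submodule.mem_bot]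
      funext x
      by_cases hx : x.1.1 = j
      · have := congrFun (congrFun (congrFun (LinearMap.mem_ker.1 hH') x.1.2) x.2.1) x.2.2
        rw [hnd_apply, ← hx] at this
        exact this
      · have := congrFun (congrFun (congrFun ((hT2mem H hH).2 _ hx) x.1.2) x.2.1) x.2.2
        rw [hnd_apply] at this
        exact this
    rw [h6, finrank_bot, add_zero] at h5
    rw [h5]
    refine hn _ ?_
    rintro _ ⟨H, hH, rfl⟩
    exact ⟨H, (hT2mem H hH).1, (hT2mem H hH).2, rfl⟩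
  (clear * - h1 h3 h2 h4; omega)

theorem scalar_of_finrank (hd : 0 < d) (y : Bool → Mat d ℂ) (h : finrank ℂ (centr y) ≤ 1) :
    ∀ N ∈ centr y, ∃ c : ℂ, N = c • (1 : Mat d ℂ) := by
  obtain ⟨v, hv⟩ := finrank_le_one_iff.1 h
  have h1 : (1 : Mat d ℂ) ∈ centr y := fun k => Commute.one_left _
  obtain ⟨c1, hc1⟩ := hv ⟨1, h1⟩
  have hc1' : c1 • (v : Mat d ℂ) = 1 := congrArg Subtype.val hc1
  have hne : c1 ≠ 0 := by
    intro h0
    rw [h0, zero_smul] at hc1'
    have := congrFun (congrFun hc1' ⟨0, hd⟩) ⟨0, hd⟩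
    simp at this
  intro N hN
  obtain ⟨c2, hc2⟩ := hv ⟨N, hN⟩
  have hc2' : c2 • (v : Mat d ℂ) = N := congrArg Subtype.val hc2
  refine ⟨c2 * c1⁻¹, ?_⟩
  rw [← hc2', ← hc1', smul_smul, mul_assoc, inv_mul_cancel₀ hne, mul_one]

theorem finrank_of_scalar (y : Bool → Mat d ℂ)
    (h : ∀ N ∈ centr y, ∃ c : ℂ, N = c • (1 : Mat d ℂ)) : finrank ℂ (centr y) ≤ 1 := by
  have h1 : (1 : Mat d ℂ) ∈ centr y := fun k => Commute.one_left _
  refine finrank_le_one (⟨1, h1⟩ : centr y) fun w => ?_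
  obtain ⟨c, hc⟩ := h w.1 w.2
  exact ⟨c, Subtype.ext hc.symm⟩

/-- All handles have scalar commutant. -/
theorem count_surface (hd : 0 < d) (a b : Fin (g + 2) → (Mat d ℂ)ˣ) (z : ℂ)
    (hz : ((swd' a b : (Mat d ℂ)ˣ) : Mat d ℂ) = z • (1 : Mat d ℂ)) (c : Fin d × Fin d → ℂ)
    (T : Submodule ℂ (Ix (g + 2) d → ℂ))
    (hT : ∀ H ∈ T, ∀ γ : Fin d × Fin d → ℂ, ∃ δ : Derivation ℤ ℂ ℂ, δ z = 0 ∧
      (∀ x, δ (crd (fun i => (a i : Mat d ℂ)) (fun i => (b i : Mat d ℂ)) x) = H x) ∧
      ∀ p, δ (c p) = γ p)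
    (hdim : 2 * (g + 2) * (d * d) + 1 ≤ finrank ℂ T + d * d) (i : Fin (g + 2)) :
    ∀ N ∈ centr (pr (a i : Mat d ℂ) (b i : Mat d ℂ)), ∃ c : ℂ, N = c • (1 : Mat d ℂ) := by
  obtain ⟨i₀, hi₀⟩ := Finite.exists_max
    (fun i : Fin (g + 2) => finrank ℂ (centr (pr (a i : Mat d ℂ) (b i : Mat d ℂ))))
  by_cases hs : ∀ N ∈ centr (pr (a i₀ : Mat d ℂ) (b i₀ : Mat d ℂ)),
      ∃ c : ℂ, N = c • (1 : Mat d ℂ)
  · exact scalar_of_finrank hd _ ((hi₀ i).trans (finrank_of_scalar _ hs))
  · exfalso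
    push Not at hs
    obtain ⟨N, hN, hN'⟩ := hs
    have h1 := count_main (κ := Bool) (by simp) (pr (a i₀ : Mat d ℂ) (b i₀ : Mat d ℂ)) c
      (T.map (hnd (g + 2) d i₀)) (by
        rintro _ ⟨H, hH, rfl⟩ γ
        obtain ⟨δ, -, hδ, hδc⟩ := hT H hH γ
        exact ⟨δ, fun k p q => hδ ((i₀, k), (p, q)), hδc⟩) ⟨N, hN, hN'⟩
    obtain ⟨j, hj⟩ := exists_ne i₀
    have h2 := split_T T i₀ j hj.symm
      (d * d + finrank ℂ (centr (pr (a j : Mat d ℂ) (b j : Mat d ℂ)))) (by
        intro K hK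
        refine le_trans (Submodule.finrank_mono ?_) (finrank_ker_PhiC (A := (a j : Mat d ℂ))
          (B := (b j : Mat d ℂ)) (C := ((a j * b j * (a j)⁻¹ * (b j)⁻¹ : (Mat d ℂ)ˣ) : Mat d ℂ))
          (by
            rw [← Units.val_mul, ← Units.val_mul, ← Units.val_mul]
            congr 1
            group) (a j).isUnit (b j).isUnit)
        intro w hw
        obtain ⟨H, hH, hH0, rfl⟩ := hK w hw
        obtain ⟨δ, hδz, hδ, -⟩ := hT H hH 0
        exact hnd_ker a b z hz j H hH0 δ hδz hδ)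
    have h3 := hi₀ j
    simp only [Fintype.card_bool] at h1
    have e1 : 2 * (g + 2) * (d * d) = g * (2 * (d * d)) + 4 * (d * d) := by ring
    rw [e1] at hdim
    generalize g * (2 * (d * d)) = q at *
    generalize d * d = D at *
    omega

end Vale.Agent.P002B.SB
end

section

/-!
# P002B, T13a (B): the surface relation as a system of polynomial equations
-/

set_option linter.all false

namespace Vale.Agent.P002B.SB

open Matrix Module Vale.Agent.P002

variable {g d : ℕ}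

section poly

variable {S S' : Type*} [CommRing S] [CommRing S']

/-- The matrices of a point. -/
def mt (Y : Ix g d → S) (i : Fin g) (e : Bool) : Mat d S := Matrix.of fun p q => Y ((i, e), (p, q))

theorem mt_map (φ : S →+* S') (Y : Ix g d → S) (i : Fin g) (e : Bool) :
    mt (fun x => φ (Y x)) i e = (mt Y i e).map φ := by
  ext p q; rfl

/-- The word without denominators. -/
noncomputable def Wd (Y : Ix g d → S) : Mat d S :=
  (List.ofFn fun i => mt Y i false * mt Y i true * (mt Y i false).adjugate *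
    (mt Y i true).adjugate).prod

/-- The denominator. -/
noncomputable def Dt (Y : Ix g d → S) : S := ∏ i, (mt Y i false).det * (mt Y i true).det

theorem Wd_map (φ : S →+* S') (Y : Ix g d → S) : Wd (fun x => φ (Y x)) = (Wd Y).map φ := by
  unfold Wd
  have h := map_list_prod (φ.mapMatrix (m := Fin d)) (List.ofFn fun i => mt Y i false * mt Y i true *
    (mt Y i false).adjugate * (mt Y i true).adjugate)
  rw [RingHom.mapMatrix_apply] at h
  rw [h, List.map_ofFn]
  congr 2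
  funext i
  simp only [Function.comp_apply, map_mul, RingHom.mapMatrix_apply, mt_map]
  rw [← RingHom.mapMatrix_apply, ← RingHom.mapMatrix_apply, ← RingHom.mapMatrix_apply,
    ← RingHom.mapMatrix_apply, RingHom.map_adjugate, RingHom.map_adjugate]

theorem Dt_map (φ : S →+* S') (Y : Ix g d → S) : Dt (fun x => φ (Y x)) = φ (Dt Y) := by
  unfold Dt
  rw [map_prod]
  refine Finset.prod_congr rfl fun i _ => ?_
  rw [map_mul, mt_map, mt_map, RingHom.map_det, RingHom.map_det]
  rfl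

end poly

theorem ofFn_units : ∀ (n : ℕ) (F : Fin n → (Mat d ℂ)ˣ) (c : Fin n → ℂ) (M : Fin n → Mat d ℂ),
    (∀ i, M i = c i • (F i : Mat d ℂ)) →
    (List.ofFn M).prod = (∏ i, c i) • (((List.ofFn F).prod : (Mat d ℂ)ˣ) : Mat d ℂ) := by
  intro n
  induction n with
  | zero => intro F c M h; simp
  | succ n ih =>
    intro F c M h
    rw [List.ofFn_succ, List.prod_cons, List.ofFn_succ, List.prod_cons, Fin.prod_univ_succ,
      Units.val_mul, h 0, ih (fun i => F i.succ) (fun i => c i.succ) (fun i => M i.succ)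
        fun i => h i.succ, Matrix.smul_mul, Matrix.mul_smul, smul_smul]

theorem adj_unit (A : (Mat d ℂ)ˣ) :
    (A : Mat d ℂ).adjugate = (A : Mat d ℂ).det • ((A⁻¹ : (Mat d ℂ)ˣ) : Mat d ℂ) := by
  have h1 := Matrix.adjugate_mul (A : Mat d ℂ)
  calc (A : Mat d ℂ).adjugate = (A : Mat d ℂ).adjugate * ((A : Mat d ℂ) *
        ((A⁻¹ : (Mat d ℂ)ˣ) : Mat d ℂ)) := by
        rw [← Units.val_mul, mul_inv_cancel, Units.val_one, Matrix.mul_one]
    _ = _ := by rw [← Matrix.mul_assoc, h1, Matrix.smul_mul, Matrix.one_mul]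

theorem Wd_units (a b : Fin g → (Mat d ℂ)ˣ) (Y : Ix g d → ℂ)
    (ha : ∀ i, mt Y i false = (a i : Mat d ℂ)) (hb : ∀ i, mt Y i true = (b i : Mat d ℂ)) :
    Wd Y = Dt Y • ((swd' a b : (Mat d ℂ)ˣ) : Mat d ℂ) := by
  unfold Wd Dt swd'
  refine ofFn_units g _ _ _ fun i => ?_
  rw [ha, hb, adj_unit, adj_unit]
  simp only [Matrix.mul_smul, Matrix.smul_mul, smul_smul, Units.val_mul]
  rw [mul_comm (a i : Mat d ℂ).det]

theorem det_swd (a b : Fin g → (Mat d ℂ)ˣ) : ((swd' a b : (Mat d ℂ)ˣ) : Mat d ℂ).det = 1 := by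
  have h : (Units.map (Matrix.detMonoidHom : Mat d ℂ →* ℂ)) (swd' a b) = 1 := by
    unfold swd'
    rw [map_list_prod]
    refine List.prod_eq_one fun x hx => ?_
    rw [List.mem_map] at hx
    obtain ⟨y, hy, rfl⟩ := hx
    rw [List.mem_ofFn] at hy
    obtain ⟨i, rfl⟩ := hy
    rw [map_mul, map_mul, map_mul, map_inv, map_inv]
    rw [mul_comm (Units.map _ (a i)), mul_assoc (Units.map _ (b i)), mul_inv_cancel, mul_one,
      mul_inv_cancel]
  have h2 := congrArg Units.val h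
  exact h2

/-- All entries but one. -/
theorem scalar_of_entries (hd : 0 < d) {W : Mat d ℂ} (hdet : W.det = 1) {z : ℂ} (hz : z ^ d = 1)
    (h : ∀ p : Fin d × Fin d, p ≠ (⟨0, hd⟩, ⟨0, hd⟩) → W p.1 p.2 = z * (1 : Mat d ℂ) p.1 p.2) :
    W = z • (1 : Mat d ℂ) := by
  have hz0 : z ≠ 0 := by
    intro h0
    rw [h0, zero_pow hd.ne'] at hz
    exact zero_ne_one hz
  have hoff : ∀ p q, p ≠ q → W p q = 0 := by
    intro p q hpq
    have := h (p, q) (fun h0 => hpq ((congrArg Prod.fst h0).trans (congrArg Prod.snd h0).symm))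
    rw [this]
    simp [hpq]
  have hdiag : W = Matrix.diagonal fun p => W p p := by
    ext p q
    by_cases hpq : p = q
    · rw [hpq, Matrix.diagonal_apply_eq]
    · rw [Matrix.diagonal_apply_ne _ hpq, hoff p q hpq]
  have hz1 : ∀ p : Fin d, p ≠ ⟨0, hd⟩ → W p p = z := by
    intro p hp
    have := h (p, p) (fun h0 => hp (congrArg Prod.fst h0))
    rw [this]
    simp
  have h0 : W ⟨0, hd⟩ ⟨0, hd⟩ = z := by
    rw [hdiag, Matrix.det_diagonal, ← Finset.mul_prod_erase _ _ (Finset.mem_univ ⟨0, hd⟩),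
      Finset.prod_congr rfl fun p hp => hz1 p (Finset.ne_of_mem_erase hp), Finset.prod_const,
      Finset.card_erase_of_mem (Finset.mem_univ _), Finset.card_univ, Fintype.card_fin] at hdet
    have h2 : z ^ d = z * z ^ (d - 1) := by
      rw [← pow_succ']
      congr 1
      omega
    rw [← hz, h2] at hdet
    exact mul_right_cancel₀ (pow_ne_zero _ hz0) hdet
  ext p q
  rw [Matrix.smul_apply, smul_eq_mul]
  by_cases hpq : p = q
  · subst hpq
    rw [Matrix.one_apply_eq, mul_one]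
    by_cases hp : p = ⟨0, hd⟩
    · rw [hp]; exact h0
    · exact hz1 p hp
  · rw [hoff p q hpq, Matrix.one_apply_ne hpq, mul_zero]

/-- The equations. -/
noncomputable def Eqn (K₀ : Subfield ℂ) (z : K₀) (p : Fin d × Fin d) :
    MvPolynomial (Ix g d) K₀ :=
  Wd (MvPolynomial.X : Ix g d → MvPolynomial (Ix g d) K₀) p.1 p.2 -
    MvPolynomial.C z * Dt (MvPolynomial.X : Ix g d → MvPolynomial (Ix g d) K₀) *
      (1 : Mat d (MvPolynomial (Ix g d) K₀)) p.1 p.2

theorem Eqn_eval (K₀ : Subfield ℂ) (z : K₀) (p : Fin d × Fin d) (Y : Ix g d → ℂ) :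
    MvPolynomial.aeval Y (Eqn (g := g) K₀ z p) =
      Wd Y p.1 p.2 - z * Dt Y * (1 : Mat d ℂ) p.1 p.2 := by
  unfold Eqn
  have h1 := Wd_map (MvPolynomial.aeval Y : MvPolynomial (Ix g d) K₀ →ₐ[K₀] ℂ).toRingHom
    (MvPolynomial.X : Ix g d → MvPolynomial (Ix g d) K₀)
  have h2 := Dt_map (MvPolynomial.aeval Y : MvPolynomial (Ix g d) K₀ →ₐ[K₀] ℂ).toRingHom
    (MvPolynomial.X : Ix g d → MvPolynomial (Ix g d) K₀)
  have h3 : (fun x => (MvPolynomial.aeval Y : MvPolynomial (Ix g d) K₀ →ₐ[K₀] ℂ).toRingHom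
      ((MvPolynomial.X : Ix g d → MvPolynomial (Ix g d) K₀) x)) = Y := by
    funext x
    exact MvPolynomial.aeval_X Y x
  rw [h3] at h1 h2
  have h4 : MvPolynomial.aeval Y (Wd (MvPolynomial.X : Ix g d → MvPolynomial (Ix g d) K₀) p.1 p.2)
      = Wd Y p.1 p.2 := by rw [h1]; rfl
  have h5 : MvPolynomial.aeval Y (Dt (MvPolynomial.X : Ix g d → MvPolynomial (Ix g d) K₀))
      = Dt Y := by rw [h2]; rfl
  rw [map_sub, map_mul, map_mul, h4, h5, MvPolynomial.aeval_C]
  congr 2
  rw [Matrix.one_apply, Matrix.one_apply]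
  split_ifs
  · rw [map_one]
  · rw [map_zero]

theorem det_eval (K₀ : Subfield ℂ) (i : Fin g) (e : Bool) (Y : Ix g d → ℂ) :
    MvPolynomial.aeval Y (mt (MvPolynomial.X : Ix g d → MvPolynomial (Ix g d) K₀) i e).det =
      (mt Y i e).det := by
  have h := RingHom.map_det (MvPolynomial.aeval Y : MvPolynomial (Ix g d) K₀ →ₐ[K₀] ℂ).toRingHom
    (mt (MvPolynomial.X : Ix g d → MvPolynomial (Ix g d) K₀) i e)
  have h3 : (MvPolynomial.aeval Y : MvPolynomial (Ix g d) K₀ →ₐ[K₀] ℂ).toRingHom.mapMatrix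
      (mt (MvPolynomial.X : Ix g d → MvPolynomial (Ix g d) K₀) i e) = mt Y i e := by
    ext p q
    exact MvPolynomial.aeval_X Y _
  rw [h3] at h
  exact h

end Vale.Agent.P002B.SB
end

section

/-!
# P002: triangular matrices whose eigenvalue differences are units
-/

namespace Vale.Agent.P002R

open Matrix Polynomial

variable {S : Type*} [CommRing S] {r : ℕ}

theorem aeval_upT {A : Mat r S} (hA : UpT A) (p : Polynomial S) :
    UpT (aeval A p) ∧ ∀ i, (aeval A p) i i = p.eval (A i i) := by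
  induction p using Polynomial.induction_on' with
  | add p q hp hq =>
    refine ⟨fun i j hij => ?_, fun i => ?_⟩
    · rw [map_add, Matrix.add_apply, hp.1 i j hij, hq.1 i j hij, add_zero]
    · rw [map_add, Matrix.add_apply, hp.2, hq.2, Polynomial.eval_add]
  | monomial n a =>
    have h1 : UpT (A ^ n) ∧ ∀ i, (A ^ n) i i = A i i ^ n := by
      induction n with
      | zero =>
        refine ⟨by rw [pow_zero]; exact upT_one, fun i => ?_⟩
        rw [pow_zero, pow_zero, Matrix.one_apply_eq]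
      | succ n ih =>
        refine ⟨by rw [pow_succ]; exact ih.1.mul hA, fun i => ?_⟩
        rw [pow_succ, ih.1.mul_diag hA, ih.2, pow_succ]
    have h2 : aeval A (monomial n a) = a • A ^ n := by
      rw [Polynomial.aeval_monomial, ← Algebra.smul_def]
    refine ⟨fun i j hij => ?_, fun i => ?_⟩
    · rw [h2, Matrix.smul_apply, h1.1 i j hij, smul_zero]
    · rw [h2, Matrix.smul_apply, h1.2, smul_eq_mul, Polynomial.eval_monomial]

theorem aeval_loT {A : Mat r S} (hA : LoT A) (p : Polynomial S) :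
    LoT (aeval A p) ∧ ∀ i, (aeval A p) i i = p.eval (A i i) := by
  induction p using Polynomial.induction_on' with
  | add p q hp hq =>
    refine ⟨fun i j hij => ?_, fun i => ?_⟩
    · rw [map_add, Matrix.add_apply, hp.1 i j hij, hq.1 i j hij, add_zero]
    · rw [map_add, Matrix.add_apply, hp.2, hq.2, Polynomial.eval_add]
  | monomial n a =>
    have h1 : LoT (A ^ n) ∧ ∀ i, (A ^ n) i i = A i i ^ n := by
      induction n with
      | zero =>
        refine ⟨by rw [pow_zero]; exact loT_one, fun i => ?_⟩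
        rw [pow_zero, pow_zero, Matrix.one_apply_eq]
      | succ n ih =>
        refine ⟨by rw [pow_succ]; exact ih.1.mul hA, fun i => ?_⟩
        rw [pow_succ, ih.1.mul_diag hA, ih.2, pow_succ]
    have h2 : aeval A (monomial n a) = a • A ^ n := by
      rw [Polynomial.aeval_monomial, ← Algebra.smul_def]
    refine ⟨fun i j hij => ?_, fun i => ?_⟩
    · rw [h2, Matrix.smul_apply, h1.1 i j hij, smul_zero]
    · rw [h2, Matrix.smul_apply, h1.2, smul_eq_mul, Polynomial.eval_monomial]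

/-- Lagrange polynomials. -/
theorem exists_lag (d : Fin r → S) (hd : ∀ i j, i ≠ j → IsUnit (d i - d j)) (j : Fin r) :
    ∃ (p : Polynomial S) (c : S), (X - C (d j)) * p = C c * ∏ i, (X - C (d i)) ∧
      p.eval (d j) = 1 := by
  have h1 : ∀ i, ∃ u : S, i ≠ j → u * (d j - d i) = 1 := by
    intro i
    by_cases hij : i = j
    · exact ⟨0, fun h => absurd hij h⟩
    · obtain ⟨u, hu⟩ := hd j i (Ne.symm hij)
      exact ⟨((u⁻¹ : Sˣ) : S), fun _ => by rw [← hu, Units.inv_mul]⟩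
  choose u hu using h1
  refine ⟨∏ i ∈ Finset.univ.erase j, (C (u i) * (X - C (d i))), ∏ i ∈ Finset.univ.erase j, u i,
    ?_, ?_⟩
  · rw [Finset.prod_mul_distrib, map_prod, mul_left_comm,
      Finset.mul_prod_erase Finset.univ (fun i => (X - C (d i))) (Finset.mem_univ j)]
  · rw [Polynomial.eval_prod]
    refine Finset.prod_eq_one fun i hi => ?_
    rw [Polynomial.eval_mul, Polynomial.eval_C, Polynomial.eval_sub, Polynomial.eval_X,
      Polynomial.eval_C]
    exact hu i (Finset.ne_of_mem_erase hi)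

/-- Annihilation. -/
theorem mul_aeval_lag {A : Mat r S} {d : Fin r → S}
    (hch : A.charpoly = ∏ i, (X - C (d i))) {j : Fin r} {p : Polynomial S} {c : S}
    (hp : (X - C (d j)) * p = C c * ∏ i, (X - C (d i))) :
    A * aeval A p = d j • aeval A p := by
  have h1 := congrArg (aeval A) hp
  rw [map_mul, map_mul, ← hch, Matrix.aeval_self_charpoly, mul_zero, map_sub, aeval_X, aeval_C,
    sub_mul, sub_eq_zero, ← Algebra.smul_def] at h1
  exact h1

theorem exists_diag_upT {A : Mat r S} (hA : UpT A)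
    (hd : ∀ i j, i ≠ j → IsUnit (A i i - A j j)) :
    ∃ P : Mat r S, UpT P ∧ (∀ i, P i i = 1) ∧ A * P = P * diagonal fun i => A i i := by
  choose p c hp1 hp2 using fun j => exists_lag (fun i => A i i) hd j
  have hch : A.charpoly = ∏ i, (X - C (A i i)) :=
    Matrix.charpoly_of_isUpperTriangular A fun i j h => hA i j h
  refine ⟨Matrix.of fun i j => (aeval A (p j)) i j, fun i j hij => ?_, fun i => ?_, ?_⟩
  · rw [Matrix.of_apply]
    exact (aeval_upT hA (p j)).1 i j hij
  · rw [Matrix.of_apply, (aeval_upT hA (p i)).2, hp2]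
  · ext i j
    rw [Matrix.mul_diagonal, Matrix.of_apply, Matrix.mul_apply]
    have h1 := congrFun (congrFun (mul_aeval_lag hch (hp1 j)) i) j
    rw [Matrix.smul_apply, smul_eq_mul, Matrix.mul_apply] at h1
    rw [mul_comm, ← h1]
    rfl

theorem exists_diag_loT {A : Mat r S} (hA : LoT A)
    (hd : ∀ i j, i ≠ j → IsUnit (A i i - A j j)) :
    ∃ P : Mat r S, LoT P ∧ (∀ i, P i i = 1) ∧ A * P = P * diagonal fun i => A i i := by
  choose p c hp1 hp2 using fun j => exists_lag (fun i => A i i) hd j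
  have hch : A.charpoly = ∏ i, (X - C (A i i)) := by
    rw [← Matrix.charpoly_transpose,
      Matrix.charpoly_of_isUpperTriangular Aᵀ fun i j h => hA.transpose i j h]
    rfl
  refine ⟨Matrix.of fun i j => (aeval A (p j)) i j, fun i j hij => ?_, fun i => ?_, ?_⟩
  · rw [Matrix.of_apply]
    exact (aeval_loT hA (p j)).1 i j hij
  · rw [Matrix.of_apply, (aeval_loT hA (p i)).2, hp2]
  · ext i j
    rw [Matrix.mul_diagonal, Matrix.of_apply, Matrix.mul_apply]
    have h1 := congrFun (congrFun (mul_aeval_lag hch (hp1 j)) i) j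
    rw [Matrix.smul_apply, smul_eq_mul, Matrix.mul_apply] at h1
    rw [mul_comm, ← h1]
    rfl

/-- Diagonalizable matrices with distinct eigenvalues have cyclic vectors. -/
theorem cyc_of_diag {A P : Mat r ℂ} {d : Fin r → ℂ} (hP : IsUnit P) (h : A * P = P * diagonal d)
    (hd : Function.Injective d) : P002G.Cyc A (P *ᵥ fun _ => 1) := by
  rw [P002G.cyc_iff]
  have h1 : ∀ k : ℕ, A ^ k * P = P * diagonal fun i => d i ^ k := by
    intro k
    induction k with
    | zero => simp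
    | succ k ih =>
      rw [pow_succ, mul_assoc, h, ← mul_assoc, ih, mul_assoc, Matrix.diagonal_mul_diagonal]
      congr 2
  have h2 : P002.kry A (P *ᵥ fun _ => 1) = P * Matrix.vandermonde d := by
    ext i j
    rw [P002.kry, Matrix.of_apply, Matrix.mulVec_mulVec, h1, Matrix.mul_apply, Matrix.mulVec,
      dotProduct]
    refine Finset.sum_congr rfl fun k _ => ?_
    rw [Matrix.mul_diagonal, Matrix.vandermonde_apply, mul_one]
  rw [h2]
  refine hP.mul ?_
  rw [Matrix.isUnit_iff_isUnit_det, isUnit_iff_ne_zero]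
  exact Matrix.det_vandermonde_ne_zero_iff.2 hd

end Vale.Agent.P002R
end

section

/-!
# P002: coordinate subspaces stable under `U L`
-/

namespace Vale.Agent.P002R

open Matrix

/-- The inverse of a matrix which preserves a coordinate subspace. -/
theorem coord_stable_inv {K : Type*} [Field K] {r : ℕ} {M : Mat r K} (hM : IsUnit M.det)
    (I : Finset (Fin r)) (h : ∀ i, i ∉ I → ∀ j ∈ I, M i j = 0) :
    ∀ i, i ∉ I → ∀ j ∈ I, M⁻¹ i j = 0 := by
  classical
  have : Invertible M := M.invertibleOfIsUnitDet hM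
  have hb : BlockTriangular M (fun i : Fin r => if i ∈ I then 0 else 1) := by
    intro i j hij
    by_cases hi : i ∈ I
    · by_cases hj : j ∈ I
      · simp [hi, hj] at hij
      · simp [hi, hj] at hij
    · by_cases hj : j ∈ I
      · exact h i hi j hj
      · simp [hi, hj] at hij
  have hb' := blockTriangular_inv_of_blockTriangular hb
  intro i hi j hj
  apply hb'
  simp only [hj, ↓reduceIte, hi, Order.lt_one_iff]

theorem coord_stable_mul {K : Type*} [Field K] {r : ℕ} {M N : Mat r K} (I : Finset (Fin r))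
    (hM : ∀ i, i ∉ I → ∀ j ∈ I, M i j = 0) (hN : ∀ i, i ∉ I → ∀ j ∈ I, N i j = 0) :
    ∀ i, i ∉ I → ∀ j ∈ I, (M * N) i j = 0 := by
  intro i hi j hj
  rw [Matrix.mul_apply]
  refine Finset.sum_eq_zero fun k _ => ?_
  by_cases hk : k ∈ I
  · rw [hM i hi k hk, zero_mul]
  · rw [hN k hk j hj, mul_zero]

/-- The coordinate subspace. -/
def cSub (K : Type*) [Field K] {r : ℕ} (I : Finset (Fin r)) : Submodule K (Fin r → K) where
  carrier := {v | ∀ i, i ∉ I → v i = 0}
  add_mem' := fun {a b} ha hb i hi => by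
    rw [Pi.add_apply, ha i hi, hb i hi, add_zero]
  zero_mem' := fun _ _ => rfl
  smul_mem' := fun c v hv i hi => by
    rw [Pi.smul_apply, hv i hi, smul_zero]

theorem mem_cSub {K : Type*} [Field K] {r : ℕ} {I : Finset (Fin r)} {v : Fin r → K} :
    v ∈ cSub K I ↔ ∀ i, i ∉ I → v i = 0 := Iff.rfl

theorem mulVec_mem_cSub {K : Type*} [Field K] {r : ℕ} {M : Mat r K} {I : Finset (Fin r)}
    (hM : ∀ i, i ∉ I → ∀ j ∈ I, M i j = 0) {v : Fin r → K} (hv : v ∈ cSub K I) :
    M *ᵥ v ∈ cSub K I := by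
  intro i hi
  rw [Matrix.mulVec, dotProduct]
  refine Finset.sum_eq_zero fun k _ => ?_
  by_cases hk : k ∈ I
  · rw [hM i hi k hk, zero_mul]
  · rw [mem_cSub.1 hv k hk, mul_zero]

end Vale.Agent.P002R
end
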