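import Mathlib
import Vale.Agent.P002.Bd3.B4
import Vale.Agent.P002.Bd3.B10
import Vale.Agent.P002.Bd3.B15
import Vale.Agent.P002.Bd3.B16
import Vale.Agent.P002.Bd3.K_P002B_Defs
import Vale.Agent.P002.Bd3.B11
import Vale.Agent.P002.Bd3.B14
import Vale.Agent.P002.Bd3.B3
import Vale.Agent.P002.Bd3.B13

set_option linter.all false

@[reducible] def Vale.Agent.P002Fast.coeU17 {M : Type*} [Monoid M] (u : Mˣ) : CoeT Mˣ u M := ⟨Units.val u⟩
attribute [local instance] Vale.Agent.P002Fast.coeU17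

section

/-!
# P002, genus 0, two regular classes: density in the chart
-/

namespace Vale.Agent.P002R

open Matrix

end Vale.Agent.P002R
end

section

/-!
# P002B, T15: assembly of the theorem in genus zero
-/

namespace Vale.Agent.P002B.AsmA

open Matrix Vale.Agent.P002R Vale.Agent.P002L

theorem coefOK_mono {R : Type} [CommRing R] {φ : R →+* ℂ} {E : Subgroup ℂˣ} {r r' : ℕ}
    (h : CoefOK φ E r') (hr : r ≤ r') : CoefOK φ E r :=
  ⟨h.inj, h.neg, fun k hk hkr z hz => h.root k hk (hkr.trans hr) z hz, h.unit⟩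

theorem pp_conj {r : ℕ} (g : (Mat r ℂ)ˣ) (c d : ℕ → Mat r ℂ)
    (h : ∀ i, d i = ((g⁻¹ : (Mat r ℂ)ˣ) : Mat r ℂ) * c i * (g : Mat r ℂ)) :
    ∀ n, PP d n = ((g⁻¹ : (Mat r ℂ)ˣ) : Mat r ℂ) * PP c n * (g : Mat r ℂ)
  | 0 => by
    change (1 : Mat r ℂ) = _ * 1 * _
    rw [Matrix.mul_one, Units.inv_mul]
  | n + 1 => by
    change PP d n * d n = _ * (PP c n * c n) * _
    rw [pp_conj g c d h n, h n]
    calc (g⁻¹ : (Mat r ℂ)ˣ).val * PP c n * g.val * ((g⁻¹ : (Mat r ℂ)ˣ).val * c n * g.val) =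
        (g⁻¹ : (Mat r ℂ)ˣ).val * PP c n * (g.val * (g⁻¹ : (Mat r ℂ)ˣ).val) * c n * g.val := by
          simp only [Matrix.mul_assoc]
      _ = _ := by
        rw [Units.mul_inv, Matrix.mul_one]
        simp only [Matrix.mul_assoc]

theorem qp_conj_zero {r : ℕ} (g : (Mat r ℂ)ˣ) {c d : Mat r ℂ} (ξ : ℕ → ℂ) (j : ℕ)
    (h : d = ((g⁻¹ : (Mat r ℂ)ˣ) : Mat r ℂ) * c * (g : Mat r ℂ)) (h0 : Qp c ξ j = 0) :
    Qp d ξ j = 0 := by
  have h1 : c * (g : Mat r ℂ) = (g : Mat r ℂ) * d := by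
    rw [h, ← Matrix.mul_assoc, ← Matrix.mul_assoc, Units.mul_inv, Matrix.one_mul]
  have h2 := Qp_conj ξ h1 j
  rw [h0, Matrix.zero_mul] at h2
  calc Qp d ξ j = ((g⁻¹ : (Mat r ℂ)ˣ) : Mat r ℂ) * ((g : Mat r ℂ) * Qp d ξ j) := by
        rw [← Matrix.mul_assoc, Units.inv_mul, Matrix.one_mul]
    _ = 0 := by rw [← h2, Matrix.mul_zero]

/-- A polynomial in the entries of the product of all members but the first. -/
theorem exists_prodP {m r : ℕ} (h : MvPolynomial (Fin r × Fin r) ℂ) :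
    ∃ q : MvPolynomial (GenU 0 (m + 1) × Fin r × Fin r) ℂ, ∀ c : Fin (m + 1) → Mat r ℂ,
      evT q c = MvPolynomial.eval
        (fun p => (List.ofFn fun i : Fin m => c i.succ).prod p.1 p.2) h := by
  refine ⟨MvPolynomial.bind₁ (fun p => (List.ofFn fun i : Fin m => (Matrix.of fun a b =>
    (MvPolynomial.X (Sum.inr i.succ, a, b) : MvPolynomial (GenU 0 (m + 1) × Fin r × Fin r) ℂ) :
      Mat r (MvPolynomial (GenU 0 (m + 1) × Fin r × Fin r) ℂ))).prod p.1 p.2) h, fun c => ?_⟩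
  rw [evT]
  have h1 := MvPolynomial.eval₂Hom_bind₁ (RingHom.id ℂ)
    (fun p : GenU 0 (m + 1) × Fin r × Fin r =>
      (Sum.elim (fun _ => (0 : Mat r ℂ)) c p.1) p.2.1 p.2.2)
    (fun p : Fin r × Fin r => (List.ofFn fun i : Fin m => (Matrix.of fun a b =>
    (MvPolynomial.X (Sum.inr i.succ, a, b) : MvPolynomial (GenU 0 (m + 1) × Fin r × Fin r) ℂ) :
      Mat r (MvPolynomial (GenU 0 (m + 1) × Fin r × Fin r) ℂ))).prod p.1 p.2) h
  refine h1.trans ?_
  refine congrArg (fun w => MvPolynomial.eval w h) (funext fun p => ?_)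
  have h2 := prod_map_ofFn (MvPolynomial.eval fun p : GenU 0 (m + 1) × Fin r × Fin r =>
      (Sum.elim (fun _ => (0 : Mat r ℂ)) c p.1) p.2.1 p.2.2)
    (fun i : Fin m => (Matrix.of fun a b =>
    (MvPolynomial.X (Sum.inr i.succ, a, b) : MvPolynomial (GenU 0 (m + 1) × Fin r × Fin r) ℂ) :
      Mat r (MvPolynomial (GenU 0 (m + 1) × Fin r × Fin r) ℂ)))
  have h3 : (fun i : Fin m => ((Matrix.of fun a b =>
    (MvPolynomial.X (Sum.inr i.succ, a, b) : MvPolynomial (GenU 0 (m + 1) × Fin r × Fin r) ℂ) :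
      Mat r (MvPolynomial (GenU 0 (m + 1) × Fin r × Fin r) ℂ))).map (MvPolynomial.eval
        fun p : GenU 0 (m + 1) × Fin r × Fin r =>
      (Sum.elim (fun _ => (0 : Mat r ℂ)) c p.1) p.2.1 p.2.2)) = fun i : Fin m => c i.succ := by
    funext i
    ext a b
    rw [Matrix.map_apply, Matrix.of_apply, MvPolynomial.eval_X]
    rfl
  rw [h3] at h2
  rw [h2]
  rfl

theorem isConj_of_inv {G : Type*} [Group G] {a b : G} (h : IsConj a⁻¹ b⁻¹) : IsConj a b := by
  obtain ⟨c, hc⟩ := isConj_iff.1 h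
  rw [isConj_iff]
  refine ⟨c, ?_⟩
  have h1 : (c * a⁻¹ * c⁻¹)⁻¹ = b⁻¹⁻¹ := by rw [hc]
  rw [_root_.mul_inv_rev, _root_.mul_inv_rev, inv_inv, inv_inv, inv_inv] at h1
  rw [← h1, mul_assoc]

theorem eigIn_inv' {r : ℕ} {E : Subgroup ℂˣ} {M : (Mat r ℂ)ˣ} (hM : EigIn E (M : Mat r ℂ)) :
    EigIn E ((M⁻¹ : (Mat r ℂ)ˣ) : Mat r ℂ) := by
  intro z hz
  have h1 : (Matrix.scalar (Fin r) z - ((M⁻¹ : (Mat r ℂ)ˣ) : Mat r ℂ)).det = 0 := by
    rw [← Matrix.eval_charpoly]
    exact hz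
  have hz0 : z ≠ 0 := by
    rintro rfl
    rw [map_zero, zero_sub, Matrix.det_neg] at h1
    have h2 : IsUnit ((M⁻¹ : (Mat r ℂ)ˣ) : Mat r ℂ).det :=
      (Matrix.isUnit_iff_isUnit_det _).1 (M⁻¹).isUnit
    rcases mul_eq_zero.1 h1 with h3 | h3
    · exact pow_ne_zero _ (by norm_num) h3
    · exact h2.ne_zero h3
  obtain ⟨v, hv, hv'⟩ := Matrix.exists_mulVec_eq_zero_iff.2 h1
  rw [Matrix.sub_mulVec, sub_eq_zero] at hv'
  have h3 : Matrix.scalar (Fin r) z *ᵥ v = z • v := by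
    ext i
    simp [Matrix.scalar_apply, Matrix.mulVec_diagonal]
  rw [h3] at hv'
  have h4 : (M : Mat r ℂ) *ᵥ v = z⁻¹ • v := by
    have h5 := congrArg (fun w => (M : Mat r ℂ) *ᵥ w) hv'
    simp only [mulVec_smul, mulVec_mulVec, Units.mul_inv, one_mulVec] at h5
    calc (M : Mat r ℂ) *ᵥ v = z⁻¹ • z • (M : Mat r ℂ) *ᵥ v := by
          rw [smul_smul, inv_mul_cancel₀ hz0, one_smul]
      _ = z⁻¹ • v := by rw [h5]
  obtain ⟨e, he, h5⟩ := hM z⁻¹ (by
    rw [Polynomial.IsRoot.def, Matrix.eval_charpoly, ← Matrix.exists_mulVec_eq_zero_iff]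
    refine ⟨v, hv, ?_⟩
    rw [Matrix.sub_mulVec, h4, sub_eq_zero]
    ext i
    simp only [scalar_apply, mulVec_diagonal, Pi.smul_apply, smul_eq_mul])
  refine ⟨e⁻¹, inv_mem he, ?_⟩
  rw [Units.val_inv_eq_inv_val, h5, inv_inv]


/-- The main step: density in the adapted basis. -/
theorem core (hPS : PathStmt) (hLS : LiftStmt) (hAS : AbsorbStmt) (hTS : TypeStmt)
    (hVS : LeviStmt) {m r : ℕ} (hr : 0 < r) {R : Type} [CommRing R]
    (φ : R →+* ℂ) (E : Subgroup ℂˣ) (hc2 : CoefOK φ E (r * r)) (C : Fin (m + 1) → (Mat r ℂ)ˣ)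
    (hE : ∀ j, EigIn E (C j : Mat r ℂ))
    (x : FU 0 (m + 1) →* (Mat r ℂ)ˣ) (hx1 : x (relatorU 0 (m + 1)) = 1)
    (hx2 : ∀ j, IsConj (C j) (x (FreeGroup.of (Sum.inr j))))
    (l : ℕ → ℕ → Rˣ) (τ : ℕ → Rˣ)
    {N : ℕ} {nm : Fin r → Fin N} {κ : ℕ → Fin N → ℕ} {κ₀ : Fin N → ℕ} {d u M : ℕ → Mat r ℂ}
    {rk : Fin N → Fin N → ℕ}
    (hd : ∀ i : Fin m, d i = bt x i.succ)
    (hnm : Monotone nm) (hsur : Function.Surjective nm) (hκ₀ : Monotone κ₀)
    (h1 : ∀ i < m, BU nm (bk N) (u i) ∧ Kup (κ i ∘ nm) (fun j => φ (l i j)) (M i) ∧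
      d i * u i = u i * M i ∧ (∀ x, κ i x < r) ∧
        ∀ j ≤ r, Module.finrank ℂ (LinearMap.ker (Qp (d i) (fun j => φ (l i j)) j).mulVecLin) =
          (Finset.univ.filter fun x => κ i (nm x) < j).card)
    (hQ : ∀ i < m, Qp (d i) (fun j => φ (l i j)) r = 0)
    (hQ0 : Qp (PP d m) (fun j => φ (τ j)) r = 0)
    (h2 : Kup (κ₀ ∘ nm) (fun j => φ (τ j)) (PP d m) ∧ (∀ x, κ₀ x < r) ∧
        ∀ j ≤ r, Module.finrank ℂ (LinearMap.ker (Qp (PP d m) (fun j => φ (τ j)) j).mulVecLin) =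
          (Finset.univ.filter fun x => κ₀ (nm x) < j).card)
    (h3 : ∀ i < m, ∀ e : Bool, ∀ l t t' : ℕ, t' ≤ t →
        TP nm (PP d (i + sh e) * u i) (Seg (κ i) l t t'))
    (h4 : ∀ p' p q q' : Fin N, p' ≤ p → p < q → q ≤ q' → rk p' q' ≤ rk p q)
    (h5 : ∀ p q : Fin N, p < q → κ₀ p = κ₀ q → (∃ i < m, κ i p < κ i q) ∨
        ∃ i < m, ∃ e : Bool, ∃ l t t' : ℕ, t' ≤ t ∧
          IP nm (PP d (i + sh e) * u i) (Seg (κ i) l t t') p ∧
          ¬ IP nm (PP d (i + sh e) * u i) (Seg (κ i) l t t') q ∧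
          ∀ p' q' : Fin N, p' < q' → (((p' : ℕ) < t ∧ t ≤ (q' : ℕ)) ∨
            ((p' : ℕ) < t' ∧ t' ≤ (q' : ℕ))) → rk p' q' < rk p q)
    (f : MvPolynomial (GenU 0 (m + 1) × Fin r × Fin r) ℂ)
    (hf : ∀ y : FU 0 (m + 1) →* (Mat r ℂ)ˣ, y (relatorU 0 (m + 1)) = 1 →
      (∀ j, IsConj (C j) (y (FreeGroup.of (Sum.inr j)))) →
      (∀ k, y (FreeGroup.of k) ∈ GR r φ) → evalG y f = 0) : evalG x f = 0 := by
  have hc : CoefOK φ E r := coefOK_mono hc2 (Nat.le_mul_self r)
  -- paths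
  have hpath := fun i => hPS N (κ i)
  choose ks hKP hseg hseg' using hpath
  obtain ⟨L, y₀, p, hcirc, hval, hlift⟩ := hLS φ nm m κ l d u M ks (fun i hi => (h1 i hi).1)
    (fun i hi => (h1 i hi).2.1) (fun i hi => (h1 i hi).2.2.1) (fun i _ => hKP i) (by
      intro i hi e k hk n
      obtain ⟨a, s, s', hs, hcc⟩ := hseg i k hk n
      have e1 : (fun c => k c < n) = Seg (κ i) a s s' := funext fun c => propext (hcc c)
      rw [e1]
      exact h3 i hi e a s s' hs)
  -- the complex point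
  obtain ⟨c₁, u₁, M₁, hu₁, hM₁, hcu₁, hc₁, hcell₁, hfin₁⟩ := hlift φ (RingHom.id ℂ)
    (fun _ => rfl) Function.surjective_id y₀ hval
    (fun a b n _ => ⟨by ext i j; rfl, by ext i j; rfl⟩)
  have hcd : ∀ i < m, c₁ i = d i := by
    intro i hi
    rw [← hc₁ i hi]
    ext a b
    rfl
  have hPd : ∀ n ≤ m, PP c₁ n = PP d n := fun n hn => pp_congr n fun i hi => hcd i (by omega)
  have hsh : ∀ (i : ℕ) (e : Bool), i < m → i + sh e ≤ m := by
    intro i e hi
    cases e
    · exact hi.le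
    · exact hi
  have htrans : ∀ i < m, (∃ w : Mat r ℂ, u₁ i = u i * w ∧ ∀ l t t' : ℕ, ∀ a b,
      Seg (κ i) l t t' (nm b) → ¬ Seg (κ i) l t t' (nm a) → w a b = 0) ∧
      ∃ w : Mat r ℂ, u i = u₁ i * w ∧ ∀ l t t' : ℕ, ∀ a b,
      Seg (κ i) l t t' (nm b) → ¬ Seg (κ i) l t t' (nm a) → w a b = 0 := by
    intro i hi
    obtain ⟨g1, g2, g3, g4, g5⟩ := h1 i hi
    have g6 : d i * u₁ i = u₁ i * M₁ i := by
      rw [← hcd i hi]
      exact hcu₁ i hi
    exact ⟨trans_seg g1 (hu₁ i hi) g2 (hM₁ i hi) g3 g6 g4 g5,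
      trans_seg (hu₁ i hi) g1 (hM₁ i hi) g2 g6 g3 g4 g5⟩
  -- the Levi equation
  have hBD : BD nm (fun i => φ (τ (κ₀ (nm i)))) (PP d m) := by
    intro i j hij
    by_cases hd' : i = j
    · subst hd'
      rw [if_pos rfl]
      exact h2.1.1 i
    · rw [if_neg hd']
      exact h2.1.2 i j hd' (not_lt.2 (hκ₀ (not_lt.1 hij)))
  obtain ⟨b₁, v₁, hb₁, hv₁, he₁⟩ := hfin₁
  rw [hPd m le_rfl] at he₁
  have hgood := cev_good (nm := nm) φ y₀ L hcirc.2 hval
  have hLevi := mono_unique hsur hb₁ hv₁ hgood.1 hgood.2 he₁ hBD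
  obtain ⟨uf, huf⟩ := hc.exists_free
  obtain ⟨A, hA, ι, ψ, hL⟩ := exists_lifting φ hc.inj uf huf
  obtain ⟨A', hA', ι', ψ', y, hL', hvy, hyy, hcev⟩ := hVS E hc2 hL nm hsur L y₀
    (fun a => τ (κ₀ a)) hcirc hval hLevi
  obtain ⟨c₂, u₂, M₂, hu₂, hM₂, hcu₂, hc₂, hcell₂, hfin₂⟩ := hlift ι' ψ' hL'.comp hL'.surj y hvy
    hyy
  obtain ⟨b₂, v₂, hb₂, hv₂, he₂⟩ := hfin₂
  have hBD₂ : BD nm (fun i => ι' (τ (κ₀ (nm i)))) (PP c₂ m) := by
    rw [he₂, hcev]
    exact bd_mul_right (bd_mul_left hb₂ (bd_diagonal _)) hv₂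
  have hPψ : (PP c₂ m).map ψ' = PP d m := by
    rw [pp_map]
    exact pp_congr m fun i hi => hc₂ i hi
  obtain ⟨c₃, u₃, M₃, hu₃, hM₃, hcu₃, hc₃, hK₃⟩ := hAS ψ' nm m κ (fun i j => ι' (l i j)) ks
    (fun i e k => cpm (L.take (p i e k))) κ₀ (fun j => Units.map (ι' : R →* A') (τ j)) rk hκ₀
    (fun i _ => hKP i) h4 (by
      intro a b hab hκab
      rcases h5 a b hab hκab with h | ⟨i, hi, e, t0, t, t', htt, hip, hniq, hrk⟩
      · exact Or.inl h
      · refine Or.inr ?_
        obtain ⟨k, hk, n, hkn⟩ := hseg' i t0 t t' htt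
        obtain ⟨⟨w, hw1, hw2⟩, ⟨w', hw1', hw2'⟩⟩ := htrans i hi
        have e1 : (fun c => k c < n) = Seg (κ i) t0 t t' := funext fun c => propext (hkn c)
        obtain ⟨b, v, hb, hv, he⟩ := hcell₁ i hi e k hk
        rw [hPd _ (hsh i e hi)] at he
        have hg := take_good (nm := nm) φ y₀ hcirc hval (p i e k)
        refine ⟨i, hi, e, k, hk, n, t0, t, t', hkn, ?_, ?_, hrk⟩
        · refine not_ip_of_cell hsur hb hv hg.1 he ?_
          rw [e1]
          refine ip_mul (w := w') (hw2' t0 t t') ?_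
          rw [Matrix.mul_assoc, ← hw1']
          exact hip
        · intro hq
          apply hniq
          have h6 := ip_of_cell hb hv hg.1 hg.2 he hq
          rw [e1] at h6
          refine ip_mul (w := w) (hw2 t0 t t') ?_
          rw [Matrix.mul_assoc, ← hw1]
          exact h6) c₂ u₂ M₂ hu₂ hM₂ hcu₂ (by
      intro i hi e k hk
      have hg := take_good (nm := nm) ι' y hcirc hvy (p i e k)
      exact ⟨_, hg.1, hg.2, hcell₂ i hi e k hk⟩) (by
      intro i j hij
      exact hBD₂ i j hij) (by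
      intro i j hij hκij
      have h6 : ψ' (PP c₂ m i j) = PP d m i j := by
        rw [← hPψ, Matrix.map_apply]
      rw [h6]
      refine h2.1.2 i j (fun h7 => ?_) ?_
      · rw [h7] at hij
        exact lt_irrefl _ hij
      · change ¬ κ₀ (nm i) < κ₀ (nm j)
        rw [hκij]
        exact lt_irrefl _)
  -- relations
  have hrel : bt x 0 * (List.ofFn fun j : Fin m => bt x j.succ).prod = 1 := by
    have h6 := (relU_iff x).1 hx1
    rwa [← List.ofFn_eq_map, List.ofFn_succ, List.prod_cons] at h6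
  have hPP : PP d m = (List.ofFn fun j : Fin m => bt x j.succ).prod := by
    rw [pp_ofFn]
    congr 2
    funext i
    exact hd i
  rw [← hPP] at hrel
  have hx0 : ((x (FreeGroup.of (Sum.inr 0)))⁻¹ : (Mat r ℂ)ˣ).val = PP d m := by
    rw [bt_eqn] at hrel
    calc ((x (FreeGroup.of (Sum.inr 0)))⁻¹ : (Mat r ℂ)ˣ).val =
        ((x (FreeGroup.of (Sum.inr 0)))⁻¹ : (Mat r ℂ)ˣ).val *
          ((x (FreeGroup.of (Sum.inr 0)) : Mat r ℂ) * PP d m) := by rw [hrel, Matrix.mul_one]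
      _ = PP d m := by rw [← Matrix.mul_assoc, Units.inv_mul, Matrix.one_mul]
  -- the types
  have hty := fun i : Fin m => hTS (x (FreeGroup.of (Sum.inr i.succ))) (fun j => φ (l i j)) r
    (κ i ∘ nm) (by
      have h6 := hQ i i.2
      rw [hd i] at h6
      exact h6) (fun a => (h1 i i.2).2.2.2.1 _) (by
      have h6 := (h1 i i.2).2.2.2.2
      rw [hd i] at h6
      exact h6)
  choose h hh hcl using hty
  obtain ⟨h₀, hh₀, hcl₀⟩ := hTS (x (FreeGroup.of (Sum.inr 0)))⁻¹ (fun j => φ (τ j)) r (κ₀ ∘ nm)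
    (by rw [hx0]; exact hQ0) (fun a => h2.2.1 _) (by rw [hx0]; exact h2.2.2)
  rw [hx0] at hh₀
  -- the first member
  obtain ⟨PA, hPA⟩ : ∃ PA, PA = PP c₃ m := ⟨_, rfl⟩
  rw [← hPA] at hK₃
  have hPAup : UpT PA := by
    intro i j hij
    exact hK₃.2 i j (ne_of_gt hij) (not_lt.2 (hκ₀ (hnm hij.le)))
  obtain ⟨δ, hδ⟩ : ∃ δ : Rˣ, δ = ∏ i, τ (κ₀ (nm i)) := ⟨_, rfl⟩
  have hdetPA : PA.det = ι' δ := by
    rw [hPAup.det, hδ, Units.coe_prod, map_prod]
    exact Finset.prod_congr rfl fun i _ => hK₃.1 i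
  obtain ⟨c0, hc0⟩ : ∃ c0 : Mat r A', c0 = ι' ((δ⁻¹ : Rˣ) : R) • PA.adjugate := ⟨_, rfl⟩
  have hc0P : c0 * PA = 1 := by
    rw [hc0, smul_mul_assoc, Matrix.adjugate_mul, smul_smul, hdetPA, ← map_mul, Units.inv_mul,
      map_one, one_smul]
  obtain ⟨cA, hcA⟩ : ∃ cA : Fin (m + 1) → Mat r A', cA = Fin.cons c0 fun i : Fin m => c₃ i :=
    ⟨_, rfl⟩
  have hcA0 : cA 0 = c0 := by rw [hcA, Fin.cons_zero]
  have hcAs : ∀ i : Fin m, cA i.succ = c₃ i := fun i => by rw [hcA, Fin.cons_succ]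
  have hcAs' : (fun i : Fin m => cA i.succ) = fun i : Fin m => c₃ i := funext hcAs
  have hprodA : (List.ofFn cA).prod = 1 := by
    rw [List.ofFn_succ, List.prod_cons, hcA0, hcAs', ← pp_ofFn, ← hPA, hc0P]
  -- the polynomial
  obtain ⟨q, hq⟩ := exists_prodP (m := m) h₀
  obtain ⟨F, hF⟩ : ∃ F : MvPolynomial (GenU 0 (m + 1) × Fin r × Fin r) ℂ, F = f * (q *
    ∏ i : Fin m, MvPolynomial.rename (fun p => ((Sum.inr i.succ, p) :
      GenU 0 (m + 1) × Fin r × Fin r)) (h i)) := ⟨_, rfl⟩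
  have hFev : ∀ c : Fin (m + 1) → Mat r ℂ, evT F c = evT f c * (MvPolynomial.eval
        (fun p => (List.ofFn fun i : Fin m => c i.succ).prod p.1 p.2) h₀ *
      ∏ i : Fin m, MvPolynomial.eval (fun p => c i.succ p.1 p.2) (h i)) := by
    intro c
    have h6 : ∀ a b : MvPolynomial (GenU 0 (m + 1) × Fin r × Fin r) ℂ,
        evT (a * b) c = evT a c * evT b c := fun a b => map_mul _ a b
    rw [hF, h6, h6, hq]
    congr 2
    have h7 : evT (∏ i : Fin m, MvPolynomial.rename (fun p => ((Sum.inr i.succ, p) :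
      GenU 0 (m + 1) × Fin r × Fin r)) (h i)) c = ∏ i : Fin m, evT (MvPolynomial.rename
        (fun p => ((Sum.inr i.succ, p) : GenU 0 (m + 1) × Fin r × Fin r)) (h i)) c :=
      map_prod _ _ _
    rw [h7]
    exact Finset.prod_congr rfl fun i _ => evT_rename i.succ (h i) c
  have hevA : ∀ (θ : A' →+* ℂ), MvPolynomial.eval (fun s : GenU 0 (m + 1) × Fin r × Fin r =>
      θ ((Sum.elim (fun _ => (0 : Mat r A')) cA s.1) s.2.1 s.2.2)) F =
      evT F fun j => (cA j).map θ := by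
    intro θ
    rw [evT]
    refine congrArg (fun w => MvPolynomial.eval w F) (funext fun s => ?_)
    obtain ⟨k | j, a, b⟩ := s
    · exact k.1.elim0
    · rfl
  have hkey : evT F (fun j => (cA j).map ψ') = 0 := by
    rw [← hevA ψ']
    refine hL'.dens F (fun s : GenU 0 (m + 1) × Fin r × Fin r =>
      (Sum.elim (fun _ => (0 : Mat r A')) cA s.1) s.2.1 s.2.2) fun η hη => ?_
    have h6 := hevA (φ.comp η)
    refine h6.trans ?_
    obtain ⟨cC, hcC⟩ : ∃ cC : Fin (m + 1) → Mat r ℂ, cC = fun j => (cA j).map (φ.comp η) :=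
      ⟨_, rfl⟩
    obtain ⟨cR, hcR⟩ : ∃ cR : Fin (m + 1) → Mat r R, cR = fun j => (cA j).map η := ⟨_, rfl⟩
    have hcCR : ∀ j, cC j = (cR j).map φ := by
      intro j
      rw [hcC, hcR]
      rfl
    have hprodC : (List.ofFn cC).prod = 1 := by
      rw [hcC, prod_map_ofFn, hprodA]
      exact Matrix.map_one _ (map_zero _) (map_one _)
    obtain ⟨PC, hPC⟩ : ∃ PC : Mat r ℂ, PC = PA.map (φ.comp η) := ⟨_, rfl⟩
    have hPCp : (List.ofFn fun i : Fin m => cC i.succ).prod = PC := by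
      rw [hPC, hPA, pp_ofFn, ← prod_map_ofFn, hcC]
      congr 2
      funext i
      change (cA i.succ).map _ = _
      rw [hcAs]
    rw [← hcC, hFev]
    by_contra hne
    have hne1 := left_ne_zero_of_mul hne
    have hne2 := left_ne_zero_of_mul (right_ne_zero_of_mul hne)
    have hne3 := Finset.prod_ne_zero_iff.1 (right_ne_zero_of_mul (right_ne_zero_of_mul hne))
    rw [hPCp] at hne2
    obtain ⟨y, hy1, hy2⟩ := exists_hom (m + 1) cC hprodC
    apply hne1
    have hbty : bt y = cC := funext hy2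
    rw [← hbty, ← evalG_eq_evT]
    have hCP : cC 0 * PC = 1 := by
      have h7 : (c0 * PA).map (φ.comp η) = (1 : Mat r A').map (φ.comp η) := by rw [hc0P]
      rw [Matrix.map_mul, Matrix.map_one _ (map_zero _) (map_one _)] at h7
      rw [hPC, hcC]
      change (cA 0).map _ * _ = _
      rw [hcA0]
      exact h7
    have hy0 : ((y (FreeGroup.of (Sum.inr 0)))⁻¹ : (Mat r ℂ)ˣ).val = PC := by
      rw [← hy2 0] at hCP
      calc ((y (FreeGroup.of (Sum.inr 0)))⁻¹ : (Mat r ℂ)ˣ).val =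
          ((y (FreeGroup.of (Sum.inr 0)))⁻¹ : (Mat r ℂ)ˣ).val *
            ((y (FreeGroup.of (Sum.inr 0)) : Mat r ℂ) * PC) := by rw [hCP, Matrix.mul_one]
        _ = PC := by rw [← Matrix.mul_assoc, Units.inv_mul, Matrix.one_mul]
    have hconj : ∀ j, IsConj (C j) (y (FreeGroup.of (Sum.inr j))) := by
      intro j
      refine Fin.cases ?_ (fun i => ?_) j
      · refine (hx2 0).trans (isConj_of_inv ?_)
        refine hcl₀ (y (FreeGroup.of (Sum.inr 0)))⁻¹ 1 PC uu_one ?_ ?_ ?_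
        · have h7 := hK₃.map (φ.comp η)
          have h8 : (fun j => (φ.comp η) ((Units.map (ι' : R →* A') (τ j) : A'ˣ) : A')) =
              fun j => φ ((τ j : Rˣ) : R) :=
            funext fun j => by
              change φ (η (ι' (τ j))) = _
              rw [hη]
          rw [h8, ← hPC] at h7
          exact h7
        · rw [hy0, Matrix.mul_one, Matrix.one_mul]
        · rw [hy0]
          exact hne2
      · refine (hx2 i.succ).trans (hcl i _ ((u₃ i).map (φ.comp η)) ((M₃ i).map (φ.comp η)) ?_ ?_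
          ?_ ?_)
        · have h7 := bu_map (hu₃ i i.2) (φ.comp η)
          refine ⟨fun a b hab => ?_, fun a => ?_⟩
          · rw [h7 a b (not_lt.2 (hnm hab.le)), Matrix.one_apply_ne (ne_of_gt hab)]
          · rw [h7 a a (lt_irrefl _), Matrix.one_apply_eq]
        · have h7 := (hM₃ i i.2).map (φ.comp η)
          have h8 : (fun j => (φ.comp η) (ι' ((l i j : Rˣ) : R))) = fun j => φ ((l i j : Rˣ) : R) :=
            funext fun j => by rw [RingHom.comp_apply, hη]
          rw [h8] at h7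
          exact h7
        · rw [hy2, hcC]
          change (cA i.succ).map _ * _ = _
          rw [hcAs, ← Matrix.map_mul, hcu₃ i i.2, Matrix.map_mul]
        · have h7 := hne3 i (Finset.mem_univ i)
          rw [← hbty] at h7
          exact h7
    refine hf y hy1 hconj ?_
    rintro (k | j)
    · exact k.1.elim0
    · obtain ⟨e, he, hed⟩ := (hE j).det
      obtain ⟨c, hcc⟩ := exists_unit_root_of_mem hc hr (cR j).det e he (by
        rw [hed, RingHom.map_det]
        change ((cR j).map φ).det = _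
        rw [← hcCR, ← hy2, (cjM_of_isConj (hconj j)).det])
      exact mem_GR_of φ _ (cR j) ((hy2 j).trans (hcCR j)) c hcc
  have hψc : ∀ i : Fin m, (cA i.succ).map ψ' = bt x i.succ := by
    intro i
    rw [hcAs, hc₃ i i.2, hc₂ i i.2, hd i]
  have hψ : (fun j => (cA j).map ψ') = bt x := by
    funext j
    refine Fin.cases ?_ (fun i => hψc i) j
    rw [hcA0]
    have h6 : (c0 * PA).map ψ' = (1 : Mat r A').map ψ' := by rw [hc0P]
    rw [Matrix.map_mul, Matrix.map_one _ (map_zero _) (map_one _)] at h6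
    have h7 : PA.map ψ' = PP d m := by
      rw [hPA, pp_map]
      refine pp_congr m fun i hi => ?_
      rw [hc₃ i hi, hc₂ i hi]
    rw [h7] at h6
    have hrel' : PP d m * bt x 0 = 1 := mul_eq_one_comm.1 hrel
    rw [← mul_one (c0.map ψ'), ← hrel', ← mul_assoc, h6, one_mul]
  rw [hψ, hFev] at hkey
  rw [evalG_eq_evT]
  refine (mul_eq_zero.1 hkey).resolve_right (mul_ne_zero ?_ ?_)
  · rw [← hPP]
    exact hh₀
  · exact Finset.prod_ne_zero_iff.2 fun i _ => hh i

/-- T15. Assembly. -/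
theorem assembly : AssemblyStmt := by
  intro hPS hLS hAS hFS hTS hVS m r hr R _ φ E hc2 C hE x hx hirr f hf
  have hc : CoefOK φ E r := coefOK_mono hc2 (Nat.le_mul_self r)
  obtain ⟨hx1, hx2, hx3⟩ := hx
  have hadj := adjoin_top_of_irr x hx3 hirr
  have hxrel : x (relatorU 0 (m + 1)) = 1 := hx1 _ rfl
  refine upgrade x hadj {y | y (relatorU 0 (m + 1)) = 1 ∧
    (∀ j, IsConj (C j) (y (FreeGroup.of (Sum.inr j)))) ∧
    ∀ k, y (FreeGroup.of k) ∈ GR r φ} ?_ f ?_
  · intro f' hf'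
    -- the tuple
    obtain ⟨c, hcdef⟩ : ∃ c : ℕ → Mat r ℂ, ∀ i : Fin m, c i = bt x i.succ :=
      ⟨fun i => if h : i < m then bt x (Fin.succ ⟨i, h⟩) else 1, fun i => by
        simp⟩
    have hEU : ∀ z : (Mat r ℂ)ˣ, EigIn E (z : Mat r ℂ) → EigU φ (z : Mat r ℂ) := by
      intro z hz a ha
      obtain ⟨e, he, rfl⟩ := hz a ha
      exact hc.exists_unit hr he
    have hl : ∀ i : ℕ, ∃ l : ℕ → Rˣ, i < m → Qp (c i) (fun j => φ (l j)) r = 0 := by
      intro i
      by_cases hi : i < m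
      · obtain ⟨l, hl⟩ := exists_eig φ (c i) (by
          have h6 := hcdef ⟨i, hi⟩
          simp only at h6
          rw [h6]
          exact hEU _ (EigIn.conj (hx2 _) (hE _)))
        exact ⟨l, fun _ => hl⟩
      · exact ⟨fun _ => 1, fun h => absurd h hi⟩
    choose l hl using hl
    have hrel : bt x 0 * (List.ofFn fun j : Fin m => bt x j.succ).prod = 1 := by
      have h6 := (relU_iff x).1 hxrel
      rwa [← List.ofFn_eq_map, List.ofFn_succ, List.prod_cons] at h6
    have hPP : PP c m = (List.ofFn fun j : Fin m => bt x j.succ).prod := by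
      rw [pp_ofFn]
      congr 2
      funext i
      exact hcdef i
    rw [← hPP] at hrel
    have hx0 : ((x (FreeGroup.of (Sum.inr 0)))⁻¹ : (Mat r ℂ)ˣ).val = PP c m := by
      rw [bt_eqn] at hrel
      calc ((x (FreeGroup.of (Sum.inr 0)))⁻¹ : (Mat r ℂ)ˣ).val =
          ((x (FreeGroup.of (Sum.inr 0)))⁻¹ : (Mat r ℂ)ˣ).val *
            ((x (FreeGroup.of (Sum.inr 0)) : Mat r ℂ) * PP c m) := by rw [hrel, Matrix.mul_one]
        _ = PP c m := by rw [← Matrix.mul_assoc, Units.inv_mul, Matrix.one_mul]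
    obtain ⟨τ, hτ⟩ := exists_eig φ (PP c m) (by
      rw [← hx0]
      exact hEU _ (eigIn_inv' (EigIn.conj (hx2 0) (hE 0))))
    obtain ⟨g, N, nm, κ, κ₀, d, u, M, rk, hd, hnm, hsur, hκ₀, h1, h2, h3, h4, h5⟩ := hFS m c
      (fun i j => φ (l i j)) (fun _ => r) (fun j => φ (τ j)) r (by
        intro i hi
        have h6 := hcdef ⟨i, hi⟩
        simp only at h6
        rw [h6, bt_eqn]
        exact Units.isUnit _) (fun i hi => hl i hi) hτ
    obtain ⟨P, hP⟩ : ∃ P : (Mat r ℂ)ˣ, P = g⁻¹ := ⟨_, rfl⟩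
    obtain ⟨f'', hf''⟩ := exists_conjP P⁻¹ f'
    have hback : conjH P⁻¹ (conjH P x) = x := by
      refine MonoidHom.ext fun w => ?_
      rw [conjH_apply, conjH_apply, inv_inv]
      group
    rw [← hback, ← hf'']
    refine core hPS hLS hAS hTS hVS hr φ E hc2 C hE (conjH P x) ?_ (fun j => ?_) l τ
      (d := d) (u := u) (M := M) (κ := κ) (κ₀ := κ₀) (rk := rk) (nm := nm) ?_ hnm hsur hκ₀ h1 ?_
      ?_ h2 h3 h4 h5 f'' ?_
    · rw [conjH_apply, hxrel, mul_one, mul_inv_cancel]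
    · refine (hx2 j).trans ?_
      rw [isConj_iff]
      exact ⟨P, (conjH_apply _ _ _).symm⟩
    · intro i
      rw [hd, hcdef, bt_eqn, bt_eqn, conjH_apply, Units.val_mul, Units.val_mul, hP, inv_inv]
    · intro i hi
      exact qp_conj_zero g _ r (hd i) (hl i hi)
    · exact qp_conj_zero g _ r (pp_conj g c d hd m) hτ
    · intro y hy1 hy2 hy3
      rw [hf'']
      refine conj_vanish_gen {y | y (relatorU 0 (m + 1)) = 1 ∧
        (∀ j, IsConj (C j) (y (FreeGroup.of (Sum.inr j)))) ∧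
        ∀ k, y (FreeGroup.of k) ∈ GR r φ} ?_ f' hf' y ⟨hy1, hy2, hy3⟩ P⁻¹
      rintro z ⟨hz1, hz2, hz3⟩ X
      refine ⟨?_, fun j => ?_, fun k => ?_⟩
      · rw [conjH_apply, hz1, mul_one, mul_inv_cancel]
      · refine (hz2 j).trans ?_
        rw [isConj_iff]
        exact ⟨slU (Int.castRingHom ℂ) X, (conjH_apply _ _ _).symm⟩
      · rw [conjH_apply]
        exact (GR r φ).mul_mem ((GR r φ).mul_mem (slU_int_mem_GR φ X) (hz3 k))
          ((GR r φ).inv_mem (slU_int_mem_GR φ X))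
  · rintro y ⟨hy1, hy2, hy3⟩ hy4
    refine hf y ⟨⟨⟨?_, hy2, ss_of_adjoin y hy4⟩, hy3⟩, hy4⟩
    rintro w rfl
    exact hy1

end Vale.Agent.P002B.AsmA
end

section

/-!
# P002, genus 0, arbitrary classes: T4.5, the chain over the classes (helper962)
-/

namespace Vale.Agent.P002B.LC

open Matrix Vale.Agent.P002R Vale.Agent.P002L

theorem pp_congr {S : Type*} [CommRing S] {r : ℕ} {c c' : ℕ → Mat r S} {n : ℕ}
    (h : ∀ i < n, c i = c' i) : PP c n = PP c' n := by
  induction n with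
  | zero => rfl
  | succ n ih =>
    rw [PP, PP, ih fun i hi => h i (Nat.lt_succ_of_lt hi), h n (Nat.lt_succ_self n)]

theorem map_id' {r : ℕ} (X : Mat r ℂ) : X.map (RingHom.id ℂ) = X := by
  ext i j
  rfl

/-- The statement proved by induction over the number of classes. -/
def ChainSt {R : Type} [CommRing R] (φ : R →+* ℂ) {r N : ℕ} (nm : Fin r → Fin N)
    (κ : ℕ → Fin N → ℕ) (l : ℕ → ℕ → Rˣ) (c : ℕ → Mat r ℂ) (ks : ℕ → List (Fin N → ℕ))
    (n : ℕ) : Prop :=
  ∃ (L : List (Sy R N)) (y₀ : ℕ → Mat r ℂ × Mat r ℂ) (n₀ : ℕ) (v₀ : Mat r ℂ)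
    (p : ℕ → Bool → (Fin N → ℕ) → ℕ), Circ L ∧ (∀ j ∈ L.filterMap Sy.vr, j < n₀) ∧
    Valid nm y₀ L ∧ BU nm (bk N) v₀ ∧ (∀ i < n, ∀ e k, p i e k ≤ L.length) ∧
    ∀ {A : Type} [CommRing A] (ι : R →+* A) (ψ : A →+* ℂ), (∀ x, ψ (ι x) = φ x) →
      Function.Surjective ψ → ∀ y : ℕ → Mat r A × Mat r A, Valid nm y L →
      (∀ a b n, Sy.Y a b n ∈ L → (y n).1.map ψ = (y₀ n).1 ∧ (y n).2.map ψ = (y₀ n).2) →
      ∃ c' u' M' : ℕ → Mat r A, (∀ i < n, BU nm (bk N) (u' i)) ∧
        (∀ i < n, Kup (κ i ∘ nm) (fun j => ι (l i j)) (M' i)) ∧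
        (∀ i < n, c' i * u' i = u' i * M' i) ∧
        (∀ i < n, (c' i).map ψ = c i) ∧
        (∀ i < n, ∀ e : Bool, ∀ k ∈ ks i,
          InCell nm k (cev nm ι y (L.take (p i e k))) (PP c' (i + sh e) * u' i)) ∧
        ∃ b v : Mat r A, BU nm (bk N) b ∧ BU nm (bk N) v ∧ v.map ψ = v₀ ∧
          PP c' n = b * cev nm ι y L * v

theorem chainSt_zero {R : Type} [CommRing R] (φ : R →+* ℂ) {r N : ℕ} (nm : Fin r → Fin N)
    (κ : ℕ → Fin N → ℕ) (l : ℕ → ℕ → Rˣ) (c : ℕ → Mat r ℂ) (ks : ℕ → List (Fin N → ℕ)) :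
    ChainSt φ nm κ l c ks 0 := by
  refine ⟨[], fun _ => (0, 0), 0, 1, fun _ _ _ => 0, ⟨by simp, fun a b n h => ?_⟩, by simp,
    fun a b n h => ?_, bu_one _, fun i hi => absurd hi (Nat.not_lt_zero i), ?_⟩
  · exact absurd h (List.not_mem_nil)
  · exact absurd h (List.not_mem_nil)
  · intro A _ ι ψ _ _ y _ _
    refine ⟨fun _ => 1, fun _ => 1, fun _ => 1, fun i hi => absurd hi (Nat.not_lt_zero i),
      fun i hi => absurd hi (Nat.not_lt_zero i), fun i hi => absurd hi (Nat.not_lt_zero i),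
      fun i hi => absurd hi (Nat.not_lt_zero i), fun i hi => absurd hi (Nat.not_lt_zero i),
      1, 1, bu_one _, bu_one _, Matrix.map_one _ (map_zero ψ) (map_one ψ), ?_⟩
    rw [cev_nil, PP, one_mul, one_mul]

theorem chainSt_succ (hC : ClassStmt) {R : Type} [CommRing R] (φ : R →+* ℂ) {r N : ℕ}
    (nm : Fin r → Fin N) (κ : ℕ → Fin N → ℕ) (l : ℕ → ℕ → Rˣ) (c u M : ℕ → Mat r ℂ)
    (ks : ℕ → List (Fin N → ℕ)) (n : ℕ) (hu : BU nm (bk N) (u n))
    (hM : Kup (κ n ∘ nm) (fun j => φ (l n j)) (M n)) (hc : c n * u n = u n * M n)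
    (hk : KP (κ n) (bk N) (ks n))
    (hT : ∀ e : Bool, ∀ k ∈ ks n, ∀ j : ℕ, TP nm (PP c (n + sh e) * u n) fun a => k a < j)
    (ih : ChainSt φ nm κ l c ks n) : ChainSt φ nm κ l c ks (n + 1) := by
  obtain ⟨L, y₀, n₀, v₀, p, hL, hn, hy, hv₀, hp, h⟩ := ih
  -- the complex level
  obtain ⟨c₁, u₁, M₁, -, -, -, hc₁, -, b₀, v₁, hb₀, -, hv₁, he₁⟩ :=
    h φ (RingHom.id ℂ) (fun _ => rfl) (fun x => ⟨x, rfl⟩) y₀ hy
      fun a b j _ => ⟨map_id' _, map_id' _⟩
  rw [map_id'] at hv₁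
  subst hv₁
  have hPP : PP c n = b₀ * cev nm φ y₀ L * v₁ := by
    rw [← he₁]
    exact pp_congr fun i hi => by rw [← hc₁ i hi, map_id']
  obtain ⟨L₁, y₁, n₁, v₂, q, hyy, hnn, hL₁, hn₁, hy₁, hv₂, H⟩ := hC φ nm (κ n) (l n) (bk N) (ks n)
    hk (fun a b hab _ => hab) L y₀ n₀ b₀ v₁ (u n) (M n) hL hn hy hb₀ hv₀ hu hu hM (by
      intro k₁ hk₁ j
      rw [← hPP]
      refine ⟨hT false k₁ hk₁ j, ?_⟩
      have h1 : PP c n * u n * M n = PP c (n + sh true) * u n := by
        change _ = PP c n * c n * u n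
        rw [mul_assoc, mul_assoc, hc]
      rw [h1]
      exact hT true k₁ hk₁ j)
  refine ⟨L ++ L₁, y₁, n₁, v₂ * (u n)⁻¹,
    fun i e k => if i = n then min (q e k) (L ++ L₁).length else p i e k, hL₁, hn₁, hy₁,
    hv₂.mul hu.inv, fun i hi e k => ?_, ?_⟩
  · by_cases h1 : i = n
    · simp only [if_pos h1]
      exact min_le_right _ _
    · simp only [if_neg h1]
      have h2 := hp i (by omega) e k
      rw [List.length_append]
      omega
  intro A _ ι ψ hι hψ y hyv hym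
  have hLL : ∀ s ∈ L, s ∈ L ++ L₁ := fun s hs => List.mem_append_left _ hs
  obtain ⟨c', u', M', hu', hM', hcu', hcm', hs', b, v, hb, hv, hvm, he⟩ :=
    h ι ψ hι hψ y (hyv.mono hLL) (fun a b j hj => by
      have h1 : j < n₀ := hn j (List.mem_filterMap.2 ⟨_, hj, rfl⟩)
      rw [← hyy j h1]
      exact hym a b j (hLL _ hj))
  obtain ⟨uu, MM, bb, vv, huu, -, hum, hMM, hMm, hbb, hvv, hvvm, hee, hsec⟩ :=
    H ι ψ hι hψ y hyv hym v hv hvm
  have hPn : PP (fun i => if i < n then c' i else uu * MM * uu⁻¹) n = PP c' n :=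
    pp_congr fun i hi => if_pos hi
  have hPn1 : PP (fun i => if i < n then c' i else uu * MM * uu⁻¹) (n + 1) =
      PP c' n * (uu * MM * uu⁻¹) := by
    rw [PP, hPn, if_neg (lt_irrefl n)]
  refine ⟨fun i => if i < n then c' i else uu * MM * uu⁻¹, fun i => if i < n then u' i else uu,
    fun i => if i < n then M' i else MM, fun i hi => ?_, fun i hi => ?_, fun i hi => ?_,
    fun i hi => ?_, fun i hi e k hk' => ?_, b * bb, vv * uu⁻¹, hb.mul hbb, hvv.mul huu.inv, ?_, ?_⟩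
  · by_cases h1 : i < n
    · simp only [if_pos h1]
      exact hu' i h1
    · simp only [if_neg h1]
      exact huu
  · by_cases h1 : i < n
    · simp only [if_pos h1]
      exact hM' i h1
    · simp only [if_neg h1]
      obtain rfl : i = n := by omega
      exact hMM
  · by_cases h1 : i < n
    · simp only [if_pos h1]
      exact hcu' i h1
    · simp only [if_neg h1]
      rw [mul_assoc, huu.inv_mul, mul_one]
  · by_cases h1 : i < n
    · simp only [if_pos h1]
      exact hcm' i h1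
    · simp only [if_neg h1]
      obtain rfl : i = n := by omega
      rw [Matrix.map_mul, Matrix.map_mul, huu.map_inv, hum, hMm, ← hc, mul_assoc, hu.mul_inv,
        mul_one]
  · by_cases h1 : i < n
    · have h2 : i ≠ n := ne_of_lt h1
      simp only [if_pos h1, if_neg h2]
      have h3 : PP (fun i => if i < n then c' i else uu * MM * uu⁻¹) (i + sh e) =
          PP c' (i + sh e) := by
        refine pp_congr fun j hj => if_pos ?_
        cases e <;> simp only [sh] at hj <;> omega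
      rw [h3, List.take_append_of_le_length (hp i h1 e k)]
      exact hs' i h1 e k hk'
    · obtain rfl : i = n := by omega
      simp only [lt_irrefl, if_false, if_true]
      have h4 : ∀ j : ℕ, (L ++ L₁).take (min j (L ++ L₁).length) = (L ++ L₁).take j := by
        intro j
        rcases le_total j (L ++ L₁).length with h5 | h5
        · rw [min_eq_left h5]
        · rw [min_eq_right h5, List.take_length, List.take_of_length_le h5]
      rw [h4]
      cases e with
      | false =>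
        have h5 := ((hsec k hk').1).bu_mul hb
        change InCell nm k _ (PP (fun i_1 => if i_1 < i then c' i_1 else uu * MM * uu⁻¹) i * uu)
        rw [hPn, he]
        simpa only [mul_assoc] using h5
      | true =>
        have h5 := ((hsec k hk').2).bu_mul hb
        change InCell nm k _ (PP (fun i_1 => if i_1 < i then c' i_1 else uu * MM * uu⁻¹) (i + 1) * uu)
        rw [hPn1, he]
        have h6 : b * cev nm ι y L * v * (uu * MM * uu⁻¹) * uu =
            b * (cev nm ι y L * v * uu * MM) := by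
          have h7 : b * cev nm ι y L * v * (uu * MM * uu⁻¹) * uu =
            b * (cev nm ι y L * v * uu * MM) * (uu⁻¹ * uu) := by
            simp only [mul_assoc]
          rw [h7, huu.inv_mul, mul_one]
        rw [h6]
        exact h5
  · rw [Matrix.map_mul, huu.map_inv, hum, hvvm]
  · rw [hPn1, he]
    have h7 : b * cev nm ι y L * v * (uu * MM * uu⁻¹) =
        b * (cev nm ι y L * v * uu * MM) * uu⁻¹ := by
      simp only [mul_assoc]
    rw [h7, hee]
    simp only [mul_assoc]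

end Vale.Agent.P002B.LC

namespace Vale.Agent.P002B

open Matrix Vale.Agent.P002R Vale.Agent.P002L

/-- T4.5 -/
theorem chainAsm : ChainAsmStmt := by
  intro hC R _ φ r N nm m κ l c u M ks hu hM hc hk hT
  have key : ∀ n ≤ m, LC.ChainSt φ nm κ l c ks n := by
    intro n
    induction n with
    | zero => exact fun _ => LC.chainSt_zero φ nm κ l c ks
    | succ n ih =>
      intro hn
      exact LC.chainSt_succ hC φ nm κ l c u M ks n (hu n hn) (hM n hn) (hc n hn) (hk n hn)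
        (hT n hn) (ih (Nat.le_of_succ_le hn))
  obtain ⟨L, y₀, n₀, v₀, p, hL, -, hy, -, -, h⟩ := key m le_rfl
  refine ⟨L, y₀, p, hL, hy, ?_⟩
  intro A _ ι ψ hι hψ y hyv hym
  obtain ⟨c', u', M', h1, h2, h3, h4, h5, b, v, hb, hv, -, he⟩ := h ι ψ hι hψ y hyv hym
  exact ⟨c', u', M', h1, h2, h3, h4, h5, b, v, hb, hv, he⟩

end Vale.Agent.P002B
end

section

/-!
# P002, genus 0, arbitrary classes: the dichotomy from trivial position (T4.3)
-/

namespace Vale.Agent.P002B

open Matrix Vale.Agent.P002R Vale.Agent.P002L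

namespace LL

section inverse

variable {S : Type*} [CommRing S] {r N : ℕ} {nm : Fin r → Fin N}

theorem strict_pow {k : Fin N → ℕ} {n : Mat r S}
    (hn : ∀ i j, ¬ k (nm i) < k (nm j) → n i j = 0) (m : ℕ) :
    ∀ i j, ¬ k (nm i) + m ≤ k (nm j) → (n ^ m) i j = 0 := by
  induction m with
  | zero =>
    intro i j h
    rw [pow_zero, one_apply_ne]
    rintro rfl
    exact h (by simp)
  | succ m ih =>
    intro i j h
    rw [pow_succ, mul_apply]
    refine Finset.sum_eq_zero fun l _ => ?_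
    by_cases h1 : k (nm i) + m ≤ k (nm l)
    · rw [hn l j (fun h2 => h (by omega)), mul_zero]
    · rw [ih i l h1, zero_mul]

theorem bu_inv {k : Fin N → ℕ} {u : Mat r S} (hu : BU nm k u) :
    ∃ u' : Mat r S, BU nm k u' ∧ u * u' = 1 ∧ u' * u = 1 := by
  obtain ⟨n, hn⟩ : ∃ n : Mat r S, n = 1 - u := ⟨_, rfl⟩
  have hn' : ∀ i j, ¬ k (nm i) < k (nm j) → n i j = 0 := by
    intro i j h
    rw [hn, Matrix.sub_apply, hu i j h, sub_self]
  obtain ⟨K, hK⟩ : ∃ K : ℕ, ∀ c, k c < K :=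
    ⟨(Finset.univ.sup k) + 1, fun c => Nat.lt_succ_of_le (Finset.le_sup (Finset.mem_univ c))⟩
  have hz : n ^ K = 0 := by
    ext i j
    rw [strict_pow hn' K i j, Matrix.zero_apply]
    have := hK (nm j)
    omega
  have hu1 : u = 1 - n := by rw [hn]; abel
  refine ⟨∑ m ∈ Finset.range K, n ^ m, ?_, ?_, ?_⟩
  · intro i j h
    rw [Matrix.sum_apply]
    cases K with
    | zero => exact absurd (hK (nm i)) (by omega)
    | succ K =>
      rw [Finset.sum_range_succ', pow_zero, Finset.sum_eq_zero, zero_add]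
      intro m _
      exact strict_pow hn' (m + 1) i j (by omega)
  · rw [hu1, mul_neg_geom_sum, hz, sub_zero]
  · rw [hu1, geom_sum_mul_neg, hz, sub_zero]

end inverse

variable {r N : ℕ} {nm : Fin r → Fin N}

theorem bu_base_keep {b : Mat r ℂ} (hb : BU nm (bk N) b) {c : Fin N} {x : Fin r → ℂ}
    (hx : ∀ i, c < nm i → x i = 0) : ∀ i, c ≤ nm i → (b *ᵥ x) i = x i := by
  intro i hi
  rw [mulVec, dotProduct, Finset.sum_eq_single i]
  · rw [hb i i (lt_irrefl _), one_apply_eq, one_mul]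
  · intro j _ hj
    by_cases h : bk N (nm i) < bk N (nm j)
    · rw [hx j (lt_of_le_of_lt hi h), mul_zero]
    · rw [hb i j h, one_apply_ne hj.symm, zero_mul]
  · intro h
    exact absurd (Finset.mem_univ _) h

theorem bu_base_iff {b : Mat r ℂ} (hb : BU nm (bk N) b) {c : Fin N} {x : Fin r → ℂ} :
    (∀ i, c < nm i → (b *ᵥ x) i = 0) ↔ ∀ i, c < nm i → x i = 0 := by
  constructor
  · intro h
    obtain ⟨b', hb', -, h2⟩ := bu_inv hb
    intro i hi
    have h3 : x = b' *ᵥ (b *ᵥ x) := by rw [mulVec_mulVec, h2, one_mulVec]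
    rw [h3, bu_base_keep hb' h i hi.le]
    exact h i hi
  · intro h i hi
    rw [bu_base_keep hb h i hi.le]
    exact h i hi

theorem bu_seg {k : Fin N → ℕ} {v : Mat r ℂ} (hv : BU nm k v) (n : ℕ) {x : Fin r → ℂ}
    (hx : ∀ i, ¬ k (nm i) < n → x i = 0) : ∀ i, ¬ k (nm i) < n → (v *ᵥ x) i = 0 := by
  intro i hi
  rw [mulVec, dotProduct]
  refine Finset.sum_eq_zero fun j _ => ?_
  by_cases h : k (nm j) < n
  · rw [hv i j (by omega), one_apply_ne, zero_mul]
    rintro rfl
    exact hi h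
  · rw [hx j h, mul_zero]

theorem np_trans {k : Fin N → ℕ} {b Z v : Mat r ℂ} (hb : BU nm (bk N) b) (hv : BU nm k v)
    (n : ℕ) (c : Fin N) (h : NP nm (b * Z * v) (fun a => k a < n) c) :
    NP nm Z (fun a => k a < n) c := by
  obtain ⟨v', hv', h1, -⟩ := bu_inv hv
  intro x hx hz i hi
  have e : (b * Z * v) *ᵥ (v' *ᵥ x) = b *ᵥ (Z *ᵥ x) := by
    rw [mulVec_mulVec, mulVec_mulVec, Matrix.mul_assoc, h1, Matrix.mul_one]
  have h2 := h (v' *ᵥ x) (bu_seg hv' n hx) (by rw [e]; exact (bu_base_iff hb).2 hz) i hi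
  rw [e, bu_base_keep hb hz i hi.ge] at h2
  exact h2

theorem ip_trans {k : Fin N → ℕ} {b Z v : Mat r ℂ} (hb : BU nm (bk N) b) (hv : BU nm k v)
    (n : ℕ) (c : Fin N) (h : IP nm (b * Z * v) (fun a => k a < n) c) :
    IP nm Z (fun a => k a < n) c := by
  intro w
  obtain ⟨x, hx, hz, hw⟩ := h w
  have e : (b * Z * v) *ᵥ x = b *ᵥ (Z *ᵥ (v *ᵥ x)) := by
    rw [mulVec_mulVec, mulVec_mulVec, Matrix.mul_assoc]
  rw [e] at hz hw
  have hz' := (bu_base_iff hb).1 hz
  refine ⟨v *ᵥ x, bu_seg hv n hx, hz', fun i hi => ?_⟩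
  rw [← hw i hi, bu_base_keep hb hz' i hi.ge]

theorem ee_mulVec (a : Fin N) (x : Fin r → ℂ) (i : Fin r) :
    ((ee nm a : Mat r ℂ) *ᵥ x) i = if nm i = a then x i else 0 := by
  rw [ee, mulVec_diagonal]
  split_ifs
  · rw [one_mul]
  · rw [zero_mul]

theorem ee_mulVec_eq_zero {a : Fin N} {x : Fin r → ℂ} (h : ∀ i, nm i = a → x i = 0) :
    (ee nm a : Mat r ℂ) *ᵥ x = 0 := by
  funext i
  rw [ee_mulVec]
  split_ifs with h1
  · exact h i h1
  · rfl

theorem ee_mulVec_congr {a : Fin N} {x w : Fin r → ℂ} (h : ∀ i, nm i = a → x i = w i) :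
    (ee nm a : Mat r ℂ) *ᵥ x = (ee nm a : Mat r ℂ) *ᵥ w := by
  funext i
  rw [ee_mulVec, ee_mulVec]
  split_ifs with h1
  · exact h i h1
  · rfl

theorem ee_supp {a : Fin N} {x : Fin r → ℂ} (h : (ee nm a : Mat r ℂ) *ᵥ x = x) {i : Fin r}
    (hi : nm i ≠ a) : x i = 0 := by
  rw [← h, ee_mulVec, if_neg hi]

theorem unit_mulVec {W : Mat r ℂ} (hW : IsUnit W) {x : Fin r → ℂ} (h : W *ᵥ x = 0) : x = 0 := by
  obtain ⟨w, rfl⟩ := hW
  have : (↑w⁻¹ : Mat r ℂ) *ᵥ ((w : Mat r ℂ) *ᵥ x) = x := by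
    rw [mulVec_mulVec, w.inv_mul, one_mulVec]
  rw [← this, h, mulVec_zero]

theorem unit_mulVec_inj {W : Mat r ℂ} (hW : IsUnit W) {x y : Fin r → ℂ}
    (h : W *ᵥ x = W *ᵥ y) : x = y := by
  have := unit_mulVec hW (x := x - y) (by rw [mulVec_sub, h, sub_self])
  exact sub_eq_zero.1 this

theorem eq_zero_of_mulVec {y : Mat r ℂ} (h : ∀ x : Fin r → ℂ, y *ᵥ x = 0) : y = 0 := by
  ext i j
  have := congrFun (h (Pi.single j 1)) i
  rw [mulVec_single_one] at this
  exact this

/-- the core: `W (1 + y)` -/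
theorem dich_core {T : Fin N → Prop} {a b : Fin N} (hTb : T b) (hTa : ¬ T a)
    {π : Equiv.Perm (Fin N)} {W y : Mat r ℂ} (hW : BM nm π W) (hWu : IsUnit W)
    (hy : BB nm a b y) (hab : a ≠ b) (hπ : π b < π a)
    (hb : NP nm (W * (1 + y)) T (π b) ∨ IP nm (W * (1 + y)) T (π b))
    (ha : NP nm (W * (1 + y)) T (π a) ∨ IP nm (W * (1 + y)) T (π a)) :
    y = 0 ∨ ∃ z, BInv nm a b y z := by
  have hey : ee nm b * y = 0 := by
    rw [← bb_left hy, ← Matrix.mul_assoc, ee_mul_ee_ne hab.symm, Matrix.zero_mul]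
  have hZ : ∀ x, (W * (1 + y)) *ᵥ x = W *ᵥ (x + y *ᵥ x) := by
    intro x
    rw [← mulVec_mulVec, add_mulVec, one_mulVec]
  have hZc : ∀ c x, (ee nm (π c) : Mat r ℂ) *ᵥ ((W * (1 + y)) *ᵥ x) =
      W *ᵥ ((ee nm c : Mat r ℂ) *ᵥ (x + y *ᵥ x)) := by
    intro c x
    rw [hZ, mulVec_mulVec, ← bm_ee hW, ← mulVec_mulVec]
  have hTsup : ∀ x : Fin r → ℂ, (ee nm b : Mat r ℂ) *ᵥ x = x → ∀ i, ¬ T (nm i) → x i = 0 := by
    intro x hx i hi
    refine ee_supp hx ?_
    rintro h
    exact hi (h ▸ hTb)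
  have hxa : ∀ x : Fin r → ℂ, (∀ i, ¬ T (nm i) → x i = 0) → (ee nm a : Mat r ℂ) *ᵥ x = 0 :=
    fun x hx => ee_mulVec_eq_zero fun i hi => hx i (hi ▸ hTa)
  have hya : ∀ x, (ee nm a : Mat r ℂ) *ᵥ (y *ᵥ x) = y *ᵥ x := by
    intro x
    rw [mulVec_mulVec, bb_left hy]
  have hyb : ∀ x, (ee nm b : Mat r ℂ) *ᵥ (y *ᵥ x) = 0 := by
    intro x
    rw [mulVec_mulVec, hey, zero_mulVec]
  have hyb' : ∀ x, y *ᵥ ((ee nm b : Mat r ℂ) *ᵥ x) = y *ᵥ x := by
    intro x
    rw [mulVec_mulVec, bb_right hy]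
  have hbb : ∀ x, (ee nm b : Mat r ℂ) *ᵥ ((ee nm b : Mat r ℂ) *ᵥ x) = (ee nm b : Mat r ℂ) *ᵥ x := by
    intro x
    rw [mulVec_mulVec, ee_mul_ee_same]
  have y_zero : (∀ x : Fin r → ℂ, (ee nm b : Mat r ℂ) *ᵥ x = x → y *ᵥ x = 0) → y = 0 := by
    intro h
    refine eq_zero_of_mulVec fun x => ?_
    rw [← hyb']
    exact h _ (hbb x)
  rcases hb with hb | hb
  · rcases ha with ha | ha
    · -- `NP` at `π a`
      left
      refine y_zero fun x hx => ?_
      have h1 := ha x (hTsup x hx) (fun i hi => ?_)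
      · have h2 := ee_mulVec_eq_zero h1
        rw [hZc, mulVec_add, hya, hxa x (hTsup x hx), zero_add] at h2
        exact unit_mulVec hWu h2
      · rw [hZ, mulVec_add, Pi.add_apply]
        have e1 : W *ᵥ x = (ee nm (π b) : Mat r ℂ) *ᵥ (W *ᵥ x) := by
          conv_lhs => rw [← hx]
          rw [mulVec_mulVec, bm_ee hW, ← mulVec_mulVec]
        have e2 : W *ᵥ (y *ᵥ x) = (ee nm (π a) : Mat r ℂ) *ᵥ (W *ᵥ (y *ᵥ x)) := by
          conv_lhs => rw [← hya]
          rw [mulVec_mulVec, bm_ee hW, ← mulVec_mulVec]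
        rw [e1, e2, ee_mulVec, ee_mulVec, if_neg (hπ.trans hi).ne', if_neg hi.ne', add_zero]
    · -- bijective
      right
      have inj : ∀ x : Fin r → ℂ, (ee nm b : Mat r ℂ) *ᵥ x = x → y *ᵥ x = 0 → x = 0 := by
        intro x hx hyx
        have e1 : (W * (1 + y)) *ᵥ x = (ee nm (π b) : Mat r ℂ) *ᵥ ((W * (1 + y)) *ᵥ x) := by
          rw [hZc, mulVec_add, hx, hyb, add_zero, hZ, hyx, add_zero]
        have h1 := hb x (hTsup x hx) (fun i hi => ?_)
        · have h2 := ee_mulVec_eq_zero h1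
          rw [← e1, hZ, hyx, add_zero] at h2
          exact unit_mulVec hWu h2
        · rw [e1, ee_mulVec, if_neg hi.ne']
      have sur : ∀ w : Fin r → ℂ, ∃ x : Fin r → ℂ, (ee nm b : Mat r ℂ) *ᵥ x = x ∧
          y *ᵥ x = (ee nm a : Mat r ℂ) *ᵥ w := by
        intro w
        obtain ⟨x, hxT, -, hw⟩ := ha (W *ᵥ w)
        refine ⟨(ee nm b : Mat r ℂ) *ᵥ x, hbb x, ?_⟩
        rw [hyb']
        have h2 := ee_mulVec_congr hw
        rw [hZc, mulVec_add, hxa x hxT, zero_add, hya, mulVec_mulVec (v := w), ← bm_ee hW,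
          ← mulVec_mulVec (v := w)] at h2
        exact unit_mulVec_inj hWu h2
      choose s hs1 hs2 using sur
      obtain ⟨z₀, hz₀⟩ : ∃ z₀ : Mat r ℂ, z₀ = Matrix.of fun i j => s (Pi.single j 1) i := ⟨_, rfl⟩
      have hcol : ∀ (M : Mat r ℂ) j, (M * z₀).col j = M *ᵥ s (Pi.single j 1) := by
        intro M j
        funext i
        rw [Matrix.col_apply, mul_apply, mulVec, dotProduct, hz₀]
        rfl
      have h1 : y * z₀ = ee nm a := by
        ext i j
        have := congrFun (hcol y j) i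
        rw [Matrix.col_apply, hs2, mulVec_single_one] at this
        exact this
      have h2 : ee nm b * z₀ = z₀ := by
        ext i j
        have := congrFun (hcol (ee nm b) j) i
        rw [Matrix.col_apply, hs1] at this
        rw [this, hz₀]
        rfl
      have hz : BB nm b a (z₀ * ee nm a) := by
        refine bb_of ?_ ?_
        · rw [← Matrix.mul_assoc, h2]
        · rw [Matrix.mul_assoc, ee_mul_ee_same]
      have h3 : y * (z₀ * ee nm a) = ee nm a := by
        rw [← Matrix.mul_assoc, h1, ee_mul_ee_same]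
      refine ⟨z₀ * ee nm a, hy, hz, h3, ?_⟩
      have h4 : ∀ x : Fin r → ℂ, (z₀ * ee nm a * y - ee nm b) *ᵥ x = 0 := by
        intro x
        refine inj _ ?_ ?_
        · rw [mulVec_mulVec, Matrix.mul_sub, ee_mul_ee_same, ← Matrix.mul_assoc, bb_left hz]
        · rw [mulVec_mulVec, Matrix.mul_sub, bb_right hy, ← Matrix.mul_assoc, h3, bb_left hy,
            sub_self, zero_mulVec]
      exact sub_eq_zero.1 (eq_zero_of_mulVec h4)
  · -- `IP` at `π b`
    left
    refine y_zero fun x hx => ?_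
    obtain ⟨x', hxT, hz, hw⟩ := hb (W *ᵥ x)
    have h2 := ee_mulVec_congr hw
    rw [hZc, mulVec_add, hyb, add_zero, mulVec_mulVec (v := x), ← bm_ee hW,
      ← mulVec_mulVec (v := x), hx] at h2
    have h3 := unit_mulVec_inj hWu h2
    have h4 : (ee nm (π a) : Mat r ℂ) *ᵥ ((W * (1 + y)) *ᵥ x') = 0 :=
      ee_mulVec_eq_zero fun i hi => hz i (by rw [hi]; exact hπ)
    rw [hZc, mulVec_add, hya, hxa x' hxT, zero_add] at h4
    have h5 := unit_mulVec hWu h4
    rw [← h3, hyb']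
    exact h5

end LL

open LL

/-- T4.3. -/
theorem dichStmt : DichStmt := by
  intro r N nm k k' a b hA π b₀ W v₀ ζ₀ u₁ hb₀ hW hWu hv₀ hζ₀ hu₁ hπ hTP
  have hne : a ≠ b := fun h' => by
    have := hA.1
    rw [h'] at this
    exact lt_irrefl _ this
  have hy : BB nm a b (yy nm a b v₀ ζ₀) := bb_add (bb_ee a b v₀) hζ₀
  have e : b₀ * W * v₀ * (1 + ζ₀) * u₁ = b₀ * (W * (1 + yy nm a b v₀ ζ₀)) *
      ((1 - yy nm a b v₀ ζ₀) * v₀ * (1 + ζ₀) * u₁) := by
    rw [Matrix.mul_assoc (b₀ * W), elim_eq hne hζ₀]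
    simp only [Matrix.mul_assoc]
  have hv : BU nm k' ((1 - yy nm a b v₀ ζ₀) * v₀ * (1 + ζ₀) * u₁) :=
    bu_mul (bu_elim hA hv₀ hζ₀) hu₁
  rw [e] at hTP
  refine dich_core (T := fun c => k' c < k' b + 1) (Nat.lt_succ_self _) ?_ hW hWu hy hne hπ ?_ ?_
  · have := hA.2.1
    change ¬ k' a < k' b + 1
    omega
  · exact (hTP (π b)).imp (np_trans hb₀ hv _ _) (ip_trans hb₀ hv _ _)
  · exact (hTP (π a)).imp (np_trans hb₀ hv _ _) (ip_trans hb₀ hv _ _)

end Vale.Agent.P002B
end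

section

/-!
# P002, genus 0, arbitrary classes: the lifting theorem (T4)
-/

namespace Vale.Agent.P002B

/-- T4. -/
theorem liftStmt : LiftStmt := chainAsm (classAsm passStmt stayStmt dichStmt)

end Vale.Agent.P002B
end

section

/-!
# P002, genus 0, arbitrary classes: absorption of the errors (second version), part 1

Supports of block matrices, block unipotent matrices, paths of orders.
-/

namespace Vale.Agent.P002B.AB

open Matrix Vale.Agent.P002R Vale.Agent.P002L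

variable {S T : Type*} [CommRing S] [CommRing T] {r N : ℕ} {nm : Fin r → Fin N}

/-- The blocks of `X` are supported in the relation `ρ`. -/
def Sp (nm : Fin r → Fin N) (ρ : Fin N → Fin N → Prop) (X : Mat r S) : Prop :=
  ∀ i j, ¬ ρ (nm i) (nm j) → X i j = 0

theorem Sp.mono {ρ σ : Fin N → Fin N → Prop} {X : Mat r S} (h : Sp nm ρ X)
    (hs : ∀ a b, ρ a b → σ a b) : Sp nm σ X := fun i j hij => h i j fun h1 => hij (hs _ _ h1)

theorem Sp.mul {ρ σ τ : Fin N → Fin N → Prop} {X Y : Mat r S} (hX : Sp nm ρ X) (hY : Sp nm σ Y)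
    (h : ∀ a b c, ρ a b → σ b c → τ a c) : Sp nm τ (X * Y) := by
  intro i j hij
  rw [mul_apply]
  refine Finset.sum_eq_zero fun k _ => ?_
  by_cases h1 : ρ (nm i) (nm k)
  · have h2 : ¬ σ (nm k) (nm j) := fun h2 => hij (h _ _ _ h1 h2)
    rw [hY k j h2, mul_zero]
  · rw [hX i k h1, zero_mul]

theorem Sp.add {ρ : Fin N → Fin N → Prop} {X Y : Mat r S} (hX : Sp nm ρ X) (hY : Sp nm ρ Y) :
    Sp nm ρ (X + Y) := fun i j hij => by rw [Matrix.add_apply, hX i j hij, hY i j hij, add_zero]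

theorem Sp.neg {ρ : Fin N → Fin N → Prop} {X : Mat r S} (hX : Sp nm ρ X) : Sp nm ρ (-X) :=
  fun i j hij => by rw [Matrix.neg_apply, hX i j hij, neg_zero]

theorem Sp.eq_zero {ρ : Fin N → Fin N → Prop} {X : Mat r S} (hX : Sp nm ρ X)
    (h : ∀ a b, ¬ ρ a b) : X = 0 := by
  ext i j
  exact hX i j (h _ _)

theorem bu_iff {k : Fin N → ℕ} {u : Mat r S} :
    BU nm k u ↔ Sp nm (fun a c => k a < k c) (u - 1) := by
  constructor
  · intro h i j hij
    rw [Matrix.sub_apply, h i j hij, sub_self]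
  · intro h i j hij
    have h1 := h i j hij
    rw [Matrix.sub_apply] at h1
    exact sub_eq_zero.1 h1

theorem bu_one_add {k : Fin N → ℕ} {x : Mat r S} (h : Sp nm (fun a c => k a < k c) x) :
    BU nm k (1 + x) := by
  rw [bu_iff, add_sub_cancel_left]
  exact h

theorem bu_one_sub {k : Fin N → ℕ} {x : Mat r S} (h : Sp nm (fun a c => k a < k c) x) :
    BU nm k (1 - x) := by
  rw [sub_eq_add_neg]
  exact bu_one_add h.neg

theorem bu_mul {k : Fin N → ℕ} {u v : Mat r S} (hu : BU nm k u) (hv : BU nm k v) :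
    BU nm k (u * v) := by
  rw [bu_iff] at hu hv ⊢
  have h : u * v - 1 = (u - 1) + (v - 1) + (u - 1) * (v - 1) := by noncomm_ring
  rw [h]
  exact (hu.add hv).add (hu.mul hv fun a b c h1 h2 => h1.trans h2)

theorem bu_one {k : Fin N → ℕ} : BU nm k (1 : Mat r S) := fun _ _ _ => rfl

theorem bu_tri {k : Fin N → ℕ} {u : Mat r S} (hu : BU nm k u) :
    u.BlockTriangular (k ∘ nm) := by
  intro i j hij
  have hij' : k (nm j) < k (nm i) := hij
  rw [hu i j (not_lt.2 hij'.le), one_apply_ne]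
  rintro rfl
  exact lt_irrefl _ hij'

theorem bu_det {k : Fin N → ℕ} {u : Mat r S} (hu : BU nm k u) : u.det = 1 := by
  rw [(bu_tri hu).det]
  refine Finset.prod_eq_one fun a _ => ?_
  have h : u.toSquareBlock (k ∘ nm) a = 1 := by
    ext i j
    have h1 : k (nm i.1) = a := i.2
    have h2 : k (nm j.1) = a := j.2
    rw [toSquareBlock_def]
    change u i.1 j.1 = _
    rw [hu i.1 j.1 (by rw [h1, h2]; exact lt_irrefl _)]
    simp only [one_apply, Subtype.ext_iff]
  rw [h, det_one]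

theorem bu_isUnit {k : Fin N → ℕ} {u : Mat r S} (hu : BU nm k u) : IsUnit u.det := by
  rw [bu_det hu]
  exact isUnit_one

theorem bu_mul_inv {k : Fin N → ℕ} {u : Mat r S} (hu : BU nm k u) : u * u⁻¹ = 1 :=
  mul_nonsing_inv _ (bu_isUnit hu)

theorem bu_inv_mul {k : Fin N → ℕ} {u : Mat r S} (hu : BU nm k u) : u⁻¹ * u = 1 :=
  nonsing_inv_mul _ (bu_isUnit hu)

theorem bu_inv {k : Fin N → ℕ} {u : Mat r S} (hu : BU nm k u) : BU nm k u⁻¹ := by
  have h1 : Sp nm (fun a c => k a ≤ k c) u⁻¹ := by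
    have := Matrix.invertibleOfIsUnitDet u (bu_isUnit hu)
    have h2 := Matrix.blockTriangular_inv_of_blockTriangular (bu_tri hu)
    intro i j hij
    exact h2 (not_le.1 hij)
  have h3 : u⁻¹ - 1 = -((u - 1) * u⁻¹) := by
    rw [sub_mul, bu_mul_inv hu, one_mul, neg_sub]
  rw [bu_iff, h3]
  exact ((bu_iff.1 hu).mul h1 fun a b c h4 h5 => lt_of_lt_of_le h4 h5).neg

/-- Block unipotent matrices have entries only in blocks `(a, c)` with `k a ≤ k c`. -/
theorem bu_sp {k : Fin N → ℕ} {u : Mat r S} (hu : BU nm k u) :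
    Sp nm (fun a c => k a ≤ k c) u := by
  intro i j hij
  exact bu_tri hu (not_le.1 hij)

theorem inCell_left {k : Fin N → ℕ} {W X L : Mat r S} (h : InCell nm k W X)
    (hL : BU nm (bk N) L) : InCell nm k W (L * X) := by
  obtain ⟨b, v, hb, hv, rfl⟩ := h
  exact ⟨L * b, v, bu_mul hL hb, hv, by simp only [Matrix.mul_assoc]⟩

theorem inCell_right {k : Fin N → ℕ} {W X V : Mat r S} (h : InCell nm k W X)
    (hV : BU nm k V) : InCell nm k W (X * V) := by
  obtain ⟨b, v, hb, hv, rfl⟩ := h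
  exact ⟨b, v * V, hb, bu_mul hv hV, by simp only [Matrix.mul_assoc]⟩

/-! ### Paths of orders -/

theorem kp_after {κ k0 : Fin N → ℕ} {ks : List (Fin N → ℕ)} (h : KP κ k0 ks) :
    ∀ k ∈ ks, ∀ c d, κ c < κ d → k0 c < k0 d → k c < k d := by
  induction h with
  | last k h =>
    intro k1 hk1 c d _ h2
    rw [List.mem_singleton] at hk1
    rw [hk1]
    exact h2
  | step k k' ks a b hab hκ h hk ih =>
    intro k1 hk1 c d h1 h2
    rcases List.mem_cons.1 hk1 with rfl | hk1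
    · exact h2
    · refine ih k1 hk1 c d h1 ((h.2.2.1 c d ?_ ?_).1 h2)
      · rintro ⟨rfl, rfl⟩
        exact absurd h1 (not_lt.2 hκ.le)
      · rintro ⟨rfl, rfl⟩
        exact absurd h2 (not_lt.2 h.1.le)

theorem kp_before {κ k0 : Fin N → ℕ} {ks : List (Fin N → ℕ)} (h : KP κ k0 ks) :
    ∀ k ∈ ks, ∀ c d : Fin N, c < d → k c < k d → k0 c < k0 d := by
  induction h with
  | last k h =>
    intro k1 hk1 c d _ h2
    rw [List.mem_singleton] at hk1
    rw [← hk1]
    exact h2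
  | step k k' ks a b hab hκ h hk ih =>
    intro k1 hk1 c d h1 h2
    rcases List.mem_cons.1 hk1 with rfl | hk1
    · exact h2
    · have h3 := ih k1 hk1 c d h1 h2
      by_cases h4 : c = a ∧ d = b
      · rw [h4.1, h4.2]
        exact h.1
      · refine (h.2.2.1 c d h4 ?_).2 h3
        rintro ⟨rfl, rfl⟩
        exact absurd h1 (not_lt.2 hab.le)

theorem kp_dich {κ k0 : Fin N → ℕ} {ks : List (Fin N → ℕ)} (h : KP κ k0 ks) :
    ∀ k ∈ ks, ∀ k1 ∈ ks, (∀ c d : Fin N, c < d → k c < k d → k1 c < k1 d) ∨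
      ∀ c d, κ c < κ d → k c < k d → k1 c < k1 d := by
  induction h with
  | last k h =>
    intro k1 hk1 k2 hk2
    rw [List.mem_singleton] at hk1 hk2
    rw [hk1, hk2]
    exact Or.inl fun c d _ h => h
  | step k k' ks a b hab hκ h hk ih =>
    intro k1 hk1 k2 hk2
    have hstep := KP.step k k' ks a b hab hκ h hk
    rcases List.mem_cons.1 hk1 with hk1' | hk1'
    · right
      rw [hk1']
      exact kp_after hstep k2 hk2
    · rcases List.mem_cons.1 hk2 with hk2' | hk2'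
      · left
        rw [hk2']
        exact kp_before hstep k1 hk1
      · exact ih k1 hk1' k2 hk2'

/-- The part outside the increasing one is separated. -/
theorem seg_sep {κ : Fin N → ℕ} {l s s' : ℕ} {c d : Fin N} (hc : Seg κ l s s' c)
    (hd : ¬ Seg κ l s s' d) (h : ¬ κ c < κ d) :
    (((c : ℕ) < s ∧ s ≤ (d : ℕ)) ∨ ((c : ℕ) < s' ∧ s' ≤ (d : ℕ))) ∧ c < d := by
  unfold Seg at hc hd
  rw [Fin.lt_def]
  omega

end Vale.Agent.P002B.AB
end

section

/-!
# P002, genus 0, arbitrary classes: absorption of the errors (second version), part 2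

The two transformations of the tuple.
-/

namespace Vale.Agent.P002B.AB

open Matrix Vale.Agent.P002R Vale.Agent.P002L

/-- The data which are preserved by the moves. -/
structure St {A : Type} [CommRing A] {r N : ℕ} (nm : Fin r → Fin N) (m : ℕ)
    (κ : ℕ → Fin N → ℕ) (l : ℕ → ℕ → A) (ks : ℕ → List (Fin N → ℕ))
    (π : ℕ → Bool → (Fin N → ℕ) → Equiv.Perm (Fin N)) (c u M : ℕ → Mat r A) : Prop where
  bu : ∀ i < m, BU nm (bk N) (u i)
  kup : ∀ i < m, Kup (κ i ∘ nm) (l i) (M i)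
  eq : ∀ i < m, c i * u i = u i * M i
  cell : ∀ i < m, ∀ e : Bool, ∀ k ∈ ks i, ∃ W : Mat r A, BM nm (π i e k) W ∧ IsUnit W ∧
    InCell nm k W (PP c (i + sh e) * u i)

section

variable {S : Type*} [CommRing S] {r N : ℕ} {nm : Fin r → Fin N}

theorem PP_congr {c c' : ℕ → Mat r S} {n : ℕ} (h : ∀ j < n, c' j = c j) :
    ∀ j ≤ n, PP c' j = PP c j := by
  intro j
  induction j with
  | zero => intro _; rfl
  | succ j ih => intro hj; rw [PP, PP, ih (by omega), h j (by omega)]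

theorem PP_conj {c c' : ℕ → Mat r S} {n : ℕ} {L G Gi : Mat r S} (hG : Gi * G = 1)
    (h0 : PP c' n = L * PP c n * Gi) (h : ∀ j, n ≤ j → c' j = G * c j * Gi) :
    ∀ j, n ≤ j → PP c' j = L * PP c j * Gi := by
  intro j hj
  induction j, hj using Nat.le_induction with
  | base => exact h0
  | succ j hj ih =>
    rw [PP, PP, ih, h j hj]
    calc L * PP c j * Gi * (G * c j * Gi) = L * PP c j * (Gi * G) * c j * Gi := by
          simp only [Matrix.mul_assoc]
      _ = L * (PP c j * c j) * Gi := by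
          rw [hG, Matrix.mul_one]
          simp only [Matrix.mul_assoc]

theorem kup_sp {κ : Fin N → ℕ} {l : ℕ → S} {M : Mat r S} (h : Kup (κ ∘ nm) l M) :
    Sp nm (fun a c => κ a ≤ κ c) M := by
  intro i j hij
  refine h.2 i j ?_ ?_
  · rintro rfl
    exact hij le_rfl
  · exact fun h1 => hij (le_of_lt h1)

theorem kup_add {κ : Fin N → ℕ} {l : ℕ → S} {M X : Mat r S} (h : Kup (κ ∘ nm) l M)
    (hX : Sp nm (fun a c => κ a < κ c) X) : Kup (κ ∘ nm) l (M + X) := by
  constructor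
  · intro i
    rw [Matrix.add_apply, hX i i (lt_irrefl _), add_zero]
    exact h.1 i
  · intro i j hij hlt
    rw [Matrix.add_apply, h.2 i j hij hlt, hX i j hlt, add_zero]

theorem kup_mul_right {κ : Fin N → ℕ} {l : ℕ → S} {M z : Mat r S} (h : Kup (κ ∘ nm) l M)
    (hz : Sp nm (fun a c => κ a < κ c) z) : Kup (κ ∘ nm) l (M * (1 + z)) := by
  rw [mul_add, Matrix.mul_one]
  exact kup_add h ((kup_sp h).mul hz fun a b c h1 h2 => lt_of_le_of_lt h1 h2)

theorem kup_mul_left {κ : Fin N → ℕ} {l : ℕ → S} {M z : Mat r S} (h : Kup (κ ∘ nm) l M)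
    (hz : Sp nm (fun a c => κ a < κ c) z) : Kup (κ ∘ nm) l ((1 + z) * M) := by
  rw [add_mul, Matrix.one_mul]
  exact kup_add h (hz.mul (kup_sp h) fun a b c h1 h2 => lt_of_lt_of_le h1 h2)

end

section alg

variable {R : Type*} [Ring R]

theorem alg_conj {a a' y : R} (h : a * a' = 1) (h' : a' * a = 1) (hy : y * y = 0) :
    a * (1 - y) * a' * (a * (1 + y) * a') = 1 := by
  have h1 : a * (1 - y) * a' * (a * (1 + y) * a') = a * ((1 - y) * (a' * a) * (1 + y)) * a' := by
    simp only [mul_assoc]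
  have h2 : (1 - y) * (1 + y) = 1 - y * y := by noncomm_ring
  rw [h1, h', mul_one, h2, hy, sub_zero, mul_one, h]

theorem alg_y {y z : R} (hyy : y * y = 0) (hzy : z * y = 0) : (1 + y + z) * (1 - y) = 1 + z := by
  have h : (1 + y + z) * (1 - y) = 1 + z - y * y - z * y := by noncomm_ring
  rw [h, hyy, hzy, sub_zero, sub_zero]

theorem alg_z {y z : R} (hzz : z * z = 0) (hyz : y * z = 0) : (1 + y + z) * (1 - z) = 1 + y := by
  have h : (1 + y + z) * (1 - z) = 1 + y - y * z - z * z := by noncomm_ring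
  rw [h, hyz, hzz, sub_zero, sub_zero]

theorem alg_yz {y z : R} (hyz : y * z = 0) : (1 + y) * (1 + z) = 1 + y + z := by
  have h : (1 + y) * (1 + z) = 1 + y + z + y * z := by noncomm_ring
  rw [h, hyz, add_zero]

end alg

variable {A B : Type} [CommRing A] [CommRing B] {r N : ℕ} {nm : Fin r → Fin N} {m : ℕ}
  {κ : ℕ → Fin N → ℕ} {l : ℕ → ℕ → A} {ks : ℕ → List (Fin N → ℕ)}
  {π : ℕ → Bool → (Fin N → ℕ) → Equiv.Perm (Fin N)} {c u M : ℕ → Mat r A}

/-- Conjugation does not change the reduction. -/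
theorem map_conj {ψ : A →+* B} {a a' y : Mat r A} (x : Mat r A) (h : a * a' = 1)
    (hy : ψ.mapMatrix y = 0) :
    ψ.mapMatrix (a * (1 + y) * a' * x * (a * (1 - y) * a')) = ψ.mapMatrix x := by
  have h1 : ψ.mapMatrix a * ψ.mapMatrix a' = 1 := by rw [← map_mul, h, map_one]
  simp only [map_mul, map_add, map_sub, map_one, hy, add_zero, sub_zero, mul_one, h1, one_mul]

theorem trans_true (h : St nm m κ l ks π c u M) {i : ℕ} (hi : i < m) {L y z : Mat r A}
    (hL : BU nm (bk N) L) (hyy : y * y = 0) (hzy : z * y = 0)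
    (hLX : L * (PP c (i + 1) * u i) = PP c (i + 1) * u i * (1 + y + z))
    (hy : Sp nm (fun a c => bk N a < bk N c) y)
    (hk : ∀ k1 ∈ ks i, Sp nm (fun a c => k1 a < k1 c) y ∨ Sp nm (fun a c => k1 a < k1 c) z)
    (hz : Sp nm (fun a c => κ i a < κ i c) z) (ψ : A →+* B) (hψy : ψ.mapMatrix y = 0)
    (hψz : ψ.mapMatrix z = 0) :
    ∃ c' u' M' : ℕ → Mat r A, St nm m κ l ks π c' u' M' ∧
      (∀ j < m, ψ.mapMatrix (c' j) = ψ.mapMatrix (c j)) ∧
      PP c' m = L * PP c m * (u i * (1 - y) * (u i)⁻¹) := by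
  have hui := h.bu i hi
  have e1 := bu_mul_inv hui
  have e2 := bu_inv_mul hui
  obtain ⟨G, hG⟩ : ∃ G, G = u i * (1 + y) * (u i)⁻¹ := ⟨_, rfl⟩
  obtain ⟨Gi, hGi⟩ : ∃ Gi, Gi = u i * (1 - y) * (u i)⁻¹ := ⟨_, rfl⟩
  have hGG : Gi * G = 1 := by
    rw [hG, hGi]
    exact alg_conj e1 e2 hyy
  have hGB : BU nm (bk N) G := by
    rw [hG]
    exact bu_mul (bu_mul hui (bu_one_add hy)) (bu_inv hui)
  obtain ⟨c', hc'⟩ : ∃ c' : ℕ → Mat r A, c' = fun j => if j < i then c j else
    if j = i then u i * M i * (1 + z) * (u i)⁻¹ else G * c j * Gi := ⟨_, rfl⟩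
  have c1 : ∀ j < i, c' j = c j := fun j hj => by
    rw [hc']
    exact if_pos hj
  have c2 : c' i = u i * M i * (1 + z) * (u i)⁻¹ := by
    rw [hc']
    simp only [lt_irrefl, if_false, if_true]
  have c3 : ∀ j, i + 1 ≤ j → c' j = G * c j * Gi := fun j hj => by
    rw [hc']
    simp only [if_neg (show ¬ j < i by omega), if_neg (show ¬ j = i by omega)]
  have p1 : ∀ j ≤ i, PP c' j = PP c j := PP_congr c1
  have p2 : PP c' (i + 1) = PP c (i + 1) * u i * (1 + z) * (u i)⁻¹ := by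
    rw [PP, p1 i le_rfl, c2, ← h.eq i hi, PP]
    simp only [Matrix.mul_assoc]
  have p3 : PP c' (i + 1) = L * PP c (i + 1) * Gi := by
    have h1 : L * PP c (i + 1) * Gi = L * (PP c (i + 1) * u i) * (1 - y) * (u i)⁻¹ := by
      rw [hGi]
      simp only [Matrix.mul_assoc]
    rw [p2, h1, hLX, Matrix.mul_assoc (PP c (i + 1) * u i) _ (1 - y), alg_y hyy hzy]
  have p4 : ∀ j, i + 1 ≤ j → PP c' j = L * PP c j * Gi := PP_conj hGG p3 c3
  obtain ⟨u', hu'⟩ : ∃ u' : ℕ → Mat r A, u' = fun j => if j ≤ i then u j else G * u j := ⟨_, rfl⟩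
  have u1 : ∀ j ≤ i, u' j = u j := fun j hj => by
    rw [hu']
    exact if_pos hj
  have u2 : ∀ j, i + 1 ≤ j → u' j = G * u j := fun j hj => by
    rw [hu']
    exact if_neg (by omega)
  obtain ⟨M', hM'⟩ : ∃ M' : ℕ → Mat r A, M' = fun j => if j = i then M i * (1 + z) else M j :=
    ⟨_, rfl⟩
  have M1 : ∀ j, j ≠ i → M' j = M j := fun j hj => by
    rw [hM']
    exact if_neg hj
  have M2 : M' i = M i * (1 + z) := by
    rw [hM']
    exact if_pos rfl
  refine ⟨c', u', M', ⟨?_, ?_, ?_, ?_⟩, ?_, ?_⟩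
  · intro j hj
    rcases Nat.lt_or_ge i j with hij | hij
    · rw [u2 j hij]
      exact bu_mul hGB (h.bu j hj)
    · rw [u1 j hij]
      exact h.bu j hj
  · intro j hj
    by_cases hij : j = i
    · subst hij
      rw [M2]
      exact kup_mul_right (h.kup j hj) hz
    · rw [M1 j hij]
      exact h.kup j hj
  · intro j hj
    rcases lt_trichotomy j i with hij | hij | hij
    · rw [c1 j hij, u1 j hij.le, M1 j hij.ne]
      exact h.eq j hj
    · subst hij
      rw [c2, u1 j le_rfl, M2, Matrix.mul_assoc _ (u j)⁻¹ (u j), e2, Matrix.mul_one,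
        Matrix.mul_assoc]
    · rw [c3 j hij, u2 j hij, M1 j hij.ne']
      calc G * c j * Gi * (G * u j) = G * c j * (Gi * G) * u j := by
            simp only [Matrix.mul_assoc]
        _ = G * (c j * u j) := by rw [hGG, Matrix.mul_one, Matrix.mul_assoc]
        _ = G * u j * M j := by rw [h.eq j hj, Matrix.mul_assoc]
  · intro j hj e k1 hk1
    rcases lt_trichotomy j i with hij | hij | hij
    · have h1 : j + sh e ≤ i := by
        cases e
        · exact hij.le
        · exact hij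
      rw [p1 _ h1, u1 j hij.le]
      exact h.cell j hj e k1 hk1
    · subst hij
      rw [u1 j le_rfl]
      cases e with
      | false =>
        change ∃ W : Mat r A, BM nm (π j false k1) W ∧ IsUnit W ∧ InCell nm k1 W (PP c' j * u j)
        rw [p1 j le_rfl]
        exact h.cell j hj false k1 hk1
      | true =>
        change ∃ W : Mat r A, BM nm (π j true k1) W ∧ IsUnit W ∧
          InCell nm k1 W (PP c' (j + 1) * u j)
        obtain ⟨W, hW1, hW2, hW3⟩ := h.cell j hj true k1 hk1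
        replace hW3 : InCell nm k1 W (PP c (j + 1) * u j) := hW3
        refine ⟨W, hW1, hW2, ?_⟩
        have h1 : PP c' (j + 1) * u j = PP c (j + 1) * u j * (1 + z) := by
          rw [p2, Matrix.mul_assoc _ (u j)⁻¹ (u j), e2, Matrix.mul_one]
        rcases hk k1 hk1 with h2 | h2
        · have h3 : PP c' (j + 1) * u j = L * (PP c (j + 1) * u j * (1 - y)) := by
            rw [← Matrix.mul_assoc, hLX, Matrix.mul_assoc (PP c (j + 1) * u j) _ (1 - y),
              alg_y hyy hzy, h1]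
          rw [h3]
          exact inCell_left (inCell_right hW3 (bu_one_sub h2)) hL
        · rw [h1]
          exact inCell_right hW3 (bu_one_add h2)
    · have h1 : PP c' (j + sh e) * u' j = L * (PP c (j + sh e) * u j) := by
        rw [p4 _ (by omega), u2 j hij]
        calc L * PP c (j + sh e) * Gi * (G * u j) = L * PP c (j + sh e) * (Gi * G) * u j := by
              simp only [Matrix.mul_assoc]
          _ = L * (PP c (j + sh e) * u j) := by rw [hGG, Matrix.mul_one, Matrix.mul_assoc]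
      obtain ⟨W, hW1, hW2, hW3⟩ := h.cell j hj e k1 hk1
      refine ⟨W, hW1, hW2, ?_⟩
      rw [h1]
      exact inCell_left hW3 hL
  · intro j hj
    rcases lt_trichotomy j i with hij | hij | hij
    · rw [c1 j hij]
    · subst hij
      have h1 : c j = u j * M j * (u j)⁻¹ := by
        rw [← h.eq j hj, Matrix.mul_assoc, e1, Matrix.mul_one]
      rw [c2, h1]
      simp only [map_mul, map_add, map_one, hψz, add_zero, mul_one]
    · rw [c3 j hij, hG, hGi]
      exact map_conj (c j) e1 hψy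
  · rw [← hGi]
    exact p4 m hi

theorem trans_false (h : St nm m κ l ks π c u M) {i : ℕ} (hi : i < m) {L y z : Mat r A}
    (hL : BU nm (bk N) L) (hyy : y * y = 0) (hzz : z * z = 0) (hyz : y * z = 0)
    (hLX : L * (PP c i * u i) = PP c i * u i * (1 + y + z))
    (hy : Sp nm (fun a c => bk N a < bk N c) y)
    (hk : ∀ k1 ∈ ks i, Sp nm (fun a c => k1 a < k1 c) y ∨ Sp nm (fun a c => k1 a < k1 c) z)
    (hz : Sp nm (fun a c => κ i a < κ i c) z) (ψ : A →+* B) (hψy : ψ.mapMatrix y = 0)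
    (hψz : ψ.mapMatrix z = 0) :
    ∃ c' u' M' : ℕ → Mat r A, St nm m κ l ks π c' u' M' ∧
      (∀ j < m, ψ.mapMatrix (c' j) = ψ.mapMatrix (c j)) ∧
      PP c' m = L * PP c m * (u i * (1 - y) * (u i)⁻¹) := by
  have hui := h.bu i hi
  have e1 := bu_mul_inv hui
  have e2 := bu_inv_mul hui
  obtain ⟨G, hG⟩ : ∃ G, G = u i * (1 + y) * (u i)⁻¹ := ⟨_, rfl⟩
  obtain ⟨Gi, hGi⟩ : ∃ Gi, Gi = u i * (1 - y) * (u i)⁻¹ := ⟨_, rfl⟩
  have hGG : Gi * G = 1 := by
    rw [hG, hGi]
    exact alg_conj e1 e2 hyy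
  have hGu : G * u i = u i * (1 + y) := by
    rw [hG, Matrix.mul_assoc, e2, Matrix.mul_one]
  have hGB : BU nm (bk N) G := by
    rw [hG]
    exact bu_mul (bu_mul hui (bu_one_add hy)) (bu_inv hui)
  have hci : c i = u i * M i * (u i)⁻¹ := by
    rw [← h.eq i hi, Matrix.mul_assoc, e1, Matrix.mul_one]
  obtain ⟨c', hc'⟩ : ∃ c' : ℕ → Mat r A, c' = fun j => if j < i then c j else
    if j = i then G * u i * (1 + z) * M i * (u i)⁻¹ * Gi else G * c j * Gi := ⟨_, rfl⟩
  have c1 : ∀ j < i, c' j = c j := fun j hj => by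
    rw [hc']
    exact if_pos hj
  have c2 : c' i = G * u i * (1 + z) * M i * (u i)⁻¹ * Gi := by
    rw [hc']
    simp only [lt_irrefl, if_false, if_true]
  have c3 : ∀ j, i + 1 ≤ j → c' j = G * c j * Gi := fun j hj => by
    rw [hc']
    simp only [if_neg (show ¬ j < i by omega), if_neg (show ¬ j = i by omega)]
  have p1 : ∀ j ≤ i, PP c' j = PP c j := PP_congr c1
  have p3 : PP c' (i + 1) = L * PP c (i + 1) * Gi := by
    rw [PP, p1 i le_rfl, c2, hGu, PP, hci]
    calc PP c i * (u i * (1 + y) * (1 + z) * M i * (u i)⁻¹ * Gi)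
        = PP c i * u i * ((1 + y) * (1 + z)) * (M i * (u i)⁻¹ * Gi) := by
          simp only [Matrix.mul_assoc]
      _ = L * (PP c i * u i) * (M i * (u i)⁻¹ * Gi) := by rw [alg_yz hyz, ← hLX]
      _ = L * (PP c i * (u i * M i * (u i)⁻¹)) * Gi := by simp only [Matrix.mul_assoc]
  have p4 : ∀ j, i + 1 ≤ j → PP c' j = L * PP c j * Gi := PP_conj hGG p3 c3
  obtain ⟨u', hu'⟩ : ∃ u' : ℕ → Mat r A, u' = fun j => if j < i then u j else G * u j := ⟨_, rfl⟩
  have u1 : ∀ j < i, u' j = u j := fun j hj => by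
    rw [hu']
    exact if_pos hj
  have u2 : ∀ j, i ≤ j → u' j = G * u j := fun j hj => by
    rw [hu']
    exact if_neg (by omega)
  obtain ⟨M', hM'⟩ : ∃ M' : ℕ → Mat r A, M' = fun j => if j = i then (1 + z) * M i else M j :=
    ⟨_, rfl⟩
  have M1 : ∀ j, j ≠ i → M' j = M j := fun j hj => by
    rw [hM']
    exact if_neg hj
  have M2 : M' i = (1 + z) * M i := by
    rw [hM']
    exact if_pos rfl
  refine ⟨c', u', M', ⟨?_, ?_, ?_, ?_⟩, ?_, ?_⟩
  · intro j hj
    rcases Nat.lt_or_ge j i with hij | hij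
    · rw [u1 j hij]
      exact h.bu j hj
    · rw [u2 j hij]
      exact bu_mul hGB (h.bu j hj)
  · intro j hj
    by_cases hij : j = i
    · subst hij
      rw [M2]
      exact kup_mul_left (h.kup j hj) hz
    · rw [M1 j hij]
      exact h.kup j hj
  · intro j hj
    rcases lt_trichotomy j i with hij | hij | hij
    · rw [c1 j hij, u1 j hij, M1 j hij.ne]
      exact h.eq j hj
    · subst hij
      rw [c2, u2 j le_rfl, M2]
      calc G * u j * (1 + z) * M j * (u j)⁻¹ * Gi * (G * u j)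
          = G * u j * (1 + z) * M j * (u j)⁻¹ * ((Gi * G) * u j) := by
            simp only [Matrix.mul_assoc]
        _ = G * u j * (1 + z) * M j := by
            rw [hGG, Matrix.one_mul, Matrix.mul_assoc _ (u j)⁻¹ (u j), e2, Matrix.mul_one]
        _ = G * u j * ((1 + z) * M j) := by simp only [Matrix.mul_assoc]
    · rw [c3 j hij, u2 j hij.le, M1 j hij.ne']
      calc G * c j * Gi * (G * u j) = G * c j * (Gi * G) * u j := by
            simp only [Matrix.mul_assoc]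
        _ = G * (c j * u j) := by rw [hGG, Matrix.mul_one, Matrix.mul_assoc]
        _ = G * u j * M j := by rw [h.eq j hj, Matrix.mul_assoc]
  · intro j hj e k1 hk1
    have key : ∀ n, i + 1 ≤ n → i ≤ j → PP c' n * u' j = L * (PP c n * u j) := by
      intro n hn hij
      rw [p4 _ hn, u2 j hij]
      calc L * PP c n * Gi * (G * u j) = L * PP c n * (Gi * G) * u j := by
            simp only [Matrix.mul_assoc]
        _ = L * (PP c n * u j) := by rw [hGG, Matrix.mul_one, Matrix.mul_assoc]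
    rcases lt_trichotomy j i with hij | hij | hij
    · have h1 : j + sh e ≤ i := by
        cases e
        · exact hij.le
        · exact hij
      rw [p1 _ h1, u1 j hij]
      exact h.cell j hj e k1 hk1
    · subst hij
      cases e with
      | true =>
        obtain ⟨W, hW1, hW2, hW3⟩ := h.cell j hj true k1 hk1
        refine ⟨W, hW1, hW2, ?_⟩
        have h1 : PP c' (j + sh true) * u' j = L * (PP c (j + sh true) * u j) :=
          key (j + 1) le_rfl le_rfl
        rw [h1]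
        exact inCell_left hW3 hL
      | false =>
        obtain ⟨W, hW1, hW2, hW3⟩ := h.cell j hj false k1 hk1
        replace hW3 : InCell nm k1 W (PP c j * u j) := hW3
        change ∃ W : Mat r A, BM nm (π j false k1) W ∧ IsUnit W ∧
          InCell nm k1 W (PP c' j * u' j)
        refine ⟨W, hW1, hW2, ?_⟩
        have h1 : PP c' j * u' j = PP c j * u j * (1 + y) := by
          rw [p1 j le_rfl, u2 j le_rfl, hGu, Matrix.mul_assoc]
        rcases hk k1 hk1 with h2 | h2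
        · rw [h1]
          exact inCell_right hW3 (bu_one_add h2)
        · have h3 : PP c' j * u' j = L * (PP c j * u j * (1 - z)) := by
            rw [← Matrix.mul_assoc, hLX, Matrix.mul_assoc (PP c j * u j) _ (1 - z),
              alg_z hzz hyz, h1]
          rw [h3]
          exact inCell_left (inCell_right hW3 (bu_one_sub h2)) hL
    · obtain ⟨W, hW1, hW2, hW3⟩ := h.cell j hj e k1 hk1
      refine ⟨W, hW1, hW2, ?_⟩
      rw [key (j + sh e) (by (clear * - hij; omega)) hij.le]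
      exact inCell_left hW3 hL
  · intro j hj
    rcases lt_trichotomy j i with hij | hij | hij
    · rw [c1 j hij]
    · subst hij
      rw [c2, hGu, hGi, hci]
      have h1 : ψ.mapMatrix (u j) * ψ.mapMatrix ((u j)⁻¹) = 1 := by rw [← map_mul, e1, map_one]
      simp only [map_mul, map_add, map_one, hψy, add_zero, mul_one, hψz, map_sub, sub_zero, h1]
    · rw [c3 j hij, hG, hGi]
      exact map_conj (c j) e1 hψy
  · rw [← hGi]
    exact p4 m hi

end Vale.Agent.P002B.AB
end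

section

/-!
# P002, genus 0, arbitrary classes: absorption of the errors (second version), part 3

The moves.
-/

namespace Vale.Agent.P002B.AB

open Matrix Vale.Agent.P002R Vale.Agent.P002L

section

variable {S : Type*} [CommRing S] {r N : ℕ} {nm : Fin r → Fin N}

/-- The inverse of an invertible block monomial matrix. -/
theorem bm_inv {σ : Equiv.Perm (Fin N)} {W W' : Mat r S} (hW : BM nm σ W) (h : W * W' = 1)
    (h' : W' * W = 1) : Sp nm (fun a c => σ a = c) W' := by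
  intro i j hij
  have h1 : W * ee nm (nm i) = ee nm (σ (nm i)) * W := by
    ext x y
    rw [ee, ee, mul_diagonal, diagonal_mul]
    by_cases h2 : nm x = σ (nm y)
    · rw [h2]
      simp only [mul_ite, mul_one, mul_zero, EmbeddingLike.apply_eq_iff_eq, ite_mul, one_mul, zero_mul]
    · rw [hW x y h2, zero_mul, mul_zero]
  have h3 : ee nm (nm i) * W' = W' * ee nm (σ (nm i)) := by
    calc ee nm (nm i) * W' = W' * (W * ee nm (nm i)) * W' := by
          rw [← Matrix.mul_assoc, h', Matrix.one_mul]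
      _ = W' * ee nm (σ (nm i)) * (W * W') := by
          rw [h1]
          simp only [Matrix.mul_assoc]
      _ = W' * ee nm (σ (nm i)) := by rw [h, Matrix.mul_one]
  have h4 := congrFun (congrFun h3 i) j
  rw [ee, ee, diagonal_mul, mul_diagonal, if_pos rfl, one_mul, if_neg (Ne.symm hij), mul_zero] at h4
  exact h4

theorem bu_conj_sp {k : Fin N → ℕ} {b θ : Mat r S} {p q : Fin N} (hb : BU nm k b)
    (hθ : Sp nm (fun a c => a = p ∧ c = q) θ) :
    Sp nm (fun a c => k a ≤ k p ∧ k q ≤ k c) (b * θ * b⁻¹) := by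
  have h1 := ((bu_sp hb).mul hθ (τ := fun a c => k a ≤ k p ∧ c = q) fun a b c h1 h2 =>
    ⟨h2.1 ▸ h1, h2.2⟩)
  exact h1.mul (bu_sp (bu_inv hb)) fun a b c h2 h3 => ⟨h2.1, h2.2 ▸ h3⟩

theorem bu_conj_sp' {k : Fin N → ℕ} {b θ : Mat r S} {p q : Fin N} (hb : BU nm k b)
    (hθ : Sp nm (fun a c => a = p ∧ c = q) θ) :
    Sp nm (fun a c => k a ≤ k p ∧ k q ≤ k c) (b⁻¹ * θ * b) := by
  have h1 := ((bu_sp (bu_inv hb)).mul hθ (τ := fun a c => k a ≤ k p ∧ c = q) fun a b c h1 h2 =>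
    ⟨h2.1 ▸ h1, h2.2⟩)
  exact h1.mul (bu_sp hb) fun a b c h2 h3 => ⟨h2.1, h2.2 ▸ h3⟩

/-- The corner of a conjugate. -/
theorem bu_conj_corner {b θ : Mat r S} {p q : Fin N} (hb : BU nm (bk N) b)
    (hθ : Sp nm (fun a c => a = p ∧ c = q) θ) {i j : Fin r} (hi : nm i = p) (hj : nm j = q) :
    (b * θ * b⁻¹) i j = θ i j := by
  have hb' := bu_iff.1 (bu_inv hb)
  rw [bu_iff] at hb
  have h : b * θ * b⁻¹ = θ + (b - 1) * θ + b * (θ * (b⁻¹ - 1)) := by noncomm_ring
  have h1 : ((b - 1) * θ) i j = 0 :=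
    hb.mul hθ (τ := fun a c => a < p) (fun a b c h1 h2 => by
      rw [h2.1] at h1
      exact h1) i j (by rw [hi]; exact lt_irrefl _)
  have h2 : (b * (θ * (b⁻¹ - 1))) i j = 0 := by
    have h3 : Sp nm (fun a c => q < c) (θ * (b⁻¹ - 1)) := hθ.mul hb' fun a b c h1 h2 => by
      rw [h1.2] at h2
      exact h2
    have h4 : Sp nm (fun _ _ => True) b := fun i j h => absurd trivial h
    exact h4.mul h3 (τ := fun a c => q < c) (fun a b c _ h => h) i j (by
      rw [hj]
      exact lt_irrefl _)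
  rw [h, Matrix.add_apply, Matrix.add_apply, h1, h2, add_zero, add_zero]

/-- The block triangular structure of the product. -/
def Str (nm : Fin r → Fin N) (t : Fin N → S) (Q : Mat r S) : Prop :=
  ∀ i j, ¬ nm i < nm j → Q i j = if i = j then t (nm i) else 0

theorem Str.sp {t : Fin N → S} {Q : Mat r S} (h : Str nm t Q) : Sp nm (fun a c => a ≤ c) Q := by
  intro i j hij
  rw [h i j fun h1 => hij h1.le, if_neg]
  rintro rfl
  exact hij le_rfl

/-- Corner of a product on the left. -/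
theorem str_left {t : Fin N → S} {Q X : Mat r S} (h : Str nm t Q) {p q : Fin N}
    (hX : Sp nm (fun a c => a ≤ p ∧ q ≤ c) X) {i j : Fin r} (hj : nm j = q) :
    (X * Q) i j = X i j * t q := by
  rw [mul_apply, Finset.sum_eq_single j]
  · rw [h j j (lt_irrefl _), if_pos rfl, hj]
  · intro k _ hk
    by_cases h1 : q ≤ nm k
    · rw [h k j (by rw [hj]; exact not_lt.2 h1), if_neg hk, mul_zero]
    · rw [hX i k fun h2 => h1 h2.2, zero_mul]
  · intro h1
    exact absurd (Finset.mem_univ _) h1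

/-- Corner of a product on the right. -/
theorem str_right {t : Fin N → S} {Q X : Mat r S} (h : Str nm t Q) {p q : Fin N}
    (hX : Sp nm (fun a c => a ≤ p ∧ q ≤ c) X) {i j : Fin r} (hi : nm i = p) :
    (Q * X) i j = t p * X i j := by
  rw [mul_apply, Finset.sum_eq_single i]
  · rw [h i i (lt_irrefl _), if_pos rfl, hi]
  · intro k _ hk
    by_cases h1 : nm k ≤ p
    · rw [h i k (by rw [hi]; exact not_lt.2 h1), if_neg (Ne.symm hk), zero_mul]
    · rw [hX k j fun h2 => h1 h2.1, mul_zero]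
  · intro h1
    exact absurd (Finset.mem_univ _) h1

/-- The block `(p, q)` of `X`, multiplied by a scalar. -/
def blk (nm : Fin r → Fin N) (p q : Fin N) (s : S) (X : Mat r S) : Mat r S :=
  Matrix.of fun i j => if nm i = p ∧ nm j = q then s * X i j else 0

theorem blk_sp {p q : Fin N} {s : S} {X : Mat r S} :
    Sp nm (fun a c => a = p ∧ c = q) (blk nm p q s X) := fun i j h => by
  rw [blk, of_apply, if_neg h]

theorem blk_apply {p q : Fin N} {s : S} {X : Mat r S} {i j : Fin r} (hi : nm i = p)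
    (hj : nm j = q) : blk nm p q s X i j = s * X i j := by
  rw [blk, of_apply, if_pos ⟨hi, hj⟩]

/-- Analysis of the first move. -/
theorem ana_one {t : Fin N → S} {Q X : Mat r S} (h : Str nm t Q) {p q : Fin N}
    (hX : Sp nm (fun a c => a ≤ p ∧ q ≤ c) X)
    (hX' : ∀ i j, nm i = p → nm j = q → t p * X i j = - Q i j) :
    (∀ i j, nm i = p → nm j = q → (Q * (1 + X)) i j = 0) ∧
      ∀ i j, ¬ (nm i ≤ p ∧ q ≤ nm j) → (Q * (1 + X)) i j = Q i j := by
  rw [mul_add, Matrix.mul_one]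
  constructor
  · intro i j hi hj
    rw [Matrix.add_apply, str_right h hX hi, hX' i j hi hj, add_neg_cancel]
  · intro i j hij
    rw [Matrix.add_apply, h.sp.mul hX (τ := fun a c => a ≤ p ∧ q ≤ c)
      (fun a b c h1 h2 => ⟨h1.trans h2.1, h2.2⟩) i j hij, add_zero]

/-- Analysis of the second move. -/
theorem ana_two {t : Fin N → S} {Q X Y : Mat r S} (h : Str nm t Q) {p q : Fin N}
    (hX : Sp nm (fun a c => a ≤ p ∧ q ≤ c) X)
    (hX' : ∀ i j, nm i = p → nm j = q → X i j * t q = - Q i j)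
    {σ : Fin N → Fin N → Prop} (hY : Sp nm σ Y) (hσ : ∀ a c, σ a c → a < c)
    (hσ' : ∀ a b c, a ≤ b → σ b c → σ a c) (hpq' : ¬ σ p q) :
    (∀ i j, nm i = p → nm j = q → ((1 + X) * Q * (1 + Y)) i j = 0) ∧
      ∀ i j, ¬ (nm i ≤ p ∧ q ≤ nm j) → ¬ σ (nm i) (nm j) →
        ((1 + X) * Q * (1 + Y)) i j = Q i j := by
  have h1 : (1 + X) * Q * (1 + Y) = Q + X * Q + Q * Y + X * (Q * Y) := by noncomm_ring
  have h2 : Sp nm σ (Q * Y) := h.sp.mul hY fun a b c h3 h4 => hσ' a b c h3 h4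
  have h3 : Sp nm (fun a c => a ≤ p ∧ q < c) (X * (Q * Y)) := hX.mul h2 fun a b c h4 h5 =>
    ⟨h4.1, lt_of_le_of_lt h4.2 (hσ _ _ h5)⟩
  rw [h1]
  constructor
  · intro i j hi hj
    rw [Matrix.add_apply, Matrix.add_apply, Matrix.add_apply, str_left h hX hj, hX' i j hi hj,
      add_neg_cancel, zero_add, h2 i j (by rw [hi, hj]; exact hpq'),
      h3 i j (by rw [hj]; exact fun h4 => lt_irrefl _ h4.2), zero_add]
  · intro i j hij hij'
    rw [Matrix.add_apply, Matrix.add_apply, Matrix.add_apply, h2 i j hij',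
      h3 i j (fun h4 => hij ⟨h4.1, h4.2.le⟩),
      hX.mul h.sp (τ := fun a c => a ≤ p ∧ q ≤ c) (fun a b c h4 h5 => ⟨h4.1, h4.2.trans h5⟩) i j
        hij, add_zero, add_zero, add_zero]

end

variable {A B : Type} [CommRing A] [CommRing B] {r N : ℕ} {nm : Fin r → Fin N} {m : ℕ}
  {κ : ℕ → Fin N → ℕ} {l : ℕ → ℕ → A} {ks : ℕ → List (Fin N → ℕ)}
  {π : ℕ → Bool → (Fin N → ℕ) → Equiv.Perm (Fin N)} {c u M : ℕ → Mat r A}

theorem blk_map {p q : Fin N} {s : A} {X : Mat r A} {ψ : A →+* B}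
    (h : ∀ i j, nm i = p → nm j = q → ψ (X i j) = 0) : ψ.mapMatrix (blk nm p q s X) = 0 := by
  ext i j
  rw [RingHom.mapMatrix_apply, map_apply, blk, of_apply]
  split_ifs with h1
  · rw [map_mul, h i j h1.1 h1.2, mul_zero, Matrix.zero_apply]
  · rw [map_zero, Matrix.zero_apply]

/-- The first move. -/
theorem move_one (h : St nm m κ l ks π c u M) (hks : ∀ i < m, KP (κ i) (bk N) (ks i))
    {t : Fin N → Aˣ} (hQ : Str nm (fun a => (t a : A)) (PP c m)) {p q : Fin N} (hpq : p < q)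
    (ψ : A →+* B) (hψ : ∀ i j, nm i = p → nm j = q → ψ (PP c m i j) = 0) {i : ℕ} (hi : i < m)
    (hκ : κ i p < κ i q) :
    ∃ c' u' M' : ℕ → Mat r A, St nm m κ l ks π c' u' M' ∧
      (∀ j < m, ψ.mapMatrix (c' j) = ψ.mapMatrix (c j)) ∧
      (∀ i j, nm i = p → nm j = q → PP c' m i j = 0) ∧
      ∀ i j, ¬ (nm i ≤ p ∧ q ≤ nm j) → PP c' m i j = PP c m i j := by
  obtain ⟨θ, hθ⟩ : ∃ θ, θ = blk nm p q (-((t p)⁻¹ : Aˣ) : A) (PP c m) := ⟨_, rfl⟩
  have hθs : Sp nm (fun a c => a = p ∧ c = q) θ := by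
    rw [hθ]
    exact blk_sp
  have hθθ : θ * θ = 0 := (hθs.mul hθs (τ := fun _ _ => False) fun a b c h1 h2 =>
    hpq.ne (h2.1.symm.trans h1.2)).eq_zero fun _ _ h => h
  have hψθ : ψ.mapMatrix θ = 0 := by
    rw [hθ]
    exact blk_map hψ
  obtain ⟨c', u', M', h1, h2, h3⟩ := trans_true h hi (L := 1) (y := -θ) (z := θ) bu_one
    (by rw [neg_mul_neg, hθθ]) (by rw [mul_neg, hθθ, neg_zero])
    (by rw [neg_add_cancel_right, Matrix.one_mul, Matrix.mul_one])
    ((hθs.mono fun a c h => by rw [h.1, h.2]; exact hpq).neg)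
    (fun k1 hk1 => Or.inr (hθs.mono fun a c h => by
      rw [h.1, h.2]
      exact kp_after (hks i hi) k1 hk1 p q hκ hpq))
    (hθs.mono fun a c h => by rw [h.1, h.2]; exact hκ) ψ
    (by rw [map_neg, hψθ, neg_zero]) hψθ
  have hui := h.bu i hi
  have h4 : PP c' m = PP c m * (1 + u i * θ * (u i)⁻¹) := by
    rw [h3, Matrix.one_mul, sub_neg_eq_add, Matrix.mul_add (u i), Matrix.mul_one,
      Matrix.add_mul (u i), bu_mul_inv hui]
  have h5 := ana_one hQ (bu_conj_sp hui hθs) (fun i j hi hj => by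
    rw [bu_conj_corner hui hθs hi hj, hθ, blk_apply hi hj, neg_mul, mul_neg, ← mul_assoc,
      Units.mul_inv, one_mul])
  refine ⟨c', u', M', h1, h2, ?_, ?_⟩
  · rw [h4]
    exact h5.1
  · rw [h4]
    exact h5.2

/-- The second move. -/
theorem move_two (h : St nm m κ l ks π c u M) (hks : ∀ i < m, KP (κ i) (bk N) (ks i))
    {t : Fin N → Aˣ} (hQ : Str nm (fun a => (t a : A)) (PP c m)) {p q : Fin N} (hpq : p < q)
    (ψ : A →+* B) (hψ : ∀ i j, nm i = p → nm j = q → ψ (PP c m i j) = 0) {i : ℕ} (hi : i < m)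
    {e : Bool} {k : Fin N → ℕ} (hk : k ∈ ks i) {n l' s s' : ℕ}
    (hseg : ∀ c, k c < n ↔ Seg (κ i) l' s s' c) (hp : k ((π i e k).symm p) < n)
    (hq : ¬ k ((π i e k).symm q) < n) (rk : Fin N → Fin N → ℕ)
    (hrk : ∀ p' p q q' : Fin N, p' ≤ p → p < q → q ≤ q' → rk p' q' ≤ rk p q)
    (hsep : ∀ p' q' : Fin N, p' < q' → (((p' : ℕ) < s ∧ s ≤ (q' : ℕ)) ∨
          ((p' : ℕ) < s' ∧ s' ≤ (q' : ℕ))) → rk p' q' < rk p q) :
    ∃ c' u' M' : ℕ → Mat r A, St nm m κ l ks π c' u' M' ∧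
      (∀ j < m, ψ.mapMatrix (c' j) = ψ.mapMatrix (c j)) ∧
      (∀ i j, nm i = p → nm j = q → PP c' m i j = 0) ∧
      ∀ i j, ¬ (nm i ≤ p ∧ q ≤ nm j) → ¬ (nm i < nm j ∧ rk (nm i) (nm j) < rk p q) →
        PP c' m i j = PP c m i j := by
  obtain ⟨W, hW1, hW2, b, v, hb, hv, hX⟩ := h.cell i hi e k hk
  obtain ⟨W', hWW', hW'W⟩ : ∃ W', W * W' = 1 ∧ W' * W = 1 := by
    obtain ⟨w, rfl⟩ := hW2
    exact ⟨(w⁻¹ : (Mat r A)ˣ), w.mul_inv, w.inv_mul⟩
  have hW's := bm_inv hW1 hWW' hW'W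
  have hWs : Sp nm (fun a c => a = π i e k c) W := fun i j h => hW1 i j h
  obtain ⟨θ, hθ⟩ : ∃ θ, θ = blk nm p q (-((t q)⁻¹ : Aˣ) : A) (PP c m) := ⟨_, rfl⟩
  have hθs : Sp nm (fun a c => a = p ∧ c = q) θ := by
    rw [hθ]
    exact blk_sp
  have hψθ : ψ.mapMatrix θ = 0 := by
    rw [hθ]
    exact blk_map hψ
  -- the parameter
  have hδ : Sp nm (fun a c => a = (π i e k).symm p ∧ c = (π i e k).symm q) (W' * θ * W) := by
    have h1 : Sp nm (fun a c => a = (π i e k).symm p ∧ c = q) (W' * θ) :=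
      hW's.mul hθs fun a b c h1 h2 => ⟨by rw [← h2.1, ← h1, Equiv.symm_apply_apply], h2.2⟩
    exact h1.mul hWs fun a b c h2 h3 => ⟨h2.1, by rw [← h2.2, h3, Equiv.symm_apply_apply]⟩
  obtain ⟨x, hx⟩ : ∃ x, x = v⁻¹ * (W' * θ * W) * v := ⟨_, rfl⟩
  have hxs : Sp nm (fun a c => k a < n ∧ ¬ k c < n) x := by
    rw [hx]
    refine (bu_conj_sp' hv hδ).mono fun a c h1 => ⟨lt_of_le_of_lt h1.1 hp, ?_⟩
    exact not_lt.2 ((not_lt.1 hq).trans h1.2)
  have hψx : ψ.mapMatrix x = 0 := by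
    rw [hx]
    simp only [map_mul, hψθ, mul_zero, zero_mul]
  obtain ⟨y, hy⟩ : ∃ y : Mat r A, y = Matrix.of fun i' j' =>
    if κ i (nm i') < κ i (nm j') then 0 else x i' j' := ⟨_, rfl⟩
  obtain ⟨z, hz⟩ : ∃ z : Mat r A, z = Matrix.of fun i' j' =>
    if κ i (nm i') < κ i (nm j') then x i' j' else 0 := ⟨_, rfl⟩
  have hys : Sp nm (fun a c => (k a < n ∧ ¬ k c < n) ∧ ¬ κ i a < κ i c) y := by
    intro i' j' h1
    rw [hy, of_apply]
    split_ifs with h2
    · rfl
    · exact hxs i' j' fun h3 => h1 ⟨h3, h2⟩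
  have hzs : Sp nm (fun a c => (k a < n ∧ ¬ k c < n) ∧ κ i a < κ i c) z := by
    intro i' j' h1
    rw [hz, of_apply]
    split_ifs with h2
    · exact hxs i' j' fun h3 => h1 ⟨h3, h2⟩
    · rfl
  have hyz : x = y + z := by
    ext i' j'
    rw [Matrix.add_apply, hy, hz, of_apply, of_apply]
    split_ifs
    · rw [zero_add]
    · rw [add_zero]
  have hψy : ψ.mapMatrix y = 0 := by
    ext i' j'
    have h1 := congrFun (congrFun hψx i') j'
    rw [RingHom.mapMatrix_apply, map_apply] at h1 ⊢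
    rw [hy, of_apply]
    split_ifs
    · rw [map_zero, Matrix.zero_apply]
    · exact h1
  have hψz : ψ.mapMatrix z = 0 := by
    ext i' j'
    have h1 := congrFun (congrFun hψx i') j'
    rw [RingHom.mapMatrix_apply, map_apply] at h1 ⊢
    rw [hz, of_apply]
    split_ifs
    · exact h1
    · rw [map_zero, Matrix.zero_apply]
  have hzero : ∀ {x1 x2 : Mat r A}, Sp nm (fun a c => k a < n ∧ ¬ k c < n) x1 →
      Sp nm (fun a c => k a < n ∧ ¬ k c < n) x2 → x1 * x2 = 0 := fun h1 h2 =>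
    (h1.mul h2 (τ := fun _ _ => False) fun a b c h1 h2 => h1.2 h2.1).eq_zero fun _ _ h => h
  have hys' : Sp nm (fun a c => k a < n ∧ ¬ k c < n) y := hys.mono fun a c h => h.1
  have hzs' : Sp nm (fun a c => k a < n ∧ ¬ k c < n) z := hzs.mono fun a c h => h.1
  have hsepy : ∀ a c, (k a < n ∧ ¬ k c < n) ∧ ¬ κ i a < κ i c →
      (((a : ℕ) < s ∧ s ≤ (c : ℕ)) ∨ ((a : ℕ) < s' ∧ s' ≤ (c : ℕ))) ∧ a < c := fun a c h1 =>
    seg_sep ((hseg a).1 h1.1.1) (fun h2 => h1.1.2 ((hseg c).2 h2)) h1.2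
  have hk1 : ∀ k1 ∈ ks i, Sp nm (fun a c => k1 a < k1 c) y ∨ Sp nm (fun a c => k1 a < k1 c) z := by
    intro k1 hk1
    rcases kp_dich (hks i hi) k hk k1 hk1 with h1 | h1
    · left
      exact hys.mono fun a c h2 => h1 a c (hsepy a c h2).2
        (lt_of_lt_of_le h2.1.1 (not_lt.1 h2.1.2))
    · right
      exact hzs.mono fun a c h2 => h1 a c h2.2 (lt_of_lt_of_le h2.1.1 (not_lt.1 h2.1.2))
  obtain ⟨L, hL⟩ : ∃ L, L = 1 + b * θ * b⁻¹ := ⟨_, rfl⟩
  have hXs := bu_conj_sp hb hθs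
  have hLB : BU nm (bk N) L := by
    rw [hL]
    refine bu_one_add (hXs.mono fun a c h1 => lt_of_le_of_lt h1.1 (lt_of_lt_of_le ?_ h1.2))
    exact hpq
  have hLX : L * (PP c (i + sh e) * u i) = PP c (i + sh e) * u i * (1 + y + z) := by
    rw [hX, add_assoc, ← hyz, hL, hx]
    have h1 : (1 + b * θ * b⁻¹) * (b * W * v) = b * W * v + b * θ * (b⁻¹ * b) * W * v := by
      noncomm_ring
    have h2 : b * W * v * (1 + v⁻¹ * (W' * θ * W) * v) =
        b * W * v + b * (W * ((v * v⁻¹) * W')) * θ * W * v := by noncomm_ring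
    rw [h1, h2, bu_inv_mul hb, bu_mul_inv hv, Matrix.one_mul, hWW', Matrix.mul_one, Matrix.mul_one]
  have hfin : ∃ c' u' M' : ℕ → Mat r A, St nm m κ l ks π c' u' M' ∧
      (∀ j < m, ψ.mapMatrix (c' j) = ψ.mapMatrix (c j)) ∧
      PP c' m = L * PP c m * (u i * (1 - y) * (u i)⁻¹) := by
    cases e with
    | false =>
      exact trans_false h hi hLB (hzero hys' hys') (hzero hzs' hzs') (hzero hys' hzs') hLX
        (hys.mono fun a c h1 => (hsepy a c h1).2) hk1 (hzs.mono fun a c h1 => h1.2) ψ hψy hψz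
    | true =>
      exact trans_true h hi hLB (hzero hys' hys') (hzero hzs' hys') hLX
        (hys.mono fun a c h1 => (hsepy a c h1).2) hk1 (hzs.mono fun a c h1 => h1.2) ψ hψy hψz
  obtain ⟨c', u', M', h1, h2, h3⟩ := hfin
  have hui := h.bu i hi
  obtain ⟨σ, hσ⟩ : ∃ σ : Fin N → Fin N → Prop, σ = fun a c => ∃ a' c' : Fin N, a ≤ a' ∧ c' ≤ c ∧ a' < c' ∧
    (((a' : ℕ) < s ∧ s ≤ (c' : ℕ)) ∨ ((a' : ℕ) < s' ∧ s' ≤ (c' : ℕ))) := ⟨_, rfl⟩
  have hYs : Sp nm σ (-(u i * y * (u i)⁻¹)) := by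
    have h4 : Sp nm σ y := hys.mono fun a c h5 => by
      rw [hσ]
      exact ⟨a, c, le_rfl, le_rfl, (hsepy a c h5).2, (hsepy a c h5).1⟩
    have h5 : Sp nm σ (u i * y) := (bu_sp hui).mul h4 fun a b c h6 h7 => by
      rw [hσ] at h7 ⊢
      obtain ⟨a', c', h8, h9, h10, h11⟩ := h7
      exact ⟨a', c', le_trans (show a ≤ b from h6) h8, h9, h10, h11⟩
    refine (h5.mul (bu_sp (bu_inv hui)) fun a b c h6 h7 => ?_).neg
    rw [hσ] at h6 ⊢
    obtain ⟨a', c', h8, h9, h10, h11⟩ := h6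
    exact ⟨a', c', h8, le_trans h9 (show b ≤ c from h7), h10, h11⟩
  have hσ1 : ∀ a c, σ a c → a < c ∧ rk a c < rk p q := by
    intro a c h4
    rw [hσ] at h4
    obtain ⟨a', c', h8, h9, h10, h11⟩ := h4
    exact ⟨lt_of_le_of_lt h8 (lt_of_lt_of_le h10 h9),
      lt_of_le_of_lt (hrk a a' c' c h8 h10 h9) (hsep a' c' h10 h11)⟩
  have h4 : PP c' m = (1 + b * θ * b⁻¹) * PP c m * (1 + -(u i * y * (u i)⁻¹)) := by
    rw [h3, hL, Matrix.mul_sub (u i), Matrix.mul_one, Matrix.sub_mul (u i), bu_mul_inv hui,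
      sub_eq_add_neg]
  have h5 := ana_two hQ (X := b * θ * b⁻¹) hXs (fun i j hi hj => by
    rw [bu_conj_corner hb hθs hi hj, hθ, blk_apply hi hj, neg_mul, neg_mul, mul_comm, ← mul_assoc,
      Units.mul_inv, one_mul]) hYs (fun a c h6 => (hσ1 a c h6).1)
    (fun a b c h6 h7 => by
      rw [hσ] at h7 ⊢
      obtain ⟨a', c', h8, h9, h10, h11⟩ := h7
      exact ⟨a', c', h6.trans h8, h9, h10, h11⟩)
    (fun h6 => lt_irrefl _ (hσ1 p q h6).2)
  refine ⟨c', u', M', h1, h2, ?_, ?_⟩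
  · rw [h4]
    exact h5.1
  · intro i j h6 h7
    rw [h4]
    exact h5.2 i j h6 fun h8 => h7 (hσ1 _ _ h8)

end Vale.Agent.P002B.AB
end

section

/-!
# P002, genus 0, arbitrary classes: absorption of the errors (second version), part 4

The induction over the blocks.
-/

namespace Vale.Agent.P002B.AB

open Matrix Vale.Agent.P002R Vale.Agent.P002L

theorem lex_lt {K x1 x2 d1 d2 : ℕ} (h : d1 < K) (hx : x1 < x2) : x1 * K + d1 < x2 * K + d2 := by
  have h1 : (x1 + 1) * K ≤ x2 * K := Nat.mul_le_mul_right K hx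
  have h2 : (x1 + 1) * K = x1 * K + K := by ring
  omega

/-- The order in which the blocks are treated. -/
def ky {N : ℕ} (rk : Fin N → Fin N → ℕ) (R : ℕ) (p q : Fin N) : ℕ :=
  ((R - rk p q) * (N + 1) + ((q : ℕ) - p)) * (N + 1) + p

theorem ky_lt {N : ℕ} {rk : Fin N → Fin N → ℕ} {R : ℕ} {p q a b : Fin N}
    (hR : rk p q ≤ R) (h : rk a b < rk p q) : ky rk R p q < ky rk R a b := by
  unfold ky
  have h1 := p.2
  have h2 := q.2
  refine lex_lt (by omega) (lex_lt (by omega) (by omega))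

theorem ky_lt' {N : ℕ} {rk : Fin N → Fin N → ℕ} {R : ℕ} {p q a b : Fin N}
    (hR : rk p q ≤ R) (hrk : rk a b ≤ rk p q) (h : (q : ℕ) - p < (b : ℕ) - a) :
    ky rk R p q < ky rk R a b := by
  rcases hrk.lt_or_eq with h1 | h1
  · exact ky_lt hR h1
  · unfold ky
    rw [h1]
    have h2 := p.2
    exact lex_lt (by omega) (by omega)

variable {A B : Type} [CommRing A] [CommRing B] {r N : ℕ} {nm : Fin r → Fin N} {m : ℕ}
  {κ : ℕ → Fin N → ℕ} {l : ℕ → ℕ → A} {ks : ℕ → List (Fin N → ℕ)}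
  {π : ℕ → Bool → (Fin N → ℕ) → Equiv.Perm (Fin N)} {c u M : ℕ → Mat r A}

theorem map_PP {ψ : A →+* B} {c c' : ℕ → Mat r A}
    (h : ∀ j < m, ψ.mapMatrix (c' j) = ψ.mapMatrix (c j)) :
    ∀ n ≤ m, ψ.mapMatrix (PP c' n) = ψ.mapMatrix (PP c n) := by
  intro n
  induction n with
  | zero => intro _; rfl
  | succ n ih =>
    intro hn
    rw [PP, PP, map_mul, map_mul, ih (by omega), h n (by omega)]

/-- The loop. -/
theorem loop (h : St nm m κ l ks π c u M) (hks : ∀ i < m, KP (κ i) (bk N) (ks i))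
    {t : Fin N → Aˣ} (hQ : Str nm (fun a => (t a : A)) (PP c m)) (ψ : A →+* B)
    (κ₀ : Fin N → ℕ) (hψ : ∀ i j, nm i < nm j → κ₀ (nm i) = κ₀ (nm j) → ψ (PP c m i j) = 0)
    (rk : Fin N → Fin N → ℕ)
    (hrk : ∀ p' p q q' : Fin N, p' ≤ p → p < q → q ≤ q' → rk p' q' ≤ rk p q)
    (hal : ∀ p q : Fin N, p < q → κ₀ p = κ₀ q → (∃ i < m, κ i p < κ i q) ∨
      ∃ i < m, ∃ e : Bool, ∃ k ∈ ks i, ∃ n l s s' : ℕ, (∀ c, k c < n ↔ Seg (κ i) l s s' c) ∧
        k ((π i e k).symm p) < n ∧ ¬ k ((π i e k).symm q) < n ∧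
        ∀ p' q' : Fin N, p' < q' → (((p' : ℕ) < s ∧ s ≤ (q' : ℕ)) ∨
          ((p' : ℕ) < s' ∧ s' ≤ (q' : ℕ))) → rk p' q' < rk p q)
    (R : ℕ) (hR : ∀ p q, rk p q ≤ R) (n : ℕ) :
    ∃ c' u' M' : ℕ → Mat r A, St nm m κ l ks π c' u' M' ∧
      (∀ j < m, ψ.mapMatrix (c' j) = ψ.mapMatrix (c j)) ∧
      Str nm (fun a => (t a : A)) (PP c' m) ∧
      ∀ i j, nm i < nm j → κ₀ (nm i) = κ₀ (nm j) → ky rk R (nm i) (nm j) < n →
        PP c' m i j = 0 := by
  induction n with
  | zero => exact ⟨c, u, M, h, fun _ _ => rfl, hQ, fun _ _ _ _ h => absurd h (Nat.not_lt_zero _)⟩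
  | succ n ih =>
    obtain ⟨c1, u1, M1, h1, h2, h3, h4⟩ := ih
    by_cases hex : ∃ p q : Fin N, p < q ∧ κ₀ p = κ₀ q ∧ ky rk R p q = n
    · obtain ⟨p, q, hpq, hκ, hn⟩ := hex
      have hψ1 : ∀ i j, nm i = p → nm j = q → ψ (PP c1 m i j) = 0 := by
        intro i j hi hj
        have h5 := congrFun (congrFun (map_PP h2 m le_rfl) i) j
        rw [RingHom.mapMatrix_apply, RingHom.mapMatrix_apply, map_apply, map_apply] at h5
        rw [h5]
        exact hψ i j (by rw [hi, hj]; exact hpq) (by rw [hi, hj]; exact hκ)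
      have hmv : ∃ c' u' M' : ℕ → Mat r A, St nm m κ l ks π c' u' M' ∧
          (∀ j < m, ψ.mapMatrix (c' j) = ψ.mapMatrix (c1 j)) ∧
          (∀ i j, nm i = p → nm j = q → PP c' m i j = 0) ∧
          ∀ i j, ¬ (nm i ≤ p ∧ q ≤ nm j) → ¬ (nm i < nm j ∧ rk (nm i) (nm j) < rk p q) →
            PP c' m i j = PP c1 m i j := by
        rcases hal p q hpq hκ with ⟨i, hi, hκi⟩ | ⟨i, hi, e, k, hk, n', l', s, s', ha, hb, hc, hd⟩
        · obtain ⟨c', u', M', h5, h6, h7, h8⟩ := move_one h1 hks h3 hpq ψ hψ1 hi hκi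
          exact ⟨c', u', M', h5, h6, h7, fun i j h9 _ => h8 i j h9⟩
        · exact move_two h1 hks h3 hpq ψ hψ1 hi hk ha hb hc rk hrk hd
      obtain ⟨c', u', M', h5, h6, h7, h8⟩ := hmv
      refine ⟨c', u', M', h5, fun j hj => (h6 j hj).trans (h2 j hj), ?_, ?_⟩
      · intro i j hij
        rw [h8 i j (fun h9 => hij (lt_of_le_of_lt h9.1 (lt_of_lt_of_le hpq h9.2)))
          fun h9 => hij h9.1]
        exact h3 i j hij
      · intro i j hij hκij hky
        by_cases h9 : nm i = p ∧ nm j = q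
        · exact h7 i j h9.1 h9.2
        · have h10 : ¬ (nm i ≤ p ∧ q ≤ nm j) := by
            intro h10
            have h11 : ky rk R p q < ky rk R (nm i) (nm j) := by
              refine ky_lt' (hR p q) (hrk _ _ _ _ h10.1 hpq h10.2) ?_
              have h12 : ((nm i : Fin N) : ℕ) ≤ p := h10.1
              have h13 : ((q : Fin N) : ℕ) ≤ nm j := h10.2
              have h14 : (p : ℕ) < q := hpq
              have h15 : ¬ (((nm i : Fin N) : ℕ) = p ∧ ((nm j : Fin N) : ℕ) = q) := fun h16 =>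
                h9 ⟨Fin.ext h16.1, Fin.ext h16.2⟩
              (clear * - hpq hij h10 h15; omega)
            omega
          have h11 : ¬ (nm i < nm j ∧ rk (nm i) (nm j) < rk p q) := by
            intro h11
            have h12 := ky_lt (hR p q) h11.2
            omega
          rw [h8 i j h10 h11]
          refine h4 i j hij hκij ?_
          rcases (Nat.lt_succ_iff_lt_or_eq.1 hky) with h12 | h12
          · exact h12
          · exfalso
            rw [← hn] at h12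
            unfold ky at h12
            have ha := p.2
            have hb := q.2
            have hc := (nm i).2
            have hd := (nm j).2
            rcases lt_trichotomy ((R - rk (nm i) (nm j)) * (N + 1) + ((nm j : ℕ) - nm i))
              ((R - rk p q) * (N + 1) + ((q : ℕ) - p)) with h13 | h13 | h13
            · have h14 := lex_lt (K := N + 1) (d1 := (nm i : ℕ)) (d2 := (p : ℕ)) (by omega) h13
              omega
            · rw [h13] at h12
              have h14 : (nm i : ℕ) = p := by omega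
              rcases lt_trichotomy (R - rk (nm i) (nm j)) (R - rk p q) with h15 | h15 | h15
              · have h16 := lex_lt (K := N + 1) (d1 := (nm j : ℕ) - nm i) (d2 := (q : ℕ) - p)
                  (by (clear * - hpq hij h12 h15; omega)) h15
                omega
              · rw [h15] at h13
                have h16 : (nm i : ℕ) < nm j := hij
                have h17 : (p : ℕ) < q := hpq
                exact h9 ⟨Fin.ext h14, Fin.ext (by (clear * - hpq hij h12 h13; omega))⟩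
              · have h16 := lex_lt (K := N + 1) (d1 := (q : ℕ) - p) (d2 := (nm j : ℕ) - nm i)
                  (by (clear * - hpq h12 h15; omega)) h15
                omega
            · have h14 := lex_lt (K := N + 1) (d1 := (p : ℕ)) (d2 := (nm i : ℕ)) (by (clear * - h12; omega)) h13
              omega
    · refine ⟨c1, u1, M1, h1, h2, h3, fun i j hij hκ hky => h4 i j hij hκ ?_⟩
      have h5 : ky rk R (nm i) (nm j) ≠ n := fun h6 => hex ⟨nm i, nm j, hij, hκ, h6⟩
      omega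

theorem absorbStmt : AbsorbStmt := by
  intro A B _ _ ψ r N nm m κ l ks π κ₀ τ rk hmono hks hrk hal c u M hbu hkup heq hcell hstr herr
  obtain ⟨R, hR⟩ : ∃ R : ℕ, ∀ p q, rk p q ≤ R := by
    refine ⟨Finset.univ.sup fun x : Fin N × Fin N => rk x.1 x.2, fun p q => ?_⟩
    exact Finset.le_sup (f := fun x : Fin N × Fin N => rk x.1 x.2) (Finset.mem_univ (p, q))
  obtain ⟨n, hn⟩ : ∃ n : ℕ, ∀ p q, ky rk R p q < n := by
    refine ⟨(Finset.univ.sup fun x : Fin N × Fin N => ky rk R x.1 x.2) + 1, fun p q => ?_⟩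
    exact Nat.lt_succ_of_le (Finset.le_sup (f := fun x : Fin N × Fin N => ky rk R x.1 x.2)
      (Finset.mem_univ (p, q)))
  obtain ⟨c', u', M', h1, h2, h3, h4⟩ := loop (t := fun a => τ (κ₀ a))
    (⟨hbu, hkup, heq, hcell⟩ : St nm m κ l ks π c u M) hks hstr ψ κ₀ herr rk hrk hal R hR n
  refine ⟨c', u', M', h1.bu, h1.kup, h1.eq, fun i hi => ?_, ?_, ?_⟩
  · exact h2 i hi
  · intro i
    rw [h3 i i (lt_irrefl _), if_pos rfl]
    rfl
  · intro i j hij hκ
    by_cases h5 : nm i < nm j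
    · exact h4 i j h5 (le_antisymm (hmono h5.le) (not_lt.1 hκ)) (hn _ _)
    · rw [h3 i j h5, if_neg hij]

end Vale.Agent.P002B.AB
end

section

/-!
# P002, genus 0, arbitrary classes: T6a, stable refinements of chains
-/

namespace Vale.Agent.P002B

namespace ChainT

variable {r : ℕ}

theorem inj_of_chain {ℱ : Set (Submodule ℂ (Fin r → ℂ))} (h : IsChain (· ≤ ·) ℱ) :
    Set.InjOn (fun G : Submodule ℂ (Fin r → ℂ) => Module.finrank ℂ G) ℱ := by
  intro A hA B hB hAB
  have hAB' : Module.finrank ℂ A = Module.finrank ℂ B := hAB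
  rcases h.total hA hB with h1 | h1
  · exact Submodule.eq_of_le_of_finrank_eq h1 hAB'
  · exact (Submodule.eq_of_le_of_finrank_eq h1 hAB'.symm).symm

theorem mapsTo {ℱ : Set (Submodule ℂ (Fin r → ℂ))} :
    Set.MapsTo (fun G : Submodule ℂ (Fin r → ℂ) => Module.finrank ℂ G) ℱ
      (Set.Iic r) := by
  intro A _
  have h := Submodule.finrank_le A
  rw [Module.finrank_fin_fun] at h
  exact h

theorem fin_of_chain {ℱ : Set (Submodule ℂ (Fin r → ℂ))} (h : IsChain (· ≤ ·) ℱ) :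
    ℱ.Finite :=
  Set.Finite.of_injOn mapsTo (inj_of_chain h) (Set.finite_Iic r)

theorem ncard_of_chain {ℱ : Set (Submodule ℂ (Fin r → ℂ))} (h : IsChain (· ≤ ·) ℱ) :
    ℱ.ncard ≤ r + 1 := by
  have h1 := Set.ncard_le_ncard_of_injOn _ (mapsTo (ℱ := ℱ)) (inj_of_chain h) (Set.finite_Iic r)
  have h2 : (Set.Iic r : Set ℕ).ncard = r + 1 := by
    rw [Set.ncard_eq_toFinset_card' , Set.toFinset_Iic, Nat.card_Iic]
  rw [h2] at h1
  exact h1

end ChainT

open ChainT in
theorem chainStmt : ChainStmt := by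
  intro r ℰ J w ℱ₀ h0 h1 hc
  suffices H : ∀ (k : ℕ) (ℱ : Set (Submodule ℂ (Fin r → ℂ)))
      (τ : Submodule ℂ (Fin r → ℂ) → ℕ) (n : ℕ), r + 2 ≤ ℱ.ncard + k → IsChain (· ≤ ·) ℱ →
      ℱ₀ ⊆ ℱ → (∀ G ∈ ℱ₀, τ G = 0) → (∀ G ∈ ℱ, τ G ≤ n) →
      (∀ G ∈ ℱ, G ∉ ℱ₀ → 0 < τ G) →
      (∀ G ∈ ℱ, ∀ G' ∈ ℱ, G ∉ ℱ₀ → G' ∉ ℱ₀ → τ G = τ G' → G = G') →
      (∀ G ∈ ℱ, G ∉ ℱ₀ → ∃ A ∈ ℱ, ∃ B ∈ ℱ, A < G ∧ G < B ∧ τ A < τ G ∧ τ B < τ G ∧
        (∀ C ∈ ℱ, A < C → C < B → τ G ≤ τ C) ∧ ∃ W, (W ∈ ℰ ∨ ∃ j, ∃ F ∈ ℱ, ∃ F' ∈ ℱ, F' ≤ F ∧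
          τ F < τ G ∧ τ F' < τ G ∧ W = w j F F') ∧ G = A ⊔ (B ⊓ W)) →
      ∃ (ℱ : Set (Submodule ℂ (Fin r → ℂ))) (τ : Submodule ℂ (Fin r → ℂ) → ℕ),
      IsChain (· ≤ ·) ℱ ∧ ℱ₀ ⊆ ℱ ∧ (∀ G ∈ ℱ₀, τ G = 0) ∧
      (∀ A ∈ ℱ, ∀ B ∈ ℱ, A ≤ B → (∀ C ∈ ℱ, A < C → ¬ C < B) → ∀ W,
        (W ∈ ℰ ∨ ∃ j, ∃ F ∈ ℱ, ∃ F' ∈ ℱ, F' ≤ F ∧ W = w j F F') → A ⊔ (B ⊓ W) ∈ ℱ) ∧
      (∀ G ∈ ℱ, G ∉ ℱ₀ → 0 < τ G) ∧
      (∀ G ∈ ℱ, ∀ G' ∈ ℱ, G ∉ ℱ₀ → G' ∉ ℱ₀ → τ G = τ G' → G = G') ∧
      ∀ G ∈ ℱ, G ∉ ℱ₀ → ∃ A ∈ ℱ, ∃ B ∈ ℱ, A < G ∧ G < B ∧ τ A < τ G ∧ τ B < τ G ∧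
        (∀ C ∈ ℱ, A < C → C < B → τ G ≤ τ C) ∧ ∃ W, (W ∈ ℰ ∨ ∃ j, ∃ F ∈ ℱ, ∃ F' ∈ ℱ, F' ≤ F ∧
          τ F < τ G ∧ τ F' < τ G ∧ W = w j F F') ∧ G = A ⊔ (B ⊓ W) by
    refine H (r + 2) ℱ₀ (fun _ => 0) 0 (by omega) hc subset_rfl (fun _ _ => rfl)
      (fun _ _ => le_rfl) (fun G hG hG' => absurd hG hG') (fun G hG _ _ hG' => absurd hG hG')
      (fun G hG hG' => absurd hG hG')
  intro k
  induction k with
  | zero =>
    intro ℱ τ n hk hch
    have := ncard_of_chain hch
    omega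
  | succ k ih =>
    intro ℱ τ n hk hch hsub hz hn hpos hinj hwit
    by_cases hst : ∀ A ∈ ℱ, ∀ B ∈ ℱ, A ≤ B → (∀ C ∈ ℱ, A < C → ¬ C < B) → ∀ W,
        (W ∈ ℰ ∨ ∃ j, ∃ F ∈ ℱ, ∃ F' ∈ ℱ, F' ≤ F ∧ W = w j F F') → A ⊔ (B ⊓ W) ∈ ℱ
    · exact ⟨ℱ, τ, hch, hsub, hz, hst, hpos, hinj, hwit⟩
    push Not at hst
    obtain ⟨A, hA, B, hB, hAB, hcons, W, hW, hG⟩ := hst
    set G₁ := A ⊔ (B ⊓ W) with hG₁
    have hAG : A < G₁ := lt_of_le_of_ne le_sup_left fun h => hG (h ▸ hA)
    have hGB : G₁ < B := lt_of_le_of_ne (sup_le hAB inf_le_left) fun h => hG (h ▸ hB)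
    have hne : ∀ C ∈ ℱ, C ≠ G₁ := fun C hC h => hG (h ▸ hC)
    have hτ : ∀ C ∈ ℱ, Function.update τ G₁ (n + 1) C = τ C := fun C hC =>
      Function.update_of_ne (hne C hC) _ _
    have hτ1 : Function.update τ G₁ (n + 1) G₁ = n + 1 := Function.update_self _ _ _
    refine ih (insert G₁ ℱ) (Function.update τ G₁ (n + 1)) (n + 1) ?_ ?_ ?_ ?_ ?_ ?_ ?_ ?_
    · rw [Set.ncard_insert_of_notMem hG (fin_of_chain hch)]
      omega
    · refine hch.insert fun C hC _ => ?_
      rcases hch.total hA hC with h | h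
      · rcases h.lt_or_eq with h' | h'
        · left
          rcases hch.total hC hB with h2 | h2
          · rcases h2.lt_or_eq with h3 | h3
            · exact absurd h3 (hcons C hC h')
            · exact h3 ▸ hGB.le
          · exact hGB.le.trans h2
        · right
          exact h' ▸ hAG.le
      · exact Or.inr (h.trans hAG.le)
    · exact hsub.trans (Set.subset_insert _ _)
    · intro G hG0
      rw [hτ G (hsub hG0)]
      exact hz G hG0
    · intro G hG'
      rcases hG' with rfl | hG'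
      · rw [hτ1]
      · rw [hτ G hG']
        exact (hn G hG').trans (Nat.le_succ n)
    · intro G hG' hG0
      rcases hG' with rfl | hG'
      · rw [hτ1]
        exact Nat.succ_pos n
      · rw [hτ G hG']
        exact hpos G hG' hG0
    · intro G hG' G' hG'' hG0 hG0' he
      rcases hG' with rfl | hG' <;> rcases hG'' with rfl | hG''
      · rfl
      · rw [hτ1, hτ G' hG''] at he
        have := hn G' hG''
        omega
      · rw [hτ1, hτ G hG'] at he
        have := hn G hG'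
        omega
      · rw [hτ G hG', hτ G' hG''] at he
        exact hinj G hG' G' hG'' hG0 hG0' he
    · intro G hG' hG0
      rcases hG' with rfl | hG'
      · refine ⟨A, Or.inr hA, B, Or.inr hB, hAG, hGB, ?_, ?_, ?_, W, ?_, rfl⟩
        · rw [hτ1, hτ A hA]
          exact Nat.lt_succ_of_le (hn A hA)
        · rw [hτ1, hτ B hB]
          exact Nat.lt_succ_of_le (hn B hB)
        · intro C hC h2 h3
          rcases hC with rfl | hC
          · exact le_rfl
          · exact absurd h3 (hcons C hC h2)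
        · rcases hW with hW | ⟨j, F, hF, F', hF', hle, rfl⟩
          · exact Or.inl hW
          · refine Or.inr ⟨j, F, Or.inr hF, F', Or.inr hF', hle, ?_, ?_, rfl⟩
            · rw [hτ1, hτ F hF]
              exact Nat.lt_succ_of_le (hn F hF)
            · rw [hτ1, hτ F' hF']
              exact Nat.lt_succ_of_le (hn F' hF')
      · obtain ⟨A', hA', B', hB', h2, h3, h4, h5, h6, W', hW', h7⟩ := hwit G hG' hG0
        refine ⟨A', Or.inr hA', B', Or.inr hB', h2, h3, ?_, ?_, ?_, W', ?_, h7⟩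
        · rw [hτ G hG', hτ A' hA']
          exact h4
        · rw [hτ G hG', hτ B' hB']
          exact h5
        · intro C hC h8 h9
          rw [hτ G hG']
          rcases hC with rfl | hC
          · rw [hτ1]
            exact (hn G hG').trans (Nat.le_succ n)
          · rw [hτ C hC]
            exact h6 C hC h8 h9
        · rcases hW' with hW' | ⟨j, F, hF, F', hF', hle, h8, h9, h10⟩
          · exact Or.inl hW'
          · refine Or.inr ⟨j, F, Or.inr hF, F', Or.inr hF', hle, ?_, ?_, h10⟩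
            · rw [hτ G hG', hτ F hF]
              exact h8
            · rw [hτ G hG', hτ F' hF']
              exact h9

end Vale.Agent.P002B
end

section

/-!
# P002, genus 0, arbitrary classes: the Levi equation as a quadratic system of words (T9.1)
-/

namespace Vale.Agent.P002B

open Matrix Vale.Agent.P002R Vale.Agent.P002L

namespace LW

variable {r N : ℕ}

/-- Size of a block. -/
def dm (nm : Fin r → Fin N) (c : Fin N) : ℕ := Fintype.card {i // nm i = c}

/-- Enumeration of a block. -/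
noncomputable def eqv {nm : Fin r → Fin N} {c : Fin N} {d : ℕ} (h : dm nm c = d) :
    {i // nm i = c} ≃ Fin d := Fintype.equivFinOfCardEq h

/-- Frames of the blocks of size `d`. -/
noncomputable def JJ (S : Type*) [CommRing S] (nm : Fin r → Fin N) (d : ℕ) (c : Fin N) :
    Matrix (Fin r) (Fin d) S :=
  if h : dm nm c = d then
    Matrix.of fun i s => if i = ((eqv h).symm s).1 then 1 else 0
  else 0

section frames

variable {S : Type*} [CommRing S] {nm : Fin r → Fin N} {d : ℕ} {c : Fin N}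

theorem JJ_apply (h : dm nm c = d) (i : Fin r) (s : Fin d) : JJ S nm d c i s =
    if i = ((eqv h).symm s).1 then 1 else 0 := by
  rw [JJ, dif_pos h]
  rfl

theorem JJ_zero (i : Fin r) (s : Fin d) (h : nm i ≠ c) : JJ S nm d c i s = 0 := by
  by_cases hd : dm nm c = d
  · rw [JJ_apply hd, if_neg]
    rintro rfl
    exact h ((eqv hd).symm s).2
  · rw [JJ, dif_neg hd]
    rfl

theorem JJ_tmul (h : dm nm c = d) : (JJ S nm d c)ᵀ * JJ S nm d c = 1 := by
  ext s t
  rw [mul_apply]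
  simp only [transpose_apply, JJ_apply h, ite_mul, one_mul, zero_mul]
  rw [Finset.sum_ite_eq' Finset.univ _ _, if_pos (Finset.mem_univ _), one_apply]
  congr 1
  simp only [eq_iff_iff]
  rw [← Subtype.ext_iff, (eqv h).symm.injective.eq_iff]

theorem JJ_mult (h : dm nm c = d) : JJ S nm d c * (JJ S nm d c)ᵀ = ee nm c := by
  ext i j
  rw [mul_apply, ee, diagonal_apply]
  by_cases hi : nm i = c
  · rw [Finset.sum_eq_single (eqv h ⟨i, hi⟩)]
    · simp only [transpose_apply, JJ_apply h, Equiv.symm_apply_apply, if_true, hi, one_mul]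
      by_cases hij : i = j
      · simp [hij]
      · rw [if_neg hij, if_neg (Ne.symm hij)]
    · intro s _ hs
      rw [JJ_apply h, if_neg, zero_mul]
      intro h'
      apply hs
      rw [← (eqv h).apply_symm_apply s]
      congr 1
      exact Subtype.ext h'.symm
    · intro h'
      exact absurd (Finset.mem_univ _) h'
  · rw [if_neg hi]
    have : ∀ s, JJ S nm d c i s = 0 := fun s => JJ_zero i s hi
    simp only [this, transpose_apply, zero_mul, Finset.sum_const_zero, ite_self]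

theorem JJ_ne {c' : Fin N} (h : c ≠ c') : (JJ S nm d c)ᵀ * JJ S nm d c' = 0 := by
  ext s t
  rw [mul_apply, Matrix.zero_apply]
  apply Finset.sum_eq_zero
  intro i _
  rw [transpose_apply]
  by_cases hi : nm i = c
  · rw [JJ_zero (c := c') i t (by rw [hi]; exact h), mul_zero]
  · rw [JJ_zero (c := c) i s hi, zero_mul]

theorem ee_JJ : (ee nm c : Mat r S) * JJ S nm d c = JJ S nm d c := by
  ext i s
  rw [ee, diagonal_mul]
  by_cases hi : nm i = c
  · rw [if_pos hi, one_mul]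
  · rw [if_neg hi, zero_mul, JJ_zero i s hi]

theorem ee_JJ_ne {c' : Fin N} (h : c' ≠ c) : (ee nm c' : Mat r S) * JJ S nm d c = 0 := by
  ext i s
  rw [ee, diagonal_mul, Matrix.zero_apply]
  by_cases hi : nm i = c'
  · rw [if_pos hi, one_mul, JJ_zero i s (by rw [hi]; exact h)]
  · rw [if_neg hi, zero_mul]

theorem BB_JJ {a b : Fin N} {y : Mat r S} (hy : BB nm a b y) (h : c ≠ b) :
    y * JJ S nm d c = 0 := by
  ext i s
  rw [mul_apply, Matrix.zero_apply]
  apply Finset.sum_eq_zero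
  intro j _
  by_cases hj : nm j = c
  · rw [hy i j (fun h' => h (hj.symm.trans h'.2)), zero_mul]
  · rw [JJ_zero j s hj, mul_zero]

theorem BB_ee {a b : Fin N} {y : Mat r S} (hy : BB nm a b y) : y * ee nm b = y := by
  ext i j
  rw [ee, mul_diagonal]
  by_cases hj : nm j = b
  · rw [if_pos hj, mul_one]
  · rw [if_neg hj, mul_zero, hy i j fun h => hj h.2]

theorem ee_BB {a b : Fin N} {y : Mat r S} (hy : BB nm a b y) : ee nm a * y = y := by
  ext i j
  rw [ee, diagonal_mul]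
  by_cases hj : nm i = a
  · rw [if_pos hj, one_mul]
  · rw [if_neg hj, zero_mul, hy i j fun h => hj h.1]

theorem BB_mk {a b : Fin N} (X : Mat d S) :
    BB nm a b (JJ S nm d a * X * (JJ S nm d b)ᵀ) := by
  intro i j hij
  rw [mul_apply]
  apply Finset.sum_eq_zero
  intro t _
  by_cases hi : nm i = a
  · have hj : nm j ≠ b := fun h => hij ⟨hi, h⟩
    rw [transpose_apply, JJ_zero j t hj, mul_zero]
  · rw [mul_apply, Finset.sum_eq_zero, zero_mul]
    intro s _
    rw [JJ_zero i s hi, zero_mul]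

theorem JJ_map {S' : Type*} [CommRing S'] (f : S →+* S') :
    (JJ S nm d c).map f = JJ S' nm d c := by
  ext i s
  rw [map_apply]
  by_cases hd : dm nm c = d
  · rw [JJ_apply hd, JJ_apply hd]
    split <;> simp
  · rw [JJ, dif_neg hd, JJ, dif_neg hd]
    simp

end frames

/-- One step of the state of the words. -/
def lstep {R : Type} [CommRing R] (s : (Fin N → List (ℕ × Bool)) × (Fin N → Rˣ)) :
    Sy R N → (Fin N → List (ℕ × Bool)) × (Fin N → Rˣ)
  | Sy.D d => (s.1, fun c => s.2 c * d c)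
  | Sy.Y a b n => (fun c => if c = b then s.1 a ++ [(n, true)] else
      if c = a then s.1 b ++ [(n, false)] else s.1 c,
      fun c => if c = b then s.2 a else if c = a then -s.2 b else s.2 c)

/-- State of the words. -/
def lst {R : Type} [CommRing R] (L : List (Sy R N)) :
    (Fin N → List (ℕ × Bool)) × (Fin N → Rˣ) :=
  L.foldl lstep (fun _ => [], fun _ => 1)

section state

variable {R : Type} [CommRing R]

theorem lst_snoc (L : List (Sy R N)) (s : Sy R N) : lst (L ++ [s]) = lstep (lst L) s := by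
  rw [lst, List.foldl_append]
  rfl

theorem lst_D (L : List (Sy R N)) (d : Fin N → Rˣ) :
    lst (L ++ [Sy.D d]) = ((lst L).1, fun c => (lst L).2 c * d c) := lst_snoc L _

theorem lst_Y (L : List (Sy R N)) (a b : Fin N) (n : ℕ) :
    lst (L ++ [Sy.Y a b n]) = (fun c => if c = b then (lst L).1 a ++ [(n, true)] else
      if c = a then (lst L).1 b ++ [(n, false)] else (lst L).1 c,
      fun c => if c = b then (lst L).2 a else if c = a then -(lst L).2 b else (lst L).2 c) :=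
  lst_snoc L _

theorem cev_snoc {S : Type} [CommRing S] (nm : Fin r → Fin N) (ι : R →+* S)
    (y : ℕ → Mat r S × Mat r S) (L : List (Sy R N)) (s : Sy R N) :
    cev nm ι y (L ++ [s]) = cev nm ι y L * s.ev nm ι y := by
  rw [cev, List.map_append, List.prod_append]
  simp only [List.map_cons, List.map_nil, List.prod_cons, List.prod_nil, mul_one, cev]

theorem cpm_snoc (L : List (Sy R N)) (s : Sy R N) : cpm (L ++ [s]) = cpm L * s.pm := by
  rw [cpm, List.map_append, List.prod_append]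
  simp [cpm]

theorem wev_snoc {G : Type*} [Group G] (Y : ℕ → G) (w : List (ℕ × Bool)) (x : ℕ × Bool) :
    wev Y (w ++ [x]) = wev Y w * if x.2 then Y x.1 else (Y x.1)⁻¹ := by
  rw [wev, List.map_append, List.prod_append]
  simp [wev]

/-- Evaluation of circuits by words. -/
theorem cev_word {S : Type} [CommRing S] (nm : Fin r → Fin N) (ι : R →+* S)
    (y : ℕ → Mat r S × Mat r S) (Y : (d : ℕ) → ℕ → (Mat d S)ˣ) (L : List (Sy R N)) :
    (∀ a b n, Sy.Y a b n ∈ L → a ≠ b ∧ dm nm a = dm nm b ∧ BB nm a b (y n).1 ∧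
      BB nm b a (y n).2 ∧
      (y n).1 * JJ S nm (dm nm a) b = JJ S nm (dm nm a) a * (Y (dm nm a) n : Mat (dm nm a) S) ∧
      (y n).2 * JJ S nm (dm nm a) a =
        JJ S nm (dm nm a) b * (((Y (dm nm a) n)⁻¹ : (Mat (dm nm a) S)ˣ) :
          Mat (dm nm a) S)) →
    ∀ c d, dm nm c = d → dm nm (cpm L c) = d ∧ cev nm ι y L * JJ S nm d c =
      ι ((lst L).2 c : R) • (JJ S nm d (cpm L c) *
        ((wev (Y d) ((lst L).1 c) : (Mat d S)ˣ) : Mat d S)) := by
  induction L using List.reverseRecOn with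
  | nil =>
    intro _ c d hc
    simp only [cpm, List.map_nil, List.prod_nil, Equiv.Perm.coe_one, id_eq, hc, cev, Matrix.one_mul, lst, List.foldl_nil, Units.val_one, map_one, wev, Matrix.mul_one, one_smul, and_self]
  | append_singleton L s ih =>
    intro H c d hc
    have ih := ih fun a b n h => H a b n (List.mem_append_left _ h)
    rw [cev_snoc, cpm_snoc]
    cases s with
    | D δ =>
      obtain ⟨h1, h2⟩ := ih c d hc
      simp only [Sy.pm, mul_one, Sy.ev, lst_D]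
      refine ⟨h1, ?_⟩
      have h3 : (diagonal fun i => ι (δ (nm i) : R)) * JJ S nm d c =
          ι (δ c : R) • JJ S nm d c := by
        ext i t
        rw [diagonal_mul, Matrix.smul_apply, smul_eq_mul]
        by_cases hi : nm i = c
        · rw [hi]
        · rw [JJ_zero i t hi, mul_zero, mul_zero]
      rw [Matrix.mul_assoc, h3, Matrix.mul_smul, h2, smul_smul, Units.val_mul, map_mul,
        mul_comm (ι ((lst L).2 c : R))]
    | Y a b n =>
      obtain ⟨hab, hdm, hy1, hy2, hY1, hY2⟩ := H a b n (by simp)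
      simp only [Sy.pm, Sy.ev, lst_Y]
      rw [Matrix.mul_assoc]
      simp only [Matrix.add_mul, Matrix.sub_mul, Matrix.one_mul]
      by_cases hcb : c = b
      · subst hcb
        have hda : dm nm a = d := hdm.trans hc
        subst hda
        obtain ⟨h1, h2⟩ := ih a _ rfl
        rw [ee_JJ_ne hab, ee_JJ, BB_JJ hy2 (Ne.symm hab), hY1]
        have h3 : (cpm L * Equiv.swap a c) c = cpm L a := by
          rw [Equiv.Perm.mul_apply, Equiv.swap_apply_right]
        rw [h3, if_pos rfl, if_pos rfl, wev_snoc]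
        refine ⟨h1, ?_⟩
        simp only [if_true, Units.val_mul, sub_zero, sub_self, zero_add]
        rw [← Matrix.mul_assoc, h2, Matrix.smul_mul, Matrix.mul_assoc]
      · by_cases hca : c = a
        · subst hca
          subst hc
          obtain ⟨h1, h2⟩ := ih b _ hdm.symm
          rw [ee_JJ_ne (Ne.symm hab), ee_JJ, BB_JJ hy1 hab, hY2]
          have h3 : (cpm L * Equiv.swap c b) c = cpm L b := by
            rw [Equiv.Perm.mul_apply, Equiv.swap_apply_left]
          rw [h3, if_neg hcb, if_pos rfl, if_neg hcb, if_pos rfl, wev_snoc]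
          refine ⟨h1, ?_⟩
          simp only [Bool.false_eq_true, if_false, Units.val_mul, sub_self, zero_add,
            zero_sub, Matrix.mul_neg, Units.val_neg, map_neg, neg_smul]
          rw [← Matrix.mul_assoc, h2, Matrix.smul_mul, Matrix.mul_assoc]
        · obtain ⟨h1, h2⟩ := ih c d hc
          rw [ee_JJ_ne (Ne.symm hca), ee_JJ_ne (Ne.symm hcb), BB_JJ hy1 hcb, BB_JJ hy2 hca]
          have h3 : (cpm L * Equiv.swap a b) c = cpm L c := by
            rw [Equiv.Perm.mul_apply, Equiv.swap_apply_of_ne_of_ne hca hcb]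
          rw [h3, if_neg hcb, if_neg hca, if_neg hcb, if_neg hca]
          refine ⟨h1, ?_⟩
          simp only [sub_zero, add_zero]
          exact h2

/-- The variables of a circuit. -/
theorem mem_vars (L : List (Sy R N)) (n : ℕ) :
    n ∈ L.filterMap Sy.vr ↔ ∃ a b, Sy.Y a b n ∈ L := by
  rw [List.mem_filterMap]
  constructor
  · rintro ⟨s, hs, h⟩
    cases s with
    | D d => simp [Sy.vr] at h
    | Y a b m =>
      simp only [Sy.vr, Option.some.injEq] at h
      subst h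
      exact ⟨a, b, hs⟩
  · rintro ⟨a, b, h⟩
    exact ⟨_, h, rfl⟩

theorem circ_left {L : List (Sy R N)} {s : Sy R N} (h : Circ (L ++ [s])) : Circ L := by
  refine ⟨?_, fun a b n hn => h.2 a b n (List.mem_append_left _ hn)⟩
  have := h.1
  rw [List.filterMap_append] at this
  exact this.of_append_left

theorem circ_new {L : List (Sy R N)} {a b : Fin N} {n : ℕ} (h : Circ (L ++ [Sy.Y a b n])) :
    n ∉ L.filterMap Sy.vr := by
  have := h.1
  rw [List.filterMap_append] at this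
  have h2 := List.disjoint_of_nodup_append this
  intro hn
  exact h2 hn (List.mem_filterMap.2 ⟨_, List.mem_singleton_self _, rfl⟩)

theorem circ_unique {L : List (Sy R N)} (h : (L.filterMap Sy.vr).Nodup) {a b a' b' : Fin N}
    {n : ℕ} (h1 : Sy.Y a b n ∈ L) (h2 : Sy.Y a' b' n ∈ L) : a = a' ∧ b = b' := by
  induction L with
  | nil => simp at h1
  | cons s L ih =>
    have hL : (L.filterMap Sy.vr).Nodup :=
      h.sublist (List.Sublist.filterMap Sy.vr (List.sublist_cons_self s L))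
    rcases List.mem_cons.1 h1 with e1 | h1
    · rcases List.mem_cons.1 h2 with e2 | h2
      · rw [← e1] at e2
        simp only [Sy.Y.injEq] at e2
        exact ⟨e2.1.symm, e2.2.1.symm⟩
      · exfalso
        rw [← e1] at h
        have h' : (n :: L.filterMap Sy.vr).Nodup := h
        exact (List.nodup_cons.1 h').1 ((mem_vars L n).2 ⟨_, _, h2⟩)
    · rcases List.mem_cons.1 h2 with e2 | h2
      · exfalso
        rw [← e2] at h
        have h' : (n :: L.filterMap Sy.vr).Nodup := h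
        exact (List.nodup_cons.1 h').1 ((mem_vars L n).2 ⟨_, _, h1⟩)
      · exact ih hL h1 h2

/-- Combinatorics of the words. -/
theorem words_inv (nm : Fin r → Fin N) (L : List (Sy R N)) : Circ L →
    (∀ a b n, Sy.Y a b n ∈ L → dm nm a = dm nm b) →
    (∀ c, ((lst L).1 c).Nodup) ∧ (∀ c c' x, x ∈ (lst L).1 c → x ∈ (lst L).1 c' → c = c') ∧
    (∀ c n β, (n, β) ∈ (lst L).1 c → ∃ a b, Sy.Y a b n ∈ L ∧ dm nm c = dm nm a) ∧
    ∀ a b n β, Sy.Y a b n ∈ L → ∃ c, dm nm c = dm nm a ∧ (n, β) ∈ (lst L).1 c := by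
  induction L using List.reverseRecOn with
  | nil =>
    intro _ _
    simp only [lst, List.foldl_nil, List.nodup_nil, implies_true, List.not_mem_nil, IsEmpty.forall_iff, false_and, exists_false, imp_self, and_false, and_self]
  | append_singleton L s ih =>
    intro hC hD
    obtain ⟨i1, i2, i3, i4⟩ := ih (circ_left hC) fun a b n h => hD a b n (List.mem_append_left _ h)
    cases s with
    | D δ =>
      simp only [lst_D]
      refine ⟨i1, i2, fun c n β h => ?_, fun a b n β h => ?_⟩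
      · obtain ⟨a, b, h1, h2⟩ := i3 c n β h
        exact ⟨a, b, List.mem_append_left _ h1, h2⟩
      · exact i4 a b n β (by simpa only [List.mem_append, List.mem_cons, reduceCtorEq, List.not_mem_nil, or_self, or_false] using h)
    | Y a b n =>
      have hab : a ≠ b := hC.2 a b n (by simp)
      have hdm : dm nm a = dm nm b := hD a b n (by simp)
      have hn : ∀ c β, (n, β) ∉ (lst L).1 c := by
        intro c β h
        obtain ⟨a', b', h1, _⟩ := i3 c n β h
        exact circ_new hC ((mem_vars L n).2 ⟨a', b', h1⟩)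
      -- membership in the new words
      have hmem : ∀ c x, x ∈ (lst (L ++ [Sy.Y a b n])).1 c ↔
          (x ∈ (lst L).1 (Equiv.swap a b c) ∨ (c = b ∧ x = (n, true)) ∨
            (c = a ∧ x = (n, false))) := by
        intro c x
        rw [lst_Y]
        simp only
        by_cases hcb : c = b
        · subst hcb
          simp [hab.symm]
        · by_cases hca : c = a
          · subst hca
            simp only [hcb, ↓reduceIte, List.mem_append, List.mem_cons, List.not_mem_nil, or_false, Equiv.swap_apply_left, false_and, true_and, false_or]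
          · simp only [hcb, ↓reduceIte, hca, Equiv.swap_apply_of_ne_of_ne hca hcb, false_and, or_self, or_false]
      have hsw : ∀ c, dm nm (Equiv.swap a b c) = dm nm c := by
        intro c
        by_cases hcb : c = b
        · subst hcb
          rw [Equiv.swap_apply_right, hdm]
        · by_cases hca : c = a
          · subst hca
            rw [Equiv.swap_apply_left, hdm]
          · rw [Equiv.swap_apply_of_ne_of_ne hca hcb]
      refine ⟨?_, ?_, ?_, ?_⟩
      · intro c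
        rw [lst_Y]
        simp only
        split_ifs with h1 h2
        · rw [List.nodup_append]
          refine ⟨i1 a, by simp, ?_⟩
          rintro x hx y hy rfl
          rw [List.mem_singleton] at hy
          subst hy
          exact hn _ _ hx
        · rw [List.nodup_append]
          refine ⟨i1 b, by simp, ?_⟩
          rintro x hx y hy rfl
          rw [List.mem_singleton] at hy
          subst hy
          exact hn _ _ hx
        · exact i1 c
      · intro c c' x hx hx'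
        rw [hmem] at hx hx'
        rcases hx with hx | ⟨hx, rfl⟩ | ⟨hx, rfl⟩
        · rcases hx' with hx' | ⟨hx', rfl⟩ | ⟨hx', rfl⟩
          · exact (Equiv.swap a b).injective (i2 _ _ _ hx hx')
          · exact absurd hx (hn _ _)
          · exact absurd hx (hn _ _)
        · rcases hx' with hx' | ⟨hx', h⟩ | ⟨hx', h⟩
          · exact absurd hx' (hn _ _)
          · rw [hx, hx']
          · simp at h
        · rcases hx' with hx' | ⟨hx', h⟩ | ⟨hx', h⟩
          · exact absurd hx' (hn _ _)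
          · simp at h
          · rw [hx, hx']
      · intro c m β h
        rw [hmem] at h
        rcases h with h | ⟨h, e⟩ | ⟨h, e⟩
        · obtain ⟨a', b', h1, h2⟩ := i3 _ m β h
          exact ⟨a', b', List.mem_append_left _ h1, (hsw c).symm.trans h2⟩
        · rw [Prod.mk.injEq] at e
          exact ⟨a, b, by rw [e.1]; simp, by rw [h, hdm]⟩
        · rw [Prod.mk.injEq] at e
          exact ⟨a, b, by rw [e.1]; simp, by rw [h]⟩
      · intro a' b' m β h
        rcases List.mem_append.1 h with h | h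
        · obtain ⟨c, h1, h2⟩ := i4 a' b' m β h
          refine ⟨Equiv.swap a b c, (hsw c).trans h1, ?_⟩
          rw [hmem]
          left
          rwa [Equiv.swap_apply_self]
        · rw [List.mem_singleton] at h
          simp only [Sy.Y.injEq] at h
          obtain ⟨rfl, rfl, rfl⟩ := h
          cases β with
          | true => exact ⟨b', hdm.symm, (hmem _ _).2 (Or.inr (Or.inl ⟨rfl, rfl⟩))⟩
          | false => exact ⟨a', rfl, (hmem _ _).2 (Or.inr (Or.inr ⟨rfl, rfl⟩))⟩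

/-- The words of a valid circuit form a quadratic system. -/
theorem words_quad (nm : Fin r → Fin N) (L : List (Sy R N)) (hC : Circ L)
    (hD : ∀ a b n, Sy.Y a b n ∈ L → dm nm a = dm nm b) (d : ℕ) :
    Quad (((List.finRange N).filter fun c => dm nm c = d).map (lst L).1) := by
  obtain ⟨i1, i2, i3, i4⟩ := words_inv nm L hC hD
  constructor
  · rw [List.nodup_flatten]
    constructor
    · intro l hl
      obtain ⟨c, -, rfl⟩ := List.mem_map.1 hl
      exact i1 c
    · rw [List.pairwise_map]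
      apply List.Pairwise.filter
      refine List.Pairwise.imp ?_ (List.nodup_finRange N)
      intro c c' hcc x hx hx'
      exact hcc (i2 c c' x hx hx')
  · intro n β h
    obtain ⟨l, hl, hx⟩ := List.mem_flatten.1 h
    obtain ⟨c, hc, rfl⟩ := List.mem_map.1 hl
    have hc' := (List.mem_filter.1 hc).2
    rw [decide_eq_true_eq] at hc'
    obtain ⟨a, b, h1, h2⟩ := i3 c n β hx
    obtain ⟨c₁, h3, h4⟩ := i4 a b n (!β) h1
    refine List.mem_flatten.2 ⟨_, List.mem_map.2 ⟨c₁, List.mem_filter.2 ⟨List.mem_finRange _, ?_⟩,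
      rfl⟩, h4⟩
    rw [decide_eq_true_eq, h3, ← h2, hc']

end state

/-- Inverse blocks have equal size. -/
theorem dm_eq {nm : Fin r → Fin N} {a b : Fin N} {y z : Mat r ℂ} (h1 : y * z = ee nm a)
    (h2 : z * y = ee nm b) : dm nm a = dm nm b := by
  have h3 : trace (ee nm a : Mat r ℂ) = trace (ee nm b : Mat r ℂ) := by
    rw [← h1, ← h2, trace_mul_comm]
  have h4 : ∀ c : Fin N, trace (ee nm c : Mat r ℂ) = (dm nm c : ℂ) := by
    intro c
    rw [ee, trace_diagonal, dm, Fintype.card_subtype, Finset.sum_boole]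
  rw [h4, h4] at h3
  exact_mod_cast h3

variable {R : Type} [CommRing R]

/-- The complex solution of the words. -/
theorem exists_Y₀ (nm : Fin r → Fin N) (L : List (Sy R N)) (hC : Circ L)
    (y₀ : ℕ → Mat r ℂ × Mat r ℂ) (hV : Valid nm y₀ L) :
    ∃ Y₀ : (d : ℕ) → ℕ → (Mat d ℂ)ˣ, ∀ a b n, Sy.Y a b n ∈ L →
      (Y₀ (dm nm a) n : Mat (dm nm a) ℂ) =
        (JJ ℂ nm (dm nm a) a)ᵀ * (y₀ n).1 * JJ ℂ nm (dm nm a) b ∧
      (((Y₀ (dm nm a) n)⁻¹ : (Mat (dm nm a) ℂ)ˣ) : Mat (dm nm a) ℂ) =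
        (JJ ℂ nm (dm nm a) b)ᵀ * (y₀ n).2 * JJ ℂ nm (dm nm a) a := by
  have key : ∀ (d n : ℕ), ∃ U : (Mat d ℂ)ˣ, ∀ a b, Sy.Y a b n ∈ L → dm nm a = d →
      (U : Mat d ℂ) = (JJ ℂ nm d a)ᵀ * (y₀ n).1 * JJ ℂ nm d b ∧
      ((U⁻¹ : (Mat d ℂ)ˣ) : Mat d ℂ) = (JJ ℂ nm d b)ᵀ * (y₀ n).2 * JJ ℂ nm d a := by
    intro d n
    by_cases h : ∃ a b, Sy.Y a b n ∈ L ∧ dm nm a = d
    · obtain ⟨a, b, hL, hd⟩ := h
      obtain ⟨v1, v2, v3, v4⟩ := hV a b n hL
      have hb : dm nm b = d := (dm_eq v3 v4).symm.trans hd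
      have e1 : (JJ ℂ nm d a)ᵀ * (y₀ n).1 * JJ ℂ nm d b *
          ((JJ ℂ nm d b)ᵀ * (y₀ n).2 * JJ ℂ nm d a) = 1 := by
        calc _ = (JJ ℂ nm d a)ᵀ * ((y₀ n).1 * (JJ ℂ nm d b * (JJ ℂ nm d b)ᵀ) * (y₀ n).2) *
              JJ ℂ nm d a := by simp only [Matrix.mul_assoc]
          _ = 1 := by
            rw [JJ_mult hb, BB_ee v1, v3, Matrix.mul_assoc, ee_JJ, JJ_tmul hd]
      have e2 : (JJ ℂ nm d b)ᵀ * (y₀ n).2 * JJ ℂ nm d a *
          ((JJ ℂ nm d a)ᵀ * (y₀ n).1 * JJ ℂ nm d b) = 1 := by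
        calc _ = (JJ ℂ nm d b)ᵀ * ((y₀ n).2 * (JJ ℂ nm d a * (JJ ℂ nm d a)ᵀ) * (y₀ n).1) *
              JJ ℂ nm d b := by simp only [Matrix.mul_assoc]
          _ = 1 := by
            rw [JJ_mult hd, BB_ee v2, v4, Matrix.mul_assoc, ee_JJ, JJ_tmul hb]
      refine ⟨⟨_, _, e1, e2⟩, ?_⟩
      intro a' b' hL' _
      obtain ⟨rfl, rfl⟩ := circ_unique hC.1 hL hL'
      exact ⟨rfl, rfl⟩
    · refine ⟨1, fun a b h1 h2 => absurd ⟨a, b, h1, h2⟩ h⟩
  choose Y₀ hY₀ using key
  exact ⟨Y₀, fun a b n h => hY₀ _ n a b h rfl⟩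

/-- The assignment of the circuit from the solution of the words. -/
theorem exists_y {S : Type} [CommRing S] (nm : Fin r → Fin N) (L : List (Sy R N)) (hC : Circ L)
    (Y : (d : ℕ) → ℕ → (Mat d S)ˣ) :
    ∃ y : ℕ → Mat r S × Mat r S, ∀ a b n, Sy.Y a b n ∈ L →
      (y n).1 = JJ S nm (dm nm a) a * (Y (dm nm a) n : Mat (dm nm a) S) *
        (JJ S nm (dm nm a) b)ᵀ ∧
      (y n).2 = JJ S nm (dm nm a) b * (((Y (dm nm a) n)⁻¹ : (Mat (dm nm a) S)ˣ) :
        Mat (dm nm a) S) * (JJ S nm (dm nm a) a)ᵀ := by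
  have key : ∀ n : ℕ, ∃ p : Mat r S × Mat r S, ∀ a b, Sy.Y a b n ∈ L →
      p.1 = JJ S nm (dm nm a) a * (Y (dm nm a) n : Mat (dm nm a) S) *
        (JJ S nm (dm nm a) b)ᵀ ∧
      p.2 = JJ S nm (dm nm a) b * (((Y (dm nm a) n)⁻¹ : (Mat (dm nm a) S)ˣ) :
        Mat (dm nm a) S) * (JJ S nm (dm nm a) a)ᵀ := by
    intro n
    by_cases h : ∃ a b, Sy.Y a b n ∈ L
    · obtain ⟨a, b, hL⟩ := h
      refine ⟨(JJ S nm (dm nm a) a * (Y (dm nm a) n : Mat (dm nm a) S) *
        (JJ S nm (dm nm a) b)ᵀ, JJ S nm (dm nm a) b *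
        (((Y (dm nm a) n)⁻¹ : (Mat (dm nm a) S)ˣ) : Mat (dm nm a) S) *
        (JJ S nm (dm nm a) a)ᵀ), ?_⟩
      intro a' b' hL'
      obtain ⟨rfl, rfl⟩ := circ_unique hC.1 hL hL'
      exact ⟨rfl, rfl⟩
    · exact ⟨(0, 0), fun a b h1 => absurd ⟨a, b, h1⟩ h⟩
  choose y hy using key
  exact ⟨y, fun a b n h => hy n a b h⟩

theorem levi_aux (hW : WordStmt) : LeviStmt := by
  intro R A _ _ φ ι ψ E r N hE hL nm hnm L y₀ lam hC hV hcev
  obtain ⟨Y₀, hY₀⟩ := exists_Y₀ nm L hC y₀ hV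
  have hpos : ∀ c : Fin N, 0 < dm nm c := by
    intro c
    obtain ⟨i, hi⟩ := hnm c
    exact Fintype.card_pos_iff.2 ⟨⟨i, hi⟩⟩
  have hler : ∀ c : Fin N, dm nm c ≤ r := by
    intro c
    have := Fintype.card_subtype_le fun i : Fin r => nm i = c
    rwa [Fintype.card_fin] at this
  have hdm : ∀ a b n, Sy.Y a b n ∈ L → dm nm a = dm nm b := fun a b n h =>
    dm_eq (hV a b n h).2.2.1 (hV a b n h).2.2.2
  -- evaluation over the complex numbers
  have hev := cev_word nm φ y₀ Y₀ L (fun a b n h => by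
    obtain ⟨v1, v2, v3, v4⟩ := hV a b n h
    obtain ⟨e1, e2⟩ := hY₀ a b n h
    refine ⟨hC.2 a b n h, hdm a b n h, v1, v2, ?_, ?_⟩
    · rw [e1, ← Matrix.mul_assoc, ← Matrix.mul_assoc, JJ_mult rfl, ee_BB v1]
    · rw [e2, ← Matrix.mul_assoc, ← Matrix.mul_assoc, JJ_mult (hdm a b n h).symm, ee_BB v2])
  have hlam : ∀ c : Fin N, φ (lam c : R) ≠ 0 := fun c => ((lam c).isUnit.map φ).ne_zero
  have hdiag : ∀ {S : Type} [CommRing S] (f : R →+* S) (c : Fin N),
      (diagonal fun i => f (lam (nm i) : R)) * JJ S nm (dm nm c) c =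
        f (lam c : R) • JJ S nm (dm nm c) c := by
    intro S _ f c
    ext i t
    rw [diagonal_mul, Matrix.smul_apply, smul_eq_mul]
    by_cases hi : nm i = c
    · rw [hi]
    · rw [JJ_zero i t hi, mul_zero, mul_zero]
  have hpi : ∀ c : Fin N, cpm L c = c := by
    intro c
    by_contra hne
    obtain ⟨-, h2⟩ := hev c _ rfl
    rw [hcev, hdiag φ c] at h2
    have h3 := congrArg (fun X => (JJ ℂ nm (dm nm c) c)ᵀ * X) h2
    simp only [Matrix.mul_smul] at h3
    rw [← Matrix.mul_assoc, JJ_tmul rfl, JJ_ne (Ne.symm hne), Matrix.zero_mul, smul_zero] at h3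
    have h4 := congrFun (congrFun h3 ⟨0, hpos c⟩) ⟨0, hpos c⟩
    rw [Matrix.smul_apply, one_apply_eq, smul_eq_mul, mul_one, Matrix.zero_apply] at h4
    exact hlam c h4
  have hword : ∀ c : Fin N, ((wev (Y₀ (dm nm c)) ((lst L).1 c) : (Mat (dm nm c) ℂ)ˣ) :
      Mat (dm nm c) ℂ) = φ ((((lst L).2 c)⁻¹ * lam c : Rˣ) : R) • (1 : Mat (dm nm c) ℂ) := by
    intro c
    obtain ⟨-, h2⟩ := hev c _ rfl
    rw [hcev, hdiag φ c, hpi c] at h2
    have h3 := congrArg (fun X => (JJ ℂ nm (dm nm c) c)ᵀ * X) h2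
    simp only [Matrix.mul_smul] at h3
    rw [← Matrix.mul_assoc, JJ_tmul rfl, Matrix.one_mul] at h3
    rw [Units.val_mul, map_mul, mul_smul, h3, smul_smul, ← map_mul, Units.inv_mul, map_one,
      one_smul]
  let ws : ℕ → List (List (ℕ × Bool) × Rˣ) := fun d =>
    ((List.finRange N).filter fun c => dm nm c = d).map
      fun c => ((lst L).1 c, ((lst L).2 c)⁻¹ * lam c)
  have hmem : ∀ d p, p ∈ ws d ↔ ∃ c, dm nm c = d ∧ p = ((lst L).1 c, ((lst L).2 c)⁻¹ * lam c) := by
    intro d p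
    simp only [List.mem_map, List.mem_filter, List.mem_finRange, decide_eq_true_eq, true_and, ws]
    constructor
    · rintro ⟨c, h1, h2⟩
      exact ⟨c, h1, h2.symm⟩
    · rintro ⟨c, h1, h2⟩
      exact ⟨c, h1, h2.symm⟩
  obtain ⟨A', _, ι', ψ', j, Y, hL', -, -, hY⟩ := hW E hE hL ws Y₀ (by
    intro d _ _
    constructor
    · have : (ws d).map Prod.fst =
          ((List.finRange N).filter fun c => dm nm c = d).map (lst L).1 := by
        simp only [ws, List.map_map]
        rfl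
      rw [this]
      exact words_quad nm L hC hdm d
    · intro p hp
      obtain ⟨c, rfl, rfl⟩ := (hmem d p).1 hp
      exact hword c)
  obtain ⟨y, hy⟩ := exists_y nm L hC Y
  have hval : Valid nm y L := by
    intro a b n h
    obtain ⟨e1, e2⟩ := hy a b n h
    rw [e1, e2]
    refine ⟨BB_mk _, BB_mk _, ?_, ?_⟩
    · calc _ = JJ A' nm (dm nm a) a * ((Y (dm nm a) n : Mat (dm nm a) A') *
            ((JJ A' nm (dm nm a) b)ᵀ * JJ A' nm (dm nm a) b) *
            (((Y (dm nm a) n)⁻¹ : (Mat (dm nm a) A')ˣ) : Mat (dm nm a) A')) *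
            (JJ A' nm (dm nm a) a)ᵀ := by simp only [Matrix.mul_assoc]
        _ = _ := by
          rw [JJ_tmul (hdm a b n h).symm, Matrix.mul_one, Units.mul_inv, Matrix.mul_one,
            JJ_mult rfl]
    · calc _ = JJ A' nm (dm nm a) b * ((((Y (dm nm a) n)⁻¹ : (Mat (dm nm a) A')ˣ) :
            Mat (dm nm a) A') * ((JJ A' nm (dm nm a) a)ᵀ * JJ A' nm (dm nm a) a) *
            (Y (dm nm a) n : Mat (dm nm a) A')) *
            (JJ A' nm (dm nm a) b)ᵀ := by simp only [Matrix.mul_assoc]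
        _ = _ := by
          rw [JJ_tmul rfl, Matrix.mul_one, Units.inv_mul, Matrix.mul_one,
            JJ_mult (hdm a b n h).symm]
  have hev' := cev_word nm ι' y Y L (fun a b n h => by
    obtain ⟨v1, v2, v3, v4⟩ := hval a b n h
    obtain ⟨e1, e2⟩ := hy a b n h
    refine ⟨hC.2 a b n h, hdm a b n h, v1, v2, ?_, ?_⟩
    · rw [e1, Matrix.mul_assoc, JJ_tmul (hdm a b n h).symm, Matrix.mul_one]
    · rw [e2, Matrix.mul_assoc, JJ_tmul rfl, Matrix.mul_one])
  have hfin : ∀ c : Fin N, cev nm ι' y L * (ee nm c : Mat r A') =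
      ι' (lam c : R) • (ee nm c : Mat r A') := by
    intro c
    obtain ⟨-, h2⟩ := hev' c _ rfl
    rw [hpi c] at h2
    have h3 := (hY _ (hpos c) (hler c)).2 _ ((hmem _ _).2 ⟨c, rfl, rfl⟩)
    simp only at h3
    rw [h3, Matrix.mul_smul, Matrix.mul_one, smul_smul, ← map_mul, ← Units.val_mul,
      mul_inv_cancel_left] at h2
    rw [← JJ_mult (S := A') (nm := nm) (c := c) rfl, ← Matrix.mul_assoc, h2, Matrix.smul_mul]
  refine ⟨A', inferInstance, ι', ψ', y, hL', hval, ?_, ?_⟩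
  · intro a b n h
    obtain ⟨e1, e2⟩ := hy a b n h
    obtain ⟨v1, v2, v3, v4⟩ := hV a b n h
    have hn := (hY _ (hpos a) (hler a)).1 n
    have hn' : (((Y (dm nm a) n)⁻¹ : (Mat (dm nm a) A')ˣ) : Mat (dm nm a) A').map ψ' =
        (((Y₀ (dm nm a) n)⁻¹ : (Mat (dm nm a) ℂ)ˣ) : Mat (dm nm a) ℂ) := by
      have h5 : Units.map ((ψ'.mapMatrix : Mat (dm nm a) A' →+* Mat (dm nm a) ℂ) :
          Mat (dm nm a) A' →* Mat (dm nm a) ℂ) (Y (dm nm a) n) = Y₀ (dm nm a) n := by
        apply Units.ext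
        exact hn
      rw [← h5, ← map_inv]
      rfl
    rw [e1, e2]
    constructor
    · rw [Matrix.map_mul, Matrix.map_mul, transpose_map, JJ_map, JJ_map, hn,
        (hY₀ a b n h).1]
      calc _ = JJ ℂ nm (dm nm a) a * (JJ ℂ nm (dm nm a) a)ᵀ * (y₀ n).1 *
            (JJ ℂ nm (dm nm a) b * (JJ ℂ nm (dm nm a) b)ᵀ) := by simp only [Matrix.mul_assoc]
        _ = _ := by rw [JJ_mult rfl, JJ_mult (hdm a b n h).symm, ee_BB v1, BB_ee v1]
    · rw [Matrix.map_mul, Matrix.map_mul, transpose_map, JJ_map, JJ_map, hn',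
        (hY₀ a b n h).2]
      calc _ = JJ ℂ nm (dm nm a) b * (JJ ℂ nm (dm nm a) b)ᵀ * (y₀ n).2 *
            (JJ ℂ nm (dm nm a) a * (JJ ℂ nm (dm nm a) a)ᵀ) := by simp only [Matrix.mul_assoc]
        _ = _ := by rw [JJ_mult rfl, JJ_mult (hdm a b n h).symm, ee_BB v2, BB_ee v2]
  · ext i k
    have h6 := congrFun (congrFun (hfin (nm k)) i) k
    rw [ee, mul_diagonal, if_pos rfl, mul_one, Matrix.smul_apply, diagonal_apply, smul_eq_mul] at h6
    rw [h6, diagonal_apply]
    by_cases hik : i = k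
    · subst hik
      simp
    · simp only [hik, ↓reduceIte, mul_zero]

end LW

/-- T9.1. -/
theorem levi_of_word : WordStmt → LeviStmt := LW.levi_aux

/-- T9.1. -/
theorem leviOfQuad : LeviOfQuad := fun h => levi_of_word (word_of_quad h)

end Vale.Agent.P002B
end

section

/-!
# P002, genus 0, arbitrary classes: quadratic systems of words lift (T9, second part)
-/

namespace Vale.Agent.P002B

open Matrix Vale.Agent.P002R Vale.Agent.P002L

namespace QS

section Words

variable {G H : Type*} [Group G] [Group H]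

/-- The inverse letter. -/
def iv (x : ℕ × Bool) : ℕ × Bool := (x.1, !x.2)

theorem iv_fst (x : ℕ × Bool) : (iv x).1 = x.1 := rfl

theorem iv_iv (x : ℕ × Bool) : iv (iv x) = x := by
  simp [iv]

theorem iv_ne (x : ℕ × Bool) : iv x ≠ x := by
  intro h
  have := congrArg Prod.snd h
  simp [iv] at this

theorem eq_or_eq_iv {x y : ℕ × Bool} (h : x.1 = y.1) : x = y ∨ x = iv y := by
  obtain ⟨a, b⟩ := x
  obtain ⟨c, d⟩ := y
  simp only at h
  subst h
  cases b <;> cases d <;> simp [iv]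

/-- Value of a letter. -/
def lv (Y : ℕ → G) (x : ℕ × Bool) : G := if x.2 then Y x.1 else (Y x.1)⁻¹

theorem lv_iv (Y : ℕ → G) (x : ℕ × Bool) : lv Y (iv x) = (lv Y x)⁻¹ := by
  obtain ⟨a, b⟩ := x
  cases b <;> simp [lv, iv]

theorem wev_nil (Y : ℕ → G) : wev Y [] = 1 := rfl

theorem wev_cons (Y : ℕ → G) (x : ℕ × Bool) (w : List (ℕ × Bool)) :
    wev Y (x :: w) = lv Y x * wev Y w := by
  simp only [wev, List.map_cons, List.prod_cons, ite_mul, lv]

theorem wev_append (Y : ℕ → G) (v w : List (ℕ × Bool)) :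
    wev Y (v ++ w) = wev Y v * wev Y w := by
  simp only [wev, List.map_append, List.prod_append]

theorem wev_congr {Y Y' : ℕ → G} {w : List (ℕ × Bool)} (h : ∀ x ∈ w, Y x.1 = Y' x.1) :
    wev Y w = wev Y' w := by
  unfold wev
  refine congrArg List.prod (List.map_congr_left fun x hx => ?_)
  rw [h x hx]

theorem map_lv (f : G →* H) (Y : ℕ → G) (x : ℕ × Bool) :
    f (lv Y x) = lv (fun n => f (Y n)) x := by
  obtain ⟨a, b⟩ := x
  cases b <;> simp only [lv, Bool.false_eq_true, ↓reduceIte, map_inv]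

theorem map_wev (f : G →* H) (Y : ℕ → G) (w : List (ℕ × Bool)) :
    f (wev Y w) = wev (fun n => f (Y n)) w := by
  induction w with
  | nil => simp [wev_nil]
  | cons x w ih => rw [wev_cons, wev_cons, map_mul, ih, map_lv]

theorem wev_conj (s : G) (Y : ℕ → G) (w : List (ℕ × Bool)) :
    wev (fun n => s * Y n * s⁻¹) w = s * wev Y w * s⁻¹ :=
  (map_wev (MulAut.conj s).toMonoidHom Y w).symm

/-- Change of the value of one letter. -/
def st (Y : ℕ → G) (x : ℕ × Bool) (s : G) : ℕ → G :=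
  Function.update Y x.1 (if x.2 then s else s⁻¹)

theorem st_ne (Y : ℕ → G) (x : ℕ × Bool) (s : G) {n : ℕ} (h : n ≠ x.1) : st Y x s n = Y n :=
  Function.update_of_ne h _ _

theorem lv_st (Y : ℕ → G) (x : ℕ × Bool) (s : G) : lv (st Y x s) x = s := by
  obtain ⟨a, b⟩ := x
  cases b <;> simp [lv, st]

theorem wev_st (Y : ℕ → G) (x : ℕ × Bool) (s : G) {w : List (ℕ × Bool)}
    (h : ∀ y ∈ w, y.1 ≠ x.1) : wev (st Y x s) w = wev Y w :=
  wev_congr fun y hy => st_ne Y x s (h y hy)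

theorem map_st (f : G →* H) (Y : ℕ → G) (x : ℕ × Bool) (s : G) (n : ℕ) :
    f (st Y x s n) = st (fun n => f (Y n)) x (f s) n := by
  by_cases h : n = x.1
  · subst h
    obtain ⟨a, b⟩ := x
    cases b <;> simp only [st, Bool.false_eq_true, ↓reduceIte, Function.update_self, map_inv]
  · rw [st_ne _ _ _ h, st_ne _ _ _ h]

theorem st_self (Y : ℕ → G) (x : ℕ × Bool) : st Y x (lv Y x) = Y := by
  obtain ⟨a, b⟩ := x
  cases b <;> simp [st, lv]

/-- A product of commutators. -/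
def cm (l : List (G × G)) : G := (l.map fun p => p.1 * p.2 * p.1⁻¹ * p.2⁻¹).prod

/-- Conjugation of pairs. -/
def cj (t : G) (p : G × G) : G × G := (t * p.1 * t⁻¹, t * p.2 * t⁻¹)

theorem cm_cj (t : G) (l : List (G × G)) : cm (l.map (cj t)) = t * cm l * t⁻¹ := by
  induction l with
  | nil => simp only [cm, List.map_nil, List.prod_nil, mul_one, mul_inv_cancel]
  | cons p l ih =>
    simp only [cm, List.map_cons, List.prod_cons] at ih ⊢
    rw [ih]
    simp only [cj]
    group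

theorem cm_concat (l : List (G × G)) (p : G × G) :
    cm (l ++ [p]) = cm l * (p.1 * p.2 * p.1⁻¹ * p.2⁻¹) := by
  simp only [cm, List.map_append, List.map_cons, List.map_nil, List.prod_append, List.prod_cons, List.prod_nil, mul_one]

/-- Quadratic words. -/
def Qw (w : List (ℕ × Bool)) : Prop := w.Nodup ∧ ∀ x ∈ w, iv x ∈ w

theorem Qw.perm {v w : List (ℕ × Bool)} (h : v.Perm w) (hv : Qw v) : Qw w :=
  ⟨h.nodup_iff.1 hv.1, fun x hx => h.mem_iff.1 (hv.2 x (h.mem_iff.2 hx))⟩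

theorem Qw.tail {x : ℕ × Bool} {w : List (ℕ × Bool)} (h : Qw (x :: iv x :: w)) :
    Qw w ∧ ∀ y ∈ w, y.1 ≠ x.1 := by
  obtain ⟨h1, h2⟩ := h
  rw [List.nodup_cons, List.nodup_cons] at h1
  obtain ⟨h3, h4, h5⟩ := h1
  have h6 : ∀ y ∈ w, y.1 ≠ x.1 := by
    intro y hy hyx
    rcases eq_or_eq_iv hyx with rfl | rfl
    · exact h3 (List.mem_cons_of_mem _ hy)
    · exact h4 hy
  refine ⟨⟨h5, fun y hy => ?_⟩, h6⟩
  have h7 := h2 y (List.mem_cons_of_mem _ (List.mem_cons_of_mem _ hy))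
  rw [List.mem_cons, List.mem_cons] at h7
  rcases h7 with h7 | h7 | h7
  · exact absurd (congrArg Prod.fst h7) (h6 y hy)
  · exact absurd (congrArg Prod.fst h7) (h6 y hy)
  · exact h7

theorem Qw.split {v w : List (ℕ × Bool)} (h : Qw (v ++ w)) (hv : ∀ x ∈ v, iv x ∈ v) :
    Qw v ∧ Qw w ∧ ∀ x ∈ v, ∀ y ∈ w, x.1 ≠ y.1 := by
  obtain ⟨h1, h2⟩ := h
  have h3 := List.nodup_append.1 h1
  have h4 : ∀ x ∈ v, ∀ y ∈ w, x.1 ≠ y.1 := by
    intro x hx y hy hxy
    rcases eq_or_eq_iv hxy with rfl | rfl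
    · exact h3.2.2 _ hx _ hy rfl
    · have := hv _ hx
      rw [iv_iv] at this
      exact h3.2.2 _ this _ hy rfl
  refine ⟨⟨h3.1, hv⟩, ⟨h3.2.1, fun y hy => ?_⟩, h4⟩
  have h5 := h2 y (List.mem_append_right _ hy)
  rw [List.mem_append] at h5
  rcases h5 with h5 | h5
  · exact absurd (iv_fst y) (h4 _ h5 y hy)
  · exact h5

end Words

/-- A ring over which complex solutions are to be lifted. -/
structure LP {R : Type} [CommRing R] (φ : R →+* ℂ) where
  A : Type
  inst : CommRing A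
  ι : R →+* A
  ψ : A →+* ℂ
  L : Lifting φ ι ψ

attribute [instance] LP.inst

variable {R : Type} [CommRing R] {φ : R →+* ℂ}

/-- Morphisms. -/
structure Mo (A B : LP φ) where
  j : A.A →+* B.A
  h1 : ∀ x, B.ψ (j x) = A.ψ x
  h2 : ∀ x, j (A.ι x) = B.ι x

/-- Identity. -/
def Mo.id (A : LP φ) : Mo A A := ⟨RingHom.id _, fun _ => rfl, fun _ => rfl⟩

/-- Composition. -/
def Mo.comp {A B C : LP φ} (g : Mo B C) (f : Mo A B) : Mo A C :=
  ⟨g.j.comp f.j, fun x => by rw [RingHom.comp_apply, g.h1, f.h1],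
    fun x => by rw [RingHom.comp_apply, f.h2, g.h2]⟩

/-- Map of general linear groups. -/
def gm (d : ℕ) {S T : Type} [CommRing S] [CommRing T] (f : S →+* T) : (Mat d S)ˣ →* (Mat d T)ˣ :=
  Units.map (f.mapMatrix : Mat d S →+* Mat d T).toMonoidHom

theorem gm_coe (d : ℕ) {S T : Type} [CommRing S] [CommRing T] (f : S →+* T) (X : (Mat d S)ˣ) :
    ((gm d f X : (Mat d T)ˣ) : Mat d T) = (X : Mat d S).map f := rfl

/-- Scalars. -/
def zz (d : ℕ) {S : Type} [CommRing S] (f : R →+* S) : Rˣ →* (Mat d S)ˣ :=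
  Units.map ((Matrix.scalar (Fin d)).comp f : R →+* Mat d S).toMonoidHom

theorem zz_coe (d : ℕ) {S : Type} [CommRing S] (f : R →+* S) (μ : Rˣ) :
    ((zz d f μ : (Mat d S)ˣ) : Mat d S) = f μ • (1 : Mat d S) := by
  change Matrix.scalar (Fin d) (f μ) = _
  rw [Matrix.scalar_apply, ← Matrix.diagonal_one, ← Matrix.diagonal_smul]
  congr 1
  funext i
  simp only [Pi.smul_apply, smul_eq_mul, mul_one]

theorem eq_zz (d : ℕ) {S : Type} [CommRing S] (f : R →+* S) (μ : Rˣ) (X : (Mat d S)ˣ) :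
    X = zz d f μ ↔ (X : Mat d S) = f μ • (1 : Mat d S) := by
  rw [Units.ext_iff, zz_coe]

theorem zz_comm (d : ℕ) {S : Type} [CommRing S] (f : R →+* S) (μ : Rˣ) (X : (Mat d S)ˣ) :
    zz d f μ * X = X * zz d f μ := by
  refine Units.ext ?_
  rw [Units.val_mul, Units.val_mul, zz_coe, smul_mul_assoc, mul_smul_comm, one_mul, mul_one]

theorem gm_zz (d : ℕ) {S T : Type} [CommRing S] [CommRing T] (f : R →+* S) (g : S →+* T)
    (h : R →+* T) (hh : ∀ x, g (f x) = h x) (μ : Rˣ) : gm d g (zz d f μ) = zz d h μ := by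
  rw [eq_zz, gm_coe, zz_coe]
  ext i j
  rw [Matrix.map_apply, Matrix.smul_apply, Matrix.smul_apply, smul_eq_mul, smul_eq_mul, map_mul,
    hh, Matrix.one_apply, Matrix.one_apply]
  split_ifs <;> simp

theorem gm_comp (d : ℕ) {S T U : Type} [CommRing S] [CommRing T] [CommRing U] (f : S →+* T)
    (g : T →+* U) (h : S →+* U) (hh : ∀ x, g (f x) = h x) (X : (Mat d S)ˣ) :
    gm d g (gm d f X) = gm d h X := by
  refine Units.ext ?_
  rw [gm_coe, gm_coe, gm_coe]
  ext i j
  simp [hh]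

/-- Invertible matrices lift. -/
theorem gm_surj (d : ℕ) {A : Type} [CommRing A] {ι : R →+* A} {ψ : A →+* ℂ}
    (hL : Lifting φ ι ψ) : Function.Surjective (gm d ψ) := by
  intro Y
  have key : ∃ X : Mat d A, IsUnit X ∧ X.map ψ = (Y : Mat d ℂ) := by
    refine Matrix.diagonal_transvection_induction_of_det_ne_zero
      (fun M => ∃ X : Mat d A, IsUnit X ∧ X.map ψ = M) (Y : Mat d ℂ) ?_ ?_ ?_ ?_
    · have := (Matrix.isUnit_iff_isUnit_det _).1 Y.isUnit
      exact this.ne_zero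
    · intro D hD
      rw [Matrix.det_diagonal, Finset.prod_ne_zero_iff] at hD
      have h1 : ∀ i, ∃ a : Aˣ, ψ a = D i := fun i => by
        obtain ⟨a, ha⟩ := hL.unit (Units.mk0 (D i) (hD i (Finset.mem_univ i)))
        exact ⟨a, ha⟩
      choose a ha using h1
      refine ⟨Matrix.diagonal fun i => (a i : A), ?_, ?_⟩
      · rw [Matrix.isUnit_iff_isUnit_det, Matrix.det_diagonal]
        exact ⟨∏ i, a i, by simp only [Units.coe_prod]⟩
      · rw [Matrix.diagonal_map (map_zero ψ)]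
        congr 1
        funext i
        exact ha i
    · intro t
      obtain ⟨c, hc⟩ := hL.surj t.c
      refine ⟨Matrix.transvection t.i t.j c, ?_, ?_⟩
      · rw [Matrix.isUnit_iff_isUnit_det, Matrix.det_transvection_of_ne _ _ t.hij]
        exact isUnit_one
      · ext i j
        simp only [Matrix.transvection, Matrix.map_apply, Matrix.add_apply, map_add,
          Matrix.TransvectionStruct.toMatrix, Matrix.one_apply, Matrix.single_apply]
        split_ifs <;> simp [hc]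
    · rintro M N - - ⟨X, hX, rfl⟩ ⟨X', hX', rfl⟩
      exact ⟨X * X', hX.mul hX', by rw [Matrix.map_mul]⟩
  obtain ⟨X, hX, hX'⟩ := key
  exact ⟨hX.unit, Units.ext hX'⟩

variable (φ) in
/-- One word, with commutators in front: solutions lift. -/
def OneW (d : ℕ) (w : List (ℕ × Bool)) : Prop :=
  ∀ (A : LP φ) (μ : Rˣ) (l₀ : List ((Mat d ℂ)ˣ × (Mat d ℂ)ˣ)) (Y₀ : ℕ → (Mat d ℂ)ˣ),
    cm l₀ * wev Y₀ w = zz d φ μ →
    ∃ (B : LP φ) (_ : Mo A B) (l : List ((Mat d B.A)ˣ × (Mat d B.A)ˣ)) (Y : ℕ → (Mat d B.A)ˣ),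
      l.map (Prod.map (gm d B.ψ) (gm d B.ψ)) = l₀ ∧ (∀ n, gm d B.ψ (Y n) = Y₀ n) ∧
      cm l * wev Y w = zz d B.ι μ

theorem map_cj {G H : Type*} [Group G] [Group H] (f : G →* H) (t : G) (l : List (G × G)) :
    (l.map (cj t)).map (Prod.map f f) = (l.map (Prod.map f f)).map (cj (f t)) := by
  rw [List.map_map, List.map_map]
  refine List.map_congr_left fun p _ => ?_
  simp only [Function.comp_apply, cj, Prod.map_apply, map_mul, map_inv, Prod.map_fst, Prod.map_snd]

theorem cj_cj_inv {G : Type*} [Group G] (t : G) (l : List (G × G)) :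
    (l.map (cj t)).map (cj t⁻¹) = l := by
  rw [List.map_map]
  conv_rhs => rw [← List.map_id l]
  refine List.map_congr_left fun p _ => ?_
  simp only [Function.comp, cj, id]
  refine Prod.ext ?_ ?_ <;> group

theorem zz_conj (d : ℕ) {S : Type} [CommRing S] (f : R →+* S) (μ : Rˣ) (X : (Mat d S)ˣ) :
    X * zz d f μ * X⁻¹ = zz d f μ := by
  rw [← zz_comm, mul_inv_cancel_right]

/-- Substitution for a conjugated closed word. -/
theorem oneW_cancel {d : ℕ} {x : ℕ × Bool} {B C : List (ℕ × Bool)}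
    (hB : ∀ y ∈ B, y.1 ≠ x.1) (hC : ∀ y ∈ C, y.1 ≠ x.1)
    (hBC : ∀ y ∈ B, ∀ z ∈ C, y.1 ≠ z.1) (h : OneW φ d (B ++ C)) :
    OneW φ d (x :: B ++ iv x :: C) := by
  classical
  intro A μ l₀ Y₀ hY
  rw [wev_append, wev_cons, wev_cons, lv_iv] at hY
  set s := lv Y₀ x with hs
  let Y₁ : ℕ → (Mat d ℂ)ˣ := fun n => if ∃ y ∈ B, y.1 = n then s * Y₀ n * s⁻¹ else Y₀ n
  have h1 : wev Y₁ B = s * wev Y₀ B * s⁻¹ := by
    rw [← wev_conj]
    refine wev_congr fun y hy => ?_
    exact if_pos ⟨y, hy, rfl⟩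
  have h2 : wev Y₁ C = wev Y₀ C := by
    refine wev_congr fun z hz => if_neg ?_
    rintro ⟨y, hy, hyz⟩
    exact hBC y hy z hz hyz
  obtain ⟨D, m, l, Y, hl, hYY, hw⟩ := h A μ l₀ Y₁ (by
    rw [wev_append, h1, h2, ← hY]
    group)
  obtain ⟨s', hs'⟩ := gm_surj d D.L s
  let Z : ℕ → (Mat d D.A)ˣ := fun n => if ∃ y ∈ B, y.1 = n then s'⁻¹ * Y n * s'⁻¹⁻¹ else Y n
  have h3 : wev Z B = s'⁻¹ * wev Y B * s'⁻¹⁻¹ := by
    rw [← wev_conj]
    refine wev_congr fun y hy => ?_
    exact if_pos ⟨y, hy, rfl⟩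
  have h4 : wev Z C = wev Y C := by
    refine wev_congr fun z hz => if_neg ?_
    rintro ⟨y, hy, hyz⟩
    exact hBC y hy z hz hyz
  refine ⟨D, m, l, st Z x s', hl, fun n => ?_, ?_⟩
  · rw [map_st, hs']
    have h5 : (fun n => gm d D.ψ (Z n)) = Y₀ := by
      funext n
      by_cases hn : ∃ y ∈ B, y.1 = n
      · have h6 : Z n = s'⁻¹ * Y n * s'⁻¹⁻¹ := if_pos hn
        have h7 : Y₁ n = s * Y₀ n * s⁻¹ := if_pos hn
        rw [h6, map_mul, map_mul, map_inv, map_inv, hYY, h7, map_inv, hs']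
        group
      · have h6 : Z n = Y n := if_neg hn
        have h7 : Y₁ n = Y₀ n := if_neg hn
        rw [h6, hYY, h7]
    rw [h5, hs, st_self]
  · rw [wev_append, wev_cons, wev_cons, lv_iv, lv_st, wev_st _ _ _ hB, wev_st _ _ _ hC, h3, h4,
      ← hw, wev_append]
    group

/-- A handle. -/
theorem oneW_handle {d : ℕ} {x y : ℕ × Bool} {B C D E : List (ℕ × Bool)} (hxy : y.1 ≠ x.1)
    (hx : ∀ z ∈ B ++ E ++ (D ++ C), z.1 ≠ x.1) (hy : ∀ z ∈ B ++ E ++ (D ++ C), z.1 ≠ y.1)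
    (h : OneW φ d (B ++ E ++ (D ++ C))) :
    OneW φ d (x :: (B ++ y :: C) ++ iv x :: (D ++ iv y :: E)) := by
  intro A μ l₀ Y₀ hY
  simp only [wev_append, wev_cons, lv_iv] at hY
  set s := lv Y₀ x with hs
  set t := lv Y₀ y with ht
  set b₀ := wev Y₀ B with hb₀
  set c₀ := wev Y₀ C with hc₀
  set d₀ := wev Y₀ D with hd₀
  set e₀ := wev Y₀ E with he₀
  obtain ⟨K, m, l, Y, hl, hYY, hw⟩ := h A μ
    (l₀.map (cj (d₀ * c₀)⁻¹) ++ [((d₀ * c₀)⁻¹ * s, b₀ * t * c₀)]) Y₀ (by
      rw [cm_concat, cm_cj, wev_append, wev_append, wev_append, ← zz_conj d φ μ (d₀ * c₀)⁻¹, ← hY,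
        ← hb₀, ← hc₀, ← hd₀, ← he₀]
      simp only
      group)
  rw [List.map_eq_append_iff] at hl
  obtain ⟨l₁, l₂, rfl, hl₁, hl₂⟩ := hl
  rw [List.map_eq_singleton_iff] at hl₂
  obtain ⟨⟨x₁, y₁⟩, rfl, hp⟩ := hl₂
  rw [Prod.map_apply, Prod.mk.injEq] at hp
  obtain ⟨hx₁, hy₁⟩ := hp
  set b := wev Y B with hb
  set c := wev Y C with hc
  set dd := wev Y D with hd
  set e := wev Y E with he
  have h5 : (fun n => gm d K.ψ (Y n)) = Y₀ := funext hYY
  have hb' : gm d K.ψ b = b₀ := by rw [hb, map_wev, h5]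
  have hc' : gm d K.ψ c = c₀ := by rw [hc, map_wev, h5]
  have hd' : gm d K.ψ dd = d₀ := by rw [hd, map_wev, h5]
  have hB : ∀ w : List (ℕ × Bool), (∀ z ∈ w, z ∈ B ++ E ++ (D ++ C)) → ∀ s t : (Mat d K.A)ˣ,
      wev (st (st Y y t) x s) w = wev Y w := by
    intro w hw s t
    rw [wev_st _ _ _ fun z hz => hx z (hw z hz), wev_st _ _ _ fun z hz => hy z (hw z hz)]
  refine ⟨K, m, l₁.map (cj (dd * c)), st (st Y y (b⁻¹ * y₁ * c⁻¹)) x (dd * c * x₁), ?_,
    fun n => ?_, ?_⟩
  · rw [map_cj, hl₁, map_mul, hd', hc']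
    have := cj_cj_inv (d₀ * c₀)⁻¹ l₀
    rwa [inv_inv] at this
  · rw [map_st]
    have h6 : (fun n => gm d K.ψ (st Y y (b⁻¹ * y₁ * c⁻¹) n)) = Y₀ := by
      funext n
      rw [map_st, h5, map_mul, map_mul, map_inv, map_inv, hb', hc', hy₁]
      have h7 : b₀⁻¹ * (b₀ * t * c₀) * c₀⁻¹ = t := by group
      rw [h7, ht, st_self]
    rw [h6, map_mul, map_mul, hd', hc', hx₁, mul_inv_cancel_left, hs, st_self]
  · have h8 : lv (st (st Y y (b⁻¹ * y₁ * c⁻¹)) x (dd * c * x₁)) y = b⁻¹ * y₁ * c⁻¹ := by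
      have h9 := lv_st Y y (b⁻¹ * y₁ * c⁻¹)
      unfold lv at h9 ⊢
      rw [st_ne _ _ _ hxy]
      exact h9
    simp only [wev_append, wev_cons, lv_iv]
    rw [lv_st, h8, hB B (by simp +contextual only [List.append_assoc, List.mem_append, true_or, implies_true]), hB C (by simp +contextual only [List.append_assoc, List.mem_append, or_true, implies_true]),
      hB D (by simp +contextual), hB E (by simp +contextual), cm_cj, ← hb, ← hc, ← hd, ← he]
    rw [cm_concat, wev_append, wev_append, wev_append, ← hb, ← hc, ← hd, ← he] at hw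
    rw [← zz_conj d K.ι μ (dd * c), ← hw]
    simp only
    group

theorem oneW_nil (hS : SurfStmt) {E : Subgroup ℂˣ} {r d : ℕ} (hd : 0 < d) (hdr : d ≤ r)
    (hc : CoefOK φ E (r * r)) : OneW φ d [] := by
  intro A μ l₀ Y₀ hY
  rw [wev_nil, mul_one] at hY
  have h1 : ∀ {G : Type} [Group G] {g : ℕ} (a b : Fin g → G),
      swd a b = cm (List.ofFn fun i => (a i, b i)) := by
    intro G _ g a b
    unfold swd cm
    rw [List.map_ofFn]
    rfl
  have h2 : (List.ofFn fun i : Fin l₀.length => ((l₀.get i).1, (l₀.get i).2)) = l₀ := by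
    conv_rhs => rw [← List.ofFn_get l₀]
  obtain ⟨A', hA', ι', ψ', j, a', b', hL, h3, h4, h5, h6, h7⟩ := hS E hd hdr hc A.L μ
    (fun i : Fin l₀.length => (l₀.get i).1) (fun i => (l₀.get i).2) (by
      rw [← eq_zz, ← hY, h1, h2])
  let B : LP φ := ⟨A', hA', ι', ψ', hL⟩
  have h8 := fun n => gm_surj d B.L (Y₀ n)
  choose Y hYY using h8
  refine ⟨B, ⟨j, h3, h4⟩, List.ofFn fun i => (a' i, b' i), Y, ?_, hYY, ?_⟩
  · rw [List.map_ofFn]
    conv_rhs => rw [← h2]
    congr 1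
    funext i
    exact Prod.ext (Units.ext (h5 i)) (Units.ext (h6 i))
  · rw [wev_nil, mul_one, ← h1, eq_zz]
    exact h7

/-- Closed words. -/
theorem oneW_of_qw {d : ℕ} (h0 : OneW φ d []) : ∀ (n : ℕ) (w : List (ℕ × Bool)), w.length ≤ n →
    Qw w → OneW φ d w := by
  intro n
  induction n with
  | zero =>
    intro w hw _
    rw [List.length_eq_zero_iff.1 (Nat.le_zero.1 hw)]
    exact h0
  | succ n ih =>
    intro w hw hq
    rcases w with _ | ⟨x, w⟩
    · exact h0
    have h1 : iv x ∈ w := by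
      have := hq.2 x List.mem_cons_self
      rw [List.mem_cons] at this
      exact this.resolve_left (iv_ne x)
    obtain ⟨B, C, rfl⟩ := List.append_of_mem h1
    have hq1 : Qw (x :: iv x :: (B ++ C)) :=
      Qw.perm (List.Perm.cons _ List.perm_middle) hq
    obtain ⟨hq2, hx⟩ := hq1.tail
    by_cases hB : ∀ y ∈ B, iv y ∈ B
    · obtain ⟨-, -, h2⟩ := hq2.split hB
      have h3 := ih (B ++ C) (by simp only [List.length_cons, List.length_append, add_le_add_iff_right] at hw ⊢; omega) hq2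
      exact oneW_cancel (fun y hy => hx y (List.mem_append_left _ hy))
        (fun y hy => hx y (List.mem_append_right _ hy)) h2 h3
    · push Not at hB
      obtain ⟨y, hyB, hyB'⟩ := hB
      have h2 : iv y ∈ C := by
        have := hq2.2 y (List.mem_append_left _ hyB)
        rw [List.mem_append] at this
        exact this.resolve_left hyB'
      obtain ⟨B₁, B₂, rfl⟩ := List.append_of_mem hyB
      obtain ⟨C₁, C₂, rfl⟩ := List.append_of_mem h2
      have hp : (B₁ ++ y :: B₂ ++ (C₁ ++ iv y :: C₂)).Perm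
          (y :: iv y :: (B₁ ++ C₂ ++ (C₁ ++ B₂))) := by
        rw [← Multiset.coe_eq_coe]
        simp only [← Multiset.coe_add, ← Multiset.cons_coe, ← Multiset.singleton_add]
        abel
      obtain ⟨hq3, hy⟩ := (Qw.perm hp hq2).tail
      have hx' : ∀ z ∈ B₁ ++ C₂ ++ (C₁ ++ B₂), z.1 ≠ x.1 := fun z hz =>
        hx z (hp.mem_iff.2 (List.mem_cons_of_mem _ (List.mem_cons_of_mem _ hz)))
      have hyx : y.1 ≠ x.1 := hx y (hp.mem_iff.2 List.mem_cons_self)
      have h3 := ih _ (by simp only [List.append_assoc, List.cons_append, List.length_cons, List.length_append, add_le_add_iff_right] at hw ⊢; omega) hq3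
      have h4 := oneW_handle hyx hx' hy h3
      simpa using h4

variable (φ) in
/-- Systems of words. -/
def SysW (d : ℕ) (ws : List (List (ℕ × Bool) × Rˣ)) : Prop :=
  ∀ (A : LP φ) (Y₀ : ℕ → (Mat d ℂ)ˣ), (∀ p ∈ ws, wev Y₀ p.1 = zz d φ p.2) →
    ∃ (B : LP φ) (_ : Mo A B) (Y : ℕ → (Mat d B.A)ˣ), (∀ n, gm d B.ψ (Y n) = Y₀ n) ∧
      ∀ p ∈ ws, wev Y p.1 = zz d B.ι p.2

theorem sysW_perm {d : ℕ} {ws ws' : List (List (ℕ × Bool) × Rˣ)} (h : ws.Perm ws')
    (hw : SysW φ d ws) : SysW φ d ws' := by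
  intro A Y₀ hY
  obtain ⟨B, m, Y, h1, h2⟩ := hw A Y₀ fun p hp => hY p (h.mem_iff.1 hp)
  exact ⟨B, m, Y, h1, fun p hp => h2 p (h.mem_iff.2 hp)⟩

theorem merge_alg₁ {G : Type*} [Group G] {v w c e x m n : G} (hm : ∀ g, m * g = g * m)
    (h1 : v * (x * w) = m) (h2 : c * (x⁻¹ * e) = n) : c * (w * (v * e)) = m * n := by
  have h3 : w * v = x⁻¹ * m := by
    have h4 : v * (x * w) * v = v * m := by rw [h1, hm]
    have h5 : x * (w * v) = m := by
      have h6 : v * (x * (w * v)) = v * m := by rw [← h4]; group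
      exact mul_left_cancel h6
    rw [← h5, inv_mul_cancel_left]
  calc c * (w * (v * e)) = c * (w * v) * e := by group
    _ = c * (x⁻¹ * (m * e)) := by rw [h3]; group
    _ = c * (x⁻¹ * e) * m := by rw [hm]; group
    _ = m * n := by rw [h2, hm]

theorem merge_alg₂ {G : Type*} [Group G] {v w c e m n : G} (hm : ∀ g, m * g = g * m)
    (h : c * (w * (v * e)) = m * n) : c * ((v⁻¹ * m * w⁻¹)⁻¹ * e) = n := by
  have h1 : m * (c * ((v⁻¹ * m * w⁻¹)⁻¹ * e)) = m * n := by
    rw [← h, hm]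
    have h2 : c * ((v⁻¹ * m * w⁻¹)⁻¹ * e) * m = c * (w * (m⁻¹ * (v * (e * m)))) := by group
    rw [h2, ← hm e]
    have h3 : c * (w * (m⁻¹ * (v * (m * e)))) = c * (w * (m⁻¹ * ((v * m) * e))) := by group
    rw [h3, ← hm v]
    group
  exact mul_left_cancel h1

/-- Elimination of a variable. -/
theorem sysW_merge {d : ℕ} {x : ℕ × Bool} {V W C D : List (ℕ × Bool)} {μ ν : Rˣ}
    {ws : List (List (ℕ × Bool) × Rˣ)} (hV : ∀ z ∈ C ++ (W ++ (V ++ D)), z.1 ≠ x.1)
    (hws : ∀ p ∈ ws, ∀ z ∈ p.1, z.1 ≠ x.1)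
    (h : SysW φ d ((C ++ (W ++ (V ++ D)), μ * ν) :: ws)) :
    SysW φ d ((V ++ x :: W, μ) :: (C ++ iv x :: D, ν) :: ws) := by
  intro A Y₀ hY
  have h1 := hY _ List.mem_cons_self
  have h2 := hY _ (List.mem_cons_of_mem _ List.mem_cons_self)
  simp only [wev_append, wev_cons, lv_iv] at h1 h2
  have h3 : lv Y₀ x = (wev Y₀ V)⁻¹ * zz d φ μ * (wev Y₀ W)⁻¹ := by
    rw [← h1]
    group
  obtain ⟨B, m, Y, h4, h5⟩ := h A Y₀ (by
    intro p hp
    rw [List.mem_cons] at hp
    rcases hp with rfl | hp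
    · simp only [wev_append]
      rw [map_mul]
      exact merge_alg₁ (zz_comm d φ μ) h1 h2
    · exact hY p (List.mem_cons_of_mem _ (List.mem_cons_of_mem _ hp)))
  have h6 := h5 _ List.mem_cons_self
  simp only [wev_append] at h6
  rw [map_mul] at h6
  have h7 : (fun n => gm d B.ψ (Y n)) = Y₀ := funext h4
  have hB : ∀ w : List (ℕ × Bool), (∀ z ∈ w, z ∈ C ++ (W ++ (V ++ D))) → ∀ s : (Mat d B.A)ˣ,
      wev (st Y x s) w = wev Y w :=
    fun w hw s => wev_st _ _ _ fun z hz => hV z (hw z hz)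
  refine ⟨B, m, st Y x ((wev Y V)⁻¹ * zz d B.ι μ * (wev Y W)⁻¹), fun n => ?_, fun p hp => ?_⟩
  · rw [map_st, h7, map_mul, map_mul, map_inv, map_inv, map_wev, map_wev, h7,
      gm_zz d B.ι B.ψ φ B.L.comp, ← h3, st_self]
  · rw [List.mem_cons, List.mem_cons] at hp
    rcases hp with rfl | rfl | hp
    · simp only [wev_append, wev_cons]
      rw [lv_st, hB V (by simp +contextual), hB W (by simp +contextual)]
      group
    · simp only [wev_append, wev_cons, lv_iv]
      rw [lv_st, hB C (by simp +contextual), hB D (by simp +contextual)]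
      exact merge_alg₂ (zz_comm d B.ι μ) h6
    · rw [wev_st _ _ _ (hws p hp)]
      exact h5 p (List.mem_cons_of_mem _ hp)

/-- A closed word can be treated separately. -/
theorem sysW_split {d : ℕ} {w : List (ℕ × Bool)} {μ : Rˣ} {ws : List (List (ℕ × Bool) × Rˣ)}
    (hw : OneW φ d w) (hws : ∀ p ∈ ws, ∀ z ∈ p.1, ∀ y ∈ w, y.1 ≠ z.1) (h : SysW φ d ws) :
    SysW φ d ((w, μ) :: ws) := by
  classical
  intro A Y₀ hY
  have h1 := hY _ List.mem_cons_self
  simp only at h1
  obtain ⟨B, m, l, Y, hl, h2, h3⟩ := hw A μ [] Y₀ (by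
    rw [← h1]
    simp only [cm, List.map_nil, List.prod_nil, one_mul])
  rw [List.map_eq_nil_iff] at hl
  subst hl
  obtain ⟨C, m', Z, h4, h5⟩ := h B Y₀ fun p hp => hY p (List.mem_cons_of_mem _ hp)
  refine ⟨C, m'.comp m, fun n => if ∃ y ∈ w, y.1 = n then gm d m'.j (Y n) else Z n,
    fun n => ?_, fun p hp => ?_⟩
  · dsimp only
    split_ifs with hn
    · rw [gm_comp d m'.j C.ψ B.ψ m'.h1, h2]
    · exact h4 n
  · rw [List.mem_cons] at hp
    rcases hp with rfl | hp
    · have h6 : wev (fun n => if ∃ y ∈ w, y.1 = n then gm d m'.j (Y n) else Z n) w =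
          wev (fun n => gm d m'.j (Y n)) w :=
        wev_congr fun y hy => if_pos ⟨y, hy, rfl⟩
      simp only
      rw [h6, ← map_wev]
      have h7 : wev Y w = zz d B.ι μ := by
        rw [← h3]
        simp only [cm, List.map_nil, List.prod_nil, one_mul]
      rw [h7, gm_zz d B.ι m'.j C.ι m'.h2]
    · rw [← h5 p hp]
      refine wev_congr fun z hz => if_neg ?_
      rintro ⟨y, hy, hyz⟩
      exact hws p hp z hz y hy hyz

theorem sysW_of_qw {d : ℕ} (h0 : OneW φ d []) : ∀ (n : ℕ) (ws : List (List (ℕ × Bool) × Rˣ)),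
    ws.length ≤ n → Qw (ws.map Prod.fst).flatten → SysW φ d ws := by
  intro n
  induction n with
  | zero =>
    intro ws hn _
    rw [List.length_eq_zero_iff.1 (Nat.le_zero.1 hn)]
    intro A Y₀ _
    have h8 := fun n => gm_surj d A.L (Y₀ n)
    choose Y hYY using h8
    exact ⟨A, Mo.id A, Y, hYY, by simp only [List.not_mem_nil, IsEmpty.forall_iff, implies_true]⟩
  | succ n ih =>
    intro ws hn hq
    rcases ws with _ | ⟨⟨w, μ⟩, ws⟩
    · exact ih [] (by simp only [List.length_nil, zero_le]) hq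
    rw [List.map_cons, List.flatten_cons] at hq
    by_cases hw : ∀ y ∈ w, iv y ∈ w
    · obtain ⟨h1, h2, h3⟩ := hq.split hw
      refine sysW_split (oneW_of_qw h0 _ w le_rfl h1) (fun p hp z hz y hy => h3 y hy z ?_)
        (ih ws (by simpa only [List.length_cons, add_le_add_iff_right] using hn) h2)
      exact List.mem_flatten.2 ⟨p.1, List.mem_map_of_mem hp, hz⟩
    · push Not at hw
      obtain ⟨x, hx, hx'⟩ := hw
      have h1 := hq.2 x (List.mem_append_left _ hx)
      rw [List.mem_append] at h1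
      obtain ⟨w', hw', hxw'⟩ := List.mem_flatten.1 (h1.resolve_left hx')
      obtain ⟨⟨w'', ν⟩, hp, rfl⟩ := List.mem_map.1 hw'
      obtain ⟨ws₁, ws₂, rfl⟩ := List.append_of_mem hp
      obtain ⟨V, W, rfl⟩ := List.append_of_mem hx
      obtain ⟨C, D, hCD⟩ := List.append_of_mem hxw'
      simp only at hCD
      subst hCD
      have hperm : ((V ++ x :: W, μ) :: (C ++ iv x :: D, ν) :: (ws₁ ++ ws₂)).Perm
          ((V ++ x :: W, μ) :: (ws₁ ++ (C ++ iv x :: D, ν) :: ws₂)) :=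
        List.Perm.cons _ List.perm_middle.symm
      refine sysW_perm hperm ?_
      have hpf : (V ++ x :: W ++ (List.map Prod.fst (ws₁ ++ (C ++ iv x :: D, ν) :: ws₂)).flatten).Perm
          (x :: iv x :: (C ++ (W ++ (V ++ D)) ++ (List.map Prod.fst (ws₁ ++ ws₂)).flatten)) := by
        rw [← Multiset.coe_eq_coe]
        simp only [List.map_append, List.map_cons, List.flatten_append, List.flatten_cons, ← Multiset.coe_add, ← Multiset.cons_coe, ← Multiset.singleton_add]
        abel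
      obtain ⟨h2, h3⟩ := (Qw.perm hpf hq).tail
      refine sysW_merge (fun z hz => h3 z (List.mem_append_left _ hz))
        (fun p hp z hz => h3 z (List.mem_append_right _ ?_)) (ih _ ?_ ?_)
      · exact List.mem_flatten.2 ⟨p.1, List.mem_map_of_mem hp, hz⟩
      · simp only [List.length_cons, List.length_append, add_le_add_iff_right, Order.add_one_le_iff] at hn ⊢
        omega
      · rw [List.map_cons, List.flatten_cons]
        exact h2

end QS

/-- T9.2. -/
theorem quadOfSurf : QuadOfSurf := by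
  intro hS R A _ _ φ ι ψ E r d hd hdr hc hL ws hq Y₀ hY
  obtain ⟨B, m, Y, h1, h2⟩ := QS.sysW_of_qw (QS.oneW_nil hS hd hdr hc) _ ws le_rfl
    ⟨hq.1, fun x hx => hq.2 x.1 x.2 hx⟩ ⟨A, inferInstance, ι, ψ, hL⟩ Y₀
    fun p hp => (QS.eq_zz d φ p.2 _).2 (hY p hp)
  refine ⟨B.A, B.inst, B.ι, B.ψ, m.j, Y, B.L, m.h1, m.h2, fun n => ?_, fun p hp => ?_⟩
  · rw [← QS.gm_coe, h1]
  · exact (QS.eq_zz d B.ι p.2 _).1 (h2 p hp)

end Vale.Agent.P002B
end

section

/-!
# P002, genus 0, arbitrary classes: T9 from T10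
-/

namespace Vale.Agent.P002B

/-- T9 from T10. -/
theorem levi_of_surf (h : SurfStmt) : LeviStmt := leviOfQuad (quadOfSurf h)

end Vale.Agent.P002B
end

section

/-!
# P002, genus 0, arbitrary classes: T10, the lifting of solutions of the surface relation
-/

namespace Vale.Agent.P002B

open Matrix Vale.Agent.P002R Vale.Agent.P002L

namespace Surf

/-- Clearing of denominators. -/
theorem clear {α β : Type*} [Fintype β] [DecidableEq β] (P : β → MvPolynomial α ℂ)
    (f : MvPolynomial (α ⊕ β) ℂ) :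
    ∃ (N : ℕ) (F : MvPolynomial α ℂ), ∀ (x : α → ℂ) (t : β → ℂ),
      (∀ k, MvPolynomial.eval x (P k) * t k = 1) →
      MvPolynomial.eval x F = (∏ k, MvPolynomial.eval x (P k)) ^ N *
        MvPolynomial.eval (Sum.elim x t) f := by
  induction f using MvPolynomial.induction_on with
  | C c => exact ⟨0, MvPolynomial.C c, fun x t _ => by simp only [MvPolynomial.eval_C, pow_zero, one_mul]⟩
  | add p q hp hq =>
    obtain ⟨N, F, hF⟩ := hp
    obtain ⟨M, G, hG⟩ := hq
    refine ⟨N + M, (∏ k, P k) ^ M * F + (∏ k, P k) ^ N * G, fun x t h => ?_⟩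
    simp only [map_add, map_mul, map_pow, map_prod, hF x t h, hG x t h]
    ring
  | mul_X p n hp =>
    obtain ⟨N, F, hF⟩ := hp
    rcases n with n | k
    · refine ⟨N, F * MvPolynomial.X n, fun x t h => ?_⟩
      simp only [map_mul, hF x t h, MvPolynomial.eval_X, Sum.elim_inl]
      ring
    · refine ⟨N + 1, F * ∏ k' ∈ Finset.univ.erase k, P k', fun x t h => ?_⟩
      simp only [map_mul, hF x t h, map_prod, MvPolynomial.eval_X, Sum.elim_inr]
      have h1 := Finset.mul_prod_erase Finset.univ (fun k' => MvPolynomial.eval x (P k'))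
        (Finset.mem_univ k)
      rw [pow_succ]
      calc (∏ k', MvPolynomial.eval x (P k')) ^ N * MvPolynomial.eval (Sum.elim x t) p *
            ∏ k' ∈ Finset.univ.erase k, MvPolynomial.eval x (P k')
          = (∏ k', MvPolynomial.eval x (P k')) ^ N * MvPolynomial.eval (Sum.elim x t) p *
            (∏ k' ∈ Finset.univ.erase k, MvPolynomial.eval x (P k')) *
            (MvPolynomial.eval x (P k) * t k) := by rw [h k, mul_one]
        _ = (∏ k', MvPolynomial.eval x (P k')) ^ N * (MvPolynomial.eval x (P k) *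
            ∏ k' ∈ Finset.univ.erase k, MvPolynomial.eval x (P k')) *
            (MvPolynomial.eval (Sum.elim x t) p * t k) := by ring
        _ = _ := by rw [h1]

/-- The variables: the entries of the matrices and the inverses of the determinants. -/
abbrev Idx (g d : ℕ) : Type := ((Fin g × Bool) × Fin d × Fin d) ⊕ (Fin g × Bool)

/-- The generic matrices. -/
noncomputable def gm (R : Type) [CommRing R] (g d : ℕ) (k : Fin g × Bool) :
    Mat d (MvPolynomial (Idx g d) R) :=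
  Matrix.of fun p q => MvPolynomial.X (Sum.inl (k, p, q))

/-- The inverses of the generic matrices. -/
noncomputable def gv (R : Type) [CommRing R] (g d : ℕ) (k : Fin g × Bool) :
    Mat d (MvPolynomial (Idx g d) R) :=
  (MvPolynomial.X (Sum.inr k) : MvPolynomial (Idx g d) R) • (gm R g d k).adjugate

/-- The generic surface word. -/
noncomputable def gw (R : Type) [CommRing R] (g d : ℕ) : Mat d (MvPolynomial (Idx g d) R) :=
  (List.ofFn fun i : Fin g => gm R g d (i, false) * gm R g d (i, true) * gv R g d (i, false) *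
    gv R g d (i, true)).prod

theorem gv_map {R S : Type} [CommRing R] [CommRing S] {g d : ℕ}
    (h : MvPolynomial (Idx g d) R →+* S) (k : Fin g × Bool) (c : (Mat d S)ˣ)
    (hc : h.mapMatrix (gm R g d k) = c)
    (ht : (c : Mat d S).det * h (MvPolynomial.X (Sum.inr k)) = 1) :
    h.mapMatrix (gv R g d k) = ((c⁻¹ : (Mat d S)ˣ) : Mat d S) := by
  symm
  apply Units.inv_eq_of_mul_eq_one_right
  have h1 : h.mapMatrix (gv R g d k) = h (MvPolynomial.X (Sum.inr k)) • (c : Mat d S).adjugate := by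
    rw [← hc, ← RingHom.map_adjugate]
    ext p q
    simp only [gv, RingHom.mapMatrix_apply, map_apply, Matrix.smul_apply, smul_eq_mul, map_mul]
  rw [h1, mul_smul_comm, Matrix.mul_adjugate, smul_smul, mul_comm (h _), ht, one_smul]

theorem gw_map {R S : Type} [CommRing R] [CommRing S] {g d : ℕ}
    (h : MvPolynomial (Idx g d) R →+* S) (c : Fin g × Bool → (Mat d S)ˣ)
    (hc : ∀ k, h.mapMatrix (gm R g d k) = c k)
    (ht : ∀ k, (c k : Mat d S).det * h (MvPolynomial.X (Sum.inr k)) = 1) :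
    h.mapMatrix (gw R g d) =
      ((swd (fun i => c (i, false)) (fun i => c (i, true)) : (Mat d S)ˣ) : Mat d S) := by
  have h1 := fun k => gv_map h k (c k) (hc k) (ht k)
  unfold gw swd
  rw [map_list_prod, List.map_ofFn, ← Units.coeHom_apply, map_list_prod, List.map_ofFn]
  congr 2
  funext i
  simp only [Function.comp_apply, map_mul, hc, h1, Units.coeHom_apply]

/-- The point given by a tuple of invertible matrices. -/
noncomputable def pt {S : Type} [CommRing S] {g d : ℕ} (c : Fin g × Bool → (Mat d S)ˣ) :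
    Idx g d → S :=
  Sum.elim (fun x => (c x.1 : Mat d S) x.2.1 x.2.2)
    fun k => (((c k)⁻¹ : (Mat d S)ˣ) : Mat d S).det

theorem det_mul_inv {S : Type} [CommRing S] {d : ℕ} (c : (Mat d S)ˣ) :
    (c : Mat d S).det * ((c⁻¹ : (Mat d S)ˣ) : Mat d S).det = 1 := by
  rw [← Matrix.det_mul, Units.mul_inv, Matrix.det_one]

/-- The choice of a matrix out of a pair of tuples. -/
def pk {G : Type} {g : ℕ} (a b : Fin g → G) (k : Fin g × Bool) : G :=
  if k.2 then b k.1 else a k.1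

end Surf

open Surf in
theorem surfStmt (h : ∀ g, SurfCl g) (he : ExtStmt) : SurfStmt := by
  intro R A _ _ φ ι ψ E r d g hd hdr hco hL μ a b hab
  have hy : ∀ f : MvPolynomial (Idx g d) ℂ,
      (∀ x ∈ {x : Idx g d → R | ∃ a' b' : Fin g → (Mat d R)ˣ,
        ((swd a' b' : (Mat d R)ˣ) : Mat d R) = (μ : R) • (1 : Mat d R) ∧ x = pt (pk a' b')},
        MvPolynomial.eval (fun i => φ (x i)) f = 0) →
      MvPolynomial.eval (pt (pk a b)) f = 0 := by
    intro f hf
    obtain ⟨N, F, hF⟩ := clear (fun k : Fin g × Bool => (Matrix.of fun p q =>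
      (MvPolynomial.X (k, p, q) : MvPolynomial ((Fin g × Bool) × Fin d × Fin d) ℂ)).det) f
    have hdet : ∀ (x : (Fin g × Bool) × Fin d × Fin d → ℂ) (k : Fin g × Bool),
        MvPolynomial.eval x (Matrix.of fun p q =>
          (MvPolynomial.X (k, p, q) : MvPolynomial ((Fin g × Bool) × Fin d × Fin d) ℂ)).det =
        (Matrix.of fun p q => x (k, p, q)).det := by
      intro x k
      rw [RingHom.map_det]
      congr 1
      ext p q
      simp
    have h0 := h g E hd hdr hco μ a b hab F ?_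
    · have h1 : ∀ k : Fin g × Bool, (Matrix.of fun p q => ((if k.2 then b k.1 else a k.1 :
          (Mat d ℂ)ˣ) : Mat d ℂ) p q).det * ((((pk a b k)⁻¹ : (Mat d ℂ)ˣ) : Mat d ℂ).det) = 1 :=
        fun k => det_mul_inv (pk a b k)
      rw [hF _ (fun k => (((pk a b k)⁻¹ : (Mat d ℂ)ˣ) : Mat d ℂ).det)
        (fun k => by rw [hdet]; exact h1 k)] at h0
      rcases mul_eq_zero.1 h0 with h2 | h2
      · exfalso
        have h4 : ∏ k : Fin g × Bool, MvPolynomial.eval
            (fun x => ((if x.1.2 then b x.1.1 else a x.1.1 : (Mat d ℂ)ˣ) : Mat d ℂ) x.2.1 x.2.2)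
            (Matrix.of fun p q => (MvPolynomial.X (k, p, q) :
              MvPolynomial ((Fin g × Bool) × Fin d × Fin d) ℂ)).det = 0 :=
          eq_zero_of_pow_eq_zero h2
        obtain ⟨k, _, hk⟩ := Finset.prod_eq_zero_iff.1 h4
        rw [hdet] at hk
        have h5 := h1 k
        simp only at hk
        rw [hk, zero_mul] at h5
        exact zero_ne_one h5
      · exact h2
    · intro a' b' hab'
      rw [hF _ (fun k => φ (((pk a' b' k)⁻¹ : (Mat d R)ˣ) : Mat d R).det) ?_]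
      · have h1 := hf (pt (pk a' b')) ⟨a', b', hab', rfl⟩
        have h2 : (fun i => φ (pt (pk a' b') i)) = Sum.elim
            (fun x : (Fin g × Bool) × Fin d × Fin d =>
              φ (((if x.1.2 then b' x.1.1 else a' x.1.1 : (Mat d R)ˣ) : Mat d R) x.2.1 x.2.2))
            (fun k => φ (((pk a' b' k)⁻¹ : (Mat d R)ˣ) : Mat d R).det) := by
          funext i
          rcases i with i | i <;> rfl
        rw [h2] at h1
        rw [h1, mul_zero]
      · intro k
        rw [hdet]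
        have h1 := det_mul_inv (pk a' b' k)
        rw [← map_one φ, ← h1, map_mul]
        congr 1
        rw [RingHom.map_det]
        rfl
  obtain ⟨A', _, ι', ψ', j, Y, hL', hj, hji, hY, hp⟩ := he hL _ _ hy
  let H : MvPolynomial (Idx g d) R →+* A' := MvPolynomial.eval₂Hom ι' Y
  have hX : ∀ k, (H.mapMatrix (gm R g d k)).det * H (MvPolynomial.X (Sum.inr k)) = 1 := by
    intro k
    have h1 := hp ((gm R g d k).det * MvPolynomial.X (Sum.inr k) - 1) ?_
    · have h2 : H ((gm R g d k).det * MvPolynomial.X (Sum.inr k) - 1) = 0 := h1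
      rw [map_sub, map_mul, map_one, RingHom.map_det, sub_eq_zero] at h2
      exact h2
    · rintro x ⟨a', b', hab', rfl⟩
      rw [map_sub, map_mul, map_one, RingHom.map_det, MvPolynomial.eval_X, sub_eq_zero]
      have h2 : (MvPolynomial.eval (pt (pk a' b'))).mapMatrix (gm R g d k) =
          ((pk a' b' k : (Mat d R)ˣ) : Mat d R) := by
        ext p q
        simp only [pt, coe_units_inv, det_nonsing_inv, gm, RingHom.mapMatrix_apply, map_apply, of_apply, MvPolynomial.eval_X, Sum.elim_inl]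
      rw [h2]
      exact det_mul_inv (pk a' b' k)
  let c : Fin g × Bool → (Mat d A')ˣ := fun k =>
    ⟨H.mapMatrix (gm R g d k), H (MvPolynomial.X (Sum.inr k)) • (H.mapMatrix (gm R g d k)).adjugate,
      by rw [mul_smul_comm, Matrix.mul_adjugate, smul_smul, mul_comm (H _), hX, one_smul],
      by rw [smul_mul_assoc, Matrix.adjugate_mul, smul_smul, mul_comm (H _), hX, one_smul]⟩
  have hcY : ∀ k p q, (c k : Mat d A') p q = Y (Sum.inl (k, p, q)) := by
    intro k p q
    simp [c, H, gm]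
  refine ⟨A', inferInstance, ι', ψ', j, fun i => c (i, false), fun i => c (i, true), hL', hj, hji,
    ?_, ?_, ?_⟩
  · intro i
    ext p q
    rw [Matrix.map_apply, hcY, hY]
    rfl
  · intro i
    ext p q
    rw [Matrix.map_apply, hcY, hY]
    rfl
  · rw [← gw_map H c (fun k => rfl) hX]
    ext p q
    have h1 := hp (gw R g d p q - MvPolynomial.C ((μ : R) * (1 : Mat d R) p q)) ?_
    · have h2 : H (gw R g d p q - MvPolynomial.C ((μ : R) * (1 : Mat d R) p q)) = 0 := h1
      rw [map_sub, sub_eq_zero] at h2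
      rw [RingHom.mapMatrix_apply, Matrix.map_apply, h2]
      simp only [H, MvPolynomial.coe_eval₂Hom, MvPolynomial.eval₂_C, map_mul, Matrix.smul_apply,
        smul_eq_mul]
      congr 1
      by_cases hpq : p = q
      · subst hpq; simp only [one_apply_eq, map_one]
      · simp [Matrix.one_apply_ne hpq]
    · rintro x ⟨a', b', hab', rfl⟩
      have h2 := gw_map (MvPolynomial.eval (pt (pk a' b'))) (pk a' b') (fun k => by
        ext p q
        simp only [pt, coe_units_inv, det_nonsing_inv, gm, RingHom.mapMatrix_apply, map_apply, of_apply, MvPolynomial.eval_X, Sum.elim_inl]) (fun k => by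
          rw [MvPolynomial.eval_X]
          exact det_mul_inv (pk a' b' k))
      have h3 : swd (fun i => pk a' b' (i, false)) (fun i => pk a' b' (i, true)) = swd a' b' := rfl
      rw [h3, hab'] at h2
      have h4 := congrFun (congrFun h2 p) q
      rw [RingHom.mapMatrix_apply, Matrix.map_apply] at h4
      rw [map_sub, h4, MvPolynomial.eval_C, Matrix.smul_apply, smul_eq_mul, sub_self]

end Vale.Agent.P002B
end

section

/-!
# P002, T14: the surface relation of genus at least two over the coefficient ring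
-/

namespace Vale.Agent.P002B

open Matrix Vale.Agent.P002R

section T14

variable {d : ℕ}

theorem swd_hom {G H : Type*} [Group G] [Group H] {g : ℕ} (θ : G →* H) (a b : Fin g → G) :
    θ (swd a b) = swd (fun i => θ (a i)) fun i => θ (b i) := by
  rw [swd, swd, map_list_prod, List.map_ofFn]
  congr 2
  funext i
  simp only [Function.comp_apply, map_mul, map_inv]

theorem comm_central {G : Type*} [Group G] (a b α β : G) (hα : ∀ x, α * x = x * α)
    (hβ : ∀ x, β * x = x * β) :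
    (α * a) * (β * b) * (α * a)⁻¹ * (β * b)⁻¹ = a * b * a⁻¹ * b⁻¹ := by
  have h1 : α * a * (β * b) = (α * β) * (a * b) := by
    rw [mul_assoc α a, ← mul_assoc a β b, ← hβ a, mul_assoc β a b, ← mul_assoc]
  have h2 : (α * a) * (β * b) * (α * a)⁻¹ * (β * b)⁻¹ =
      ((α * a) * (β * b)) * ((β * b) * (α * a))⁻¹ := by
    rw [_root_.mul_inv_rev (β * b) (α * a), ← mul_assoc (α * a * (β * b))]
  have h3 : β * b * (α * a) = (α * β) * (b * a) := by
    rw [mul_assoc β b, ← mul_assoc b α a, ← hα b, mul_assoc α b a, ← mul_assoc, ← hα β]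
  have h4 : ∀ x, α * β * x = x * (α * β) := by
    intro x
    rw [mul_assoc, hβ, ← mul_assoc, hα, mul_assoc]
  rw [h2, h1, h3, h4 (a * b), h4 (b * a)]
  group

theorem swd_central {G : Type*} [Group G] {g : ℕ} (a b α β : Fin g → G)
    (hα : ∀ i x, α i * x = x * α i) (hβ : ∀ i x, β i * x = x * β i) :
    swd (fun i => α i * a i) (fun i => β i * b i) = swd a b := by
  rw [swd, swd]
  congr 2
  funext i
  exact comm_central _ _ _ _ (hα i) (hβ i)

/-- Scaling by powers of an element of infinite order is enough. -/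
theorem scale_dense {K : Type} (t : ℂ) (ht : Function.Injective fun k : ℕ => t ^ k)
    (X : K → Mat d ℂ) (f : MvPolynomial (K × Fin d × Fin d) ℂ)
    (hf : ∀ e : K → ℕ, MvPolynomial.eval (fun p => t ^ e p.1 * X p.1 p.2.1 p.2.2) f = 0)
    (c : K → ℂ) : MvPolynomial.eval (fun p => c p.1 * X p.1 p.2.1 p.2.2) f = 0 := by
  obtain ⟨G, hG⟩ : ∃ G : MvPolynomial K ℂ, ∀ c : K → ℂ, MvPolynomial.eval c G =
      MvPolynomial.eval (fun p => c p.1 * X p.1 p.2.1 p.2.2) f := by
    refine ⟨MvPolynomial.bind₁ (fun p : K × Fin d × Fin d =>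
      (MvPolynomial.X p.1 * MvPolynomial.C (X p.1 p.2.1 p.2.2) : MvPolynomial K ℂ)) f,
      fun c => ?_⟩
    rw [MvPolynomial.eval, MvPolynomial.eval₂Hom_bind₁]
    congr 2
    funext p
    simp
  rw [← hG]
  have h0 : G = 0 := by
    refine MvPolynomial.funext_set (fun _ => Set.range fun e : ℕ => t ^ e)
      (fun _ => Set.infinite_range_of_injective ht) fun x hx => ?_
    have h1 : ∀ k, ∃ e : ℕ, t ^ e = x k := fun k => hx k (Set.mem_univ k)
    choose e he using h1
    rw [hG, map_zero]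
    have h2 := hf e
    simp only [he] at h2
    exact h2
  rw [h0, map_zero]

/-- A scalar unit over any ring. -/
def scR {R : Type*} [CommRing R] : Rˣ →* (Mat d R)ˣ := Units.map (algebraMap R (Mat d R)).toMonoidHom

theorem scR_comm {R : Type*} [CommRing R] (c : Rˣ) (x : (Mat d R)ˣ) : scR c * x = x * scR c := by
  ext1
  simp only [Units.val_mul]
  exact Algebra.commutes (c : R) (x : Mat d R)

theorem scR_mul_coe {R : Type*} [CommRing R] (c : Rˣ) (U : (Mat d R)ˣ) :
    ((scR c * U : (Mat d R)ˣ) : Mat d R) = (c : R) • (U : Mat d R) := by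
  simp only [Units.val_mul, scR, Units.coe_map, RingHom.toMonoidHom_eq_coe,
    MonoidHom.coe_coe]
  rw [← Algebra.smul_def]

theorem inj_pow_of_unit {R : Type*} [CommRing R] {φ : R →+* ℂ} (E : Subgroup ℂˣ) (u : Rˣ)
    (hu : ∀ k : ℕ, 0 < k → Units.map (φ : R →* ℂ) u ^ k ∉ E) :
    Function.Injective fun k : ℕ => (φ (u : R)) ^ k := by
  have key : ∀ m n : ℕ, m < n → (φ (u : R)) ^ m ≠ (φ (u : R)) ^ n := by
    intro m n hmn h
    refine hu (n - m) (by omega) ?_
    have h1 : Units.map (φ : R →* ℂ) u ^ (n - m) = 1 := by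
      have h2 : Units.map (φ : R →* ℂ) u ^ m * Units.map (φ : R →* ℂ) u ^ (n - m) =
          Units.map (φ : R →* ℂ) u ^ m := by
        rw [← pow_add, Nat.add_sub_cancel' hmn.le]
        ext1
        rw [Units.val_pow_eq_pow_val, Units.val_pow_eq_pow_val]
        exact h.symm
      exact mul_eq_left.1 h2
    rw [h1]
    exact E.one_mem
  intro m n h
  rcases lt_trichotomy m n with h1 | h1 | h1
  · exact absurd h (key m n h1)
  · exact h1
  · exact absurd h.symm (key n m h1)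


/-- The `d`-th roots of the elements of `E`. -/
def rootSub (E : Subgroup ℂˣ) (d : ℕ) : Subgroup ℂˣ := E.comap (powMonoidHom d)

theorem rootSub_ok {R : Type*} [CommRing R] {φ : R →+* ℂ} {E : Subgroup ℂˣ} {r d : ℕ} (hd : 0 < d)
    (hdr : d ≤ r) (hc : CoefOK φ E (r * r)) : CoefOK φ (rootSub E d) d where
  inj := hc.inj
  neg := E.pow_mem hc.neg d
  root := fun k hk hkd z hz => by
    refine hc.root (k * d) (Nat.mul_pos hk hd) (Nat.mul_le_mul (hkd.trans hdr) hdr) z ?_
    rw [pow_mul]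
    exact hz
  unit := by
    obtain ⟨u, hu⟩ := hc.unit
    refine ⟨u, fun k hk h => hu (k * d) (Nat.mul_pos hk hd) ?_⟩
    rw [pow_mul]
    exact h

theorem scalarU_val (z : ℂˣ) : ((scalarU z : (Mat d ℂ)ˣ) : Mat d ℂ) = (z : ℂ) • (1 : Mat d ℂ) := by
  rw [← mul_one (scalarU z), scalarU_mul_coe, Units.val_one]

theorem eigIn_scalarU (E : Subgroup ℂˣ) (z : ℂˣ) (hz : z ∈ E) :
    EigIn E ((scalarU z : (Mat d ℂ)ˣ) : Mat d ℂ) := by
  intro w hw
  obtain ⟨v, hv, hv'⟩ := exists_mulVec_of_isRoot hw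
  refine ⟨z, hz, ?_⟩
  rw [scalarU_val, Matrix.smul_mulVec, Matrix.one_mulVec, ← sub_eq_zero, ← sub_smul] at hv'
  rcases smul_eq_zero.1 hv' with h | h
  · exact sub_eq_zero.1 h
  · exact absurd h hv

theorem det_swd {g : ℕ} (a b : Fin g → (Mat d ℂ)ˣ) :
    ((swd a b : (Mat d ℂ)ˣ) : Mat d ℂ).det = 1 := by
  have h1 := swd_hom (Units.map (Matrix.detMonoidHom : Mat d ℂ →* ℂ)) a b
  have h2 : swd (fun i => Units.map (Matrix.detMonoidHom : Mat d ℂ →* ℂ) (a i))
      (fun i => Units.map (Matrix.detMonoidHom : Mat d ℂ →* ℂ) (b i)) = 1 := by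
    rw [swd]
    refine List.prod_eq_one fun c hc => ?_
    rw [List.mem_ofFn] at hc
    obtain ⟨i, rfl⟩ := hc
    rw [mul_inv_cancel_comm, mul_inv_cancel]
  rw [h2] at h1
  exact congrArg Units.val h1

theorem pow_eq_one_of_swd {g : ℕ} {a b : Fin g → (Mat d ℂ)ˣ} {z : ℂˣ}
    (h : ((swd a b : (Mat d ℂ)ˣ) : Mat d ℂ) = (z : ℂ) • (1 : Mat d ℂ)) : z ^ d = 1 := by
  have h1 := det_swd a b
  rw [h, det_smul, det_one, mul_one, Fintype.card_fin] at h1
  ext1
  rw [Units.val_pow_eq_pow_val, h1, Units.val_one]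

/-- The representation attached to a tuple of handles and a boundary value. -/
noncomputable def repX {g : ℕ} (c : (Mat d ℂ)ˣ) (a b : Fin g → (Mat d ℂ)ˣ) : FU g 1 →* (Mat d ℂ)ˣ :=
  FreeGroup.lift (Sum.elim (fun k => if k.2 then b k.1 else a k.1) fun _ => c)

theorem repX_inl {g : ℕ} (c : (Mat d ℂ)ˣ) (a b : Fin g → (Mat d ℂ)ˣ) (k : Fin g × Bool) :
    repX c a b (FreeGroup.of (Sum.inl k)) = if k.2 then b k.1 else a k.1 := by
  rw [repX, FreeGroup.lift_apply_of, Sum.elim_inl]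

theorem repX_inr {g : ℕ} (c : (Mat d ℂ)ˣ) (a b : Fin g → (Mat d ℂ)ˣ) (j : Fin 1) :
    repX c a b (FreeGroup.of (Sum.inr j)) = c := by
  rw [repX, FreeGroup.lift_apply_of, Sum.elim_inr]

theorem map_relatorU_one {g : ℕ} (x : FU g 1 →* (Mat d ℂ)ˣ) :
    x (relatorU g 1) = x (FreeGroup.of (Sum.inr 0)) *
      swd (fun i => x (FreeGroup.of (Sum.inl (i, false))))
        fun i => x (FreeGroup.of (Sum.inl (i, true))) := by
  have h1 : (List.ofFn fun j : Fin 1 => (FreeGroup.of (Sum.inr j) : FU g 1)).prod =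
      FreeGroup.of (Sum.inr 0) := by simp
  rw [relatorU, map_mul, h1]
  congr 1
  exact swd_hom x _ _

/-- A matrix over the ring from an element of the special linear group. -/
def slR {R : Type*} [CommRing R] : SpecialLinearGroup (Fin d) R →* (Mat d R)ˣ :=
  SpecialLinearGroup.toGL

theorem slR_coe {R : Type*} [CommRing R] (s : SpecialLinearGroup (Fin d) R) :
    ((slR s : (Mat d R)ˣ) : Mat d R) = (s : Mat d R) := rfl

theorem map_slR {R : Type*} [CommRing R] (φ : R →+* ℂ) (s : SpecialLinearGroup (Fin d) R) :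
    Units.map (RingHom.mapMatrix (m := Fin d) φ).toMonoidHom (slR s) = slU φ s := by
  ext1
  rw [slU_coe, Units.coe_map]
  rfl

/-- The polynomial vanishes at the members of the dense set. -/
theorem vanish_DG {g : ℕ} {R : Type} [CommRing R] {φ : R →+* ℂ} {E : Subgroup ℂˣ} {N : ℕ}
    (hc : CoefOK φ E N) (μ : Rˣ) (z : ℂˣ) (hz : (z : ℂ) = φ μ)
    (f : MvPolynomial ((Fin g × Bool) × Fin d × Fin d) ℂ)
    (hf : ∀ a' b' : Fin g → (Mat d R)ˣ,
      ((swd a' b' : (Mat d R)ˣ) : Mat d R) = (μ : R) • (1 : Mat d R) →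
      MvPolynomial.eval (fun x => φ (((if x.1.2 then b' x.1.1 else a' x.1.1 : (Mat d R)ˣ) :
        Mat d R) x.2.1 x.2.2)) f = 0)
    (y : (Fin g × Bool) → (Mat d ℂ)ˣ) (hy : ∀ k, y k ∈ GR d φ)
    (hrel : swd (fun i => y (i, false)) (fun i => y (i, true)) = scalarU z) :
    MvPolynomial.eval (fun p => (y p.1 : Mat d ℂ) p.2.1 p.2.2) f = 0 := by
  choose c s hcs using hy
  obtain ⟨u, hu⟩ := hc.unit
  have h1 : swd (fun i => slU φ (s (i, false))) (fun i => slU φ (s (i, true))) =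
      (scalarU z : (Mat d ℂ)ˣ) := by
    rw [← hrel, ← swd_central (fun i => slU φ (s (i, false))) (fun i => slU φ (s (i, true)))
      (fun i => scalarU (c (i, false))) (fun i => scalarU (c (i, true)))
      (fun i x => scalarU_comm _ x) (fun i x => scalarU_comm _ x)]
    simp only [← hcs]
  have h2 : ((swd (fun i => slR (s (i, false))) (fun i => slR (s (i, true))) : (Mat d R)ˣ) :
      Mat d R) = (μ : R) • (1 : Mat d R) := by
    have h3 := swd_hom (Units.map (RingHom.mapMatrix (m := Fin d) φ).toMonoidHom)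
      (fun i => slR (s (i, false))) (fun i => slR (s (i, true)))
    simp only [map_slR] at h3
    rw [h1] at h3
    have h4 := congrArg Units.val h3
    rw [scalarU_val, Units.coe_map, hz] at h4
    refine Matrix.map_injective hc.inj ?_
    refine Eq.trans h4 ?_
    ext i j
    by_cases hij : i = j
    · subst hij; simp only [Matrix.smul_apply, one_apply_eq, smul_eq_mul, mul_one, map_apply]
    · simp only [Matrix.smul_apply, Matrix.one_apply_ne hij, smul_eq_mul, mul_zero, map_apply, map_zero]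
  have h5 := scale_dense (φ (u : R)) (inj_pow_of_unit E u hu)
    (fun k => ((s k : Mat d R)).map φ) f (fun e => ?_) fun k => (c k : ℂ)
  · rw [← h5]
    congr 2
    funext p
    rw [hcs, scalarU_mul_coe, slU_coe, Matrix.smul_apply, smul_eq_mul]
  · have h6 := hf (fun i => scR (u ^ e (i, false)) * slR (s (i, false)))
      (fun i => scR (u ^ e (i, true)) * slR (s (i, true))) (by
        rw [swd_central _ _ _ _ (fun i x => scR_comm _ x) (fun i x => scR_comm _ x), h2])
    rw [← h6]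
    congr 2
    funext p
    obtain ⟨⟨i, t⟩, k, l⟩ := p
    have h7 : (if t = true then scR (u ^ e (i, true)) * slR (s (i, true))
        else scR (u ^ e (i, false)) * slR (s (i, false)) : (Mat d R)ˣ) =
        scR (u ^ e (i, t)) * slR (s (i, t)) := by
      cases t
      · rw [if_neg Bool.false_ne_true]
      · rw [if_pos rfl]
    change φ (u : R) ^ e (i, t) * φ ((s (i, t) : Mat d R) k l) =
      φ (((if t = true then scR (u ^ e (i, true)) * slR (s (i, true))
        else scR (u ^ e (i, false)) * slR (s (i, false)) : (Mat d R)ˣ) : Mat d R) k l)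
    rw [h7, scR_mul_coe, slR_coe, Matrix.smul_apply, smul_eq_mul, map_mul,
      Units.val_pow_eq_pow_val, map_pow]

theorem adjoin_top_mono {A B : Set (Mat d ℂ)} (h : A ⊆ B) (hA : Algebra.adjoin ℂ A = ⊤) :
    Algebra.adjoin ℂ B = ⊤ := by
  rw [eq_top_iff, ← hA]
  exact Algebra.adjoin_mono h

theorem irr_case {g : ℕ} {R : Type} [CommRing R] {φ : R →+* ℂ} (E : Subgroup ℂˣ) {r : ℕ}
    (hd : 0 < d) (hdr : d ≤ r) (hc : CoefOK φ E (r * r)) (μ : Rˣ) (z : ℂˣ) (hz : (z : ℂ) = φ μ)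
    (f : MvPolynomial ((Fin (g + 2) × Bool) × Fin d × Fin d) ℂ)
    (hf : ∀ a' b' : Fin (g + 2) → (Mat d R)ˣ,
      ((swd a' b' : (Mat d R)ˣ) : Mat d R) = (μ : R) • (1 : Mat d R) →
      MvPolynomial.eval (fun x => φ (((if x.1.2 then b' x.1.1 else a' x.1.1 : (Mat d R)ˣ) :
        Mat d R) x.2.1 x.2.2)) f = 0)
    (a b : Fin (g + 2) → (Mat d ℂ)ˣ)
    (hab : ((swd a b : (Mat d ℂ)ˣ) : Mat d ℂ) = (z : ℂ) • (1 : Mat d ℂ))
    (hadj : Algebra.adjoin ℂ (Set.range fun x : Fin (g + 2) × Bool =>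
        ((if x.2 then b x.1 else a x.1 : (Mat d ℂ)ˣ) : Mat d ℂ)) = ⊤) :
    evH f a b = 0 := by
  have hzd := pow_eq_one_of_swd hab
  have hab' : swd a b = scalarU z := by
    ext1
    rw [hab, scalarU_val]
  have hz' : z⁻¹ ∈ rootSub E d := by
    refine (rootSub E d).inv_mem ?_
    change z ^ d ∈ E
    rw [hzd]
    exact E.one_mem
  obtain ⟨x, hx⟩ : ∃ x : FU (g + 2) 1 →* (Mat d ℂ)ˣ, x = repX (scalarU z⁻¹) a b := ⟨_, rfl⟩
  have hinl : ∀ k, x (FreeGroup.of (Sum.inl k)) = if k.2 then b k.1 else a k.1 := fun k => by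
    rw [hx, repX_inl]
  have hinr : ∀ j, x (FreeGroup.of (Sum.inr j)) = scalarU z⁻¹ := fun j => by
    rw [hx, repX_inr]
  have htop : Algebra.adjoin ℂ (Set.range fun w => (x w : Mat d ℂ)) = ⊤ := by
    refine adjoin_top_mono ?_ hadj
    rintro _ ⟨k, rfl⟩
    exact ⟨FreeGroup.of (Sum.inl k), by simp only [hinl]⟩
  have hxY : x ∈ YG ({relatorU (g + 2) 1} : Set (FreeGroup ((Fin (g + 2) × Bool) ⊕ Fin 1)))
      (fun _ => (scalarU z⁻¹ : (Mat d ℂ)ˣ)) := by
    refine ⟨?_, fun j => ?_, ss_of_adjoin x htop⟩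
    · rintro w hw
      rw [Set.mem_singleton_iff.1 hw, map_relatorU_one, hinr]
      simp only [hinl, if_true, Bool.false_eq_true, if_false]
      rw [hab', ← map_mul, inv_mul_cancel, map_one]
    · rw [hinr]
  have hkey := surface_irrDense φ (rootSub E d) (rootSub_ok hd hdr hc)
    (Or.inl (by omega) : 2 ≤ g + 2 ∨ 1 = 0) d le_rfl hd (fun _ => (scalarU z⁻¹ : (Mat d ℂ)ˣ))
    (fun _ => eigIn_scalarU _ _ hz') x hxY (scalar_of_adjoin x htop)
    (MvPolynomial.rename (Prod.map Sum.inl id) f)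
  rw [evH]
  have hev : ∀ y : FU (g + 2) 1 →* (Mat d ℂ)ˣ,
      evalG y (MvPolynomial.rename (Prod.map Sum.inl id) f) =
        MvPolynomial.eval (fun p => (y (FreeGroup.of (Sum.inl p.1)) : Mat d ℂ) p.2.1 p.2.2) f := by
    intro y
    rw [evalG_eqn, MvPolynomial.aeval_rename, ← MvPolynomial.coe_aeval_eq_eval]
    rfl
  rw [hev] at hkey
  simp only [hinl] at hkey
  refine hkey fun y hy => ?_
  rw [hev]
  refine vanish_DG hc μ z hz f hf (fun k => y (FreeGroup.of (Sum.inl k))) (fun k => hy.1.2 _) ?_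
  have hy0 : y (FreeGroup.of (Sum.inr 0)) = scalarU z⁻¹ := by
    obtain ⟨P, hP⟩ := isConj_iff.1 (hy.1.1.2.1 0)
    rw [← hP, ← scalarU_comm, mul_assoc, mul_inv_cancel, mul_one]
  have hyr := hy.1.1.1 _ rfl
  rw [map_relatorU_one, hy0] at hyr
  rw [map_inv] at hyr
  exact (inv_mul_eq_one.1 hyr).symm

/-- T14. Surface relations of genus at least two. -/
theorem surfCl_two_add (g : ℕ) (h : Star2Stmt) : SurfCl (g + 2) := by
  intro R _ φ E r d hd hdr hc μ a b hab f hf
  obtain ⟨z, hz⟩ : ∃ z : ℂˣ, (z : ℂ) = φ μ := ⟨Units.map (φ : R →* ℂ) μ, rfl⟩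
  exact h hd (z : ℂ) a b (by rw [hab, hz]) f fun a' b' hab' hadj =>
    irr_case E hd hdr hc μ z hz f hf a' b' hab' hadj

end T14

end Vale.Agent.P002B
end

section

/-!
# P002B, T13a (B): Star1Stmt from GenStmt
-/

set_option linter.all false

namespace Vale.Agent.P002B.SB

open Matrix Module Vale.Agent.P002

variable {g d : ℕ}

theorem card_Ix (g d : ℕ) : Fintype.card (Ix g d) = 2 * g * (d * d) := by
  simp only [Fintype.card_prod, Fintype.card_fin, Fintype.card_bool]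
  ring

theorem card_ne (p₀ : Fin d × Fin d) : Fintype.card {p : Fin d × Fin d // p ≠ p₀} + 1 = d * d := by
  classical
  have h : 0 < d * d := by
    have := Fintype.card_pos_iff.2 ⟨p₀⟩
    simpa only [mul_self_pos, ne_eq, Fintype.card_prod, Fintype.card_fin] using this
  rw [Fintype.card_subtype_compl, Fintype.card_subtype_eq]
  simp only [Fintype.card_prod, Fintype.card_fin]
  omega

theorem star1 (h : GenStmt) : Star1Stmt := by
  classical
  intro g d hd z a b hz f hf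
  -- the point
  set x₀ : Ix (g + 2) d → ℂ := crd (fun i => (a i : Mat d ℂ)) (fun i => (b i : Mat d ℂ)) with hx₀
  have hev : ∀ (a' b' : Fin (g + 2) → (Mat d ℂ)ˣ), evH f a' b' = MvPolynomial.eval
      (crd (fun i => (a' i : Mat d ℂ)) (fun i => (b' i : Mat d ℂ))) f := by
    intro a' b'
    unfold evH
    congr 2
    funext x
    unfold crd pr
    cases x.1.2 <;> rfl
  have hma : ∀ i, mt x₀ i false = (a i : Mat d ℂ) := fun i => by ext p q; rfl
  have hmb : ∀ i, mt x₀ i true = (b i : Mat d ℂ) := fun i => by ext p q; rfl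
  -- the field
  obtain ⟨K₀, hK₀, hs⟩ := exists_countable_subfield' (insert z (f.coeffs : Set ℂ))
    ((Finset.countable_toSet _).insert z)
  have hzK : z ∈ K₀ := hs (Set.mem_insert _ _)
  obtain ⟨f₀, hf₀⟩ : ∃ f₀ : MvPolynomial (Ix (g + 2) d) K₀, MvPolynomial.map K₀.subtype f₀ = f := by
    refine MvPolynomial.mem_range_map_iff_coeffs_subset.2 ?_
    intro c hc
    exact ⟨⟨c, hs (Set.mem_insert_of_mem _ hc)⟩, rfl⟩
  have hfe : ∀ Y : Ix (g + 2) d → ℂ, MvPolynomial.aeval Y f₀ = MvPolynomial.eval Y f := by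
    intro Y
    rw [← hf₀, MvPolynomial.eval_map, MvPolynomial.aeval_def]
    rfl
  have hzz : ((swd' a b : (Mat d ℂ)ˣ) : Mat d ℂ) = z • (1 : Mat d ℂ) := hz
  have hzd : z ^ d = 1 := by
    have h1 := det_swd a b
    rw [hzz, Matrix.det_smul, Matrix.det_one, mul_one, Fintype.card_fin] at h1
    exact h1
  -- the equations hold at the point
  have hF : ∀ p : Fin d × Fin d,
      MvPolynomial.aeval x₀ (Eqn (g := g + 2) K₀ ⟨z, hzK⟩ p) = 0 := by
    intro p
    rw [Eqn_eval, Wd_units a b x₀ hma hmb, hzz, Matrix.smul_apply, Matrix.smul_apply, smul_eq_mul,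
      smul_eq_mul]
    ring
  obtain ⟨Y, T, c, hY1, hY2, hY3, hY4⟩ := h K₀ hK₀ (τ := Fin d × Fin d)
    (fun p : {p : Fin d × Fin d // p ≠ (⟨0, hd⟩, ⟨0, hd⟩)} => Eqn (g := g + 2) K₀ ⟨z, hzK⟩ p.1) x₀
    (fun p => hF p.1)
  -- the generic matrices
  have hdet : ∀ i e, (mt Y i e).det ≠ 0 := by
    intro i e h0
    rw [← det_eval K₀ i e Y] at h0
    have h1 := hY1 _ h0
    rw [det_eval] at h1
    cases e
    · rw [hma] at h1
      exact ((Matrix.isUnit_iff_isUnit_det _).1 (a i).isUnit).ne_zero h1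
    · rw [hmb] at h1
      exact ((Matrix.isUnit_iff_isUnit_det _).1 (b i).isUnit).ne_zero h1
  have hun : ∀ i e, IsUnit (mt Y i e) := fun i e =>
    (Matrix.isUnit_iff_isUnit_det _).2 (isUnit_iff_ne_zero.2 (hdet i e))
  obtain ⟨a', ha'⟩ : ∃ a' : Fin (g + 2) → (Mat d ℂ)ˣ, ∀ i, mt Y i false = (a' i : Mat d ℂ) :=
    ⟨fun i => (hun i false).unit, fun i => rfl⟩
  obtain ⟨b', hb'⟩ : ∃ b' : Fin (g + 2) → (Mat d ℂ)ˣ, ∀ i, mt Y i true = (b' i : Mat d ℂ) :=
    ⟨fun i => (hun i true).unit, fun i => rfl⟩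
  have hcrd : crd (fun i => (a' i : Mat d ℂ)) (fun i => (b' i : Mat d ℂ)) = Y := by
    funext x
    obtain ⟨⟨i, e⟩, p, q⟩ := x
    show pr (a' i : Mat d ℂ) (b' i : Mat d ℂ) e p q = _
    rw [← ha', ← hb']
    cases e <;> rfl
  have hDt : Dt Y ≠ 0 := Finset.prod_ne_zero_iff.2 fun i _ => mul_ne_zero (hdet i false) (hdet i true)
  have hsw : ((swd' a' b' : (Mat d ℂ)ˣ) : Mat d ℂ) = z • (1 : Mat d ℂ) := by
    refine scalar_of_entries hd (det_swd a' b') hzd fun p hp => ?_
    have h1 := hY2 ⟨p, hp⟩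
    rw [Eqn_eval, Wd_units a' b' Y ha' hb', Matrix.smul_apply, smul_eq_mul, sub_eq_zero] at h1
    have h2 : Dt Y * ((swd' a' b' : (Mat d ℂ)ˣ) : Mat d ℂ) p.1 p.2 =
        Dt Y * (z * (1 : Mat d ℂ) p.1 p.2) := by
      rw [h1]
      show z * Dt Y * (1 : Mat d ℂ) p.1 p.2 = _
      ring
    exact mul_left_cancel₀ hDt h2
  have hcount := count_surface hd a' b' z hsw c T (fun H hH γ => by
    obtain ⟨δ, hδ1, hδ2, hδ3⟩ := hY4 H hH γ
    exact ⟨δ, hδ1 z hzK, fun x => by rw [hcrd]; exact hδ2 x, hδ3⟩) (by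
      rw [card_Ix] at hY3
      have := card_ne (d := d) (⟨0, hd⟩, ⟨0, hd⟩)
      omega)
  have hfin : evH f a' b' = 0 := hf a' b' hsw fun i X hXa hXb =>
    hcount i X fun k => by
      cases k
      · exact hXa
      · exact hXb
  rw [hev, hcrd, ← hfe] at hfin
  have h1 := hY1 _ hfin
  rw [hfe] at h1
  rw [hev]
  exact h1

end Vale.Agent.P002B.SB
end

section

/-!
# P002B, T12, part (ii): generic points in `ℂ` and derivations with prescribed values
-/

namespace Vale.Agent.P002B.GB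

/-- Algebraically independent numbers over a countable field. -/
theorem exists_algIndep_countable (K : Type) [Field K] [Countable K] [Algebra K ℂ] (ι : Type)
    [Finite ι] : ∃ c : ι → ℂ, AlgebraicIndependent K c := by
  let θ : K →+* ℂ := algebraMap K ℂ
  have hcount : Countable θ.fieldRange := by
    have : Function.Surjective θ.rangeRestrictField := θ.rangeRestrictField_bijective.2
    exact this.countable
  obtain ⟨c, -, hc⟩ := Vale.Agent.P002.exists_dense_algIndep θ.fieldRange hcount (ι := ι)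
    (fun _ => Set.univ) (fun _ => isOpen_univ) (fun _ => Set.univ_nonempty)
  refine ⟨c, ?_⟩
  rw [algebraicIndependent_iff] at hc ⊢
  intro p hp
  have h1 : MvPolynomial.map θ.rangeRestrictField p = 0 := by
    apply hc
    rw [MvPolynomial.aeval_def, MvPolynomial.eval₂_map]
    exact hp
  exact MvPolynomial.map_injective _ θ.rangeRestrictField.injective (h1.trans (map_zero _).symm)

/-- A domain of finite type over a countable field with a map to `ℂ` embeds in `ℂ`. -/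
theorem exists_embedding (K₀ : Type) [Field K₀] [Countable K₀] [Algebra K₀ ℂ] {B : Type}
    [CommRing B] [IsDomain B] [Algebra K₀ B] [Algebra.FiniteType K₀ B] :
    ∃ f : B →ₐ[K₀] ℂ, Function.Injective f := by
  classical
  obtain ⟨ι, x, hx⟩ := exists_isTranscendenceBasis' K₀ B
  have hfin : Finite ι := by
    rw [← Cardinal.lt_aleph0_iff_finite, hx.cardinalMk_eq_trdeg]
    exact trdeg_lt_aleph0_of_finiteType
  obtain ⟨c, hc⟩ := exists_algIndep_countable K₀ ι
  -- `B` is algebraic over the polynomial ring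
  let Rx := Algebra.adjoin K₀ (Set.range x)
  have halg : Algebra.IsAlgebraic Rx B := hx.isAlgebraic
  let e : MvPolynomial ι K₀ ≃ₐ[K₀] Rx := hx.1.aevalEquiv
  let j : Rx →ₐ[K₀] ℂ := (MvPolynomial.aeval c).comp (e.symm : Rx →ₐ[K₀] MvPolynomial ι K₀)
  have hc' : Function.Injective (MvPolynomial.aeval c : MvPolynomial ι K₀ →ₐ[K₀] ℂ) := hc
  have hj : Function.Injective j := hc'.comp e.symm.injective
  let L := FractionRing B
  have hfb : FaithfulSMul Rx B := inferInstance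
  have htL : Module.IsTorsionFree Rx L := Module.IsTorsionFree.trans_faithfulSMul Rx B L
  have halgL : Algebra.IsAlgebraic Rx L := (IsFractionRing.isAlgebraic_iff' Rx B L).1 halg
  let _ : Algebra Rx ℂ := j.toRingHom.toAlgebra
  have htower : IsScalarTower K₀ Rx ℂ := IsScalarTower.of_algebraMap_eq fun z => (j.commutes z).symm
  have h1 : FaithfulSMul Rx ℂ := (faithfulSMul_iff_algebraMap_injective Rx ℂ).2 hj
  have h2 : Module.IsTorsionFree Rx ℂ := Module.IsTorsionFree.trans_faithfulSMul Rx ℂ ℂ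
  let F : L →ₐ[Rx] ℂ := IsAlgClosed.lift
  refine ⟨(F.restrictScalars K₀).comp (IsScalarTower.toAlgHom K₀ B L), ?_⟩
  exact F.toRingHom.injective.comp (IsFractionRing.injective B L)

open MvPolynomial in
/-- Values in the dual numbers. -/
theorem dual_eval {K : Type*} [CommRing K] [Algebra K ℂ] {σ : Type} [Fintype σ] (Y H : σ → ℂ)
    (j : K →+* TrivSqZeroExt ℂ ℂ) (hj : ∀ z, j z = TrivSqZeroExt.inl (algebraMap K ℂ z))
    (G : MvPolynomial σ K) :
    eval₂ j (fun i => (TrivSqZeroExt.inl (Y i) + TrivSqZeroExt.inr (H i) : TrivSqZeroExt ℂ ℂ)) G =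
      TrivSqZeroExt.inl (aeval Y G) + TrivSqZeroExt.inr (∑ i, aeval Y (pderiv i G) * H i) := by
  classical
  induction G using MvPolynomial.induction_on with
  | C z =>
    rw [eval₂_C, hj, aeval_C]
    simp only [derivation_C, map_zero, zero_mul, Finset.sum_const_zero, DualNumber.inr_eq_smul_eps, zero_smul, add_zero]
  | add p q hp hq =>
    rw [eval₂_add, hp, hq]
    simp only [map_add, add_mul, Finset.sum_add_distrib, TrivSqZeroExt.inl_add,
      TrivSqZeroExt.inr_add]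
    abel
  | mul_X p n hp =>
    rw [eval₂_mul, eval₂_X, hp]
    have h1 : ∀ i, aeval Y (pderiv i (p * X n)) * H i =
        aeval Y (pderiv i p) * H i * Y n + if i = n then aeval Y p * H n else 0 := by
      intro i
      rw [Derivation.leibniz, pderiv_X]
      by_cases hi : i = n
      · subst hi
        simp
        ring
      · rw [if_neg hi, Pi.single_eq_of_ne (fun h => hi h.symm)]
        simp only [smul_eq_mul, mul_zero, zero_add, map_mul, aeval_X, add_zero]
        ring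
    simp only [h1, Finset.sum_add_distrib, Finset.sum_ite_eq', Finset.mem_univ, if_true]
    refine TrivSqZeroExt.ext ?_ ?_
    · simp only [DualNumber.inr_eq_smul_eps, TrivSqZeroExt.fst_mul, TrivSqZeroExt.fst_add, TrivSqZeroExt.fst_inl, TrivSqZeroExt.fst_smul, DualNumber.fst_eps, smul_eq_mul, mul_zero, add_zero, map_mul, aeval_X, TrivSqZeroExt.inl_mul]
    · rw [TrivSqZeroExt.snd_mul]
      simp only [TrivSqZeroExt.fst_add, TrivSqZeroExt.snd_add, TrivSqZeroExt.fst_inl,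
        TrivSqZeroExt.fst_inr, TrivSqZeroExt.snd_inl, TrivSqZeroExt.snd_inr, zero_add, add_zero,
        map_mul, aeval_X, smul_eq_mul, MulOpposite.smul_eq_mul_unop, MulOpposite.unop_op]
      rw [← Finset.sum_mul]
      ring

open MvPolynomial in
theorem exists_generic_point_aux (K₀ : Type) [Field K₀] [Countable K₀] [Algebra K₀ ℂ]
    {σ τ : Type} [Fintype σ]
    [Fintype τ] {R : Type} [CommRing R] [IsDomain R] [Algebra K₀ R] [Algebra.FiniteType K₀ R]
    (q : MvPolynomial σ K₀ →ₐ[K₀] R) (hq : Function.Surjective q) :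
    ∃ (Y : σ → ℂ) (c : τ → ℂ), (∀ G : MvPolynomial σ K₀, aeval Y G = 0 ↔ q G = 0) ∧
      ∀ H : σ → ℂ, (∀ G : MvPolynomial σ K₀, q G = 0 → ∑ i, aeval Y (pderiv i G) * H i = 0) →
        ∀ γ : τ → ℂ, ∃ δ : Derivation ℤ ℂ ℂ, (∀ z : K₀, δ (algebraMap K₀ ℂ z) = 0) ∧
          (∀ i, δ (Y i) = H i) ∧ ∀ p, δ (c p) = γ p := by
  classical
  have hft : Algebra.FiniteType K₀ (MvPolynomial τ R) :=
    Algebra.FiniteType.trans (S := R) inferInstance inferInstance
  obtain ⟨f, hf⟩ := exists_embedding K₀ (B := MvPolynomial τ R)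
  let Y : σ → ℂ := fun i => f (C (q (X i)))
  let c : τ → ℂ := fun p => f (X p)
  have hY : ∀ G : MvPolynomial σ K₀, aeval Y G = f (C (q G)) := by
    intro G
    have : aeval Y = (f.comp (IsScalarTower.toAlgHom K₀ R (MvPolynomial τ R))).comp q := by
      apply MvPolynomial.algHom_ext
      intro i
      rw [aeval_X]
      rfl
    exact DFunLike.congr_fun this G
  refine ⟨Y, c, fun G => ?_, fun H hH γ => ?_⟩
  · rw [hY]
    constructor
    · intro h
      have h1 := hf (h.trans (map_zero f).symm)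
      exact C_injective τ R (h1.trans (map_zero C).symm)
    · intro h
      rw [h, map_zero, map_zero]
  · let j : K₀ →+* TrivSqZeroExt ℂ ℂ := (TrivSqZeroExt.inlHom ℂ ℂ).comp (algebraMap K₀ ℂ)
    have hj : ∀ z, j z = TrivSqZeroExt.inl (algebraMap K₀ ℂ z) := fun z => rfl
    let θ : MvPolynomial σ K₀ →+* TrivSqZeroExt ℂ ℂ := eval₂Hom j fun i =>
      (TrivSqZeroExt.inl (Y i) + TrivSqZeroExt.inr (H i) : TrivSqZeroExt ℂ ℂ)
    have hθ : ∀ G, θ G =
        TrivSqZeroExt.inl (aeval Y G) + TrivSqZeroExt.inr (∑ i, aeval Y (pderiv i G) * H i) :=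
      fun G => dual_eval Y H j hj G
    have hθ0 : ∀ G, q G = 0 → θ G = 0 := by
      intro G hG
      rw [hθ, hH G hG, hY, hG, map_zero, map_zero]
      simp
    obtain ⟨ψR, hψR⟩ : ∃ ψR : R →+* TrivSqZeroExt ℂ ℂ, ∀ G, ψR (q G) = θ G := by
      have hq' : Function.Surjective q.toRingHom := hq
      refine ⟨(q.toRingHom.liftOfSurjective hq') ⟨θ, fun G hG => hθ0 G hG⟩, fun G => ?_⟩
      exact RingHom.liftOfRightInverse_comp_apply _ _ _ _ G
    let ψ : MvPolynomial τ R →+* TrivSqZeroExt ℂ ℂ := eval₂Hom ψR fun p =>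
      (TrivSqZeroExt.inl (c p) + TrivSqZeroExt.inr (γ p) : TrivSqZeroExt ℂ ℂ)
    have hψC : ∀ r, ψ (C r) = ψR r := fun r => eval₂_C _ _ _
    have hψX : ∀ p, ψ (X p) = TrivSqZeroExt.inl (c p) + TrivSqZeroExt.inr (γ p) :=
      fun p => eval₂_X _ _ _
    have hfst : ∀ b, (ψ b).fst = f b := by
      have h1 : ((TrivSqZeroExt.fstHom ℂ ℂ ℂ).toRingHom.comp ψ) = f.toRingHom := by
        refine MvPolynomial.ringHom_ext (fun r => ?_) fun p => ?_
        · obtain ⟨G, rfl⟩ := hq r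
          show (ψ (C _)).fst = f (C _)
          rw [hψC, hψR, hθ, ← hY]
          simp only [DualNumber.inr_eq_smul_eps, TrivSqZeroExt.fst_add, TrivSqZeroExt.fst_inl, TrivSqZeroExt.fst_smul, DualNumber.fst_eps, smul_eq_mul, mul_zero, add_zero]
        · show (ψ (X p)).fst = f (X p)
          rw [hψX]
          simp [c]
      intro b
      exact RingHom.congr_fun h1 b
    let _ : Algebra (MvPolynomial τ R) ℂ := f.toRingHom.toAlgebra
    have htow : IsScalarTower K₀ (MvPolynomial τ R) ℂ :=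
      IsScalarTower.of_algebraMap_eq fun z => (f.commutes z).symm
    have hψK : ∀ z : K₀, ψ (algebraMap K₀ (MvPolynomial τ R) z) = j z := by
      intro z
      have h1 : algebraMap K₀ (MvPolynomial τ R) z = C (q (C z)) := by
        have h2 : q (C z) = algebraMap K₀ R z := q.commutes z
        rw [h2]
        rfl
      rw [h1, hψC, hψR, hθ, hj, aeval_C]
      simp only [derivation_C, map_zero, zero_mul, Finset.sum_const_zero, DualNumber.inr_eq_smul_eps, zero_smul, add_zero]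
    let d : Derivation K₀ (MvPolynomial τ R) ℂ := Derivation.mk'
      { toFun := fun b => (ψ b).snd
        map_add' := fun a b => by rw [map_add, TrivSqZeroExt.snd_add]
        map_smul' := fun z b => by
          rw [Algebra.smul_def, map_mul, hψK, hj, TrivSqZeroExt.snd_mul]
          simp only [TrivSqZeroExt.fst_inl, smul_eq_mul, TrivSqZeroExt.snd_inl, smul_zero, add_zero, RingHom.id_apply, Algebra.smul_def] }
      (fun a b => by
        show (ψ (a * b)).snd = f a * (ψ b).snd + f b * (ψ a).snd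
        rw [map_mul, TrivSqZeroExt.snd_mul, hfst, hfst]
        simp only [smul_eq_mul, MulOpposite.smul_eq_mul_unop, MulOpposite.unop_op]
        ring)
    obtain ⟨D, hD⟩ := Vale.Agent.P292.exists_derivation_extend (k := K₀)
      (A := MvPolynomial τ R) (E := ℂ) hf d
    have hD' : ∀ b, D (f b) = (ψ b).snd := hD
    refine ⟨D.restrictScalars ℤ, fun z => ?_, fun i => ?_, fun p => ?_⟩
    · exact D.map_algebraMap z
    · show D (Y i) = H i
      have h1 := hD' (C (q (X i)))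
      rw [hψC, hψR, hθ] at h1
      refine h1.trans ?_
      simp only [aeval_X, pderiv_X, Pi.single_apply, MonoidWithZeroHom.map_ite_one_zero, ite_mul, one_mul, zero_mul, Finset.sum_ite_eq, Finset.mem_univ, ↓reduceIte, DualNumber.inr_eq_smul_eps, TrivSqZeroExt.snd_add, TrivSqZeroExt.snd_inl, TrivSqZeroExt.snd_smul, DualNumber.snd_eps, smul_eq_mul, mul_one, zero_add]
    · show D (c p) = γ p
      have h1 := hD' (X p)
      rw [hψX] at h1
      refine h1.trans ?_
      simp only [DualNumber.inr_eq_smul_eps, TrivSqZeroExt.snd_add, TrivSqZeroExt.snd_inl, TrivSqZeroExt.snd_smul, DualNumber.snd_eps, smul_eq_mul, mul_one, zero_add]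

open MvPolynomial in
/-- T12 (ii). -/
theorem exists_generic_point (K₀ : Type) [Field K₀] [Countable K₀] [Algebra K₀ ℂ] {σ τ : Type}
    [Fintype σ] [Fintype τ] (P : Ideal (MvPolynomial σ K₀)) [hP : P.IsPrime] :
    ∃ (Y : σ → ℂ) (c : τ → ℂ), (∀ G : MvPolynomial σ K₀, aeval Y G = 0 ↔ G ∈ P) ∧
      ∀ H : σ → ℂ, (∀ G ∈ P, ∑ i, aeval Y (pderiv i G) * H i = 0) → ∀ γ : τ → ℂ,
        ∃ δ : Derivation ℤ ℂ ℂ, (∀ z : K₀, δ (algebraMap K₀ ℂ z) = 0) ∧ (∀ i, δ (Y i) = H i) ∧
          ∀ p, δ (c p) = γ p := by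
  obtain ⟨Y, c, h1, h2⟩ := exists_generic_point_aux K₀ (τ := τ)
    (Ideal.Quotient.mkₐ K₀ P) (Ideal.Quotient.mkₐ_surjective K₀ P)
  have h3 : ∀ G, Ideal.Quotient.mkₐ K₀ P G = 0 ↔ G ∈ P := fun G =>
    Ideal.Quotient.eq_zero_iff_mem
  exact ⟨Y, c, fun G => (h1 G).trans (h3 G), fun H hH =>
    h2 H fun G hG => hH G ((h3 G).mp hG)⟩

end Vale.Agent.P002B.GB
end

section

/-!
# P002B, T12: assembly of GenStmt
-/

namespace Vale.Agent.P002B.GB

open MvPolynomial

/-- The space of tangent vectors. -/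
noncomputable def tanT {K₀ : Type} [Field K₀] [Algebra K₀ ℂ] {σ : Type} [Fintype σ]
    (P : Ideal (MvPolynomial σ K₀)) (Y : σ → ℂ) : Submodule ℂ (σ → ℂ) where
  carrier := {H | ∀ G ∈ P, ∑ i, aeval Y (pderiv i G) * H i = 0}
  add_mem' := fun {a b} ha hb G hG => by
    simp only [Pi.add_apply, mul_add, Finset.sum_add_distrib]
    rw [ha G hG, hb G hG, add_zero]
  zero_mem' := fun G _ => by simp
  smul_mem' := fun c a ha G hG => by
    have h := ha G hG
    have h1 : ∑ i, aeval Y (pderiv i G) * (c • a) i = c * ∑ i, aeval Y (pderiv i G) * a i := by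
      rw [Finset.mul_sum]
      exact Finset.sum_congr rfl fun i _ => by rw [Pi.smul_apply, smul_eq_mul]; ring
    rw [h1, h, mul_zero]

theorem gen_type (K₀ : Type) [Field K₀] [Countable K₀] [CharZero K₀] [Algebra K₀ ℂ]
    {σ ι τ : Type} [Fintype σ] [Fintype ι] [Fintype τ]
    (F : ι → MvPolynomial σ K₀) (x : σ → ℂ) (hx : ∀ i, MvPolynomial.aeval x (F i) = 0) :
    ∃ (Y : σ → ℂ) (T : Submodule ℂ (σ → ℂ)) (c : τ → ℂ),
      (∀ G : MvPolynomial σ K₀, MvPolynomial.aeval Y G = 0 → MvPolynomial.aeval x G = 0) ∧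
      (∀ i, MvPolynomial.aeval Y (F i) = 0) ∧
      Fintype.card σ ≤ Module.finrank ℂ T + Fintype.card ι ∧
      ∀ H ∈ T, ∀ γ : τ → ℂ, ∃ δ : Derivation ℤ ℂ ℂ, (∀ z : K₀, δ (algebraMap K₀ ℂ z) = 0) ∧
        (∀ i, δ (Y i) = H i) ∧ ∀ p, δ (c p) = γ p := by
  have hker : (RingHom.ker (MvPolynomial.aeval x : MvPolynomial σ K₀ →ₐ[K₀] ℂ)).IsPrime :=
    RingHom.ker_isPrime _
  have hle : Ideal.span (Set.range F) ≤
      RingHom.ker (MvPolynomial.aeval x : MvPolynomial σ K₀ →ₐ[K₀] ℂ) := by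
    rw [Ideal.span_le]
    rintro _ ⟨i, rfl⟩
    exact hx i
  obtain ⟨P, hP, hPle⟩ := Ideal.exists_minimalPrimes_le hle
  have hPp : P.IsPrime := hP.1.1
  obtain ⟨Y, c, hY, hδ⟩ := exists_generic_point K₀ (τ := τ) P
  refine ⟨Y, tanT P Y, c, fun G hG => hPle ((hY G).mp hG), fun i => ?_,
    GR.gen_rank K₀ F P hP Y hY (tanT P Y) (fun H => Iff.rfl), fun H hH γ => hδ H hH γ⟩
  exact (hY _).mpr (hP.1.2 (Ideal.subset_span ⟨i, rfl⟩))

theorem gen_subfield :
  ∀ (K₀ : Subfield ℂ), Countable K₀ → ∀ {σ ι τ : Type} [Fintype σ] [Fintype ι] [Fintype τ]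
    (F : ι → MvPolynomial σ K₀) (x : σ → ℂ), (∀ i, MvPolynomial.aeval x (F i) = 0) →
    ∃ (Y : σ → ℂ) (T : Submodule ℂ (σ → ℂ)) (c : τ → ℂ),
      (∀ G : MvPolynomial σ K₀, MvPolynomial.aeval Y G = 0 → MvPolynomial.aeval x G = 0) ∧
      (∀ i, MvPolynomial.aeval Y (F i) = 0) ∧
      Fintype.card σ ≤ Module.finrank ℂ T + Fintype.card ι ∧
      ∀ H ∈ T, ∀ γ : τ → ℂ, ∃ δ : Derivation ℤ ℂ ℂ, (∀ z ∈ K₀, δ z = 0) ∧
        (∀ i, δ (Y i) = H i) ∧ ∀ p, δ (c p) = γ p := by
  intro K₀ hK₀ σ ι τ _ _ _ F x hx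
  obtain ⟨Y, T, c, h1, h2, h3, h4⟩ := gen_type K₀ (τ := τ) F x hx
  refine ⟨Y, T, c, h1, h2, h3, fun H hH γ => ?_⟩
  obtain ⟨δ, e1, e2, e3⟩ := h4 H hH γ
  exact ⟨δ, fun z hz => e1 ⟨z, hz⟩, e2, e3⟩

end Vale.Agent.P002B.GB
end

section

/-!
# P002B, T12: GenStmt
-/

namespace Vale.Agent.P002B.GB

theorem genStmt : GenStmt := gen_subfield

end Vale.Agent.P002B.GB
end

section

/-!
# P002, genus 0, arbitrary classes: adapted bases of chains (T6b)
-/

namespace Vale.Agent.P002B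

open Matrix Vale.Agent.P002R Vale.Agent.P002L

namespace BasisH

variable {r : ℕ}

theorem step (ℱ : Set (Submodule ℂ (Fin r → ℂ))) (hT : ⊤ ∈ ℱ) (hc : IsChain (· ≤ ·) ℱ)
    (S : Submodule ℂ (Fin r → ℂ)) (hS : ∀ H ∈ ℱ, H ≤ S ∨ S ≤ H) (hne : S ≠ ⊤) :
    ∃ v, v ∉ S ∧ ∀ H ∈ ℱ, H ≤ S ⊔ Submodule.span ℂ {v} ∨ S ⊔ Submodule.span ℂ {v} ≤ H := by
  obtain ⟨G, ⟨hG, hGS⟩, hmin⟩ := WellFounded.has_min
    (wellFounded_lt : WellFounded ((· < ·) : Submodule ℂ (Fin r → ℂ) → _ → Prop))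
    {G | G ∈ ℱ ∧ ¬ G ≤ S} ⟨⊤, hT, fun h => hne (top_le_iff.1 h)⟩
  obtain ⟨v, hvG, hvS⟩ := SetLike.not_le_iff_exists.1 hGS
  refine ⟨v, hvS, fun H hH => ?_⟩
  rcases hS H hH with h | h
  · exact Or.inl (h.trans le_sup_left)
  · by_cases hHS : H ≤ S
    · exact Or.inl (hHS.trans le_sup_left)
    · refine Or.inr (sup_le h ?_)
      rw [Submodule.span_singleton_le_iff_mem]
      have : G ≤ H := by
        by_contra hn
        rcases hc.total hG hH with h1 | h1
        · exact hn h1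
        · exact hmin H ⟨hH, hHS⟩ (lt_of_le_not_ge h1 hn)
      exact this hvG

theorem finrank_succ (S : Submodule ℂ (Fin r → ℂ)) (v : Fin r → ℂ) (hv : v ∉ S) :
    Module.finrank ℂ (S ⊔ Submodule.span ℂ {v} : Submodule ℂ (Fin r → ℂ)) =
      Module.finrank ℂ S + 1 := by
  have h1 := Submodule.finrank_sup_add_finrank_inf_eq S (Submodule.span ℂ {v})
  have h2 : S ⊓ Submodule.span ℂ {v} = ⊥ := by
    rw [eq_bot_iff]
    intro x hx
    obtain ⟨hx1, hx2⟩ := Submodule.mem_inf.1 hx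
    obtain ⟨c, rfl⟩ := Submodule.mem_span_singleton.1 hx2
    by_cases hc : c = 0
    · rw [hc, zero_smul]
      exact Submodule.zero_mem _
    · exact absurd ((Submodule.smul_mem_iff S hc).1 hx1) hv
  have h3 : v ≠ 0 := fun h => hv (h ▸ S.zero_mem)
  rw [h2, finrank_bot, add_zero, finrank_span_singleton h3] at h1
  exact h1

/-- The span of the first vectors. -/
def Sp (v : ℕ → Fin r → ℂ) (k : ℕ) : Submodule ℂ (Fin r → ℂ) :=
  Submodule.span ℂ (v '' {i | i < k})

theorem Sp_congr {v w : ℕ → Fin r → ℂ} {k : ℕ} (h : ∀ i < k, v i = w i) : Sp v k = Sp w k := by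
  have h1 : v '' {i | i < k} = w '' {i | i < k} := Set.image_congr fun i hi => h i hi
  rw [Sp, Sp, h1]

theorem Sp_succ (v : ℕ → Fin r → ℂ) (k : ℕ) :
    Sp v (k + 1) = Sp v k ⊔ Submodule.span ℂ {v k} := by
  rw [Sp, Sp, ← Submodule.span_union]
  congr 1
  ext x
  constructor
  · rintro ⟨i, hi, rfl⟩
    rcases Nat.lt_succ_iff_lt_or_eq.1 hi with h | h
    · exact Or.inl ⟨i, h, rfl⟩
    · exact Or.inr (by rw [h]; rfl)
  · rintro (⟨i, hi, rfl⟩ | h)
    · exact ⟨i, Nat.lt_succ_of_lt hi, rfl⟩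
    · exact ⟨k, Nat.lt_succ_self k, h.symm⟩

theorem seq (ℱ : Set (Submodule ℂ (Fin r → ℂ))) (hT : ⊤ ∈ ℱ) (hc : IsChain (· ≤ ·) ℱ) (k : ℕ)
    (hk : k ≤ r) : ∃ v : ℕ → Fin r → ℂ, ∀ j ≤ k, (∀ H ∈ ℱ, H ≤ Sp v j ∨ Sp v j ≤ H) ∧
      Module.finrank ℂ (Sp v j) = j := by
  induction k with
  | zero =>
    refine ⟨fun _ => 0, fun j hj => ?_⟩
    obtain rfl : j = 0 := Nat.le_zero.1 hj
    have h0 : Sp (r := r) (fun _ => 0) 0 = ⊥ := by
      rw [Sp]
      simp only [not_lt_zero, Set.ofPred_false, Set.image_empty, Submodule.span_empty]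
    rw [h0]
    exact ⟨fun H _ => Or.inr bot_le, finrank_bot ℂ _⟩
  | succ k ih =>
    obtain ⟨v, hv⟩ := ih (Nat.le_of_succ_le hk)
    have hne : Sp v k ≠ ⊤ := by
      intro h
      have h1 := (hv k le_rfl).2
      rw [h, finrank_top, Module.finrank_fin_fun] at h1
      omega
    obtain ⟨x, hx, hx'⟩ := step ℱ hT hc (Sp v k) (hv k le_rfl).1 hne
    have hagree : ∀ j ≤ k, Sp (Function.update v k x) j = Sp v j := fun j hj =>
      Sp_congr fun i hi => Function.update_of_ne (by omega) _ _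
    refine ⟨Function.update v k x, fun j hj => ?_⟩
    rcases Nat.lt_or_ge k j with h | h
    · obtain rfl : j = k + 1 := by omega
      rw [Sp_succ, hagree k le_rfl, Function.update_self]
      exact ⟨hx', by rw [finrank_succ _ _ hx, (hv k le_rfl).2]⟩
    · rw [hagree j h]
      exact hv j h

theorem numbering (D : Finset ℕ) (h0 : 0 ∈ D) (hr : r ∈ D) (hle : ∀ n ∈ D, n ≤ r) :
    ∃ (N : ℕ) (nm : Fin r → Fin N) (d : ℕ → ℕ), Monotone nm ∧ Function.Surjective nm ∧
      (∀ t ≤ N, d t ∈ D) ∧ (∀ n ∈ D, ∃ t ≤ N, d t = n) ∧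
      ∀ t ≤ N, ∀ i : Fin r, t ≤ (nm i : ℕ) ↔ d t ≤ i := by
  have hcard : 0 < D.card := Finset.card_pos.2 ⟨0, h0⟩
  obtain ⟨N, hN⟩ : ∃ N, D.card = N + 1 := ⟨D.card - 1, by omega⟩
  let e := D.orderEmbOfFin hN
  have hrange : ∀ n, n ∈ D ↔ ∃ t, e t = n := by
    intro n
    have h1 := Finset.range_orderEmbOfFin D hN
    have h2 : n ∈ Set.range e ↔ n ∈ (D : Set ℕ) := by rw [h1]
    exact h2.symm.trans Iff.rfl |>.trans Iff.rfl
  let d : ℕ → ℕ := fun t => if h : t < N + 1 then e ⟨t, h⟩ else 0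
  have hd : ∀ t (h : t < N + 1), d t = e ⟨t, h⟩ := fun t h => dif_pos h
  have hmono : ∀ s t, s < t → t ≤ N → d s < d t := by
    intro s t hst ht
    rw [hd s (by omega), hd t (by omega)]
    exact e.strictMono hst
  have hmono' : ∀ s t, s ≤ t → t ≤ N → d s ≤ d t := by
    intro s t hst ht
    rcases Nat.lt_or_ge s t with h | h
    · exact (hmono s t h ht).le
    · rw [le_antisymm hst h]
  have hmem : ∀ t ≤ N, d t ∈ D := by
    intro t ht
    rw [hd t (by omega)]
    exact (hrange _).2 ⟨_, rfl⟩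
  have hsurj : ∀ n ∈ D, ∃ t ≤ N, d t = n := by
    intro n hn
    obtain ⟨t, ht⟩ := (hrange n).1 hn
    exact ⟨t, by omega, by rw [hd t t.2, ← ht]⟩
  have hd0 : d 0 = 0 := by
    obtain ⟨t, ht, h1⟩ := hsurj 0 h0
    have := hmono' 0 t (Nat.zero_le t) ht
    omega
  have hdN : d N = r := by
    obtain ⟨t, ht, h1⟩ := hsurj r hr
    have h2 := hmono' t N ht le_rfl
    have h3 := hle _ (hmem N le_rfl)
    omega
  have hlt : ∀ i : Fin r, Nat.findGreatest (fun t => d t ≤ i) N < N := by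
    intro i
    have h1 : Nat.findGreatest (fun t => d t ≤ i) N ≤ N := Nat.findGreatest_le N
    rcases Nat.lt_or_ge (Nat.findGreatest (fun t => d t ≤ i) N) N with h | h
    · exact h
    · have h2 : d (Nat.findGreatest (fun t => d t ≤ i) N) ≤ i :=
        Nat.findGreatest_spec (P := fun t => d t ≤ i) (m := 0) (Nat.zero_le N)
          (by rw [hd0]; exact Nat.zero_le _)
      rw [le_antisymm h1 h, hdN] at h2
      exact absurd i.2 (not_lt.2 h2)
  have hiff : ∀ t ≤ N, ∀ i : Fin r, t ≤ Nat.findGreatest (fun t => d t ≤ i) N ↔ d t ≤ i := by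
    intro t ht i
    constructor
    · intro h
      have h2 : d (Nat.findGreatest (fun t => d t ≤ i) N) ≤ i :=
        Nat.findGreatest_spec (P := fun t => d t ≤ i) (m := 0) (Nat.zero_le N)
          (by rw [hd0]; exact Nat.zero_le _)
      exact (hmono' _ _ h (Nat.findGreatest_le N)).trans h2
    · intro h
      exact Nat.le_findGreatest ht h
  refine ⟨N, fun i => ⟨_, hlt i⟩, d, ?_, ?_, hmem, hsurj, hiff⟩
  · intro i j hij
    change Nat.findGreatest (fun t => d t ≤ i) N ≤ Nat.findGreatest (fun t => d t ≤ j) N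
    rw [hiff _ (Nat.findGreatest_le N)]
    exact ((hiff _ (Nat.findGreatest_le N) i).1 le_rfl).trans hij
  · intro t
    have hdt : d t < r := by
      rw [← hdN]
      exact hmono t N t.2 le_rfl
    refine ⟨⟨d t, hdt⟩, ?_⟩
    apply Fin.ext
    change Nat.findGreatest (fun s => d s ≤ d t) N = t
    have h1 := (hiff t t.2.le ⟨d t, hdt⟩).2 le_rfl
    apply le_antisymm _ h1
    by_contra h2
    have h3 := (hiff (t + 1) t.2 ⟨d t, hdt⟩).1 (by (clear * - hdt hN h2; omega))
    have h4 := hmono t (t + 1) (Nat.lt_succ_self t) t.2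
    have h5 : d (t + 1) ≤ d t := h3
    omega

end BasisH

/-- T6b. -/
theorem basisStmtH : BasisStmt := by
  classical
  intro r ℱ hB hT hc
  obtain ⟨v, hv⟩ := BasisH.seq ℱ hT hc r le_rfl
  let g₀ : Mat r ℂ := Matrix.of fun i j => v j i
  have hmul : ∀ x : Fin r → ℂ, g₀ *ᵥ x = ∑ j : Fin r, x j • v j := by
    intro x
    ext i
    rw [Matrix.mulVec, dotProduct, Finset.sum_apply]
    refine Finset.sum_congr rfl fun j _ => ?_
    rw [Pi.smul_apply, smul_eq_mul, mul_comm]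
    rfl
  have hSp : ∀ n ≤ r, ∀ S : Submodule ℂ (Fin r → ℂ), (∀ x, x ∈ S ↔ ∀ i : Fin r, n ≤ i → x i = 0) →
      BasisH.Sp v n = S.map (Matrix.mulVecLin g₀) := by
    intro n hn S hS
    apply le_antisymm
    · rw [BasisH.Sp, Submodule.span_le]
      rintro _ ⟨i, hi, rfl⟩
      have hi' : i < n := hi
      refine ⟨Pi.single ⟨i, by omega⟩ 1, ?_, ?_⟩
      · rw [SetLike.mem_coe, hS]
        intro j hj
        apply Pi.single_eq_of_ne
        intro h
        rw [h] at hj
        exact absurd hi' (not_lt.2 hj)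
      · rw [Matrix.mulVecLin_apply, hmul, Finset.sum_eq_single (⟨i, by omega⟩ : Fin r)]
        · rw [Pi.single_eq_same, one_smul]
        · intro j _ hj
          rw [Pi.single_eq_of_ne hj, zero_smul]
        · intro h
          exact absurd (Finset.mem_univ _) h
    · rintro _ ⟨x, hx, rfl⟩
      rw [SetLike.mem_coe, hS] at hx
      rw [Matrix.mulVecLin_apply, hmul]
      refine Submodule.sum_mem _ fun j _ => ?_
      rcases Nat.lt_or_ge j n with h | h
      · exact Submodule.smul_mem _ _ (Submodule.subset_span ⟨j, h, rfl⟩)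
      · rw [hx j h, zero_smul]
        exact Submodule.zero_mem _
  have hu : IsUnit g₀ := by
    rw [← Matrix.mulVec_surjective_iff_isUnit]
    intro y
    have h1 : BasisH.Sp v r = ⊤ := by
      apply Submodule.eq_top_of_finrank_eq
      rw [(hv r le_rfl).2, Module.finrank_fin_fun]
    have h2 := hSp r le_rfl ⊤ fun x => ⟨fun _ i hi => absurd i.2 (not_lt.2 hi), fun _ => trivial⟩
    have h3 : y ∈ (⊤ : Submodule ℂ (Fin r → ℂ)).map (Matrix.mulVecLin g₀) := by
      rw [← h2, h1]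
      trivial
    obtain ⟨x, _, hx⟩ := h3
    exact ⟨x, hx⟩
  obtain ⟨g, hg⟩ := hu
  have hmemD : ∀ n, n ∈ (Finset.range (r + 1)).filter (fun n => ∃ G ∈ ℱ, Module.finrank ℂ G = n) ↔
      ∃ G ∈ ℱ, Module.finrank ℂ G = n := by
    intro n
    rw [Finset.mem_filter, Finset.mem_range]
    refine ⟨fun h => h.2, fun h => ⟨?_, h⟩⟩
    obtain ⟨G, _, rfl⟩ := h
    have := Submodule.finrank_le G
    rw [Module.finrank_fin_fun] at this
    omega
  obtain ⟨N, nm, d, hmono, hsurj, hd1, hd2, hd3⟩ := BasisH.numbering (r := r)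
    ((Finset.range (r + 1)).filter (fun n => ∃ G ∈ ℱ, Module.finrank ℂ G = n))
    ((hmemD 0).2 ⟨⊥, hB, finrank_bot ℂ _⟩)
    ((hmemD r).2 ⟨⊤, hT, by rw [finrank_top, Module.finrank_fin_fun]⟩)
    (fun n hn => by
      have := Finset.mem_range.1 (Finset.mem_filter.1 hn).1
      omega)
  have hG : ∀ G ∈ ℱ, G = BasisH.Sp v (Module.finrank ℂ G) := by
    intro G hG
    have hle : Module.finrank ℂ G ≤ r := by
      have := Submodule.finrank_le G
      rwa [Module.finrank_fin_fun] at this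
    rcases (hv _ hle).1 G hG with h | h
    · exact Submodule.eq_of_le_of_finrank_eq h (hv _ hle).2.symm
    · exact (Submodule.eq_of_le_of_finrank_eq h (hv _ hle).2).symm
  have hFl : ∀ t ≤ N, (Fl nm t).map (Matrix.mulVecLin (g : Mat r ℂ)) = BasisH.Sp v (d t) := by
    intro t ht
    rw [hg]
    refine (hSp (d t) ?_ _ fun x => ?_).symm
    · have := Finset.mem_range.1 (Finset.mem_filter.1 (hd1 t ht)).1
      omega
    · exact forall_congr' fun i => by rw [hd3 t ht i]
  refine ⟨g, N, nm, hmono, hsurj, fun G => ⟨fun h => ?_, ?_⟩⟩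
  · obtain ⟨t, ht, ht'⟩ := hd2 _ ((hmemD _).2 ⟨G, h, rfl⟩)
    exact ⟨t, ht, by rw [hFl t ht, ht']; exact hG G h⟩
  · rintro ⟨t, ht, rfl⟩
    obtain ⟨G, h1, h2⟩ := (hmemD _).1 (hd1 t ht)
    rw [hFl t ht, ← h2, ← hG G h1]
    exact h1

end Vale.Agent.P002B
end

section

/-!
# P002, genus 0, arbitrary classes: the theorem from its parts
-/

namespace Vale.Agent.P002B

open Matrix Vale.Agent.P002R Vale.Agent.P002L

/-- The surface relation without handles. -/
theorem surfCl_zero : SurfCl 0 := by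
  intro R _ φ E r d hd hdr hc μ a b hab f hf
  have h1 : ∀ {G : Type} [Group G] (x y : Fin 0 → G), swd x y = 1 := by
    intro G _ x y
    simp only [swd, List.ofFn_zero, List.prod_nil]
  have hμ : (μ : R) = 1 := by
    apply hc.inj
    rw [map_one]
    rw [h1] at hab
    have h2 := congrFun (congrFun hab ⟨0, hd⟩) ⟨0, hd⟩
    rw [Units.val_one, Matrix.smul_apply, Matrix.one_apply_eq, smul_eq_mul, mul_one] at h2
    exact h2.symm
  have h3 := hf (fun i => i.elim0) (fun i => i.elim0) (by rw [h1, hμ, one_smul, Units.val_one])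
  rw [← h3]
  congr 2
  funext x
  exact x.1.1.elim0

/-- All surface relations. -/
theorem surfCl_all : ∀ g, SurfCl g
  | 0 => surfCl_zero
  | 1 => QB.surfCl_one
  | g + 2 => surfCl_two_add g (S2B.star2Stmt (SB.star1 GB.genStmt))

/-- The main theorem in genus zero. -/
theorem g0All_of (hB : BasisStmt) : G0All :=
  AsmA.assembly pathStmt liftStmt AB.absorbStmt (flagAsm chainStmt hB posStmtB segPosStmt)
    typeStmt (levi_of_surf (surfStmt surfCl_all extStmt))

/-- The main theorem in genus zero. -/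
theorem g0All : G0All := g0All_of basisStmtH

end Vale.Agent.P002B
end

section

/-!
# P002, genus 0, one regular class: the main theorem for irreducible representations
-/

namespace Vale.Agent.P002L

/-- The main theorem in genus zero, one regular class. -/
theorem g01Irr : G01Irr := by
  refine g01Irr_of ?_ ?_
  · intro R _ φ r C c hC hc
    exact exists_type φ C c hC hc
  · intro R A _ _ φ ι ψ hL r m κ l c u M hu hM hc τ hP hτ
    exact lift_main hL κ l c u M hu hM hc τ hP hτ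

end Vale.Agent.P002L
end
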