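import Mathlib
import Vale.Agent.P002.Bd3.B12
import Vale.Agent.P002.Bd3.B16
import Vale.Agent.P002.Bd3.B10
import Vale.Agent.P002.Bd3.B7
import Vale.Agent.P002.Bd3.B14
import Vale.Agent.P002.Bd3.B11
import Vale.Agent.P002.Bd3.B6
import Vale.Agent.P002.Bd3.B5
import Vale.Agent.P002.Bd3.B15
import Vale.Agent.P002.Bd3.B3
import Vale.Agent.P002.Bd3.B4
import Vale.Agent.P002R.ZStatement

set_option linter.all false

@[reducible] def Vale.Agent.P002Fast.coeU18 {M : Type*} [Monoid M] (u : Mˣ) : CoeT Mˣ u M := ⟨Units.val u⟩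
attribute [local instance] Vale.Agent.P002Fast.coeU18

section

/-!
# P002, genus 1: the chart
-/

namespace Vale.Agent.P002R

open Matrix

variable {r m : ℕ}

/-- The matrices of `c_0, ..., c_m, a, b a⁻¹ b⁻¹`. -/
noncomputable def cseq1 (x : FU 1 (m + 1) →* (Mat r ℂ)ˣ) (j : ℕ) : Mat r ℂ :=
  if h : j < m + 1 then (x (FreeGroup.of (Sum.inr ⟨j, h⟩)) : Mat r ℂ)
  else if j = m + 1 then (x (FreeGroup.of (Sum.inl (0, false))) : Mat r ℂ)
  else ((x (FreeGroup.of (Sum.inl (0, true))) * (x (FreeGroup.of (Sum.inl (0, false))))⁻¹ *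
    (x (FreeGroup.of (Sum.inl (0, true))))⁻¹ : (Mat r ℂ)ˣ) : Mat r ℂ)

end Vale.Agent.P002R
end

section

/-!
# The black boxes of the chart in genus one, for the group of all units
-/

namespace Vale.Agent.P002G

open Matrix Polynomial
open Vale.Agent.P002 (kry)
open Vale.Agent.P002R (GoodD VecV FibV LoT isPoly_entries)

variable {R : Type*} [CommRing R]

end Vale.Agent.P002G
end

section

/-!
# P002, genus 1: the chart with all density hypotheses discharged
-/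

namespace Vale.Agent.P002R

open Matrix

/-- Matrices with unit determinant over the small ring are integral up to scalars over the big
ring. -/
theorem mem_GR_of_two_rings {R₀ R : Type*} [CommRing R₀] [CommRing R] (φ₀ : R₀ →+* ℂ)
    (φ : R →+* ℂ) (ι : R₀ →+* R) (hι : ∀ a, φ (ι a) = φ₀ a) {r : ℕ}
    (hroot : ∀ u : R₀ˣ, ∃ c : Rˣ, ι (u : R₀) = (c : R) ^ r)
    (A : Mat r R₀) (U : (Mat r ℂ)ˣ) (hA : IsUnit A.det) (hU : (U : Mat r ℂ) = A.map φ₀) :
    U ∈ GR r φ := by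
  obtain ⟨u, hu⟩ := hA
  obtain ⟨c, hc⟩ := hroot u
  refine mem_GR_of φ U (A.map ι) ?_ c ?_
  · rw [hU]
    ext i j
    simp only [Matrix.map_apply, hι]
  · have h1 := RingHom.map_det ι A
    have h2 : (A.map ι).det = ι A.det := h1.symm
    rw [h2, ← hu, hc]

end Vale.Agent.P002R
end

section

/-!
# The fibre of the second handle matrix: vanishing at integral genus zero tuples
-/

namespace Vale.Agent.P002R

open Matrix Polynomial

variable {r : ℕ}

/-- Elements of `ℂ^* SL_r(R)` with determinant in `E` are integral. -/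
theorem exists_int_of_GR {R : Type} [CommRing R] {φ : R →+* ℂ} {E : Subgroup ℂˣ}
    (hc : CoefOK φ E r) (hr : 0 < r) (U : (Mat r ℂ)ˣ) (hU : U ∈ GR r φ)
    (hdet : ∃ e ∈ E, (e : ℂ) = (U : Mat r ℂ).det) : ∃ A : Mat r R, (U : Mat r ℂ) = A.map φ := by
  obtain ⟨c, y, rfl⟩ := hU
  obtain ⟨e, he, he'⟩ := hdet
  have h1 : ((scalarU c * slU φ y : (Mat r ℂ)ˣ) : Mat r ℂ) = (c : ℂ) • (y : Mat r R).map φ := by
    ext i j
    rw [scalarU_mul_coe, slU_coe]
  have h2 : (c : ℂ) ^ r = (e : ℂ) := by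
    rw [he', h1, Matrix.det_smul, Fintype.card_fin]
    have h3 : ((y : Mat r R).map φ).det = φ (y : Mat r R).det := (RingHom.map_det φ _).symm
    rw [h3, y.2, map_one, mul_one]
  have h3 : c ^ r = e := by
    ext1
    rw [Units.val_pow_eq_pow_val, h2]
  obtain ⟨c₀, hc₀⟩ := hc.root r hr le_rfl c (by rw [h3]; exact he)
  refine ⟨c₀ • (y : Mat r R), ?_⟩
  rw [h1, ← hc₀]
  ext i j
  simp only [Matrix.smul_apply, Matrix.map_apply, smul_eq_mul, map_mul]

theorem GR_ring_mono {R₁ R : Type} [CommRing R₁] [CommRing R] {φ₁ : R₁ →+* ℂ} {φ : R →+* ℂ}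
    (ι : R₁ →+* R) (hι : ∀ a, φ (ι a) = φ₁ a) (U : (Mat r ℂ)ˣ) (hU : U ∈ GR r φ₁) :
    U ∈ GR r φ := by
  obtain ⟨c, y, rfl⟩ := hU
  refine ⟨c, SpecialLinearGroup.map ι y, ?_⟩
  congr 1
  apply Units.ext
  ext i j
  rw [slU_coe, slU_coe]
  change φ₁ _ = φ (ι _)
  rw [hι]

theorem det_of_charpoly {M : Mat r ℂ} {ω : Fin r → ℂ} (h : M.charpoly = ∏ i, (X - C (ω i))) :
    M.det = ∏ i, ω i := by
  have h1 : ∏ i, (X - C (ω i)) =
      ((Finset.univ.val.map ω).map fun a => (X - C a : ℂ[X])).prod := by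
    rw [Multiset.map_map]
    rfl
  rw [Matrix.det_eq_prod_roots_charpoly_of_splits (IsAlgClosed.splits _), h, h1,
    Polynomial.roots_multiset_prod_X_sub_C]
  rfl

theorem det_sub_of_charpoly {M : Mat r ℂ} {ω : Fin r → ℂ} (h : M.charpoly = ∏ i, (X - C (ω i)))
    (i : Fin r) : (M - Matrix.scalar (Fin r) (ω i)).det = 0 := by
  have h1 := Matrix.eval_charpoly M (ω i)
  rw [h, eval_prod, Finset.prod_eq_zero (Finset.mem_univ i) (by simp)] at h1
  rw [← neg_sub, Matrix.det_neg, ← h1, mul_zero]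

theorem prod_mem_E {E : Subgroup ℂˣ} {ι : Type*} (s : Finset ι) (g : ι → ℂ)
    (h : ∀ i ∈ s, ∃ e ∈ E, (e : ℂ) = g i) : ∃ e ∈ E, (e : ℂ) = ∏ i ∈ s, g i := by
  classical
  induction s using Finset.induction_on with
  | empty => exact ⟨1, one_mem _, by simp⟩
  | insert i s hi ih =>
    obtain ⟨e, he, h1⟩ := h i (Finset.mem_insert_self _ _)
    obtain ⟨e', he', h2⟩ := ih fun j hj => h j (Finset.mem_insert_of_mem hj)
    exact ⟨e * e', mul_mem he he', by rw [Units.val_mul, h1, h2, Finset.prod_insert hi]⟩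

/-- Integral diagonalization. -/
theorem exists_diag_GR {R₁ R₂ : Type} [CommRing R₁] [CommRing R₂] {φ₁ : R₁ →+* ℂ} {φ₂ : R₂ →+* ℂ}
    (ι : R₁ →+* R₂) (hι : ∀ a, φ₂ (ι a) = φ₁ a) (hφ₂ : Function.Injective φ₂) (hprin : Prin ι)
    {E : Subgroup ℂˣ} (hc : CoefOK φ₁ E r) (hr : 0 < r) (ω : Fin r → R₁)
    (hωE : ∀ i, ∃ e ∈ E, (e : ℂ) = φ₁ (ω i)) (hωd : ∀ i j, i ≠ j → IsUnit (ω i - ω j))
    (U : (Mat r ℂ)ˣ) (hU : U ∈ GR r φ₁)
    (hch : (U : Mat r ℂ).charpoly = ∏ i, (X - C (φ₁ (ω i)))) :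
    ∃ P : Mat r R₂, IsUnit P.det ∧
      (U : Mat r ℂ) * P.map φ₂ = P.map φ₂ * diagonal fun i => φ₁ (ω i) := by
  have : IsDomain R₁ := hc.inj.isDomain φ₁
  have : IsDomain R₂ := hφ₂.isDomain φ₂
  have hιi : Function.Injective ι := by
    intro a b hab
    apply hc.inj
    rw [← hι, ← hι, hab]
  obtain ⟨A, hA⟩ := exists_int_of_GR hc hr U hU (by
    rw [det_of_charpoly hch]
    exact prod_mem_E _ _ fun i _ => hωE i)
  have h1 : ∀ i, (A - Matrix.scalar (Fin r) (ω i)).det = 0 := by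
    intro i
    apply hc.inj
    rw [map_zero, RingHom.map_det, ← det_sub_of_charpoly hch i, hA]
    congr 1
    ext k l
    simp only [RingHom.mapMatrix_apply, Matrix.map_apply, Matrix.sub_apply, map_sub,
      Matrix.scalar_apply, Matrix.diagonal_apply]
    split_ifs
    · rfl
    · rw [map_zero]
  obtain ⟨P, hP, h2⟩ := exists_diag ι hιi hprin A ω hωd h1
  refine ⟨P, hP, ?_⟩
  have h3 := congrArg (fun M : Mat r R₂ => M.map φ₂) h2
  simp only [Matrix.map_mul] at h3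
  have h4 : (A.map ι).map φ₂ = A.map φ₁ := by
    ext i j
    simp only [map_apply, hι]
  rw [h4, ← hA, Matrix.diagonal_map (map_zero φ₂)] at h3
  rw [h3]
  congr 2
  funext i
  exact hι _

/-- Units form an infinite set. -/
theorem infinite_units {R₁ R₂ : Type} [CommRing R₁] [CommRing R₂] {φ₁ : R₁ →+* ℂ}
    {φ₂ : R₂ →+* ℂ} (ι : R₁ →+* R₂) (hι : ∀ a, φ₂ (ι a) = φ₁ a) {E : Subgroup ℂˣ}
    (hc : CoefOK φ₁ E r) : {z : ℂ | ∃ w : R₂ˣ, φ₂ (w : R₂) = z}.Infinite := by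
  obtain ⟨u, hu⟩ := hc.unit
  obtain ⟨v, hv⟩ : ∃ v : ℂˣ, v = Units.map (φ₁ : R₁ →* ℂ) u := ⟨_, rfl⟩
  rw [← hv] at hu
  have hinj : Function.Injective fun k : ℕ => ((v ^ k : ℂˣ) : ℂ) := by
    have key : ∀ k l : ℕ, k < l → ((v ^ k : ℂˣ) : ℂ) ≠ ((v ^ l : ℂˣ) : ℂ) := by
      intro k l hkl h
      have h1 : v ^ k = v ^ l := Units.ext h
      apply hu (l - k) (by omega)
      have h2 : v ^ (l - k) = 1 := by
        apply mul_left_cancel (a := v ^ k)
        rw [← pow_add, Nat.add_sub_cancel' hkl.le, mul_one, h1]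
      rw [h2]
      exact one_mem _
    intro k l h
    rcases lt_trichotomy k l with h1 | h1 | h1
    · exact absurd h (key k l h1)
    · exact h1
    · exact absurd h.symm (key l k h1)
  refine (Set.infinite_range_of_injective hinj).mono ?_
  rintro _ ⟨k, rfl⟩
  refine ⟨Units.map (ι : R₁ →* R₂) (u ^ k), ?_⟩
  have h1 : φ₂ (ι ((u ^ k : R₁ˣ) : R₁)) = φ₁ ((u ^ k : R₁ˣ) : R₁) := hι _
  refine h1.trans ?_
  have h2 : v ^ k = Units.map (φ₁ : R₁ →* ℂ) (u ^ k) := by rw [hv, map_pow]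
  change _ = ((v ^ k : ℂˣ) : ℂ)
  rw [h2]
  rfl

theorem diag_single_mul (N : Mat r ℂ) (i : Fin r) :
    diagonal (Pi.single i (1 : ℂ)) * N * diagonal (Pi.single i 1) =
      diagonal (Pi.single i (N i i)) := by
  ext k l
  rw [Matrix.mul_diagonal, Matrix.diagonal_mul, Matrix.diagonal_apply]
  by_cases hk : k = i
  · subst hk
    rw [Pi.single_eq_same, one_mul]
    by_cases hl : l = k
    · subst hl
      rw [Pi.single_eq_same, mul_one, if_pos rfl, Pi.single_eq_same]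
    · rw [Pi.single_eq_of_ne hl, mul_zero, if_neg (Ne.symm hl)]
  · rw [Pi.single_eq_of_ne hk, zero_mul, zero_mul]
    split_ifs
    · rw [Pi.single_eq_of_ne hk]
    · rfl

theorem sum_proj_conj {M M' P P' : Mat r ℂ} {ω : Fin r → ℂ} (hω : Function.Injective ω)
    (hP : IsUnit P.det) (hP' : IsUnit P'.det) (h : M * P = P * diagonal ω)
    (h' : M' * P' = P' * diagonal ω) (B : Mat r ℂ) :
    ∑ i, proj ω i M * B * proj ω i M' = P * diagonal (fun i => (P⁻¹ * B * P') i i) * P'⁻¹ := by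
  have h1 : ∀ i, proj ω i M = P * diagonal (Pi.single i 1) * P⁻¹ := fun i => by
    rw [← proj_mul hω h i, mul_assoc, Matrix.mul_nonsing_inv P hP, mul_one]
  have h2 : ∀ i, proj ω i M' = P' * diagonal (Pi.single i 1) * P'⁻¹ := fun i => by
    rw [← proj_mul hω h' i, mul_assoc, Matrix.mul_nonsing_inv P' hP', mul_one]
  have h3 : ∀ i, proj ω i M * B * proj ω i M' =
      P * diagonal (Pi.single i ((P⁻¹ * B * P') i i)) * P'⁻¹ := by
    intro i
    rw [h1, h2, ← diag_single_mul]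
    simp only [mul_assoc]
  simp only [h3]
  rw [← Finset.sum_mul, ← Finset.mul_sum]
  congr 2
  ext k l
  rw [Matrix.sum_apply]
  simp only [Matrix.diagonal_apply]
  by_cases hkl : k = l
  · subst hkl
    simp only [if_true]
    rw [Finset.sum_eq_single k]
    · rw [Pi.single_eq_same]
    · intro j _ hj
      rw [Pi.single_eq_of_ne (Ne.symm hj)]
    · intro hk
      exact absurd (Finset.mem_univ _) hk
  · simp only [hkl, ↓reduceIte, Finset.sum_const_zero]

/-- Vanishing at the tuples over an integral genus zero tuple. -/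
theorem fibre_vanish {m : ℕ} (hr : 0 < r) {R₁ R₂ R₃ : Type} [CommRing R₁] [CommRing R₂]
    [CommRing R₃] {φ₁ : R₁ →+* ℂ} {φ₂ : R₂ →+* ℂ} {φ₃ : R₃ →+* ℂ}
    (ι₁ : R₁ →+* R₂) (h₁ : ∀ a, φ₂ (ι₁ a) = φ₁ a) (ι₂ : R₂ →+* R₃) (h₂ : ∀ a, φ₃ (ι₂ a) = φ₂ a)
    (hφ₂ : Function.Injective φ₂) (hprin : Prin ι₁)
    (hroot : ∀ u : R₂ˣ, ∃ c : R₃ˣ, ι₂ (u : R₂) = (c : R₃) ^ r)
    {E : Subgroup ℂˣ} (hc : CoefOK φ₁ E r) (ω : Fin r → R₁)
    (hωE : ∀ i, ∃ e ∈ E, (e : ℂ) = φ₁ (ω i)) (hωd : ∀ i j, i ≠ j → IsUnit (ω i - ω j))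
    (Cl : Fin (m + 1) → (Mat r ℂ)ˣ) (f : MvPolynomial (GenU 1 (m + 1) × Fin r × Fin r) ℂ)
    (hf : ∀ y ∈ DTor φ₃ Cl, evalG y f = 0) (b l : (Mat r ℂ)ˣ) (c : Fin (m + 1) → (Mat r ℂ)ˣ)
    (hrel : b⁻¹ * (List.ofFn c).prod * l = 1) (hyC : ∀ j, IsConj (Cl j) (c j))
    (hbG : b ∈ GR r φ₁) (hlG : l ∈ GR r φ₁) (hcG : ∀ j, c j ∈ GR r φ₁)
    (hb : (b : Mat r ℂ).charpoly = ∏ i, (X - C (φ₁ (ω i))))
    (hl : (l : Mat r ℂ).charpoly = ∏ i, (X - C (φ₁ (ω i)))) (B : Mat r ℂ) :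
    evMat (hMat (∑ i, proj (fun i => φ₁ (ω i)) i (l : Mat r ℂ) * B *
      proj (fun i => φ₁ (ω i)) i (b : Mat r ℂ)) (b : Mat r ℂ) fun j => (c j : Mat r ℂ)) f = 0 := by
  obtain ⟨P, hP, hbP⟩ := exists_diag_GR ι₁ h₁ hφ₂ hprin hc hr ω hωE hωd b hbG hb
  obtain ⟨Q, hQ, hlQ⟩ := exists_diag_GR ι₁ h₁ hφ₂ hprin hc hr ω hωE hωd l hlG hl
  obtain ⟨ω', hω'⟩ : ∃ ω' : Fin r → ℂ, ω' = fun i => φ₁ (ω i) := ⟨_, rfl⟩
  rw [← hω'] at hbP hlQ ⊢
  have hinj : Function.Injective ω' := by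
    intro i j hij
    by_contra hne
    rw [hω'] at hij
    have : Nontrivial R₁ := ⟨1, 0, fun h => by
      have h3 := congrArg φ₁ h
      rw [map_one, map_zero] at h3
      exact one_ne_zero h3⟩
    have h3 := hωd i j hne
    rw [sub_eq_zero.2 (hc.inj hij)] at h3
    exact not_isUnit_zero h3
  -- complex matrices
  have hdet : ∀ M : Mat r R₂, IsUnit M.det → IsUnit (M.map φ₂).det := by
    intro M hM
    have h3 : (M.map φ₂).det = φ₂ M.det := (RingHom.map_det φ₂ _).symm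
    rw [h3]
    exact hM.map φ₂
  have hP' := hdet P hP
  have hQ' := hdet Q hQ
  obtain ⟨Pi, hPi⟩ : ∃ Pi : Mat r R₂, Pi = P⁻¹ := ⟨_, rfl⟩
  have hPPi : P * Pi = 1 := by rw [hPi]; exact Matrix.mul_nonsing_inv P hP
  have hPiP : Pi * P = 1 := by rw [hPi]; exact Matrix.nonsing_inv_mul P hP
  have hPi' : (P.map φ₂)⁻¹ = Pi.map φ₂ := by
    apply Matrix.inv_eq_right_inv
    rw [← Matrix.map_mul, hPPi, Matrix.map_one φ₂ (map_zero φ₂) (map_one φ₂)]
  obtain ⟨G, hG⟩ := exists_torus_poly2 (b : Mat r ℂ) (Q.map φ₂) (Pi.map φ₂)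
    (fun j => (c j : Mat r ℂ)) f
  have hG0 : G = 0 := by
    refine MvPolynomial.funext_set (fun _ => {z : ℂ | ∃ w : R₂ˣ, φ₂ (w : R₂) = z})
      (fun _ => infinite_units ι₁ h₁ hc) fun t ht => ?_
    rw [map_zero, hG]
    choose w hw using fun i => ht i (Set.mem_univ i)
    -- the handle matrix
    obtain ⟨A, hA⟩ : ∃ A : Mat r R₂, A = Q * diagonal (fun i => (w i : R₂)) * Pi := ⟨_, rfl⟩
    have hAu : IsUnit A.det := by
      rw [hA, Matrix.det_mul, Matrix.det_mul, Matrix.det_diagonal]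
      refine (hQ.mul ?_).mul ?_
      · exact IsUnit.prod_univ_iff.2 fun i => (w i).isUnit
      · exact IsUnit.of_mul_eq_one P.det (by rw [← Matrix.det_mul, hPiP, Matrix.det_one])
    have hAmap : A.map φ₂ = Q.map φ₂ * diagonal t * Pi.map φ₂ := by
      rw [hA, Matrix.map_mul, Matrix.map_mul, Matrix.diagonal_map (map_zero φ₂)]
      congr 3
      funext i
      exact hw i
    obtain ⟨U, hU⟩ : ∃ U : (Mat r ℂ)ˣ, (U : Mat r ℂ) = A.map φ₂ :=
      (Matrix.isUnit_iff_isUnit_det _).2 (hdet A hAu)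
    have hUb : U * b * U⁻¹ = l := by
      rw [mul_inv_eq_iff_eq_mul]
      apply Units.ext
      rw [Units.val_mul, Units.val_mul, hU, hAmap]
      have h3 : Pi.map φ₂ * (b : Mat r ℂ) = diagonal ω' * Pi.map φ₂ := by
        have h4 : Pi.map φ₂ * P.map φ₂ = 1 := by
          rw [← Matrix.map_mul, hPiP, Matrix.map_one φ₂ (map_zero φ₂) (map_one φ₂)]
        have h5 : P.map φ₂ * Pi.map φ₂ = 1 := by
          rw [← Matrix.map_mul, hPPi, Matrix.map_one φ₂ (map_zero φ₂) (map_one φ₂)]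
        calc Pi.map φ₂ * (b : Mat r ℂ)
            = Pi.map φ₂ * ((b : Mat r ℂ) * P.map φ₂) * Pi.map φ₂ := by
              rw [mul_assoc, mul_assoc, h5, mul_one]
          _ = (Pi.map φ₂ * P.map φ₂) * diagonal ω' * Pi.map φ₂ := by
              rw [hbP]; simp only [mul_assoc]
          _ = _ := by rw [h4, one_mul]
      calc Q.map φ₂ * diagonal t * Pi.map φ₂ * (b : Mat r ℂ)
          = Q.map φ₂ * (diagonal t * diagonal ω') * Pi.map φ₂ := by
            rw [mul_assoc, h3]; simp only [mul_assoc]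
        _ = Q.map φ₂ * (diagonal ω' * diagonal t) * Pi.map φ₂ := by
            rw [Matrix.diagonal_mul_diagonal, Matrix.diagonal_mul_diagonal]
            congr 3
            funext i
            exact mul_comm _ _
        _ = (Q.map φ₂ * diagonal ω') * diagonal t * Pi.map φ₂ := by simp only [mul_assoc]
        _ = (l : Mat r ℂ) * (Q.map φ₂ * diagonal t * Pi.map φ₂) := by
            rw [← hlQ]; simp only [mul_assoc]
    obtain ⟨y, hy⟩ : ∃ y : FU 1 (m + 1) →* (Mat r ℂ)ˣ, y = FreeGroup.lift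
      (Sum.elim (fun k => if k.2 then b else U) c) := ⟨_, rfl⟩
    have hy1 : y (FreeGroup.of (Sum.inl (0, false))) = U := by
      rw [hy, FreeGroup.lift_apply_of]; rfl
    have hy2 : y (FreeGroup.of (Sum.inl (0, true))) = b := by
      rw [hy, FreeGroup.lift_apply_of]; rfl
    have hy3 : ∀ j, y (FreeGroup.of (Sum.inr j)) = c j := fun j => by
      rw [hy, FreeGroup.lift_apply_of]; rfl
    have hyD : y ∈ DTor φ₃ Cl := by
      refine ⟨?_, fun j => ?_, ?_⟩
      · rw [relU1_units, hy1, hy2]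
        simp only [hy3]
        rw [hUb]
        have h3 : (List.ofFn c).prod * l = b := by
          rw [mul_assoc, inv_mul_eq_one] at hrel
          exact hrel.symm
        rw [← mul_assoc, h3, mul_inv_cancel]
      · rw [hy3]
        exact hyC j
      · rintro (⟨k, _ | _⟩ | j)
        · obtain rfl : k = 0 := Subsingleton.elim _ _
          rw [hy1]
          exact mem_GR_of_two_rings φ₂ φ₃ ι₂ h₂ hroot A U hAu hU
        · obtain rfl : k = 0 := Subsingleton.elim _ _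
          rw [hy2]
          exact GR_ring_mono (ι₂.comp ι₁) (fun a => (h₂ _).trans (h₁ a)) b hbG
        · rw [hy3]
          exact GR_ring_mono (ι₂.comp ι₁) (fun a => (h₂ _).trans (h₁ a)) _ (hcG j)
    have h3 := hf y hyD
    rw [evalG_eq_evMat] at h3
    rw [← h3]
    congr 1
    funext k
    rcases k with ⟨k, _ | _⟩ | j
    · obtain rfl : k = 0 := Subsingleton.elim _ _
      rw [hy1, hU, hAmap]
      rfl
    · obtain rfl : k = 0 := Subsingleton.elim _ _
      rw [hy2]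
      rfl
    · rw [hy3]
      rfl
  rw [sum_proj_conj hinj hQ' hP' hlQ hbP B, hPi', ← hG, hG0, map_zero]

end Vale.Agent.P002R
end

section

/-!
# Density over the fibre where the second handle matrix has prescribed eigenvalues
-/

namespace Vale.Agent.P002R

open Matrix Polynomial

variable {r : ℕ}

theorem prin_id : Prin (RingHom.id ℂ) := by
  intro r v hv
  obtain ⟨i, hi⟩ : ∃ i, v i ≠ 0 := by
    by_contra h
    push Not at h
    exact hv (funext h)
  refine ⟨1, v, Pi.single i (v i)⁻¹, fun j => by simp only [RingHom.id_apply, one_mul], ?_⟩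
  rw [Finset.sum_eq_single i]
  · rw [Pi.single_eq_same, inv_mul_cancel₀ hi]
  · intro j _ hj
    rw [Pi.single_eq_of_ne hj, zero_mul]
  · intro h
    exact absurd (Finset.mem_univ _) h

/-- Complex matrices with prescribed distinct eigenvalues are diagonalizable. -/
theorem exists_diag_complex {M : Mat r ℂ} {ω : Fin r → ℂ} (hω : Function.Injective ω)
    (h : M.charpoly = ∏ i, (X - C (ω i))) :
    ∃ P : Mat r ℂ, IsUnit P.det ∧ M * P = P * diagonal ω := by
  obtain ⟨P, hP, h1⟩ := exists_diag (RingHom.id ℂ) Function.injective_id prin_id M ω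
    (fun i j hij => isUnit_iff_ne_zero.2 (sub_ne_zero.2 fun h => hij (hω h)))
    (det_sub_of_charpoly h)
  refine ⟨P, hP, ?_⟩
  have h2 : M.map (RingHom.id ℂ) = M := by
    ext i j
    rfl
  rwa [h2] at h1

theorem hasCyc_of_diag {M P : Mat r ℂ} {ω : Fin r → ℂ} (hω : Function.Injective ω)
    (hP : IsUnit P.det) (h : M * P = P * diagonal ω) : HasCyc r M := by
  refine ⟨P *ᵥ fun _ => 1, fun W hv hW => ?_⟩
  have h1 : ∀ i, P.col i ∈ W := fun i => mem_of_coeff hω hP h hW _ hv i (by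
    rw [Matrix.mulVec_mulVec, Matrix.nonsing_inv_mul P hP, Matrix.one_mulVec]
    exact one_ne_zero)
  rw [eq_top_iff]
  intro v _
  have h2 : v = ∑ i, (P⁻¹ *ᵥ v) i • P.col i := by
    have h3 : v = P *ᵥ (P⁻¹ *ᵥ v) := by
      rw [Matrix.mulVec_mulVec, Matrix.mul_nonsing_inv P hP, Matrix.one_mulVec]
    conv_lhs => rw [h3]
    ext k
    rw [Matrix.mulVec, dotProduct, Finset.sum_apply]
    refine Finset.sum_congr rfl fun i _ => ?_
    rw [Pi.smul_apply, smul_eq_mul, Matrix.col_apply, mul_comm]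
  rw [h2]
  exact Submodule.sum_mem _ fun i _ => W.smul_mem _ (h1 i)

theorem eigIn_of_charpoly {E : Subgroup ℂˣ} {M : Mat r ℂ} {ω : Fin r → ℂ}
    (h : M.charpoly = ∏ i, (X - C (ω i))) (hω : ∀ i, ∃ e ∈ E, (e : ℂ) = ω i) : EigIn E M := by
  intro z hz
  rw [h, IsRoot.def, eval_prod, Finset.prod_eq_zero_iff] at hz
  obtain ⟨i, _, hi⟩ := hz
  rw [eval_sub, eval_X, eval_C, sub_eq_zero] at hi
  rw [hi]
  exact hω i

theorem EigIn.mono {E E' : Subgroup ℂˣ} (h : E ≤ E') {M : Mat r ℂ} (hM : EigIn E M) :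
    EigIn E' M := fun z hz => by
  obtain ⟨e, he, h1⟩ := hM z hz
  exact ⟨e, h he, h1⟩

theorem eigIn_inv {E : Subgroup ℂˣ} {M : (Mat r ℂ)ˣ} (hM : EigIn E (M : Mat r ℂ)) :
    EigIn E ((M⁻¹ : (Mat r ℂ)ˣ) : Mat r ℂ) := by
  intro z hz
  have h1 : (Matrix.scalar (Fin r) z - ((M⁻¹ : (Mat r ℂ)ˣ) : Mat r ℂ)).det = 0 := by
    rw [← Matrix.eval_charpoly]
    exact hz
  have hz0 : z ≠ 0 := by
    rintro rfl
    rw [map_zero, zero_sub, Matrix.det_neg] at h1
    have h2 : IsUnit ((M⁻¹ : (Mat r ℂ)ˣ) : Mat r ℂ).det :=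
      (Matrix.isUnit_iff_isUnit_det _).1 (M⁻¹).isUnit
    rcases mul_eq_zero.1 h1 with h3 | h3
    · exact pow_ne_zero _ (by norm_num) h3
    · exact h2.ne_zero h3
  obtain ⟨v, hv, hv'⟩ := Matrix.exists_mulVec_eq_zero_iff.2 h1
  rw [Matrix.sub_mulVec, sub_eq_zero] at hv'
  have h3 : Matrix.scalar (Fin r) z *ᵥ v = z • v := by
    ext i
    simp [Matrix.scalar_apply, Matrix.mulVec_diagonal]
  rw [h3] at hv'
  have h4 : (M : Mat r ℂ) *ᵥ v = z⁻¹ • v := by
    have h5 := congrArg (fun w => (M : Mat r ℂ) *ᵥ w) hv'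
    simp only [mulVec_smul, mulVec_mulVec, Units.mul_inv, one_mulVec] at h5
    calc (M : Mat r ℂ) *ᵥ v = z⁻¹ • z • (M : Mat r ℂ) *ᵥ v := by
          rw [smul_smul, inv_mul_cancel₀ hz0, one_smul]
      _ = z⁻¹ • v := by rw [h5]
  obtain ⟨e, he, h5⟩ := hM z⁻¹ (by
    rw [IsRoot.def, Matrix.eval_charpoly, ← Matrix.exists_mulVec_eq_zero_iff]
    refine ⟨v, hv, ?_⟩
    rw [Matrix.sub_mulVec, h4, sub_eq_zero]
    ext i
    simp only [scalar_apply, mulVec_diagonal, Pi.smul_apply, smul_eq_mul])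
  refine ⟨e⁻¹, inv_mem he, ?_⟩
  rw [Units.val_inv_eq_inv_val, h5, inv_inv]

/-- The genus zero representation attached to a representation in the fibre is irreducible. -/
theorem adjoin_zT {n : ℕ} (hr : 0 < r) {E : Subgroup ℂˣ} {ω : Fin r → ℂ}
    (hω : Function.Injective ω)
    (hno : ∀ (I J : Finset (Fin r)), (∃ ε ∈ E, ∏ i ∈ I, ω i = (ε : ℂ) * ∏ j ∈ J, ω j) → I = J)
    (z : FU 1 (n + 1) →* (Mat r ℂ)ˣ)
    (hz3 : Algebra.adjoin ℂ (Set.range fun w => (z w : Mat r ℂ)) = ⊤) (a b : (Mat r ℂ)ˣ)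
    (c : Fin (n + 1) → (Mat r ℂ)ˣ) (ha : z (FreeGroup.of (Sum.inl (0, false))) = a)
    (hb : z (FreeGroup.of (Sum.inl (0, true))) = b)
    (hc : ∀ j, z (FreeGroup.of (Sum.inr j)) = c j)
    (hrel : (List.ofFn c).prod * (a * b * a⁻¹) = b)
    (hE : ∀ j, EigIn E (c j : Mat r ℂ)) (hch : (b : Mat r ℂ).charpoly = ∏ i, (X - C (ω i))) :
    Algebra.adjoin ℂ (Set.range fun w => (mkR (zT a b c) w : Mat r ℂ)) = ⊤ := by
  obtain ⟨P, hP, hbP⟩ := exists_diag_complex hω hch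
  refine adjoin_top_of_simple hr _ fun W hW => ?_
  have hW1 : ∀ v ∈ W, (b : Mat r ℂ) *ᵥ v ∈ W := by
    intro v hv
    have h1 := hW (FreeGroup.of (Sum.inr 0))⁻¹ v hv
    rwa [map_inv, mkR_inr, zT_zero, inv_inv] at h1
  have hW2 : ∀ j, ∀ v ∈ W, (c j : Mat r ℂ) *ᵥ v ∈ W := by
    intro j v hv
    have h1 := hW (FreeGroup.of (Sum.inr ⟨j + 1, by omega⟩)) v hv
    rwa [mkR_inr, zT_mid] at h1
  have hW3 : ∀ v ∈ W, ((a : Mat r ℂ) * (b : Mat r ℂ) * (a : Mat r ℂ)⁻¹) *ᵥ v ∈ W := by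
    intro v hv
    have h1 := hW (FreeGroup.of (Sum.inr (Fin.last (n + 2)))) v hv
    rwa [mkR_inr, zT_last, Units.val_mul, Units.val_mul, Matrix.coe_units_inv] at h1
  have ha' : IsUnit (a : Mat r ℂ).det := (Matrix.isUnit_iff_isUnit_det _).1 a.isUnit
  have hW4 : ∀ v ∈ W, (a : Mat r ℂ) *ᵥ v ∈ W := by
    refine inv_of_inv (E := E) ha' (List.ofFn fun j => (c j : Mat r ℂ)) ?_ ?_ hω hP hbP hno hW1
      ?_ hW3
    · have h1 := congrArg (fun u : (Mat r ℂ)ˣ => (u : Mat r ℂ)) hrel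
      simp only [Units.val_mul, Matrix.coe_units_inv] at h1
      refine Eq.trans ?_ h1
      congr 1
      rw [← Units.coeHom_apply, map_list_prod, List.map_ofFn]
      rfl
    · intro M hM
      obtain ⟨j, rfl⟩ := (List.mem_ofFn' _ _).1 hM
      exact hE j
    · intro M hM
      obtain ⟨j, rfl⟩ := (List.mem_ofFn' _ _).1 hM
      exact hW2 j
  have hall : ∀ M : Mat r ℂ, ∀ v ∈ W, M *ᵥ v ∈ W := by
    intro M
    have hM : M ∈ Algebra.adjoin ℂ (Set.range fun k => (z (FreeGroup.of k) : Mat r ℂ)) := by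
      rw [adjoin_gen_eq_top z hz3]
      exact Algebra.mem_top
    induction hM using Algebra.adjoin_induction with
    | mem y hy =>
      obtain ⟨k, rfl⟩ := hy
      rcases k with ⟨k, _ | _⟩ | j
      · obtain rfl : k = 0 := Subsingleton.elim _ _
        simp only [ha]
        exact hW4
      · obtain rfl : k = 0 := Subsingleton.elim _ _
        simp only [hb]
        exact hW1
      · simp only [hc]
        exact hW2 j
    | algebraMap c =>
      intro v hv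
      rw [Algebra.algebraMap_eq_smul_one, Matrix.smul_mulVec, Matrix.one_mulVec]
      exact W.smul_mem _ hv
    | add x y _ _ hx hy =>
      intro v hv
      rw [Matrix.add_mulVec]
      exact W.add_mem (hx v hv) (hy v hv)
    | mul x y _ _ hx hy =>
      intro v hv
      rw [← Matrix.mulVec_mulVec]
      exact hx _ (hy v hv)
  by_cases h0 : W = ⊥
  · exact Or.inl h0
  · right
    obtain ⟨v, hv, hv0⟩ := Submodule.exists_mem_ne_zero_of_ne_bot h0
    obtain ⟨i, hi⟩ : ∃ i, v i ≠ 0 := by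
      by_contra h
      push Not at h
      exact hv0 (funext h)
    rw [eq_top_iff]
    intro u _
    have h1 := hall (Matrix.vecMulVec u (Pi.single i (v i)⁻¹)) v hv
    have h2 : Matrix.vecMulVec u (Pi.single i (v i)⁻¹) *ᵥ v = u := by
      ext k
      rw [Matrix.mulVec, dotProduct, Finset.sum_eq_single i]
      · rw [Matrix.vecMulVec_apply, Pi.single_eq_same, mul_assoc, inv_mul_cancel₀ hi, mul_one]
      · intro j _ hj
        rw [Matrix.vecMulVec_apply, Pi.single_eq_of_ne hj, mul_zero, zero_mul]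
      · intro h
        exact absurd (Finset.mem_univ _) h
    rwa [h2] at h1

/-- Density over the fibre. -/
theorem fibre_density (hG : G02Irr) {m : ℕ} (hr : 0 < r) {R₁ R₂ R₃ : Type} [CommRing R₁]
    [CommRing R₂] [CommRing R₃] {φ₁ : R₁ →+* ℂ} {φ₂ : R₂ →+* ℂ} {φ₃ : R₃ →+* ℂ}
    (ι₁ : R₁ →+* R₂) (h₁ : ∀ a, φ₂ (ι₁ a) = φ₁ a) (ι₂ : R₂ →+* R₃) (h₂ : ∀ a, φ₃ (ι₂ a) = φ₂ a)
    (hφ₂ : Function.Injective φ₂) (hprin : Prin ι₁)
    (hroot : ∀ u : R₂ˣ, ∃ c : R₃ˣ, ι₂ (u : R₂) = (c : R₃) ^ r)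
    {E E' : Subgroup ℂˣ} (hEE : E ≤ E') (hc : CoefOK φ₁ E' r)
    (hUP : ∀ (u : R₁ˣ) (D : R₁), D ≠ 0 → ∃ M : ℕ, 0 < M ∧ D ∣ (u : R₁) ^ M - 1)
    (ω : Fin r → R₁) (hωE : ∀ i, ∃ e ∈ E', (e : ℂ) = φ₁ (ω i))
    (hωd : ∀ i j, i ≠ j → IsUnit (ω i - ω j))
    (hno : ∀ (I J : Finset (Fin r)),
      (∃ ε ∈ E, ∏ i ∈ I, φ₁ (ω i) = (ε : ℂ) * ∏ j ∈ J, φ₁ (ω j)) → I = J)
    (Cl : Fin (m + 1) → (Mat r ℂ)ˣ) (hE : ∀ j, EigIn E (Cl j : Mat r ℂ))
    (z : FU 1 (m + 1) →* (Mat r ℂ)ˣ) (hz1 : z (relatorU 1 (m + 1)) = 1)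
    (hz2 : ∀ j, IsConj (Cl j) (z (FreeGroup.of (Sum.inr j))))
    (hz3 : Algebra.adjoin ℂ (Set.range fun w => (z w : Mat r ℂ)) = ⊤)
    (hz4 : (z (FreeGroup.of (Sum.inl (0, true))) : Mat r ℂ).charpoly =
      ∏ i, (X - C (φ₁ (ω i))))
    (f : MvPolynomial (GenU 1 (m + 1) × Fin r × Fin r) ℂ) (hf : ∀ y ∈ DTor φ₃ Cl, evalG y f = 0) :
    evalG z f = 0 := by
  obtain ⟨ω', hω'⟩ : ∃ ω' : Fin r → ℂ, ω' = fun i => φ₁ (ω i) := ⟨_, rfl⟩
  have hωi : ∀ i, φ₁ (ω i) = ω' i := fun i => by rw [hω']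
  have hinj : Function.Injective ω' := by
    intro i j hij
    by_contra hne
    rw [hω'] at hij
    have : Nontrivial R₁ := ⟨1, 0, fun h => by
      have h3 := congrArg φ₁ h
      rw [map_one, map_zero] at h3
      exact one_ne_zero h3⟩
    have h3 := hωd i j hne
    rw [sub_eq_zero.2 (hc.inj hij)] at h3
    exact not_isUnit_zero h3
  obtain ⟨a, ha⟩ : ∃ a, z (FreeGroup.of (Sum.inl (0, false))) = a := ⟨_, rfl⟩
  obtain ⟨b, hb⟩ : ∃ b, z (FreeGroup.of (Sum.inl (0, true))) = b := ⟨_, rfl⟩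
  obtain ⟨c, hcc⟩ : ∃ c : Fin (m + 1) → (Mat r ℂ)ˣ, ∀ j, z (FreeGroup.of (Sum.inr j)) = c j :=
    ⟨_, fun _ => rfl⟩
  have hrel : (List.ofFn c).prod * (a * b * a⁻¹) = b := by
    rw [relU1_units, ha, hb] at hz1
    simp only [hcc] at hz1
    rw [← mul_assoc, mul_inv_eq_one] at hz1
    exact hz1
  rw [hb] at hz4
  have hz4' : (b : Mat r ℂ).charpoly = ∏ i, (X - C (ω' i)) := by
    rw [hz4]
    simp only [hωi]
  obtain ⟨P, hP, hbP⟩ := exists_diag_complex hinj hz4'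
  have hEc : ∀ j, EigIn E (c j : Mat r ℂ) := by
    intro j w hw
    rw [charpoly_of_isConj (hcc j ▸ hz2 j)] at hw
    exact hE j w hw
  -- the genus zero representation
  have hadj := adjoin_zT hr hinj (E := E) (fun I J h => hno I J (by simpa only [hωi] using h)) z
    hz3 a b c ha hb hcc hrel hEc hz4'
  obtain ⟨x, hx⟩ : ∃ x, x = mkR (zT a b c) := ⟨_, rfl⟩
  rw [← hx] at hadj
  have hx0 : x (FreeGroup.of (Sum.inr 0)) = b⁻¹ := by rw [hx, mkR_inr, zT_zero]
  have hxl : x (FreeGroup.of (Sum.inr (Fin.last (m + 2)))) = a * b * a⁻¹ := by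
    rw [hx, mkR_inr, zT_last]
  have hxm : ∀ j : Fin (m + 1), x (FreeGroup.of (Sum.inr ⟨j + 1, by omega⟩)) = c j := fun j => by
    rw [hx, mkR_inr, zT_mid]
  have hxrel : x (relatorU 0 (m + 3)) = 1 := by
    rw [relU0_units, prod_ofFn3, hx0, hxl]
    simp only [hxm]
    rw [mul_assoc, hrel, inv_mul_cancel]
  obtain ⟨C', hC'⟩ : ∃ C' : Fin (m + 3) → (Mat r ℂ)ˣ, C' = zT 1 b Cl := ⟨_, rfl⟩
  have hC0 : C' 0 = b⁻¹ := by rw [hC', zT_zero]
  have hCl : C' (Fin.last (m + 2)) = b := by rw [hC', zT_last, one_mul, inv_one, mul_one]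
  have hCm : ∀ j : Fin (m + 1), C' ⟨j + 1, by omega⟩ = Cl j := fun j => by rw [hC', zT_mid]
  have hEb : EigIn E' (b : Mat r ℂ) := eigIn_of_charpoly hz4 hωE
  obtain ⟨δ, hδ⟩ : ∃ δ : ℂ, δ = (b : Mat r ℂ).det := ⟨_, rfl⟩
  have hδ0 : δ ≠ 0 := by
    rw [hδ]
    exact ((Matrix.isUnit_iff_isUnit_det _).1 b.isUnit).ne_zero
  obtain ⟨F, hF⟩ := exists_fib_poly2 (m := m) (fun i => Lagrange.basis Finset.univ ω' i) δ
    (a : Mat r ℂ) f
  -- the inverse of the first matrix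
  have hadjug : ∀ u : (Mat r ℂ)ˣ, IsConj b⁻¹ u →
      δ • (u : Mat r ℂ).adjugate = ((u⁻¹ : (Mat r ℂ)ˣ) : Mat r ℂ) := by
    intro u hu
    have h3 : (u : Mat r ℂ).det = δ⁻¹ := by
      obtain ⟨g, rfl⟩ := isConj_iff.1 hu
      have hg : IsUnit (g : Mat r ℂ).det := (Matrix.isUnit_iff_isUnit_det _).1 g.isUnit
      have hg' : (g : Mat r ℂ).det ≠ 0 := hg.ne_zero
      rw [Units.val_mul, Units.val_mul, Matrix.coe_units_inv, Matrix.coe_units_inv,
        Matrix.det_mul, Matrix.det_mul, Matrix.det_nonsing_inv, Matrix.det_nonsing_inv, hδ,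
        Ring.inverse_eq_inv']
      field_simp
    rw [Matrix.coe_units_inv, Matrix.inv_def, h3, Ring.inverse_eq_inv', inv_inv]
  have hev : evalG x F = 0 := by
    refine hG (m := m) hr φ₁ E' hc hUP C' ?_ ?_ ?_ x ⟨?_, ?_, ss_of_adjoin x hadj⟩
      (fun M hM => scalar_of_adjoin x hadj M hM) F ?_
    · refine fin_cases3 ?_ (fun j => ?_) ?_
      · rw [hC0]
        exact eigIn_inv hEb
      · rw [hCm]
        exact (hE j).mono hEE
      · rw [hCl]
        exact hEb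
    · rw [hC0]
      have hωne : ∀ i, ω' i ≠ 0 := by
        intro i h0
        obtain ⟨e, _, he⟩ := hωE i
        rw [hωi, h0] at he
        exact e.ne_zero he
      refine hasCyc_of_diag (P := P) (ω := fun i => (ω' i)⁻¹) (inv_injective.comp hinj) hP ?_
      have h3 : diagonal ω' * diagonal (fun i => (ω' i)⁻¹) = 1 := by
        rw [Matrix.diagonal_mul_diagonal, ← Matrix.diagonal_one]
        congr 1
        funext i
        exact mul_inv_cancel₀ (hωne i)
      calc ((b⁻¹ : (Mat r ℂ)ˣ) : Mat r ℂ) * P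
          = ((b⁻¹ : (Mat r ℂ)ˣ) : Mat r ℂ) * (P * diagonal ω') *
            diagonal (fun i => (ω' i)⁻¹) := by
              rw [mul_assoc, mul_assoc P, h3, mul_one]
        _ = (((b⁻¹ : (Mat r ℂ)ˣ) : Mat r ℂ) * (b : Mat r ℂ)) * P *
            diagonal (fun i => (ω' i)⁻¹) := by
              rw [← hbP]; simp only [mul_assoc]
        _ = _ := by rw [Units.inv_mul, one_mul]
    · rw [hCl]
      exact hasCyc_of_diag hinj hP hbP
    · rintro w rfl
      exact hxrel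
    · refine fin_cases3 ?_ (fun j => ?_) ?_
      · rw [hC0, hx0]
      · rw [hCm, hxm, ← hcc]
        exact hz2 j
      · rw [hCl, hxl]
        exact isConj_iff.2 ⟨a, rfl⟩
    · rintro y ⟨⟨⟨hy1, hy2, _⟩, hy3⟩, _⟩
      have hy0 := hy2 0
      have hyl := hy2 (Fin.last (m + 2))
      rw [hC0] at hy0
      rw [hCl] at hyl
      obtain ⟨b', hb'⟩ : ∃ b', b' = (y (FreeGroup.of (Sum.inr 0)))⁻¹ := ⟨_, rfl⟩
      have hbb : IsConj b b' := by
        obtain ⟨g, hg⟩ := isConj_iff.1 hy0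
        rw [hb', ← hg]
        refine isConj_iff.2 ⟨g, ?_⟩
        group
      rw [evalG_eq_evMat, hF, hadjug _ hy0, ← hb']
      have h3 := fibre_vanish hr ι₁ h₁ ι₂ h₂ hφ₂ hprin hroot hc ω hωE hωd Cl f hf b'
        (y (FreeGroup.of (Sum.inr (Fin.last (m + 2)))))
        (fun j : Fin (m + 1) => y (FreeGroup.of (Sum.inr ⟨j + 1, by omega⟩))) ?_ (fun j => ?_)
        ?_ (hy3 _) (fun j => hy3 _) ?_ ?_ (a : Mat r ℂ)
      · rw [← h3, hω']
        rfl
      · have h4 := hy1 _ rfl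
        rw [relU0_units, prod_ofFn3] at h4
        rw [hb', inv_inv]
        exact h4
      · have h4 := hy2 ⟨j + 1, by omega⟩
        rwa [hCm] at h4
      · rw [hb']
        exact (GR r φ₁).inv_mem (hy3 _)
      · rw [charpoly_of_isConj hbb, hz4]
      · rw [charpoly_of_isConj hyl, hz4]
  rw [evalG_eq_evMat, hF, hx0, hxl] at hev
  rw [hadjug b⁻¹ (IsConj.refl _), inv_inv] at hev
  have h5 := sum_proj_mul hinj hr hP hbP (a : Mat r ℂ)
    ((Matrix.isUnit_iff_isUnit_det _).1 a.isUnit)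
  have h6 : ∑ i, Polynomial.aeval ((a * b * a⁻¹ : (Mat r ℂ)ˣ) : Mat r ℂ)
      (Lagrange.basis Finset.univ ω' i) * (a : Mat r ℂ) *
      Polynomial.aeval (b : Mat r ℂ) (Lagrange.basis Finset.univ ω' i) = (a : Mat r ℂ) := by
    rw [Units.val_mul, Units.val_mul, Matrix.coe_units_inv]
    exact h5
  rw [h6] at hev
  rw [evalG_eq_evMat, ← hev]
  congr 1
  funext k
  rcases k with ⟨k, _ | _⟩ | j
  · obtain rfl : k = 0 := Subsingleton.elim _ _
    rw [ha]
    rfl
  · obtain rfl : k = 0 := Subsingleton.elim _ _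
    rw [hb]
    rfl
  · rw [hcc]
    change _ = (x (FreeGroup.of (Sum.inr ⟨j + 1, by omega⟩)) : Mat r ℂ)
    rw [hxm]

end Vale.Agent.P002R
end

section

/-!
# P002, genus 1, arbitrary classes: minors at a generic point
-/

namespace Vale.Agent.P002R

open Matrix Module Vale.Agent.P002

variable {r : ℕ}

theorem DL_const {κ : Type*} (q : κ → P002R.Mat r ℂ) (z : P002R.Mat r ℂ) (l : List κ) :
    DL q (fun _ => z) l = z * (l.map q).prod - (l.map q).prod * z := by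
  induction l with
  | nil => rw [DL_nil, List.map_nil, List.prod_nil, Matrix.mul_one, Matrix.one_mul, sub_self]
  | cons j l ih =>
    rw [DL_cons, ih, List.map_cons, List.prod_cons]
    noncomm_ring

theorem DL_rotate {κ : Type*} (q x : κ → P002R.Mat r ℂ) (t : κ) (l : List κ)
    (hrel : q t * (l.map q).prod = 1) (h : DL q x (t :: l) = 0) :
    DL q x (l ++ [t]) = 0 := by
  obtain ⟨P, hP⟩ : ∃ P, P = (l.map q).prod := ⟨_, rfl⟩
  obtain ⟨E, hE⟩ : ∃ E, E = DL q x l := ⟨_, rfl⟩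
  have h2 : P * q t = 1 := mul_eq_one_comm.1 (hP ▸ hrel)
  rw [DL_cons, ← hP, ← hE] at h
  rw [DL_append, DL_cons, DL_nil, List.map_cons, List.map_nil, List.prod_cons, List.prod_nil,
    ← hP, ← hE]
  have h3 : P * ((x t * q t - q t * x t) * P + q t * E) * q t = 0 := by
    rw [h, Matrix.mul_zero, Matrix.zero_mul]
  have h4 : P * ((x t * q t - q t * x t) * P + q t * E) * q t =
      P * ((x t * q t - q t * x t) * (P * q t)) + P * q t * (E * q t) := by
    simp only [Matrix.mul_add, Matrix.add_mul, Matrix.mul_assoc]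
  rw [h4, h2, Matrix.mul_one, Matrix.one_mul] at h3
  rw [Matrix.mul_one, Matrix.mul_one, Matrix.mul_zero, add_zero, ← h3, add_comm]

variable {ι : Type}

/-- the functional equation with frozen `a`, ends `a'` and `a` -/
theorem gen_F2 [DecidableEq ι] {K₀ : Subfield ℂ} {J : ι → P002R.Mat r ℂ}
    {Y : ι ⊕ Bool → P002R.Mat r ℂ} (hJ : ∀ j, IsUnit (J j)) (hY : ∀ j, IsUnit (Y j))
    (l₁ l₂ : List ι) (hnd : (l₁ ++ l₂).Nodup) (hmem : ∀ j, j ∈ l₁ ++ l₂)
    (hrel : PhiI J (l₁ ++ l₂) Y = 1)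
    (hirr : ∀ W : Submodule ℂ (Fin r → ℂ), (∀ j, ∀ w ∈ W, cI J Y j *ᵥ w ∈ W) →
      (∀ w ∈ W, Y (Sum.inr false) *ᵥ w ∈ W) → W = ⊥ ∨ W = ⊤)
    (hgen : GenPt1 K₀ J (l₁ ++ l₂) Y)
    (u y : Fin r → ℂ) (hu : u ≠ 0) (hy : y ≠ 0) :
    ∃ (δ : Derivation ℤ ℂ ℂ) (x : ι ⊕ Bool → P002R.Mat r ℂ), (∀ a ∈ K₀, δ a = 0) ∧
      (∀ k, (Y k).map δ = x k * Y k) ∧ x (Sum.inr false) = 0 ∧
      y ⬝ᵥ ((DL (cI J Y) (fun j => x (Sum.inl j)) l₁ - x (Sum.inr true) *
        (l₁.map (cI J Y)).prod) *ᵥ u) ≠ 0 := by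
  obtain ⟨M, hM⟩ : ∃ M : List (ι ⊕ Bool), M = (l₁ ++ l₂).map Sum.inl ++ [Sum.inr false] :=
    ⟨_, rfl⟩
  have hL : (Sum.inr true :: M : List (ι ⊕ Bool)) =
      Sum.inr true :: (l₁.map Sum.inl ++ (l₂.map Sum.inl ++ Sum.inr false :: [])) := by
    rw [hM]; simp
  have hqu : ∀ k, IsUnit (qI J Y k) := by
    rintro (j | s)
    · exact isUnit_cI hJ hY j
    · cases s
      · exact hY _
      · rw [qI_true]
        exact ((hY _).mul (Matrix.isUnit_nonsing_inv_iff.2 (hY _))).mul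
          (Matrix.isUnit_nonsing_inv_iff.2 (hY _))
  have hrelM : qI J Y (Sum.inr true) * (M.map (qI J Y)).prod = 1 := by
    apply mul_eq_one_comm.1
    rw [hM, List.map_append, List.prod_append, qI_prod]
    simp only [List.map_cons, List.map_nil, List.prod_cons, List.prod_nil, Matrix.mul_one,
      qI_false, qI_true]
    rw [← hrel, PhiI, hI]
    simp only [Matrix.mul_assoc]
  obtain ⟨x, hx2, hx3⟩ := rank_one (qI J Y) hqu (Sum.inr true) (Sum.inr false)
    (l₁.map Sum.inl) (l₂.map Sum.inl) [] (by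
      rw [← hL, hM, List.nodup_cons, List.nodup_append]
      refine ⟨by simp only [List.map_append, List.append_assoc, List.mem_append, List.mem_map, reduceCtorEq, and_false, exists_false, List.mem_cons, Sum.inr.injEq, Bool.true_eq_false, List.not_mem_nil, or_self, not_false_eq_true], (List.nodup_map_iff Sum.inl_injective).2 hnd, by simp, ?_⟩
      intro k hk k' hk'
      rw [List.mem_map] at hk
      obtain ⟨j, -, rfl⟩ := hk
      simp only [List.mem_cons, List.not_mem_nil, or_false] at hk'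
      rw [hk']
      simp) (by
      rw [← hL, List.map_cons, List.prod_cons]
      exact hrelM) (by
      intro k
      rw [← hL, hM, List.mem_cons, List.mem_append]
      rcases k with j | s
      · right
        left
        exact List.mem_map_of_mem (hmem j)
      · cases s <;> simp) (fun W hW => hirr W (fun j => hW (Sum.inl j)) (hW (Sum.inr false)))
    u y hu hy
  rw [← hL] at hx2
  -- subtract a constant
  obtain ⟨z, hz⟩ : ∃ z, z = x (Sum.inr false) := ⟨_, rfl⟩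
  obtain ⟨x', hx'⟩ : ∃ x' : ι ⊕ Bool → P002R.Mat r ℂ, x' = x + (-1 : ℂ) • fun _ => z := ⟨_, rfl⟩
  have hx'k : ∀ k, x' k = x k - z := by
    intro k
    rw [hx', Pi.add_apply, Pi.smul_apply, neg_one_smul, ← sub_eq_add_neg]
  have hDL : ∀ l, DL (qI J Y) x' l = DL (qI J Y) x l -
      (z * (l.map (qI J Y)).prod - (l.map (qI J Y)).prod * z) := by
    intro l
    rw [hx', DL_add, DL_smul, DL_const, neg_one_smul, ← sub_eq_add_neg]
  have hx'2 : DL (qI J Y) x' (Sum.inr true :: M) = 0 := by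
    rw [hDL, hx2, List.map_cons, List.prod_cons, hrelM, Matrix.mul_one, Matrix.one_mul, sub_self,
      sub_zero]
  have hx'1 : x' (Sum.inr false) = 0 := by rw [hx'k, ← hz, sub_self]
  have hD := D1_frozen (l₁ ++ l₂) (qI J Y) (fun j => qI_inl J Y j) (qI_false J Y)
    (qI_true J Y) x' hx'1
  have hM2 : ((l₁ ++ l₂).map Sum.inl ++ [Sum.inr false, Sum.inr true] : List (ι ⊕ Bool)) =
      M ++ [Sum.inr true] := by
    rw [hM]; simp only [List.map_append, List.append_assoc, List.cons_append, List.nil_append]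
  rw [hM2, DL_rotate (qI J Y) x' _ M hrelM hx'2] at hD
  obtain ⟨δ, h1, h2⟩ := hgen x' hD
  refine ⟨δ, x', h1, h2, hx'1, ?_⟩
  have h3 : ∀ l : List ι, DL (qI J Y) x' (l.map Sum.inl) =
      DL (cI J Y) (fun j => x' (Sum.inl j)) l := by
    intro l
    induction l with
    | nil => rfl
    | cons j l ih =>
      rw [List.map_cons, DL_cons, DL_cons, ih, qI_prod, qI_inl]
  rw [← h3, hDL, hx'k]
  rw [← hz, qI_prod] at hx3
  rw [qI_prod]
  have h4 : DL (qI J Y) x (l₁.map Sum.inl) - (z * (l₁.map (cI J Y)).prod -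
      (l₁.map (cI J Y)).prod * z) - (x (Sum.inr true) - z) * (l₁.map (cI J Y)).prod =
      DL (qI J Y) x (l₁.map Sum.inl) + (l₁.map (cI J Y)).prod * z - x (Sum.inr true) *
        (l₁.map (cI J Y)).prod := by
    noncomm_ring
  rw [h4]
  exact hx3

/-- Pairing with a singular submatrix, left multiplication by a diagonal matrix. -/
theorem exists_pair_minor2 {κ : Type*} [Fintype κ] [DecidableEq κ] (G : P002R.Mat r ℂ)
    (f g : κ → Fin r) (hf : Function.Injective f) (hg : Function.Injective g)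
    (hdet : (G.submatrix f g).det = 0) :
    ∃ w s : Fin r → ℂ, w ≠ 0 ∧ s ≠ 0 ∧ (∀ δ : Derivation ℤ ℂ ℂ, s ⬝ᵥ (G.map δ *ᵥ w) = 0) ∧
      ∀ Z : P002R.Mat r ℂ, (∀ i j, i ≠ j → Z i j = 0) → s ⬝ᵥ ((G * Z) *ᵥ w) = 0 ∧
        s ⬝ᵥ ((Z * G) *ᵥ w) = 0 := by
  obtain ⟨v, hv0, hv⟩ := Matrix.exists_mulVec_eq_zero_iff.2 hdet
  obtain ⟨z, hz0, hz⟩ := Matrix.exists_vecMul_eq_zero_iff.2 hdet
  -- extension by zero
  obtain ⟨w, hw⟩ : ∃ w : Fin r → ℂ, ∀ M : P002R.Mat r ℂ, ∀ a, (M *ᵥ w) a =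
      ∑ c, M a (g c) * v c := by
    refine ⟨∑ c, v c • Pi.single (g c) 1, fun M a => ?_⟩
    rw [Matrix.mulVec_sum, Finset.sum_apply]
    refine Finset.sum_congr rfl fun c _ => ?_
    rw [Matrix.mulVec_smul, Matrix.mulVec_single_one, Pi.smul_apply, smul_eq_mul, mul_comm]
    rfl
  obtain ⟨s, hs⟩ : ∃ s : Fin r → ℂ, ∀ q : Fin r → ℂ, s ⬝ᵥ q = ∑ c, z c * q (f c) := by
    refine ⟨∑ c, z c • Pi.single (f c) 1, fun q => ?_⟩
    rw [sum_dotProduct]
    refine Finset.sum_congr rfl fun c _ => ?_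
    rw [smul_dotProduct, single_dotProduct, one_mul, smul_eq_mul]
  refine ⟨w, s, ?_, ?_, fun δ => ?_, fun Z hZ => ⟨?_, ?_⟩⟩
  · intro h0
    obtain ⟨c₀, hc₀⟩ := Function.ne_iff.1 hv0
    apply hc₀
    have h1 := hw 1 (g c₀)
    rw [h0, Matrix.mulVec_zero, Pi.zero_apply, Finset.sum_eq_single c₀] at h1
    · rw [Matrix.one_apply_eq, one_mul] at h1
      exact h1.symm
    · intro c _ hc
      rw [Matrix.one_apply_ne, zero_mul]
      intro h
      exact hc (hg h.symm)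
    · intro h
      exact absurd (Finset.mem_univ _) h
  · intro h0
    obtain ⟨c₀, hc₀⟩ := Function.ne_iff.1 hz0
    apply hc₀
    have h1 := hs (Pi.single (f c₀) 1)
    rw [h0, zero_dotProduct, Finset.sum_eq_single c₀] at h1
    · rw [Pi.single_eq_same, mul_one] at h1
      exact h1.symm
    · intro c _ hc
      rw [Pi.single_eq_of_ne, mul_zero]
      intro h
      exact hc (hf h)
    · intro h
      exact absurd (Finset.mem_univ _) h
  · rw [hs]
    -- `z δ(G') v = 0`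
    have h2 : ∀ c, ∑ d, (G.map δ) (f c) (g d) * v d = - ∑ d, G (f c) (g d) * δ (v d) := by
      intro c
      have h3 := congrArg δ (congrFun hv c)
      rw [Pi.zero_apply, map_zero] at h3
      simp only [mulVec, dotProduct, submatrix_apply, map_sum, Derivation.leibniz, smul_eq_mul, Finset.sum_add_distrib] at h3
      rw [eq_neg_iff_add_eq_zero, add_comm, ← h3]
      congr 1
      refine Finset.sum_congr rfl fun d _ => ?_
      rw [Matrix.map_apply, mul_comm]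
    have h4 : ∑ c, z c * (G.map δ *ᵥ w) (f c) = - ∑ d, (∑ c, z c * G (f c) (g d)) * δ (v d) := by
      calc ∑ c, z c * (G.map δ *ᵥ w) (f c)
          = ∑ c, z c * -∑ d, G (f c) (g d) * δ (v d) := by
            refine Finset.sum_congr rfl fun c _ => ?_
            rw [hw, h2]
        _ = - ∑ c, ∑ d, z c * (G (f c) (g d) * δ (v d)) := by
            rw [← Finset.sum_neg_distrib]
            refine Finset.sum_congr rfl fun c _ => ?_
            rw [mul_neg, Finset.mul_sum]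
        _ = _ := by
            rw [Finset.sum_comm]
            congr 1
            refine Finset.sum_congr rfl fun d _ => ?_
            rw [Finset.sum_mul]
            refine Finset.sum_congr rfl fun c _ => by ring
    rw [h4, neg_eq_zero]
    refine Finset.sum_eq_zero fun d _ => ?_
    have h5 := congrFun hz d
    have h6 : ∑ c, z c * G (f c) (g d) = 0 := h5
    rw [h6, zero_mul]
  · rw [hs]
    have h2 : ∀ c, ((G * Z) *ᵥ w) (f c) = ∑ d, G (f c) (g d) * (Z (g d) (g d) * v d) := by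
      intro c
      rw [hw]
      refine Finset.sum_congr rfl fun d _ => ?_
      rw [Matrix.mul_apply, Finset.sum_eq_single (g d), mul_assoc]
      · intro k _ hk
        rw [hZ k (g d) hk, mul_zero]
      · intro h
        exact absurd (Finset.mem_univ _) h
    calc ∑ c, z c * ((G * Z) *ᵥ w) (f c)
        = ∑ c, ∑ d, z c * (G (f c) (g d) * (Z (g d) (g d) * v d)) := by
          refine Finset.sum_congr rfl fun c _ => ?_
          rw [h2, Finset.mul_sum]
      _ = ∑ d, (∑ c, z c * G (f c) (g d)) * (Z (g d) (g d) * v d) := by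
          rw [Finset.sum_comm]
          refine Finset.sum_congr rfl fun d _ => ?_
          rw [Finset.sum_mul]
          refine Finset.sum_congr rfl fun c _ => by ring
      _ = 0 := by
          refine Finset.sum_eq_zero fun d _ => ?_
          have h5 := congrFun hz d
          have h6 : ∑ c, z c * G (f c) (g d) = 0 := h5
          rw [h6, zero_mul]
  · rw [hs]
    refine Finset.sum_eq_zero fun c _ => ?_
    have h2 : ((Z * G) *ᵥ w) (f c) = Z (f c) (f c) * ∑ d, G (f c) (g d) * v d := by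
      rw [hw, Finset.mul_sum]
      refine Finset.sum_congr rfl fun d _ => ?_
      rw [Matrix.mul_apply, Finset.sum_eq_single (f c), mul_assoc]
      · intro k _ hk
        rw [hZ (f c) k (Ne.symm hk), zero_mul]
      · intro h
        exact absurd (Finset.mem_univ _) h
    have h5 := congrFun hv c
    have h6 : ∑ d, G (f c) (g d) * v d = 0 := h5
    rw [h2, h6, mul_zero, mul_zero]

/-- minors at a generic point, ends `b a⁻¹ b⁻¹` and `a` -/
theorem gen_minor2 [Fintype ι] [DecidableEq ι] {K₀ : Subfield ℂ} {J : ι → P002R.Mat r ℂ}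
    (hJK : ∀ j a b, J j a b ∈ K₀)
    {Y : ι ⊕ Bool → P002R.Mat r ℂ} (hJ : ∀ j, IsUnit (J j)) (hY : ∀ j, IsUnit (Y j))
    (l₁ l₂ : List ι) (hnd : (l₁ ++ l₂).Nodup) (hmem : ∀ j, j ∈ l₁ ++ l₂)
    (hrel : PhiI J (l₁ ++ l₂) Y = 1)
    (hirr : ∀ W : Submodule ℂ (Fin r → ℂ), (∀ j, ∀ w ∈ W, cI J Y j *ᵥ w ∈ W) →
      (∀ w ∈ W, Y (Sum.inr false) *ᵥ w ∈ W) → W = ⊥ ∨ W = ⊤)
    (hgen : GenPt1 K₀ J (l₁ ++ l₂) Y)
    {A : P002R.Mat r ℂ} {ν : Fin r → ℂ} (hA : IsUnit A) (hν : Function.Injective ν)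
    (haA : Y (Sum.inr false) * A = A * diagonal ν) {κ : Type*} [Fintype κ] [DecidableEq κ]
    (f g : κ → Fin r) (hf : Function.Injective f) (hg : Function.Injective g) :
    (((Y (Sum.inr true) * A)⁻¹ * (l₁.map (cI J Y)).prod * A).submatrix f g).det ≠ 0 := by
  intro hdet
  obtain ⟨P, hP⟩ : ∃ P, P = (l₁.map (cI J Y)).prod := ⟨_, rfl⟩
  obtain ⟨b, hb⟩ : ∃ b, b = Y (Sum.inr true) := ⟨_, rfl⟩
  have hbu : IsUnit b := hb ▸ hY _
  have hBu : IsUnit (b * A) := hbu.mul hA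
  rw [← hb, ← hP] at hdet
  obtain ⟨G, hG⟩ : ∃ G, G = (b * A)⁻¹ * P * A := ⟨_, rfl⟩
  rw [← hG] at hdet
  obtain ⟨w, s, hw0, hs0, hδs, hZs⟩ := exists_pair_minor2 G f g hf hg hdet
  have hAd : IsUnit A.det := (Matrix.isUnit_iff_isUnit_det _).1 hA
  have hBd : IsUnit (b * A).det := (Matrix.isUnit_iff_isUnit_det _).1 hBu
  have A1 := Matrix.mul_nonsing_inv _ hAd
  have B1 := Matrix.mul_nonsing_inv _ hBd
  have B2 := Matrix.nonsing_inv_mul _ hBd
  have hu : A *ᵥ w ≠ 0 := by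
    intro h
    apply hw0
    calc w = (A⁻¹ * A) *ᵥ w := by
          rw [Matrix.nonsing_inv_mul _ hAd, Matrix.one_mulVec]
      _ = 0 := by rw [← Matrix.mulVec_mulVec, h, Matrix.mulVec_zero]
  have hy : s ᵥ* (b * A)⁻¹ ≠ 0 := by
    intro h
    apply hs0
    calc s = s ᵥ* ((b * A)⁻¹ * (b * A)) := by
          rw [B2, Matrix.vecMul_one]
      _ = 0 := by rw [← Matrix.vecMul_vecMul, h, Matrix.zero_vecMul]
  obtain ⟨δ, x, hδ, hx, hx0, hne⟩ := gen_F2 hJ hY l₁ l₂ hnd hmem hrel hirr hgen _ _ hu hy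
  apply hne
  rw [← hP]
  obtain ⟨Z, hZ⟩ : ∃ Z, Z = A⁻¹ * A.map δ := ⟨_, rfl⟩
  have hAZ : A.map δ = A * Z := by
    rw [hZ, mulL A1]
  have hZ0 := der_eigenbasis δ (by rw [hx, hx0, Matrix.zero_mul]) hA hν haA hAZ
  have hBδ : (b * A).map δ = x (Sum.inr true) * (b * A) + (b * A) * Z := by
    rw [map_der_mul, hAZ, hb, hx]
    simp only [Matrix.mul_assoc]
  have hGδ : G.map δ = (b * A)⁻¹ * (DL (cI J Y) (fun j => x (Sum.inl j)) l₁ -
      x (Sum.inr true) * P) * A + (G * Z - Z * G) := by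
    have hPδ : P.map δ = DL (cI J Y) (fun j => x (Sum.inl j)) l₁ := by
      rw [hP, map_der_listI hJK hY δ hδ x hx]
    have e : -((b * A)⁻¹ * (x (Sum.inr true) * (b * A) + (b * A) * Z) * (b * A)⁻¹) =
        -((b * A)⁻¹ * x (Sum.inr true)) - Z * (b * A)⁻¹ := by
      rw [Matrix.mul_add, Matrix.add_mul, neg_add, ← sub_eq_add_neg]
      congr 1
      · have e1 : (b * A)⁻¹ * (x (Sum.inr true) * (b * A)) * (b * A)⁻¹ =
          (b * A)⁻¹ * (x (Sum.inr true) * ((b * A) * (b * A)⁻¹)) := by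
          simp only [Matrix.mul_assoc]
        rw [e1, B1, Matrix.mul_one]
      · rw [← Matrix.mul_assoc (b * A)⁻¹ (b * A), B2, Matrix.one_mul]
    rw [hG, map_der_mul, map_der_mul, map_der_inv hBu, hBδ, hPδ, hAZ, e]
    noncomm_ring
  have h1 := hδs δ
  obtain ⟨h2, h3⟩ := hZs Z hZ0
  rw [hGδ, Matrix.add_mulVec, dotProduct_add, Matrix.sub_mulVec, dotProduct_sub, h2, h3, sub_zero,
    add_zero] at h1
  have e1 : ∀ A B C : P002R.Mat r ℂ, (s ᵥ* A) ⬝ᵥ (B *ᵥ (C *ᵥ w)) =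
      s ⬝ᵥ ((A * B * C) *ᵥ w) := fun A B C => by
    rw [← Matrix.mulVec_mulVec, ← Matrix.mulVec_mulVec, Matrix.dotProduct_mulVec s]
  rw [e1]
  exact h1

/-- The eigenvalues of `a` are multiplicatively independent at a generic point. -/
theorem gen_mult_indep [DecidableEq ι] {K₀ : Subfield ℂ} {J : ι → P002R.Mat r ℂ}
    {Y : ι ⊕ Bool → P002R.Mat r ℂ} (hY : ∀ j, IsUnit (Y j)) (L : List ι)
    (hgen : GenPt1 K₀ J L Y) {A : P002R.Mat r ℂ} {ν : Fin r → ℂ} (hA : IsUnit A)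
    (haA : Y (Sum.inr false) * A = A * diagonal ν)
    (hfree : ∀ m : Fin r → ℂ, (∀ x : ι ⊕ Bool → P002R.Mat r ℂ,
      D1 (cI J Y) (Y (Sum.inr false)) (Y (Sum.inr true)) L x = 0 →
      trace (A * diagonal m * A⁻¹ * x (Sum.inr false)) = 0) → m = 0)
    (m m' : Fin r → ℕ) (h : ∏ i, ν i ^ m i = ∏ i, ν i ^ m' i) : m = m' := by
  have hν0 : ∀ i, ν i ≠ 0 := (eigen_a' (hY _) (hY (Sum.inr true)) hA haA).1
  have key : (fun i => (m i : ℂ) - (m' i : ℂ)) = 0 := by
    refine hfree _ fun x hx => ?_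
    obtain ⟨δ, -, hxδ⟩ := hgen x hx
    obtain ⟨X, hX⟩ : ∃ X, X = x (Sum.inr false) := ⟨_, rfl⟩
    obtain ⟨t, ht⟩ : ∃ t : Fin r → ℂ, ∀ i, t i = (A⁻¹ * X * A) i i := ⟨_, fun i => rfl⟩
    have h2 : ∀ i, δ (ν i) = t i * ν i := fun i => by
      rw [ht]
      exact der_eigenvalues δ (by rw [hX]; exact hxδ _) hA haA i
    have hpow : ∀ (k : ℕ) (i : Fin r), δ (ν i ^ k) = ((k : ℂ) * t i) * ν i ^ k := by
      intro k i
      induction k with
      | zero => simp only [pow_zero, Derivation.map_one_eq_zero, CharP.cast_eq_zero, zero_mul, mul_one]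
      | succ k ih =>
        rw [pow_succ, Derivation.leibniz, ih, h2, smul_eq_mul, smul_eq_mul]
        push_cast
        ring
    have h3 := der_prod δ Finset.univ (fun i => ν i ^ m i) (fun i => (m i : ℂ) * t i)
      (fun i => hpow _ i)
    have h4 := der_prod δ Finset.univ (fun i => ν i ^ m' i) (fun i => (m' i : ℂ) * t i)
      (fun i => hpow _ i)
    rw [h, h4] at h3
    have h5 : (∏ i, ν i ^ m' i) ≠ 0 := Finset.prod_ne_zero_iff.2 fun i _ => pow_ne_zero _ (hν0 i)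
    have h6 := mul_right_cancel₀ h5 h3
    rw [← hX, show A * diagonal (fun i => (m i : ℂ) - (m' i : ℂ)) * A⁻¹ * X =
      A * (diagonal (fun i => (m i : ℂ) - (m' i : ℂ)) * A⁻¹ * X) by
      simp only [Matrix.mul_assoc], Matrix.trace_mul_comm, Matrix.trace]
    have h9 : ∀ i, (diagonal (fun i => (m i : ℂ) - (m' i : ℂ)) * A⁻¹ * X * A).diag i =
        (m i : ℂ) * t i - (m' i : ℂ) * t i := by
      intro i
      rw [Matrix.diag_apply, show diagonal (fun i => (m i : ℂ) - (m' i : ℂ)) * A⁻¹ * X * A =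
        diagonal (fun i => (m i : ℂ) - (m' i : ℂ)) * (A⁻¹ * X * A) by
        simp only [Matrix.mul_assoc], Matrix.diagonal_mul, ← ht, sub_mul]
    simp only [h9, Finset.sum_sub_distrib]
    rw [h6, sub_self]
  funext i
  have h1 := congrFun key i
  rw [Pi.zero_apply, sub_eq_zero] at h1
  exact_mod_cast h1

end Vale.Agent.P002R
end

section

/-!
# P002, genus 1: tuples with all flags in general position
-/

namespace Vale.Agent.P002R

open Matrix Module Vale.Agent.P002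

variable {r : ℕ} {ι : Type}

end Vale.Agent.P002R
end

section

/-!
# P002, genus 1, arbitrary classes: generic representations
-/

namespace Vale.Agent.P002R

open Matrix Module Vale.Agent.P002

variable {r : ℕ} {ι : Type}

/-- a countable field which contains the entries and the eigenvalues -/
theorem exists_entry_field [Finite ι] (J : ι → P002R.Mat r ℂ) :
    ∃ K₀ : Subfield ℂ, Countable K₀ ∧ (∀ j a b, J j a b ∈ K₀) ∧
      ∀ j lam, (J j).charpoly.IsRoot lam → lam ∈ K₀ := by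
  obtain ⟨K₀, hK₀, hsub⟩ := exists_countable_subfield'
    ((Set.range fun p : ι × Fin r × Fin r => J p.1 p.2.1 p.2.2) ∪
      ⋃ j, {lam : ℂ | (J j).charpoly.IsRoot lam}) (by
      have := Finite.to_countable (α := ι)
      refine (Set.countable_range _).union (Set.countable_iUnion fun j => Set.Finite.countable ?_)
      exact Polynomial.finite_setOfPred_isRoot (Matrix.charpoly_monic _).ne_zero)
  exact ⟨K₀, hK₀, fun j a b => hsub (Or.inl ⟨(j, a, b), rfl⟩),
    fun j lam hlam => hsub (Or.inr (Set.mem_iUnion.2 ⟨j, hlam⟩))⟩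

/-- Near every irreducible tuple, one of whose classes is not scalar, there is a generic one. -/
theorem exists_generic_two [Fintype ι] [DecidableEq ι] (hr : 1 ≤ r) (L : List ι)
    (hnd : L.Nodup) (hmem : ∀ j, j ∈ L) (J : ι → P002R.Mat r ℂ) (hJ : ∀ j, IsUnit (J j)) (j₀ : ι)
    (hns : ∀ μ : ℂ, J j₀ ≠ μ • (1 : P002R.Mat r ℂ))
    (Y₀ : ι ⊕ Bool → P002R.Mat r ℂ) (hY₀ : ∀ j, IsUnit (Y₀ j)) (hrel : PhiI J L Y₀ = 1)
    (hadj : Algebra.adjoin ℂ (Set.range (allI J Y₀)) = ⊤) (U : Set (ι ⊕ Bool → P002R.Mat r ℂ))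
    (hU : U ∈ nhds Y₀) :
    ∃ Y ∈ U, (∀ j, IsUnit (Y j)) ∧ PhiI J L Y = 1 ∧
      Algebra.adjoin ℂ (Set.range (allI J Y)) = ⊤ ∧
      (∀ W : Submodule ℂ (Fin r → ℂ), (∀ j, ∀ w ∈ W, cI J Y j *ᵥ w ∈ W) →
        (∀ w ∈ W, Y (Sum.inr false) *ᵥ w ∈ W) → W = ⊥ ∨ W = ⊤) ∧
      ∃ (A : P002R.Mat r ℂ) (ν : Fin r → ℂ), IsUnit A ∧ Function.Injective ν ∧
        Y (Sum.inr false) * A = A * diagonal ν ∧
        (∀ m m' : Fin r → ℕ, ∏ i, ν i ^ m i = ∏ i, ν i ^ m' i → m = m') ∧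
        ∀ (l₁ l₂ : List ι), L = l₁ ++ l₂ → ∀ (k : ℕ) (f g : Fin k → Fin r),
          Function.Injective f → Function.Injective g →
          (((Y (Sum.inr true) * A)⁻¹ * (l₁.map (cI J Y)).prod * A).submatrix f g).det ≠ 0 := by
  obtain ⟨K₀, hK₀, hJK, hJE⟩ := exists_entry_field J
  obtain ⟨Y, hYU, hYu, hYrel, hYadj, hgen⟩ := generic_point1 hr L hnd hmem K₀ hK₀ J hJK Y₀
    hY₀ hrel hadj U hU
  -- distinct eigenvalues; rotate the list
  obtain ⟨A, ν, hA, hν, haA⟩ := exists_eigenbasis (M := Y (Sum.inr false)) (by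
    obtain ⟨i₀, l, rfl⟩ : ∃ i₀ l, L = i₀ :: l := by
      cases L with
      | nil => exact absurd (hmem j₀) (by simp)
      | cons i₀ l => exact ⟨i₀, l, rfl⟩
    exact fun lam y w hy hw hya haw => gen_pair hJ hYu i₀ l hnd hmem hYrel hYadj hgen lam y w hy
      hw hya haw)
  have hno : ∀ e : P002R.Mat r ℂ, e * e = e → (∀ j, Commute e (cI J Y j)) →
      Commute e (Y (Sum.inr false)) → e = 0 ∨ e = 1 := by
    intro e he hec hea
    by_contra hcon
    push Not at hcon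
    obtain ⟨μ, hμ⟩ := gen_idem hJK hJ hYu L hnd hYrel hgen hA hν haA he hec hea hcon.1 hcon.2 j₀
      (hmem j₀)
    apply hns μ
    have hud : IsUnit (Y (Sum.inl j₀)).det := (Matrix.isUnit_iff_isUnit_det _).1 (hYu _)
    have a2 := Matrix.nonsing_inv_mul _ hud
    have h1 : J j₀ = (Y (Sum.inl j₀))⁻¹ * cI J Y j₀ * Y (Sum.inl j₀) := by
      rw [cI_eqn, cj_apply]
      simp only [Matrix.mul_assoc, mulL a2, a2, Matrix.mul_one]
    rw [h1, hμ, Matrix.mul_smul, Matrix.mul_one, Matrix.smul_mul, a2]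
  have hirr : ∀ W : Submodule ℂ (Fin r → ℂ), (∀ j, ∀ w ∈ W, cI J Y j *ᵥ w ∈ W) →
      (∀ w ∈ W, Y (Sum.inr false) *ᵥ w ∈ W) → W = ⊥ ∨ W = ⊤ :=
    gen_irr2 hJK hJE hJ hYu L hnd hmem hYrel hYadj hgen hA hν haA j₀ hns
  refine ⟨Y, hYU, hYu, hYrel, hYadj, hirr, A, ν, hA, hν, haA, fun m m' h => ?_, ?_⟩
  · exact gen_mult_indep hYu L hgen hA haA (fun m hm => gen_free hJ hYu L hnd hmem hYrel hA hν haA
      j₀ hno m hm) m m' h
  · rintro l₁ l₂ rfl k f g hf hg
    exact gen_minor2 hJK hJ hYu l₁ l₂ hnd hmem hYrel hirr hgen hA hν haA f g hf hg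

/-- Generic representations of the once punctured handle. -/
structure GenRep {n : ℕ} (x : FU 1 n →* (Mat r ℂ)ˣ) (A : Mat r ℂ) (ν : Fin r → ℂ) : Prop where
  /-- `c_j` and `a` generate an irreducible group -/
  irr : ∀ W : Submodule ℂ (Fin r → ℂ), (∀ j, ∀ w ∈ W, mt x (Sum.inl j) *ᵥ w ∈ W) →
    (∀ w ∈ W, mt x (Sum.inr false) *ᵥ w ∈ W) → W = ⊥ ∨ W = ⊤
  /-- the eigenbasis of `a` -/
  unit : IsUnit A
  inj : Function.Injective ν
  eig : mt x (Sum.inr false) * A = A * diagonal ν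
  /-- multiplicative independence -/
  indep : ∀ m m' : Fin r → ℕ, ∏ i, ν i ^ m i = ∏ i, ν i ^ m' i → m = m'
  /-- general position of the flags of `b a⁻¹ b⁻¹` and `a` -/
  minor : ∀ (l₁ l₂ : List (Fin n)), List.finRange n = l₁ ++ l₂ → ∀ (k : ℕ) (f g : Fin k → Fin r),
    Function.Injective f → Function.Injective g →
    (((mt x (Sum.inr true) * A)⁻¹ * (l₁.map fun j => mt x (Sum.inl j)).prod * A).submatrix
      f g).det ≠ 0

/-- Density of the generic representations. -/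
theorem exists_genRep {n : ℕ} (hr : 0 < r) (C : Fin n → (Mat r ℂ)ˣ) (j₀ : Fin n)
    (hns : ∀ μ : ℂ, (C j₀ : Mat r ℂ) ≠ μ • (1 : Mat r ℂ))
    (x : FU 1 n →* (Mat r ℂ)ˣ) (hrel : x (relatorU 1 n) = 1)
    (hcl : ∀ j, IsConj (C j) (x (FreeGroup.of (Sum.inr j))))
    (hadj : Algebra.adjoin ℂ (Set.range fun w => (x w : Mat r ℂ)) = ⊤)
    (f : MvPolynomial (GenU 1 n × Fin r × Fin r) ℂ) (hf : evalG x f ≠ 0) :
    ∃ (z : FU 1 n →* (Mat r ℂ)ˣ) (A : Mat r ℂ) (ν : Fin r → ℂ), evalG z f ≠ 0 ∧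
      z (relatorU 1 n) = 1 ∧ (∀ j, IsConj (C j) (z (FreeGroup.of (Sum.inr j)))) ∧
      Algebra.adjoin ℂ (Set.range fun w => (z w : Mat r ℂ)) = ⊤ ∧ GenRep z A ν := by
  classical
  have hy : ∀ j, ∃ y : (Mat r ℂ)ˣ, y * C j * y⁻¹ = x (FreeGroup.of (Sum.inr j)) := fun j =>
    isConj_iff.1 (hcl j)
  choose y hy using hy
  obtain ⟨Y₀, hY₀, hY₀'⟩ : ∃ Y₀ : Fin n ⊕ Bool → Mat r ℂ,
      (∀ j, Y₀ (Sum.inl j) = (y j : Mat r ℂ)) ∧ ∀ s, Y₀ (Sum.inr s) = mt x (Sum.inr s) :=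
    ⟨Sum.elim (fun j => (y j : Mat r ℂ)) fun s => mt x (Sum.inr s), fun _ => rfl, fun _ => rfl⟩
  obtain ⟨J', hJ'⟩ : ∃ J' : Fin n → Mat r ℂ, ∀ j, J' j = (C j : Mat r ℂ) :=
    ⟨_, fun _ => rfl⟩
  have hY₀u : ∀ j, IsUnit (Y₀ j) := by
    rintro (j | s)
    · rw [hY₀]
      exact (y j).isUnit
    · rw [hY₀', mt_inr]
      exact Units.isUnit _
  have hJ'u : ∀ j, IsUnit (J' j) := fun j => by rw [hJ']; exact (C j).isUnit
  have hcj : allI J' Y₀ = mt x := by
    funext k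
    rcases k with j | s
    · rw [allI_inl, cI_eqn, cj_apply, hY₀, hJ', mt_inl, ← hy, Units.val_mul, Units.val_mul,
        Matrix.coe_units_inv]
    · rw [allI_inr, hY₀']
  have hPhi : ∀ (z : FU 1 n →* (Mat r ℂ)ˣ) (Y : Fin n ⊕ Bool → Mat r ℂ),
      mt z = allI J' Y → (z (relatorU 1 n) = 1 ↔ PhiI J' (List.finRange n) Y = 1) := by
    intro z Y hz
    rw [relU1_iff, PhiI, hI]
    have h1 : (fun j => mt z (Sum.inl j)) = cI J' Y := by
      funext j
      rw [hz, allI_inl]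
    rw [h1, hz, allI_inr, allI_inr]
  -- the neighbourhood
  have hU : {Y : Fin n ⊕ Bool → Mat r ℂ | evT1 f (allI J' Y) ≠ 0} ∈ nhds Y₀ := by
    have h1 : ContinuousAt (fun Y : Fin n ⊕ Bool → Mat r ℂ => evT1 f (allI J' Y)) Y₀ :=
      ContinuousAt.comp (f := fun Y : Fin n ⊕ Bool → Mat r ℂ => allI J' Y)
        (evT1_continuous f).continuousAt (continuousAt_allI' J' hY₀u)
    refine h1.eventually_ne ?_
    rw [hcj, ← evalG_eq_evT1]
    exact hf
  obtain ⟨Y, hYU, hYu, hYrel, hYadj, hYirr, A, ν, hA, hν, haA, hind, hmin⟩ :=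
    exists_generic_two hr (List.finRange n) (List.nodup_finRange _)
    (fun j => List.mem_finRange j) J' hJ'u j₀ (by rw [hJ']; exact hns) Y₀ hY₀u
    ((hPhi x Y₀ hcj.symm).1 hrel) (by rw [hcj]; exact (adjoin_iff1 x).1 hadj) _ hU
  have hYU' : evT1 f (allI J' Y) ≠ 0 := hYU
  obtain ⟨yy, hyy⟩ : ∃ yy : Fin n ⊕ Bool → (Mat r ℂ)ˣ, ∀ k, (yy k : Mat r ℂ) = Y k :=
    ⟨fun k => (hYu k).unit, fun k => rfl⟩
  obtain ⟨z, hz1, hz2⟩ : ∃ z : FU 1 n →* (Mat r ℂ)ˣ,
      (∀ j, z (FreeGroup.of (Sum.inr j)) = yy (Sum.inl j) * C j * (yy (Sum.inl j))⁻¹) ∧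
      ∀ s, z (FreeGroup.of (Sum.inl (0, s))) = yy (Sum.inr s) :=
    ⟨mkR1 (Sum.elim (fun j => yy (Sum.inl j) * C j * (yy (Sum.inl j))⁻¹) fun s => yy (Sum.inr s)),
      fun j => mkR1_inr _ j, fun s => mkR1_inl _ 0 s⟩
  have hmz : mt z = allI J' Y := by
    funext k
    rcases k with j | s
    · rw [allI_inl, cI_eqn, cj_apply, hJ', ← hyy, mt_inl, hz1, Units.val_mul, Units.val_mul,
        Matrix.coe_units_inv]
    · rw [allI_inr, mt_inr, hz2, hyy]
  refine ⟨z, A, ν, ?_, (hPhi z Y hmz).2 hYrel, ?_, ?_, ?_⟩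
  · rw [evalG_eq_evT1, hmz]
    exact hYU'
  · intro j
    rw [hz1, isConj_iff]
    exact ⟨yy (Sum.inl j), rfl⟩
  · rw [adjoin_iff1, hmz]
    exact hYadj
  · have h1 : (fun j => mt z (Sum.inl j)) = cI J' Y := by
      funext j
      rw [hmz, allI_inl]
    have h2 : ∀ s, mt z (Sum.inr s) = Y (Sum.inr s) := fun s => by rw [hmz, allI_inr]
    refine ⟨?_, hA, hν, by rw [h2]; exact haA, hind, ?_⟩
    · intro W hW hWa
      rw [h2] at hWa
      exact hYirr W (fun j => by rw [← h1]; exact hW j) hWa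
    · rw [h1, h2]
      exact hmin

end Vale.Agent.P002R
end

section

/-!
# P002, genus 1: twist flows along the first handle generator
-/

namespace Vale.Agent.P002R

open Matrix

variable {n r : ℕ}

/-- Exponential sums with distinct bases. -/
theorem expsum_eq_zero {M : Type*} (s : Finset M) (c x : M → ℂ)
    (hx : ∀ m ∈ s, ∀ m' ∈ s, x m = x m' → m = m')
    (h : ∀ k : ℕ, ∑ m ∈ s, c m * x m ^ k = 0) : ∀ m ∈ s, c m = 0 := by
  classical
  intro m hm
  have hp : ∀ p : Polynomial ℂ, ∑ m ∈ s, c m * p.eval (x m) = 0 := by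
    intro p
    induction p using Polynomial.induction_on' with
    | add p q hp hq =>
      simp only [Polynomial.eval_add, mul_add, Finset.sum_add_distrib, hp, hq, add_zero]
    | monomial k a =>
      have h1 : ∑ m ∈ s, c m * (Polynomial.monomial k a).eval (x m) =
          a * ∑ m ∈ s, c m * x m ^ k := by
        rw [Finset.mul_sum]
        refine Finset.sum_congr rfl fun m _ => ?_
        rw [Polynomial.eval_monomial]
        ring
      rw [h1, h, mul_zero]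
  have h1 := hp (∏ m' ∈ s.erase m, (Polynomial.X - Polynomial.C (x m')))
  rw [Finset.sum_eq_single m] at h1
  · rcases mul_eq_zero.1 h1 with h2 | h2
    · exact h2
    · exfalso
      rw [Polynomial.eval_prod, Finset.prod_eq_zero_iff] at h2
      obtain ⟨m', hm', h3⟩ := h2
      rw [Finset.mem_erase] at hm'
      rw [Polynomial.eval_sub, Polynomial.eval_X, Polynomial.eval_C, sub_eq_zero] at h3
      exact hm'.1 (hx m hm m' hm'.2 h3).symm
  · intro m' hm' hne
    rw [Polynomial.eval_prod, Finset.prod_eq_zero (Finset.mem_erase.2 ⟨hne, hm'⟩) (by simp only [Polynomial.eval_sub, Polynomial.eval_X, Polynomial.eval_C, sub_self]),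
      mul_zero]
  · intro h2
    exact absurd hm h2

/-- A polynomial that vanishes on the powers of a multiplicatively independent point. -/
theorem mv_eq_zero (G : MvPolynomial (Fin r) ℂ) (ν : Fin r → ℂ)
    (hind : ∀ m m' : Fin r → ℕ, ∏ i, ν i ^ m i = ∏ i, ν i ^ m' i → m = m')
    (h : ∀ k : ℕ, MvPolynomial.eval (fun i => ν i ^ k) G = 0) : G = 0 := by
  have h1 : ∀ m ∈ G.support, G.coeff m = 0 := by
    apply expsum_eq_zero G.support (fun m => G.coeff m) (fun m => ∏ i, ν i ^ m i)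
    · intro m _ m' _ h
      exact DFunLike.ext' (hind m m' h)
    · intro k
      rw [← h k, MvPolynomial.eval_eq']
      refine Finset.sum_congr rfl fun m _ => ?_
      congr 1
      rw [← Finset.prod_pow]
      refine Finset.prod_congr rfl fun i _ => ?_
      rw [← pow_mul, ← pow_mul, mul_comm]
  ext m
  by_cases hm : m ∈ G.support
  · rw [h1 m hm, MvPolynomial.coeff_zero]
  · rw [MvPolynomial.notMem_support_iff.1 hm, MvPolynomial.coeff_zero]

/-- the first handle generator -/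
abbrev kA : GenU 1 n := Sum.inl (0, false)

/-- the second handle generator -/
abbrev kB : GenU 1 n := Sum.inl (0, true)

theorem kA_ne_kB : (kA : GenU 1 n) ≠ kB := by
  intro h
  simp at h

/-- Substitution of `b a` for `b`. -/
noncomputable def twF (f : MvPolynomial (GenU 1 n × Fin r × Fin r) ℂ) :
    MvPolynomial (GenU 1 n × Fin r × Fin r) ℂ :=
  MvPolynomial.bind₁ (fun p => if p.1 = kB then
    ∑ l, MvPolynomial.X (kB, p.2.1, l) * MvPolynomial.X (kA, l, p.2.2)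
    else MvPolynomial.X p) f

theorem evalG_twF (y : FU 1 n →* (Mat r ℂ)ˣ)
    (f : MvPolynomial (GenU 1 n × Fin r × Fin r) ℂ) :
    evalG y (twF f) = evalG (flow y kB (y (FreeGroup.of kA))) f := by
  rw [evalG_eqn, evalG_eqn, twF, MvPolynomial.aeval_bind₁]
  congr 2
  funext p
  obtain ⟨k, i, j⟩ := p
  by_cases hk : k = kB
  · subst hk
    rw [if_pos rfl, flow_of, if_pos rfl, map_sum, Units.val_mul, Matrix.mul_apply]
    refine Finset.sum_congr rfl fun l _ => ?_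
    rw [map_mul, MvPolynomial.aeval_X, MvPolynomial.aeval_X]
  · rw [if_neg hk, flow_of, if_neg hk, MvPolynomial.aeval_X]

/-- The zero set of the vanishing ideal of a twist stable set is stable under the powers of the
twist. -/
theorem twist_pow_closure {D : Set (FU 1 n →* (Mat r ℂ)ˣ)}
    (hD : ∀ y ∈ D, flow y kB (y (FreeGroup.of kA)) ∈ D) {z : FU 1 n →* (Mat r ℂ)ˣ}
    (hz : ∀ f : MvPolynomial (GenU 1 n × Fin r × Fin r) ℂ, (∀ y ∈ D, evalG y f = 0) →
      evalG z f = 0) (k : ℕ) :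
    ∀ f : MvPolynomial (GenU 1 n × Fin r × Fin r) ℂ, (∀ y ∈ D, evalG y f = 0) →
      evalG (flow z kB (z (FreeGroup.of kA) ^ k)) f = 0 := by
  induction k with
  | zero =>
    intro f hf
    rw [pow_zero]
    have h1 : flow z kB 1 = z := by
      ext1 l
      rw [flow_of, mul_one]
      split_ifs with h
      · rw [h]
      · rfl
    rw [h1]
    exact hz f hf
  | succ k ih =>
    intro f hf
    have h1 := ih (twF f) (fun y hy => by
      rw [evalG_twF]
      exact hf _ (hD y hy))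
    rw [evalG_twF] at h1
    have h2 : flow (flow z kB (z (FreeGroup.of kA) ^ k)) kB
        (flow z kB (z (FreeGroup.of kA) ^ k) (FreeGroup.of kA)) =
        flow z kB (z (FreeGroup.of kA) ^ (k + 1)) := by
      ext1 l
      rw [flow_of z kB (z (FreeGroup.of kA) ^ (k + 1)), flow_of (flow _ _ _), flow_of, flow_of,
        flow_of, if_neg kA_ne_kB, if_pos rfl]
      split_ifs with h
      · rw [pow_succ, mul_assoc]
      · rfl
    rwa [h2] at h1

/-- FLOW STEP: the zero set of the vanishing ideal of a twist stable set is stable under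
`b ↦ b P`, if `P` is diagonal in the eigenbasis of `a` and the eigenvalues of `a` are
multiplicatively independent. -/
theorem twist_flow {D : Set (FU 1 n →* (Mat r ℂ)ˣ)}
    (hD : ∀ y ∈ D, flow y kB (y (FreeGroup.of kA)) ∈ D) {z : FU 1 n →* (Mat r ℂ)ˣ}
    (hz : ∀ f : MvPolynomial (GenU 1 n × Fin r × Fin r) ℂ, (∀ y ∈ D, evalG y f = 0) →
      evalG z f = 0)
    {A : Mat r ℂ} {ν : Fin r → ℂ} (hA : IsUnit A)
    (heig : mt z (Sum.inr false) * A = A * diagonal ν)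
    (hind : ∀ m m' : Fin r → ℕ, ∏ i, ν i ^ m i = ∏ i, ν i ^ m' i → m = m')
    (P : (Mat r ℂ)ˣ) (w : Fin r → ℂ) (hP : (P : Mat r ℂ) * A = A * diagonal w) :
    ∀ f : MvPolynomial (GenU 1 n × Fin r × Fin r) ℂ, (∀ y ∈ D, evalG y f = 0) →
      evalG (flow z kB P) f = 0 := by
  intro f hf
  have hAd : IsUnit A.det := (Matrix.isUnit_iff_isUnit_det _).1 hA
  obtain ⟨b, hb⟩ : ∃ b : Mat r ℂ, b = (z (FreeGroup.of kB) : Mat r ℂ) := ⟨_, rfl⟩
  -- the family
  obtain ⟨G, hG⟩ : ∃ G : MvPolynomial (Fin r) ℂ, G = MvPolynomial.bind₁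
      (fun p : GenU 1 n × Fin r × Fin r => if p.1 = kB then
        ∑ l, MvPolynomial.C ((b * A) p.2.1 l) * MvPolynomial.X l * MvPolynomial.C (A⁻¹ l p.2.2)
        else MvPolynomial.C ((z (FreeGroup.of p.1) : Mat r ℂ) p.2.1 p.2.2)) f := ⟨_, rfl⟩
  have key : ∀ (Q : (Mat r ℂ)ˣ) (v : Fin r → ℂ), (Q : Mat r ℂ) * A = A * diagonal v →
      evalG (flow z kB Q) f = MvPolynomial.eval v G := by
    intro Q v hQ
    have hQ' : (Q : Mat r ℂ) = A * diagonal v * A⁻¹ := by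
      rw [← hQ, Matrix.mul_assoc, Matrix.mul_nonsing_inv _ hAd, Matrix.mul_one]
    rw [evalG_eqn, hG, ← MvPolynomial.coe_aeval_eq_eval, RingHom.coe_coe,
      MvPolynomial.aeval_bind₁]
    congr 2
    funext p
    obtain ⟨k, i, j⟩ := p
    by_cases hk : k = kB
    · subst hk
      rw [if_pos rfl, flow_of, if_pos rfl, map_sum, Units.val_mul, hQ', ← hb,
        ← Matrix.mul_assoc, ← Matrix.mul_assoc, Matrix.mul_apply]
      refine Finset.sum_congr rfl fun l _ => ?_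
      rw [map_mul, map_mul, MvPolynomial.aeval_X, MvPolynomial.aeval_C, MvPolynomial.aeval_C,
        Matrix.mul_diagonal]
      rfl
    · rw [if_neg hk, flow_of, if_neg hk, MvPolynomial.aeval_C]
      rfl
  have hG0 : G = 0 := by
    apply mv_eq_zero G ν hind
    intro k
    rw [← key (z (FreeGroup.of kA) ^ k) (fun i => ν i ^ k)]
    · exact twist_pow_closure hD hz k f hf
    · rw [Units.val_pow_eq_pow_val]
      have h1 : (z (FreeGroup.of kA) : Mat r ℂ) * A = A * diagonal ν := heig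
      have h2 : diagonal (fun i => ν i ^ k) = (diagonal ν) ^ k := by
        rw [Matrix.diagonal_pow]
        rfl
      rw [h2]
      clear h2
      induction k with
      | zero => rw [pow_zero, pow_zero, Matrix.one_mul, Matrix.mul_one]
      | succ k ih =>
        rw [pow_succ', pow_succ', Matrix.mul_assoc, ih, ← Matrix.mul_assoc, h1,
          Matrix.mul_assoc]
  rw [key P w hP, hG0, map_zero]

/-! ### Stability of the integral points -/

theorem flow_kB_relator (y : FU 1 n →* (Mat r ℂ)ˣ) (P : (Mat r ℂ)ˣ)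
    (hP : Commute (y (FreeGroup.of kA)) P) :
    flow y kB P (relatorU 1 n) = y (relatorU 1 n) := by
  rw [relatorU_eqn, map_mul, map_mul, map_list_prod, map_list_prod, map_list_prod, map_list_prod]
  congr 1
  · congr 1
    rw [List.map_ofFn, List.map_ofFn]
    congr 1
    funext j
    simp only [Function.comp_apply]
    rw [flow_of, if_neg (by simp)]
  · simp only [List.ofFn_succ (n := 0), List.ofFn_zero, List.map_cons, List.map_nil,
      List.prod_nil, List.prod_cons, mul_one, map_mul, map_inv]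
    rw [flow_of, flow_of, if_neg (by simp), if_pos (by simp)]
    have h1 : y (FreeGroup.of (Sum.inl (0, false))) * P =
        P * y (FreeGroup.of (Sum.inl (0, false))) := hP
    have h2 : P * (y (FreeGroup.of (Sum.inl (0, false))))⁻¹ =
        (y (FreeGroup.of (Sum.inl (0, false))))⁻¹ * P := by
      rw [mul_inv_eq_iff_eq_mul, mul_assoc, ← h1, inv_mul_cancel_left]
    rw [_root_.mul_inv_rev]
    simp only [mul_assoc]
    rw [← mul_assoc P, h2, mul_assoc, ← mul_assoc P P⁻¹, mul_inv_cancel, one_mul]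

theorem flow_kB_inr (y : FU 1 n →* (Mat r ℂ)ˣ) (P : (Mat r ℂ)ˣ) (j : Fin n) :
    flow y kB P (FreeGroup.of (Sum.inr j)) = y (FreeGroup.of (Sum.inr j)) := by
  rw [flow_of, if_neg (by simp)]

theorem flow_kB_kA (y : FU 1 n →* (Mat r ℂ)ˣ) (P : (Mat r ℂ)ˣ) :
    flow y kB P (FreeGroup.of kA) = y (FreeGroup.of kA) := by
  rw [flow_of, if_neg kA_ne_kB]

theorem flow_kB_kB (y : FU 1 n →* (Mat r ℂ)ˣ) (P : (Mat r ℂ)ˣ) :
    flow y kB P (FreeGroup.of kB) = y (FreeGroup.of kB) * P := by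
  rw [flow_of, if_pos rfl]

/-- integral points: relation, classes, values in a subgroup -/
theorem twist_mem_general (C : Fin n → (Mat r ℂ)ˣ) (G : Subgroup (Mat r ℂ)ˣ)
    (y : FU 1 n →* (Mat r ℂ)ˣ) (h1 : y (relatorU 1 n) = 1)
    (h2 : ∀ j, IsConj (C j) (y (FreeGroup.of (Sum.inr j))))
    (h3 : ∀ k, y (FreeGroup.of k) ∈ G) :
    flow y kB (y (FreeGroup.of kA)) (relatorU 1 n) = 1 ∧
      (∀ j, IsConj (C j) (flow y kB (y (FreeGroup.of kA)) (FreeGroup.of (Sum.inr j)))) ∧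
      ∀ k, flow y kB (y (FreeGroup.of kA)) (FreeGroup.of k) ∈ G := by
  refine ⟨?_, fun j => ?_, fun k => ?_⟩
  · rw [flow_kB_relator _ _ (Commute.refl _), h1]
  · rw [flow_kB_inr]
    exact h2 j
  · rw [flow_of]
    split_ifs with hk
    · exact G.mul_mem (h3 _) (h3 _)
    · exact h3 _

end Vale.Agent.P002R
end

section

/-!
# P002, genus 1, arbitrary classes: reduction to prescribed eigenvalues of the second handle matrix
-/

namespace Vale.Agent.P002R

open Matrix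

variable {n r : ℕ}

/-- The characteristic polynomial of the inverse. -/
theorem charpoly_inv_prod (M M' : Mat r ℂ) (hM : M' * M = 1) (c : Fin r → ℂ)
    (hc : ∀ i, c i ≠ 0)
    (h : M.charpoly = ∏ i, (Polynomial.X - Polynomial.C (c i))) :
    M'.charpoly = ∏ i, (Polynomial.X - Polynomial.C (c i)⁻¹) := by
  have hdet : M.det = ∏ i, c i := by
    have h1 : M.charpoly.eval 0 = ∏ i, (0 - c i) := by
      rw [h, Polynomial.eval_prod]
      refine Finset.prod_congr rfl fun i _ => ?_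
      rw [Polynomial.eval_sub, Polynomial.eval_X, Polynomial.eval_C]
    rw [Matrix.eval_charpoly] at h1
    have h2 : (scalar (Fin r) (0 : ℂ) - M).det = (-1) ^ r * M.det := by
      rw [map_zero, zero_sub, Matrix.det_neg, Fintype.card_fin]
    rw [h2] at h1
    have h3 : ∏ i, (0 - c i) = (-1) ^ r * ∏ i, c i := by
      have : ∀ i, 0 - c i = (-1) * c i := fun i => by ring
      simp only [this]
      rw [Finset.prod_mul_distrib, Finset.prod_const, Finset.card_univ, Fintype.card_fin]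
    rw [h3] at h1
    exact mul_left_cancel₀ (pow_ne_zero _ (by norm_num)) h1
  have hdet0 : M.det ≠ 0 := by
    rw [hdet]
    exact Finset.prod_ne_zero_iff.2 fun i _ => hc i
  apply Polynomial.eq_of_infinite_eval_eq
  refine Set.Infinite.mono (s := ({0} : Set ℂ)ᶜ) ?_ (Set.finite_singleton 0).infinite_compl
  intro x hx
  have hx0 : x ≠ 0 := hx
  show M'.charpoly.eval x = (∏ i, (Polynomial.X - Polynomial.C (c i)⁻¹)).eval x
  rw [Matrix.eval_charpoly, Polynomial.eval_prod]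
  apply mul_right_cancel₀ hdet0
  rw [← Matrix.det_mul]
  have h1 : (scalar (Fin r) x - M') * M = (-x) • (scalar (Fin r) x⁻¹ - M) := by
    rw [Matrix.sub_mul, hM, Matrix.scalar_apply, Matrix.scalar_apply,
      ← Matrix.smul_one_eq_diagonal, ← Matrix.smul_one_eq_diagonal, smul_sub, smul_smul,
      Matrix.smul_mul, Matrix.one_mul, neg_mul, mul_inv_cancel₀ hx0, neg_smul, neg_smul, one_smul]
    abel
  rw [h1, Matrix.det_smul, ← Matrix.eval_charpoly, h, Polynomial.eval_prod, Fintype.card_fin,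
    hdet, ← Finset.prod_mul_distrib]
  have h2 : (-x) ^ r = ∏ _i : Fin r, (-x) := by
    rw [Finset.prod_const, Finset.card_univ, Fintype.card_fin]
  rw [h2, ← Finset.prod_mul_distrib]
  refine Finset.prod_congr rfl fun i _ => ?_
  rw [Polynomial.eval_sub, Polynomial.eval_X, Polynomial.eval_C, Polynomial.eval_sub,
    Polynomial.eval_X, Polynomial.eval_C]
  have := hc i
  field_simp
  ring

/-- REDUCTION: if the representations (irreducible, with the prescribed classes, not all scalar)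
whose second handle matrix has the eigenvalues `ω` are in the closure of the twist stable set `D`,
then all irreducible representations are. -/
theorem irr_of_fibre (hr : 0 < r) (C : Fin n → (Mat r ℂ)ˣ) (j₀ : Fin n)
    (hns : ∀ μ : ℂ, (C j₀ : Mat r ℂ) ≠ μ • (1 : Mat r ℂ))
    {D : Set (FU 1 n →* (Mat r ℂ)ˣ)}
    (hD : ∀ y ∈ D, flow y kB (y (FreeGroup.of kA)) ∈ D)
    (ω : Fin r → ℂ) (hω : ∀ i, ω i ≠ 0)
    (hfib : ∀ z : FU 1 n →* (Mat r ℂ)ˣ, z (relatorU 1 n) = 1 →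
      (∀ j, IsConj (C j) (z (FreeGroup.of (Sum.inr j)))) →
      Algebra.adjoin ℂ (Set.range fun w => (z w : Mat r ℂ)) = ⊤ →
      (z (FreeGroup.of kB) : Mat r ℂ).charpoly =
        ∏ i, (Polynomial.X - Polynomial.C (ω i)) →
      ∀ f : MvPolynomial (GenU 1 n × Fin r × Fin r) ℂ, (∀ y ∈ D, evalG y f = 0) →
        evalG z f = 0)
    (x : FU 1 n →* (Mat r ℂ)ˣ) (hrel : x (relatorU 1 n) = 1)
    (hcl : ∀ j, IsConj (C j) (x (FreeGroup.of (Sum.inr j))))
    (hadj : Algebra.adjoin ℂ (Set.range fun w => (x w : Mat r ℂ)) = ⊤)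
    (f : MvPolynomial (GenU 1 n × Fin r × Fin r) ℂ) (hf : ∀ y ∈ D, evalG y f = 0) :
    evalG x f = 0 := by
  by_contra hxf
  obtain ⟨z, A, ν, hzf, hzr, hzC, -, hG⟩ := exists_genRep hr C j₀ hns x hrel hcl hadj f hxf
  have hAd : IsUnit A.det := (Matrix.isUnit_iff_isUnit_det _).1 hG.unit
  have hAA : A * A⁻¹ = 1 := Matrix.mul_nonsing_inv _ hAd
  have hAA' : A⁻¹ * A = 1 := Matrix.nonsing_inv_mul _ hAd
  obtain ⟨b, hb⟩ : ∃ b : Mat r ℂ, b = (z (FreeGroup.of kB) : Mat r ℂ) := ⟨_, rfl⟩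
  have hbu : IsUnit b := by rw [hb]; exact Units.isUnit _
  have hbd : IsUnit b.det := (Matrix.isUnit_iff_isUnit_det _).1 hbu
  obtain ⟨N, hN⟩ : ∃ N : Mat r ℂ, N = A⁻¹ * b⁻¹ * A := ⟨_, rfl⟩
  have hmin : ∀ S : Finset (Fin r),
      (N.submatrix (Subtype.val : S → Fin r) Subtype.val).det ≠ 0 := by
    intro S
    have h1 := hG.minor [] (List.finRange n) rfl S.card (fun k => (S.equivFin.symm k : Fin r))
      (fun k => (S.equivFin.symm k : Fin r))
      (Subtype.val_injective.comp S.equivFin.symm.injective)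
      (Subtype.val_injective.comp S.equivFin.symm.injective)
    rw [List.map_nil, List.prod_nil, Matrix.mul_one, Matrix.mul_inv_rev] at h1
    have h2 : mt z (Sum.inr true) = b := by rw [hb]; rfl
    rw [h2, ← hN] at h1
    have h3 : N.submatrix (fun k => (S.equivFin.symm k : Fin r))
        (fun k => (S.equivFin.symm k : Fin r)) =
        (N.submatrix (Subtype.val : S → Fin r) Subtype.val).submatrix S.equivFin.symm
          S.equivFin.symm := rfl
    rw [h3, Matrix.det_submatrix_equiv_self] at h1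
    exact h1
  have hdeg : (∏ i : Fin r, (Polynomial.X - Polynomial.C (ω i)⁻¹)).natDegree = r := by
    rw [Polynomial.natDegree_prod_of_monic _ _ fun i _ => Polynomial.monic_X_sub_C _]
    simp only [Polynomial.natDegree_sub_C, Polynomial.natDegree_X, Finset.sum_const, Finset.card_univ, Fintype.card_fin, smul_eq_mul, mul_one]
  obtain ⟨w, hw0, hw⟩ := P002G.InvEig.inv_eig N hmin
    (∏ i : Fin r, (Polynomial.X - Polynomial.C (ω i)⁻¹))
    (Polynomial.monic_prod_of_monic _ _ fun i _ => Polynomial.monic_X_sub_C _)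
    hdeg (by
      rw [Polynomial.coeff_zero_eq_eval_zero, Polynomial.eval_prod]
      refine Finset.prod_ne_zero_iff.2 fun i _ => ?_
      rw [Polynomial.eval_sub, Polynomial.eval_X, Polynomial.eval_C, zero_sub]
      exact neg_ne_zero.2 (inv_ne_zero (hω i)))
  -- the flow
  have hww : diagonal (fun i => (w i)⁻¹) * diagonal w = (1 : Mat r ℂ) := by
    rw [Matrix.diagonal_mul_diagonal, ← Matrix.diagonal_one]
    congr 1
    funext i
    exact inv_mul_cancel₀ (hw0 i)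
  have hww' : diagonal w * diagonal (fun i => (w i)⁻¹) = (1 : Mat r ℂ) := by
    rw [Matrix.diagonal_mul_diagonal, ← Matrix.diagonal_one]
    congr 1
    funext i
    exact mul_inv_cancel₀ (hw0 i)
  obtain ⟨P, hP1, hP2⟩ : ∃ P : (Mat r ℂ)ˣ, (P : Mat r ℂ) = A * diagonal (fun i => (w i)⁻¹) * A⁻¹ ∧
      ((P⁻¹ : (Mat r ℂ)ˣ) : Mat r ℂ) = A * diagonal w * A⁻¹ := by
    refine ⟨⟨A * diagonal (fun i => (w i)⁻¹) * A⁻¹, A * diagonal w * A⁻¹, ?_, ?_⟩, rfl, rfl⟩
    · calc _ = A * diagonal (fun i => (w i)⁻¹) * (A⁻¹ * A) * diagonal w * A⁻¹ := by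
            simp only [Matrix.mul_assoc]
        _ = A * (diagonal (fun i => (w i)⁻¹) * diagonal w) * A⁻¹ := by
            rw [hAA', Matrix.mul_one]
            simp only [Matrix.mul_assoc]
        _ = 1 := by rw [hww, Matrix.mul_one, hAA]
    · calc _ = A * diagonal w * (A⁻¹ * A) * diagonal (fun i => (w i)⁻¹) * A⁻¹ := by
            simp only [Matrix.mul_assoc]
        _ = A * (diagonal w * diagonal (fun i => (w i)⁻¹)) * A⁻¹ := by
            rw [hAA', Matrix.mul_one]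
            simp only [Matrix.mul_assoc]
        _ = 1 := by rw [hww', Matrix.mul_one, hAA]
  have hPA : (P : Mat r ℂ) * A = A * diagonal (fun i => (w i)⁻¹) := by
    rw [hP1, Matrix.mul_assoc, hAA', Matrix.mul_one]
  have hPA' : ((P⁻¹ : (Mat r ℂ)ˣ) : Mat r ℂ) * A = A * diagonal w := by
    rw [hP2, Matrix.mul_assoc, hAA', Matrix.mul_one]
  have hcomm : Commute (z (FreeGroup.of kA)) P := by
    have h1 : (z (FreeGroup.of kA) : Mat r ℂ) * A = A * diagonal ν := hG.eig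
    have h2 : (z (FreeGroup.of kA) : Mat r ℂ) = A * diagonal ν * A⁻¹ := by
      rw [← h1, Matrix.mul_assoc, hAA, Matrix.mul_one]
    apply Units.ext
    rw [Units.val_mul, Units.val_mul, h2, hP1]
    calc _ = A * diagonal ν * (A⁻¹ * A) * diagonal (fun i => (w i)⁻¹) * A⁻¹ := by
            simp only [Matrix.mul_assoc]
      _ = A * (diagonal ν * diagonal (fun i => (w i)⁻¹)) * A⁻¹ := by
            rw [hAA', Matrix.mul_one]
            simp only [Matrix.mul_assoc]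
      _ = A * (diagonal (fun i => (w i)⁻¹) * diagonal ν) * A⁻¹ := by
            rw [Matrix.diagonal_mul_diagonal, Matrix.diagonal_mul_diagonal]
            congr 3
            funext i
            ring
      _ = A * diagonal (fun i => (w i)⁻¹) * (A⁻¹ * A) * diagonal ν * A⁻¹ := by
            rw [hAA', Matrix.mul_one]
            simp only [Matrix.mul_assoc]
      _ = _ := by simp only [Matrix.mul_assoc]
  obtain ⟨z', hz'⟩ : ∃ z', z' = flow z kB P := ⟨_, rfl⟩
  have hz'A : z' (FreeGroup.of kA) = z (FreeGroup.of kA) := by rw [hz', flow_kB_kA]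
  have hz'r : z' (relatorU 1 n) = 1 := by rw [hz', flow_kB_relator _ _ hcomm, hzr]
  have hz'c : ∀ j, z' (FreeGroup.of (Sum.inr j)) = z (FreeGroup.of (Sum.inr j)) := fun j => by
    rw [hz', flow_kB_inr]
  have hz'top : Algebra.adjoin ℂ (Set.range fun w => (z' w : Mat r ℂ)) = ⊤ := by
    apply adjoin_top_of_simple hr
    intro W hW
    refine hG.irr W (fun j v hv => ?_) (fun v hv => ?_)
    · have h1 := hW (FreeGroup.of (Sum.inr j)) v hv
      rw [hz'c] at h1
      exact h1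
    · have h1 := hW (FreeGroup.of kA) v hv
      rw [hz'A] at h1
      exact h1
  have hz'b : (z' (FreeGroup.of kB) : Mat r ℂ) = b * (P : Mat r ℂ) := by
    rw [hz', flow_kB_kB, Units.val_mul, hb]
  have hz'ch : (z' (FreeGroup.of kB) : Mat r ℂ).charpoly =
      ∏ i, (Polynomial.X - Polynomial.C (ω i)) := by
    have h1 : (((P⁻¹ : (Mat r ℂ)ˣ) : Mat r ℂ) * b⁻¹).charpoly =
        ∏ i, (Polynomial.X - Polynomial.C (ω i)⁻¹) := by
      rw [← hw, hP2, hN]
      calc (A * diagonal w * A⁻¹ * b⁻¹).charpoly = (A * (diagonal w * A⁻¹ * b⁻¹)).charpoly := by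
            simp only [Matrix.mul_assoc]
        _ = ((diagonal w * A⁻¹ * b⁻¹) * A).charpoly := Matrix.charpoly_mul_comm _ _
        _ = (diagonal w * (A⁻¹ * b⁻¹ * A)).charpoly := by simp only [Matrix.mul_assoc]
        _ = _ := Matrix.charpoly_mul_comm _ _
    have h2 := charpoly_inv_prod (((P⁻¹ : (Mat r ℂ)ˣ) : Mat r ℂ) * b⁻¹)
      (z' (FreeGroup.of kB) : Mat r ℂ) (by
        rw [hz'b]
        calc b * (P : Mat r ℂ) * (((P⁻¹ : (Mat r ℂ)ˣ) : Mat r ℂ) * b⁻¹) =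
            b * ((P : Mat r ℂ) * ((P⁻¹ : (Mat r ℂ)ˣ) : Mat r ℂ)) * b⁻¹ := by
              simp only [Matrix.mul_assoc]
          _ = 1 := by rw [Units.mul_inv, Matrix.mul_one, Matrix.mul_nonsing_inv _ hbd])
      (fun i => (ω i)⁻¹) (fun i => inv_ne_zero (hω i)) h1
    simpa only [inv_inv] using h2
  have hclo := hfib z' hz'r (fun j => by rw [hz'c]; exact hzC j) hz'top hz'ch
  have hback := twist_flow hD hclo hG.unit (by
    rw [mt_inr, hz'A]
    exact hG.eig) hG.indep P⁻¹ w hPA' f hf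
  apply hzf
  have h1 : flow z' kB P⁻¹ = z := by
    ext1 l
    rw [flow_of]
    split_ifs with hl
    · rw [hz', flow_kB_kB, mul_inv_cancel_right, hl]
    · rw [hz', flow_of, if_neg hl]
  rwa [h1] at hback

end Vale.Agent.P002R
end

section

/-!
# Genus one: all classes
-/

namespace Vale.Agent.P002R

open Matrix Polynomial

/-- Conditions on the coefficient ring in genus one. -/
def TorOK {R₃ : Type} [CommRing R₃] (φ₃ : R₃ →+* ℂ) (E : Subgroup ℂˣ) (r : ℕ) : Prop :=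
  ∃ (R₁ R₂ : Type) (_ : CommRing R₁) (_ : CommRing R₂) (φ₁ : R₁ →+* ℂ) (φ₂ : R₂ →+* ℂ)
    (ι₁ : R₁ →+* R₂) (ι₂ : R₂ →+* R₃) (E' : Subgroup ℂˣ) (ω : Fin r → R₁),
    (∀ a, φ₂ (ι₁ a) = φ₁ a) ∧ (∀ a, φ₃ (ι₂ a) = φ₂ a) ∧ Function.Injective φ₂ ∧ Prin ι₁ ∧
    (∀ r' ≤ r, 0 < r' → ∀ u : R₂ˣ, ∃ c : R₃ˣ, ι₂ (u : R₂) = (c : R₃) ^ r') ∧
    E ≤ E' ∧ CoefOK φ₁ E' r ∧
    (∀ (u : R₁ˣ) (D : R₁), D ≠ 0 → ∃ M : ℕ, 0 < M ∧ D ∣ (u : R₁) ^ M - 1) ∧
    (∀ i, ∃ e ∈ E', (e : ℂ) = φ₁ (ω i)) ∧ (∀ i j, i ≠ j → IsUnit (ω i - ω j)) ∧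
    ∀ (I J : Finset (Fin r)), (∃ ε ∈ E, ∏ i ∈ I, φ₁ (ω i) = (ε : ℂ) * ∏ j ∈ J, φ₁ (ω j)) → I = J

theorem TorOK.mono {R₃ : Type} [CommRing R₃] {φ₃ : R₃ →+* ℂ} {E : Subgroup ℂˣ} {r r' : ℕ}
    (h : TorOK φ₃ E r) (hr : r' ≤ r) : TorOK φ₃ E r' := by
  obtain ⟨R₁, R₂, i₁, i₂, φ₁, φ₂, ι₁, ι₂, E', ω, h1, h2, h3, h4, h5, h6, h7, h8, h9, h10, h11⟩ := h
  refine ⟨R₁, R₂, i₁, i₂, φ₁, φ₂, ι₁, ι₂, E', fun i => ω (Fin.castLE hr i), h1, h2, h3, h4,
    fun s hs => h5 s (hs.trans hr), h6, h7.mono hr, h8, fun i => h9 _, fun i j hij => h10 _ _ ?_,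
    fun I J h => ?_⟩
  · intro h
    exact hij (Fin.castLE_injective hr h)
  · have h12 := h11 (I.map (Fin.castLEEmb hr)) (J.map (Fin.castLEEmb hr)) (by
      simpa only [Finset.prod_map, Fin.castLEEmb_apply] using h)
    exact Finset.map_injective _ h12

/-- The main theorem in genus one, all classes. -/
theorem g1_all (hG : G02Irr) {m r : ℕ} (hr : 0 < r) {R₃ : Type} [CommRing R₃] (φ₃ : R₃ →+* ℂ)
    (E : Subgroup ℂˣ) (hT : TorOK φ₃ E r) (hc₃ : CoefOK φ₃ E r) (Cl : Fin (m + 1) → (Mat r ℂ)ˣ)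
    (hE : ∀ j, EigIn E (Cl j : Mat r ℂ)) (x : FU 1 (m + 1) →* (Mat r ℂ)ˣ)
    (hx : x ∈ YG ({relatorU 1 (m + 1)} : Set (FreeGroup ((Fin 1 × Bool) ⊕ Fin (m + 1)))) Cl)
    (hirr : ∀ M : Mat r ℂ, (∀ w, Commute M (x w : Mat r ℂ)) → ∃ c : ℂ, M = c • (1 : Mat r ℂ))
    (f : MvPolynomial (((Fin 1 × Bool) ⊕ Fin (m + 1)) × Fin r × Fin r) ℂ)
    (hf : ∀ y ∈ DGT ({relatorU 1 (m + 1)} : Set (FreeGroup ((Fin 1 × Bool) ⊕ Fin (m + 1)))) φ₃ Cl,
      evalG y f = 0) : evalG x f = 0 := by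
  by_cases hsc : ∀ j, ∃ μ : ℂ, (Cl j : Mat r ℂ) = μ • (1 : Mat r ℂ)
  · exact scalar_case hr φ₃ E hc₃ Cl hE hsc x hx hirr f hf
  push Not at hsc
  obtain ⟨j₀, hns⟩ := hsc
  obtain ⟨hx1, hx2, hx3⟩ := hx
  have hadj := adjoin_top_of_irr x hx3 hirr
  obtain ⟨R₁, R₂, i₁, i₂, φ₁, φ₂, ι₁, ι₂, E', ω, h1, h2, h3, h4, h5, h6, h7, h8, h9, h10, h11⟩ := hT
  refine upgrade x hadj (DTor φ₃ Cl) (fun f' hf' => ?_) f fun y hy hadj' => ?_
  · refine irr_of_fibre hr Cl j₀ hns (D := DTor φ₃ Cl) (fun y hy => ?_) (fun i => φ₁ (ω i))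
      (fun i => ?_) (fun z hz1 hz2 hz3 hz4 f'' hf'' => ?_) x (hx1 _ rfl) hx2 hadj f' hf'
    · exact twist_mem_general Cl (GR r φ₃) y hy.1 hy.2.1 hy.2.2
    · obtain ⟨e, _, he⟩ := h9 i
      rw [← he]
      exact e.ne_zero
    · exact fibre_density hG hr ι₁ h1 ι₂ h2 h3 h4 (h5 r le_rfl hr) h6 h7 h8 ω h9 h10 h11 Cl hE z
        hz1 hz2 hz3 hz4 f'' hf''
  · refine hf y ⟨⟨⟨?_, hy.2.1, ss_of_adjoin y hadj'⟩, hy.2.2⟩, hadj'⟩
    rintro w rfl
    exact hy.1

/-- Punctured tori. -/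
theorem g1_irrDenseAll (hG : G02Irr) {n r : ℕ} (hn : 0 < n) {R : Type} [CommRing R]
    (φ : R →+* ℂ) (E : Subgroup ℂˣ) (hT : TorOK φ E r) (hc : CoefOK φ E r)
    {Q : Fin n → ∀ r : ℕ, Mat r ℂ → Prop} (hE : ∀ j r M, Q j r M → EigIn E M) :
    ∀ r' ≤ r, 0 < r' →
      IrrDenseQ Q ({relatorU 1 n} : Set (FreeGroup ((Fin 1 × Bool) ⊕ Fin n))) φ r' := by
  intro r' hr' hr'0
  obtain ⟨m, rfl⟩ : ∃ m, n = m + 1 := ⟨n - 1, by omega⟩
  intro C hC x hx hirr f hf
  exact g1_all hG hr'0 φ E (hT.mono hr') (hc.mono hr') C (fun j => hE _ _ _ (hC j)) x hx hirr f hf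

end Vale.Agent.P002R
end

section

/-!
# The number fields for genus one
-/

namespace Vale.Agent.P002R

open NumberField

theorem CoefOK.group_mono {R : Type*} [CommRing R] {φ : R →+* ℂ} {E E' : Subgroup ℂˣ} {r : ℕ}
    (hc : CoefOK φ E' r) (h : E ≤ E') (hneg : (-1 : ℂˣ) ∈ E) : CoefOK φ E r := by
  refine ⟨hc.inj, hneg, fun k hk hkr z hz => hc.root k hk hkr z (h hz), ?_⟩
  obtain ⟨u, hu⟩ := hc.unit
  exact ⟨u, fun k hk hmem => hu k hk (h hmem)⟩

/-- Integral elements of `ℂ` in the field are in the ring of integers. -/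
theorem exists_O {L : IntermediateField ℚ ℂ} {z : ℂ} (hz : z ∈ L) (hint : IsIntegral ℤ z) :
    ∃ w : 𝓞 L, phiO (algebraMap L ℂ) w = z := by
  have hint' : IsIntegral ℤ (⟨z, hz⟩ : L) := by
    rw [← isIntegral_algebraMap_iff (A := L) (B := ℂ) (algebraMap L ℂ).injective]
    exact hint
  obtain ⟨w, hw⟩ : ∃ w : 𝓞 L, w = ⟨⟨z, hz⟩, hint'⟩ := ⟨_, rfl⟩
  exact ⟨w, by rw [hw]; rfl⟩

theorem mem_of_phiO {L : IntermediateField ℚ ℂ} (w : 𝓞 L) : phiO (algebraMap L ℂ) w ∈ L :=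
  ((w : L) : L).2

/-- The number field for genus one. -/
theorem exists_tor_field (S : Set ℂˣ) (hS : S.Finite)
    (hint : ∀ z ∈ S, IsIntegral ℤ (z : ℂ) ∧ IsIntegral ℤ ((z⁻¹ : ℂˣ) : ℂ)) (r : ℕ) :
    ∃ L : IntermediateField ℚ ℂ, FiniteDimensional ℚ L ∧
      CoefOK (phiO (algebraMap L ℂ)) (Subgroup.closure (insert (-1) S)) r ∧
      TorOK (phiO (algebraMap L ℂ)) (Subgroup.closure (insert (-1) S)) r := by
  obtain ⟨E, hE⟩ : ∃ E, E = Subgroup.closure (insert (-1) S) := ⟨_, rfl⟩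
  rw [← hE]
  -- the field of the eigenvalues
  obtain ⟨K, hK, hcK⟩ := exists_field_E S hS hint (r + 1)
  rw [← hE] at hcK
  have hEK : ∀ e ∈ E, (e : ℂ) ∈ K := by
    intro e he
    obtain ⟨w, hw⟩ := hcK.root 1 one_pos (by omega) e (by rwa [pow_one])
    rw [← hw]
    exact mem_of_phiO w
  -- the exceptional units
  obtain ⟨ω, hω1, hω2, hω3⟩ := exists_omega r K
  obtain ⟨S', hS'⟩ : ∃ S', S' = S ∪ Set.range ω := ⟨_, rfl⟩
  have hS'f : S'.Finite := hS' ▸ hS.union (Set.finite_range ω)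
  have hint' : ∀ z ∈ S', IsIntegral ℤ (z : ℂ) ∧ IsIntegral ℤ ((z⁻¹ : ℂˣ) : ℂ) := by
    intro z hz
    rw [hS'] at hz
    rcases hz with hz | ⟨i, rfl⟩
    · exact hint z hz
    · rw [Units.val_inv_eq_inv_val]
      exact hω1 i
  obtain ⟨L₁, hL₁, hc₁⟩ := exists_field_E S' hS'f hint' r
  obtain ⟨E', hE'⟩ : ∃ E', E' = Subgroup.closure (insert (-1) S') := ⟨_, rfl⟩
  rw [← hE'] at hc₁
  have hEE : E ≤ E' := by
    rw [hE, hE', hS']
    exact Subgroup.closure_mono (Set.insert_subset_insert Set.subset_union_left)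
  have hneg : (-1 : ℂˣ) ∈ E := by
    rw [hE]
    exact Subgroup.subset_closure (Set.mem_insert _ _)
  have hωE : ∀ i, ω i ∈ E' := by
    intro i
    rw [hE', hS']
    exact Subgroup.subset_closure (Set.mem_insert_of_mem _ (Or.inr ⟨i, rfl⟩))
  obtain ⟨L₂, hL₂, h12, hprin⟩ := exists_prin_field L₁ hL₁
  obtain ⟨L₃, hL₃, h23, hroot⟩ := exists_root_field L₂ hL₂ r.factorial (Nat.factorial_pos r)
  have hc₂ : CoefOK (phiO (algebraMap L₂ ℂ)) E' r :=
    hc₁.ring_mono (iotaO h12) (phiO_iotaO h12) (phiO_injective _)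
  have hc₃ : CoefOK (phiO (algebraMap L₃ ℂ)) E' r :=
    hc₂.ring_mono (iotaO h23) (phiO_iotaO h23) (phiO_injective _)
  refine ⟨L₃, hL₃, hc₃.group_mono hEE hneg, ?_⟩
  have hω₁ : ∀ i, ∃ w : 𝓞 L₁, phiO (algebraMap L₁ ℂ) w = (ω i : ℂ) := by
    intro i
    obtain ⟨w, hw⟩ := hc₁.root 1 one_pos (Nat.succ_le_of_lt (lt_of_le_of_lt (Nat.zero_le _) i.2))
      (ω i) (by rw [pow_one]; exact hωE i)
    exact ⟨w, hw⟩
  choose w hw using hω₁
  refine ⟨𝓞 L₁, 𝓞 L₂, inferInstance, inferInstance, phiO (algebraMap L₁ ℂ),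
    phiO (algebraMap L₂ ℂ), iotaO h12, iotaO h23, E', w, phiO_iotaO h12, phiO_iotaO h23,
    phiO_injective _, hprin, fun r' hr' hr'0 u => ?_, hEE, hc₁, Product.hUP_field L₁ hL₁,
    fun i => ⟨ω i, hωE i, (hw i).symm⟩, fun i j hij => ?_, fun I J h => ?_⟩
  · refine exists_unit_root h23 r (fun u => ?_) r' hr' hr'0 u
    obtain ⟨z, hz⟩ := IsAlgClosed.exists_pow_nat_eq (phiO (algebraMap L₂ ℂ) (u : 𝓞 L₂))
      (Nat.factorial_pos r)
    exact ⟨z, hroot u z hz, hz⟩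
  · obtain ⟨hne, hinv⟩ := hω2 i j hij
    have h1 : (ω i : ℂ) - ω j ∈ L₁ := by
      rw [← hw, ← hw]
      exact L₁.sub_mem (mem_of_phiO _) (mem_of_phiO _)
    obtain ⟨v, hv⟩ := exists_O (L₁.inv_mem h1) hinv
    refine IsUnit.of_mul_eq_one v ?_
    apply phiO_injective (algebraMap L₁ ℂ)
    rw [map_mul, map_sub, hw, hw, hv, map_one]
    exact mul_inv_cancel₀ (sub_ne_zero.2 hne)
  · obtain ⟨ε, hε, h1⟩ := h
    refine hω3 I J (ε : ℂ) (hEK ε hε) ?_
    simpa only [hw] using h1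

end Vale.Agent.P002R
end

section

/-!
# P002, genus 0: the main theorem for irreducible representations, from total density
-/

namespace Vale.Agent.P002R

open Matrix

end Vale.Agent.P002R
end

section

/-!
# P002, genus 0: the main theorem for irreducible representations
-/

namespace Vale.Agent.P002R

end Vale.Agent.P002R
end

section

/-!
# Potential density of integral points for products of curves: spheres with three regular classes
-/

namespace Vale.Agent.P002R.Product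

open Matrix NumberField

theorem IsNonderogatory.hasCyc {r : ℕ} {M : SpecialLinearGroup (Fin r) ℂ}
    (h : IsNonderogatory M) : HasCyc r M.1 := by
  obtain ⟨v, hv⟩ := h
  refine ⟨v, fun W hW hWM => ?_⟩
  have h1 : ∀ k : ℕ, (M.1 ^ k) *ᵥ v ∈ W := by
    intro k
    induction k with
    | zero => rwa [pow_zero, Matrix.one_mulVec]
    | succ k ih =>
      rw [pow_succ', ← Matrix.mulVec_mulVec]
      exact hWM _ ih
  rcases Nat.eq_zero_or_pos r with hr | hr
  · subst hr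
    exact Subsingleton.elim _ _
  · have : Nonempty (Fin r) := ⟨⟨0, hr⟩⟩
    have h2 := hv.span_eq_top_of_card_eq_finrank (by simp only [Fintype.card_fin, Module.finrank_fintype_fun_eq_card])
    rw [eq_top_iff, ← h2, Submodule.span_le]
    rintro _ ⟨i, rfl⟩
    exact h1 i

end Vale.Agent.P002R.Product
end

section

/-!
# Potential density of integral points for products of curves: the final form
-/

namespace Vale.Agent.P002R.Product

open Matrix NumberField Vale.Agent.P002L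

variable {k r : ℕ} {g n : Fin k → ℕ}

theorem FRel_irrDense3 {R : Type} [CommRing R] (φ : R →+* ℂ) (E : Subgroup ℂˣ)
    (hc : CoefOK φ E r) (Q : ∀ i, Fin (n i) → ∀ r : ℕ, Mat r ℂ → Prop)
    (hQ : ∀ i j, ClassOK E (Q i j))
    (hI : ∀ i, ¬ OKCurve (g i) (n i) → ∀ r' ≤ r, 0 < r' →
      IrrDenseQ (fun j => Q i j)
        ({relatorU (g i) (n i)} : Set (FreeGroup ((Fin (g i) × Bool) ⊕ Fin (n i)))) φ r') :
    ∀ r' ≤ r, 0 < r' → IrrDenseQ (fun p : Σ i, Fin (n i) => Q p.1 p.2)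
      (FRel g n) φ r' := by
  refine fam_irrDenseQ φ E r k _ _ (fun i j => Q i j) hQ _ fun i r' hr' hr'0 => ?_
  by_cases h : 2 ≤ g i ∨ n i = 0
  · exact (surface_irrDense φ E hc h r' hr' hr'0).toQ fun j M hM => (hQ i j).eig hM
  by_cases h1 : g i = 0 ∧ n i ≤ 2
  · exact (abel_irrDense φ E _ (fun r'' x hx => surface_comm (Or.inl h1) r'' x hx) r' hr'0).toQ
      fun j M hM => (hQ i j).eig hM
  · have h2 : ¬ OKCurve (g i) (n i) := by
      unfold OKCurve
      omega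
    exact hI i h2 r' hr' hr'0

theorem density_EQ3 (C : ∀ i, Fin (n i) → SpecialLinearGroup (Fin r) ℂ) (E : Subgroup ℂˣ)
    (Q : ∀ i, Fin (n i) → ∀ r : ℕ, Mat r ℂ → Prop) (hQ : ∀ i j, ClassOK E (Q i j))
    (hC : ∀ i j, Q i j r ((C i j).1))
    (L : IntermediateField ℚ ℂ) (hL : FiniteDimensional ℚ L)
    (hc : CoefOK (phiO (algebraMap L ℂ)) E r)
    (hI : ∀ i, ¬ OKCurve (g i) (n i) → ∀ r' ≤ r, 0 < r' →
      IrrDenseQ (fun j => Q i j)
        ({relatorU (g i) (n i)} : Set (FreeGroup ((Fin (g i) × Bool) ⊕ Fin (n i))))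
        (phiO (algebraMap L ℂ)) r') :
    IsZariskiDenseRep {X ∈ Y g C | IsIntegralRep L X} (Y g C) := by
  have : NumberField L := { to_charZero := inferInstance, to_finiteDimensional := hL }
  obtain ⟨φ, hφ⟩ : ∃ φ, φ = phiO (algebraMap L ℂ) := ⟨_, rfl⟩
  rw [← hφ] at hc hI
  have hφi : Function.Injective φ := hc.inj
  obtain ⟨C', hC'⟩ : ∃ C' : ((i : Fin k) × Fin (n i)) → (Mat r ℂ)ˣ,
      C' = fun p => SpecialLinearGroup.toGL (C p.1 p.2) := ⟨_, rfl⟩
  refine ⟨fun _ hX => hX.1, fun F hF X hX => ?_⟩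
  rw [← evalG_toU]
  -- integral representations
  have key : ∀ y : FreeGroup (Gens g n) →* SpecialLinearGroup (Fin r) (𝓞 L),
      (∀ w ∈ FRel g n, y w = 1) →
      (∀ p, IsConj (C' p) (slU φ (y (FreeGroup.of (Sum.inr p))))) →
      SS ((slU φ).comp y) → evalG ((slU φ).comp y) F = 0 := by
    intro y hy hyC hyS
    obtain ⟨Z, hZ⟩ : ∃ Z : Gens g n → SpecialLinearGroup (Fin r) (𝓞 L),
        ∀ p, Z p = y (FreeGroup.of p) := ⟨_, fun _ => rfl⟩
    obtain ⟨X', hX'⟩ : ∃ X' : Gens g n → SpecialLinearGroup (Fin r) ℂ,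
        X' = fun p => SpecialLinearGroup.map (phiO (algebraMap L ℂ)) (Z p) := ⟨_, rfl⟩
    have h0 : FreeGroup.lift X' = (SpecialLinearGroup.map (phiO (algebraMap L ℂ))).comp y := by
      apply FreeGroup.ext_hom
      intro p
      rw [FreeGroup.lift_apply_of, hX', MonoidHom.comp_apply, ← hZ]
    have h1 : (slU φ).comp y = toU X' := by
      rw [toU, h0, hφ]; rfl
    rw [h1, evalG_toU]
    refine hF _ ⟨⟨⟨?_, ?_⟩, fun i j => Statement.isConj_toGL _ _ ?_⟩, ?_⟩
    · rw [isRep_iff]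
      intro w hw
      rw [h0, MonoidHom.comp_apply, hy w hw, map_one]
    · rw [← SS_toU, ← h1]; exact hyS
    · have := hyC ⟨i, j⟩
      rw [hC', ← MonoidHom.comp_apply, h1, toU_of] at this
      exact this
    · rw [hX']; exact isIntegralRep_map Z
  rcases Nat.eq_zero_or_pos r with hr | hr
  · subst hr
    have h1 : toU X = (slU φ).comp 1 := by
      ext w i
      exact i.elim0
    rw [h1]
    refine key 1 (fun w _ => rfl) (fun p => ?_) ?_
    · have : C' p = slU φ ((1 : FreeGroup (Gens g n) →* SpecialLinearGroup (Fin 0) (𝓞 L))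
          (FreeGroup.of (Sum.inr p))) := Units.ext (Subsingleton.elim _ _)
      rw [← this]
    · rw [← h1]; exact (SS_toU X).2 hX.1.2
  · have hEig : ∀ p : Σ i, Fin (n i), Q p.1 p.2 r (C' p : Mat r ℂ) := by
      intro p
      rw [hC']
      exact hC p.1 p.2
    have hYG : toU X ∈ YG (FRel g n) C' := by
      refine ⟨fun w hw => ?_, fun p => ?_, (SS_toU X).2 hX.1.2⟩
      · rw [toU, MonoidHom.comp_apply, (isRep_iff X).1 hX.1.1 w hw, map_one]
      · rw [hC', toU_of]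
        exact Statement.toGL_isConj _ _ (hX.2 p.1 p.2)
    obtain ⟨ζ, hζ⟩ := hc.root r hr le_rfl
      (Units.mk0 (Complex.exp (2 * Real.pi * Complex.I / r)) (Complex.exp_ne_zero _)) (by
        have h1 : (Units.mk0 (Complex.exp (2 * Real.pi * Complex.I / r))
            (Complex.exp_ne_zero _)) ^ r = 1 := by
          ext1
          rw [Units.val_pow_eq_pow_val, Units.val_mk0, Units.val_one,
            (Complex.isPrimitiveRoot_exp r hr.ne').pow_eq_one]
        rw [h1]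
        exact one_mem _)
    rw [Units.val_mk0] at hζ
    have hζp : IsPrimitiveRoot (φ ζ) r := by
      rw [hζ]
      exact Complex.isPrimitiveRoot_exp r hr.ne'
    refine unscaleG φ hφi ζ (hφi ?_) hζp hr (FRel g n) (FRel_charOK g n) C' ?_ F key (toU X) ?_
      fun f' hf' => partIVQ φ E (Q := fun p : Σ i, Fin (n i) => Q p.1 p.2)
        (fun p => hQ p.1 p.2) hc.weak (FRel g n) (FRel_charOK g n)
        (FRel_irrDense3 φ E hc Q hQ hI) C' hEig (toU X) hYG f' hf'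
    · rw [map_pow, map_one]
      exact hζp.pow_eq_one
    · intro p
      rw [hC']
      exact (C p.1 p.2).2
    · intro w
      rw [toU_coe]
      exact (FreeGroup.lift X w).2


/-- The allowed curves: positive genus, at most two punctures, rank at most three, one regular
class, or all classes but one scalar plus rank one. -/
def OKCurve3 (g n r : ℕ) (C : Fin n → SpecialLinearGroup (Fin r) ℂ) : Prop :=
  1 ≤ g ∨ n ≤ 2 ∨ r ≤ 3 ∨ (∃ j, HasCyc r (C j).1) ∨ ∃ j₀, ∀ j, j ≠ j₀ → RO r (C j).1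

/-- Low genus. -/
theorem low_irrDenseQ3 {g n r : ℕ} {R : Type} [CommRing R] (h01 : G01Irr) (hR : G0R) (φ : R →+* ℂ)
    (E : Subgroup ℂˣ) (hc : CoefOK φ E r)
    (hUP : ∀ (u : Rˣ) (D : R), D ≠ 0 → ∃ M : ℕ, 0 < M ∧ D ∣ (u : R) ^ M - 1)
    (C : Fin n → SpecialLinearGroup (Fin r) ℂ) (hg : OKCurve3 g n r C)
    (h : ¬ OKCurve g n) (h1 : g = 1 → TorOK φ E r) :
    ∀ r' ≤ r, 0 < r' → IrrDenseQ (fun j => QD E (HasCyc r (C j).1) (RO r (C j).1))
      ({relatorU g n} : Set (FreeGroup ((Fin g × Bool) ⊕ Fin n))) φ r' := by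
  have h4 : g = 0 ∨ g = 1 := by
    unfold OKCurve at h
    omega
  rcases h4 with rfl | rfl
  · have hn : 3 ≤ n := by
      unfold OKCurve at h
      (clear * - h h1; omega)
    intro r' hr' hr'0 C' hC' x hx hirr f hf
    refine g0_cases h01 hR (by omega) hr'0 φ E (hc.le_mono hr') hUP C' (fun j => (hC' j).1) ?_
      x hx hirr f hf
    rcases hg with hg | hg | hg | ⟨j, hj⟩ | ⟨j₀, hj₀⟩
    · omega
    · omega
    · exact Or.inl (by omega)
    · exact Or.inr (Or.inl ⟨j, (hC' j).2.1 hj⟩)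
    · exact Or.inr (Or.inr ⟨j₀, fun j hj => (hC' j).2.2 (hj₀ j hj)⟩)
  · refine g1_irrDenseAll (g02_of_g01 h01) ?_ φ E (h1 rfl) hc fun j r M hM => hM.1
    unfold OKCurve at h
    omega

/-- Density of the integral representations. -/
theorem density_E4 (h01 : G01Irr) (hR : G0R) (C : ∀ i, Fin (n i) → SpecialLinearGroup (Fin r) ℂ)
    (E : Subgroup ℂˣ) (hC : ∀ i j, EigIn E ((C i j).1))
    (hg : ∀ i, OKCurve3 (g i) (n i) r (C i)) (L : IntermediateField ℚ ℂ)
    (hL : FiniteDimensional ℚ L) (hc : CoefOK (phiO (algebraMap L ℂ)) E r)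
    (hT : (∀ i, g i = 1 → n i = 0) ∨ TorOK (phiO (algebraMap L ℂ)) E r) :
    IsZariskiDenseRep {X ∈ Y g C | IsIntegralRep L X} (Y g C) := by
  refine density_EQ3 C E (fun i j => QD E (HasCyc r (C i j).1) (RO r (C i j).1))
    (fun i j => classOK_QD E _ _) (fun i j => ⟨hC i j, id, id⟩) L hL hc fun i hi => ?_
  refine low_irrDenseQ3 h01 hR _ E hc (hUP_field L hL) (C i) (hg i) hi fun h => ?_
  rcases hT with h1 | h1
  · exact absurd (Or.inr (Or.inl (h1 i h))) hi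
  · exact h1

/-- Existence of the field. -/
theorem exists_density4 (h01 : G01Irr) (hR : G0R)
    (C : ∀ i, Fin (n i) → SpecialLinearGroup (Fin r) ℂ)
    (hC : ∀ i j z, IsEigenvalue (C i j) z → IsIntegral ℤ z ∧ IsIntegral ℤ z⁻¹)
    (hg : ∀ i, OKCurve3 (g i) (n i) r (C i)) :
    ∃ L : IntermediateField ℚ ℂ, FiniteDimensional ℚ L ∧
      IsZariskiDenseRep {X ∈ Y g C | IsIntegralRep L X} (Y g C) := by
  have h0 : ∀ i j z, IsEigenvalue (C i j) z → z ≠ 0 := by
    rintro i j z hz rfl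
    have h1 : (C i j).1.charpoly.eval 0 = 0 := hz
    rw [Matrix.eval_charpoly, map_zero, zero_sub, Matrix.det_neg, (C i j).2, mul_one] at h1
    exact pow_ne_zero _ (by norm_num) h1
  obtain ⟨S, hS⟩ : ∃ S : Set ℂˣ, S = {z : ℂˣ | ∃ i j, IsEigenvalue (C i j) (z : ℂ)} :=
    ⟨_, rfl⟩
  have hSf : S.Finite := by
    have h1 : (⋃ p : (i : Fin k) × Fin (n i), {z : ℂ | (C p.1 p.2).1.charpoly.IsRoot z}).Finite :=
      Set.finite_iUnion fun p => Polynomial.finite_setOfPred_isRoot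
        (Matrix.charpoly_monic _).ne_zero
    refine Set.Finite.of_injOn (f := fun z : ℂˣ => (z : ℂ)) ?_ (Units.val_injective.injOn) h1
    intro z hz
    rw [hS] at hz
    obtain ⟨i, j, hz⟩ := hz
    exact Set.mem_iUnion.2 ⟨⟨i, j⟩, hz⟩
  obtain ⟨L, hL, hc, hT⟩ := exists_tor_field S hSf (fun z hz => by
    rw [hS] at hz
    obtain ⟨i, j, hz⟩ := hz
    rw [Units.val_inv_eq_inv_val]
    exact hC i j z hz) r
  refine ⟨L, hL, density_E4 h01 hR C _ (fun i j z hz => ?_) hg L hL hc (Or.inr hT)⟩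
  refine ⟨Units.mk0 z (h0 i j z hz), Subgroup.subset_closure (Set.mem_insert_of_mem _ ?_), rfl⟩
  rw [hS]
  exact ⟨i, j, hz⟩

/-- Quasi-unipotent classes, explicit fields, no punctured torus. -/
theorem density_roots4 (h01 : G01Irr) (hR : G0R)
    (C : ∀ i, Fin (n i) → SpecialLinearGroup (Fin r) ℂ) (N : ℕ)
    (hN : 0 < N) (hC : ∀ i j z, IsEigenvalue (C i j) z → z ^ N = 1)
    (hg : ∀ i, OKCurve3 (g i) (n i) r (C i)) (hg1 : ∀ i, g i = 1 → n i = 0)
    (L : IntermediateField ℚ ℂ) (hL : FiniteDimensional ℚ L)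
    (hμ : ∀ z : ℂ, z ^ (2 * N * r.factorial) = 1 → z ∈ L) (hu : Infinite (𝓞 L)ˣ) :
    IsZariskiDenseRep {X ∈ Y g C | IsIntegralRep L X} (Y g C) :=
  density_E4 h01 hR C _ (fun i j => eigIn_roots (C i j) N hN (hC i j)) hg L hL
    (coefOK_roots N hN r L hL hμ hu) (Or.inl hg1)

theorem okCurve3_of {g n r : ℕ} (C : Fin n → SpecialLinearGroup (Fin r) ℂ)
    (h : 1 ≤ g ∨ n ≤ 2 ∨ r ≤ 3 ∨ (∃ j, IsNonderogatory (C j)) ∨
      ∃ j₀, ∀ j, j ≠ j₀ → ∃ z : ℂ, ((C j).1 - z • 1).rank ≤ 1) : OKCurve3 g n r C := by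
  refine h.imp_right (Or.imp_right (Or.imp_right (Or.imp_left fun h => ?_)))
  obtain ⟨j, hj⟩ := h
  exact ⟨j, hj.hasCyc⟩

/-- The main theorem, final form. -/
theorem main3 (h01 : G01Irr) (hR : G0R) (k : ℕ) (g n : Fin k → ℕ) (r : ℕ) :
    (∃ L : IntermediateField ℚ ℂ, FiniteDimensional ℚ L ∧
      IsZariskiDense {X ∈ YNone g n r | IsIntegralPoint L X} (YNone g n r)) ∧
    ∀ C : (i : Fin k) → Fin (n i) → SpecialLinearGroup (Fin r) ℂ,
      (∀ i, 1 ≤ g i ∨ n i ≤ 2 ∨ r ≤ 3 ∨ (∃ j, IsNonderogatory (C i j)) ∨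
        ∃ j₀, ∀ j, j ≠ j₀ → ∃ z : ℂ, ((C i j).1 - z • 1).rank ≤ 1) →
      ((∀ i j z, IsEigenvalue (C i j) z → IsIntegral ℤ z ∧ IsIntegral ℤ z⁻¹) →
        ∃ L : IntermediateField ℚ ℂ, FiniteDimensional ℚ L ∧
          IsZariskiDense {X ∈ Y g C | IsIntegralPoint L X} (Y g C) ∧
          IsZariskiDenseRep {X ∈ Y g C | IsIntegralRep L X} (Y g C)) ∧
      ((∀ i, g i = 1 → n i = 0) →
        ∀ N : ℕ, 0 < N → (∀ i j z, IsEigenvalue (C i j) z → z ^ N = 1) →
        ∀ L : IntermediateField ℚ ℂ, FiniteDimensional ℚ L →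
          (∀ z : ℂ, z ^ (2 * N * r.factorial) = 1 → z ∈ L) → Infinite (𝓞 L)ˣ →
          IsZariskiDenseRep {X ∈ Y g C | IsIntegralRep L X} (Y g C)) := by
  refine ⟨?_, fun C hg => ?_⟩
  · obtain ⟨L, hL, h⟩ := none_density_prod g n r
    exact ⟨L, hL, h.isZariskiDense⟩
  · have hg' : ∀ i, OKCurve3 (g i) (n i) r (C i) := fun i => okCurve3_of (C i) (hg i)
    refine ⟨fun hC => ?_, fun hg1 N hN hC L hL hμ hu =>
      density_roots4 h01 hR C N hN hC hg' hg1 L hL hμ hu⟩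
    obtain ⟨L, hL, h⟩ := exists_density4 h01 hR C hC hg'
    exact ⟨L, hL, h.isZariskiDense, h⟩

end Vale.Agent.P002R.Product
end

section

/-!
# Density for products of curves with free punctures and prescribed classes
-/

namespace Vale.Agent.P002R.Orb

open Matrix NumberField Vale.Agent.P002L

section curve

variable {g n : ℕ} {r : ℕ}

/-- One curve with prescribed classes. -/
theorem curve_irrDenseQ3 {R : Type} [CommRing R] (h01 : G01Irr) (hR : G0R) (φ : R →+* ℂ)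
    (E : Subgroup ℂˣ) (hc : CoefOK φ E r)
    (hUP : ∀ (u : Rˣ) (D : R), D ≠ 0 → ∃ M : ℕ, 0 < M ∧ D ∣ (u : R) ^ M - 1)
    (C : Fin n → SpecialLinearGroup (Fin r) ℂ) (hg : Product.OKCurve3 g n r C)
    (h1 : g = 1 → n = 0 ∨ TorOK φ E r) :
    ∀ r' ≤ r, 0 < r' → IrrDenseQ (fun j => QD E (HasCyc r (C j).1) (RO r (C j).1))
      ({relatorU g n} : Set (FreeGroup ((Fin g × Bool) ⊕ Fin n))) φ r' := by
  intro r' hr' hr'0
  by_cases h : 2 ≤ g ∨ n = 0
  · exact (surface_irrDense φ E hc h r' hr' hr'0).toQ fun j M hM => hM.1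
  by_cases h2 : g = 0 ∧ n ≤ 2
  · exact (abel_irrDense φ E _ (fun r'' x hx => surface_comm (Or.inl h2) r'' x hx) r' hr'0).toQ
      fun j M hM => hM.1
  · have h3 : ¬ Product.OKCurve g n := by
      unfold Product.OKCurve
      omega
    refine Product.low_irrDenseQ3 h01 hR φ E hc hUP C hg h3 (fun h4 => ?_) r' hr' hr'0
    exact (h1 h4).resolve_left fun h5 => h (Or.inr h5)

variable {P : Fin n → Prop} {o : Option (Fin n)}

/-- One curve, general form. -/
theorem relO_irrDenseQ {R : Type} [CommRing R] (h01 : G01Irr) (hR : G0R) (φ : R →+* ℂ)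
    (E : Subgroup ℂˣ) (hc : CoefOK φ E r)
    (hUP : ∀ (u : Rˣ) (D : R), D ≠ 0 → ∃ M : ℕ, 0 < M ∧ D ∣ (u : R) ^ M - 1)
    (C : Fin n → SpecialLinearGroup (Fin r) ℂ) (hn : o = none → ∀ j, P j)
    (hg : o = none → Product.OKCurve3 g n r C)
    (h1 : o = none → g = 1 → n = 0 ∨ TorOK φ E r) :
    ∀ r' ≤ r, 0 < r' → IrrDenseQ (fun j : IO P => QD E (HasCyc r (C j.1).1) (RO r (C j.1).1))
      (RelO g P o) φ r' := by
  intro r' hr' hr'0
  rcases o with _ | j₀
  · have hE : IsEmpty {j : Fin n // ¬ P j ∧ (none : Option (Fin n)) ≠ some j} :=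
      ⟨fun j => j.2.1 (hn rfl j.1)⟩
    refine IrrDenseQ.congr (Equiv.sumEmpty (Fin g × Bool) _).symm
      (Equiv.subtypeUnivEquiv (hn rfl)).symm (fun j M hM => hM) _ _ (fun y => ?_)
      (curve_irrDenseQ3 h01 hR φ E hc hUP C (hg rfl) (h1 rfl) r' hr' hr'0)
    have h2 : y (renE (Equiv.sumEmpty (Fin g × Bool) _).symm.symm
        (Equiv.subtypeUnivEquiv (hn rfl)).symm.symm (tO g P none)) =
        (List.ofFn fun l : Fin g => y (FreeGroup.of (Sum.inl (l, false))) *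
          y (FreeGroup.of (Sum.inl (l, true))) * (y (FreeGroup.of (Sum.inl (l, false))))⁻¹ *
          (y (FreeGroup.of (Sum.inl (l, true))))⁻¹).prod *
          (List.ofFn fun j : Fin n => y (FreeGroup.of (Sum.inr j))).prod := by
      rw [tO, hO, map_mul, map_mul, map_list_prod, map_list_prod, map_list_prod, map_list_prod,
        List.map_ofFn, List.map_ofFn, List.map_ofFn, List.map_ofFn]
      congr 3
      · funext l
        simp only [Function.comp, map_mul, map_inv, renE_inl]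
        rfl
      · funext j
        simp only [Function.comp, gO]
        rw [dif_pos (hn rfl j), renE_inr]
        rfl
    have h3 : y (relatorU g n) = (List.ofFn fun j : Fin n => y (FreeGroup.of (Sum.inr j))).prod *
        (List.ofFn fun l : Fin g => y (FreeGroup.of (Sum.inl (l, false))) *
          y (FreeGroup.of (Sum.inl (l, true))) * (y (FreeGroup.of (Sum.inl (l, false))))⁻¹ *
          (y (FreeGroup.of (Sum.inl (l, true))))⁻¹).prod := by
      rw [relatorU_eqn, map_mul, map_list_prod, map_list_prod, List.map_ofFn, List.map_ofFn]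
      congr 3
      funext l
      simp only [Function.comp, map_mul, map_inv]
    constructor
    · rintro hy w ⟨-, rfl⟩
      rw [h2]
      have := hy _ rfl
      rw [h3, mul_eq_one_iff_eq_inv] at this
      rw [this, mul_inv_cancel]
    · rintro hy w hw
      rw [Set.mem_singleton_iff.1 hw, h3]
      have := hy _ ⟨rfl, rfl⟩
      rw [h2, mul_eq_one_iff_eq_inv] at this
      rw [this, mul_inv_cancel]
  · have h2 : RelO g P (some j₀) = ∅ := by
      rw [Set.eq_empty_iff_forall_notMem]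
      rintro w ⟨h, -⟩
      cases h
    rw [h2]
    exact (free_irrDense_cls φ E hr'0 (hc.le_mono hr')).toQ fun j M hM => hM.1

end curve

variable {k r : ℕ} {g n : Fin k → ℕ}

/-- Density of the integral representations. -/
theorem density_mixed (h01 : G01Irr) (hR : G0R) (P : ∀ i, Fin (n i) → Prop)
    (C : ∀ i, Fin (n i) → SpecialLinearGroup (Fin r) ℂ)
    (E : Subgroup ℂˣ) (hC : ∀ i j, P i j → EigIn E ((C i j).1))
    (hg : ∀ i, (∀ j, P i j) → Product.OKCurve3 (g i) (n i) r (C i)) (L : IntermediateField ℚ ℂ)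
    (hL : FiniteDimensional ℚ L) (hc : CoefOK (phiO (algebraMap L ℂ)) E r)
    (hT : (∀ i, g i = 1 → (∀ j, P i j) → n i = 0) ∨ TorOK (phiO (algebraMap L ℂ)) E r) :
    IsDenseRep L (TP g P C) := by
  have ho : ∀ i, ∃ o : Option (Fin (n i)), (∀ j, o = some j → ¬ P i j) ∧
      (o = none → ∀ j, P i j) := by
    intro i
    by_cases h : ∃ j, ¬ P i j
    · obtain ⟨j, hj⟩ := h
      refine ⟨some j, fun j' hj' => ?_, fun h => ?_⟩
      · rw [← Option.some.inj hj']
        exact hj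
      · cases h
    · push Not at h
      exact ⟨none, fun j hj => (by cases hj), fun _ => h⟩
  choose o ho hn using ho
  refine tp_dense ho C ?_
  refine density_gen (RelF g P o) ?_ _ E
    (fun p => QD E (HasCyc r (C p.1 p.2.1).1) (RO r (C p.1 p.2.1).1))
    (fun p => classOK_QD E _ _) (fun p => ⟨hC _ _ p.2.2, id, id⟩) L hL hc ?_
  · exact famRel_charOK _ fun i => RelO_charOK (hn i)
  · refine fam_irrDenseQ _ E r k _ _
      (fun i (j : IO (P i)) => QD E (HasCyc r (C i j.1).1) (RO r (C i j.1).1))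
      (fun i j => classOK_QD E _ _) _ fun i => ?_
    refine relO_irrDenseQ h01 hR _ E hc (Product.hUP_field L hL) (C i) (hn i)
      (fun h => hg i (hn i h)) fun h h1 => ?_
    exact hT.imp_left fun h2 => h2 i h1 (hn i h)

end Vale.Agent.P002R.Orb
end

section

/-!
# Potential density of integral points for products of orbifold curves
-/

namespace Vale.Agent.P002R.Orb

open Matrix NumberField Vale.Agent.P002L commutatorElement

variable {k r : ℕ} {g n : Fin k → ℕ}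

theorem dense_of_cover {ι : Type} {L : IntermediateField ℚ ℂ}
    (T : Set (ι → SpecialLinearGroup (Fin r) ℂ))
    (h : ∀ X ∈ T, ∃ T' ⊆ T, X ∈ T' ∧ IsDenseRep L T') : IsDenseRep L T := by
  intro F hF X hX
  obtain ⟨T', h1, h2, h3⟩ := h X hX
  exact h3 F (fun Z hZ hZ' => hF Z (h1 hZ) hZ') X h2

theorem IsNonderogatory.conj {M N : SpecialLinearGroup (Fin r) ℂ} (h : IsConj M N)
    (hM : IsNonderogatory M) : IsNonderogatory N := by
  obtain ⟨U, rfl⟩ := isConj_iff.1 h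
  obtain ⟨v, hv⟩ := hM
  have hU : U.1⁻¹ * U.1 = 1 := Matrix.nonsing_inv_mul _ (by rw [U.2]; exact isUnit_one)
  have hU' : (U⁻¹).1 = U.1⁻¹ := by
    rw [Matrix.inv_def, U.2, Ring.inverse_one, one_smul]
    exact Matrix.SpecialLinearGroup.coe_inv U
  refine ⟨U.1 *ᵥ v, ?_⟩
  have h1 : ∀ i : ℕ, (U * M * U⁻¹).1 ^ i = U.1 * M.1 ^ i * U.1⁻¹ := by
    intro i
    have h2 : (U * M * U⁻¹).1 = U.1 * M.1 * U.1⁻¹ := by
      rw [← hU']
      rfl
    rw [h2]
    induction i with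
    | zero =>
      rw [pow_zero, pow_zero, Matrix.mul_one]
      exact (Matrix.mul_nonsing_inv _ (by rw [U.2]; exact isUnit_one)).symm
    | succ i ih =>
      rw [pow_succ, ih, pow_succ]
      simp only [Matrix.mul_assoc]
      rw [← Matrix.mul_assoc U.1⁻¹ U.1, hU, Matrix.one_mul]
  have h3 : (fun i : Fin r => ((U * M * U⁻¹).1 ^ (i : ℕ)) *ᵥ (U.1 *ᵥ v)) =
      fun i : Fin r => U.1.mulVecLin ((M.1 ^ (i : ℕ)) *ᵥ v) := by
    funext i
    rw [h1, Matrix.mulVec_mulVec, Matrix.mul_assoc, hU, Matrix.mul_one, ← Matrix.mulVec_mulVec]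
    rfl
  rw [h3]
  refine hv.map' _ (LinearMap.ker_eq_bot.2 fun a b hab => ?_)
  have h4 := congrArg (fun w => U.1⁻¹ *ᵥ w) hab
  simpa only [Matrix.mulVecLin_apply, Matrix.mulVec_mulVec, hU, Matrix.one_mulVec] using h4

theorem rank_conj {M N : SpecialLinearGroup (Fin r) ℂ} (h : IsConj M N) (z : ℂ) :
    (N.1 - z • (1 : Mat r ℂ)).rank = (M.1 - z • (1 : Mat r ℂ)).rank := by
  obtain ⟨U, rfl⟩ := isConj_iff.1 h
  have h1 : (U * M * U⁻¹).1 - z • (1 : Mat r ℂ) = U.1 * (M.1 - z • (1 : Mat r ℂ)) * (U⁻¹).1 := by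
    have h2 : U.1 * (U⁻¹).1 = 1 := by
      have := congrArg Subtype.val (mul_inv_cancel U)
      exact this
    rw [Matrix.mul_sub, Matrix.sub_mul, Matrix.mul_smul, Matrix.mul_one, Matrix.smul_mul, h2]
    rfl
  rw [h1, Matrix.rank_mul_eq_left_of_isUnit_det _ _ (by rw [(U⁻¹).2]; exact isUnit_one),
    Matrix.rank_mul_eq_right_of_isUnit_det _ _ (by rw [U.2]; exact isUnit_one)]

theorem eigenvalue_conj {M N : SpecialLinearGroup (Fin r) ℂ} (h : IsConj M N) {z : ℂ}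
    (hz : IsEigenvalue N z) : IsEigenvalue M z := by
  have h1 := Statement.toGL_isConj _ _ h
  obtain ⟨U, hU⟩ := isConj_iff.1 h1
  have h2 : N.1 = (U : Mat r ℂ) * M.1 * ((U⁻¹ : (Mat r ℂ)ˣ) : Mat r ℂ) := by
    have := congrArg (fun V : (Mat r ℂ)ˣ => (V : Mat r ℂ)) hU
    exact this.symm
  have h3 : N.1.charpoly = M.1.charpoly := by
    rw [h2, Matrix.coe_units_inv]
    exact Matrix.charpoly_units_conj U M.1
  unfold IsEigenvalue at hz ⊢
  rwa [h3] at hz

theorem eigenvalue_pow {M : SpecialLinearGroup (Fin r) ℂ} {m : ℕ} (h : M ^ m = 1) {z : ℂ}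
    (hz : IsEigenvalue M z) : z ^ m = 1 := by
  refine nilpotent_eigen M.1 m ?_ z hz
  have h1 : M.1 ^ m = 1 := by
    have := congrArg Subtype.val h
    exact (Matrix.SpecialLinearGroup.coe_pow M m).symm.trans this
  rw [h1, sub_self]
  exact IsNilpotent.zero

/-! ### The group of the product of orbifold curves -/

theorem isRep_iff (m : ∀ i, Fin (n i) → ℕ) (X : Gens g n → SpecialLinearGroup (Fin r) ℂ) :
    IsRep (Rels g n m) X ↔ (∀ i, SRel fun p => X (Product.incG i p)) ∧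
      (∀ p q : Gens g n, Product.factor p ≠ Product.factor q → X p * X q = X q * X p) ∧
      ∀ i j, X (Sum.inr ⟨i, j⟩) ^ m i j = 1 := by
  have h1 : ∀ i, FreeGroup.lift X ((List.ofFn fun l : Fin (g i) =>
      ⁅(FreeGroup.of (Sum.inl ⟨i, l, false⟩) : FreeGroup (Gens g n)),
        (FreeGroup.of (Sum.inl ⟨i, l, true⟩) : FreeGroup (Gens g n))⁆).prod *
      (List.ofFn fun j : Fin (n i) =>
        (FreeGroup.of (Sum.inr ⟨i, j⟩) : FreeGroup (Gens g n))).prod) =
      (List.ofFn fun l : Fin (g i) => X (Sum.inl ⟨i, l, false⟩) * X (Sum.inl ⟨i, l, true⟩) *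
        (X (Sum.inl ⟨i, l, false⟩))⁻¹ * (X (Sum.inl ⟨i, l, true⟩))⁻¹).prod *
      (List.ofFn fun j : Fin (n i) => X (Sum.inr ⟨i, j⟩)).prod := by
    intro i
    rw [map_mul, map_list_prod, map_list_prod, List.map_ofFn, List.map_ofFn]
    congr 3
    · funext l
      simp only [Function.comp, commutatorElement_def, map_mul, map_inv, FreeGroup.lift_apply_of]
    · funext j
      simp only [Function.comp, FreeGroup.lift_apply_of]
  constructor
  · intro h
    refine ⟨fun i => ?_, fun p q hpq => ?_, fun i j => ?_⟩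
    · have := h _ (Or.inl ⟨i, rfl⟩)
      rw [h1] at this
      exact this
    · have := h _ (Or.inr (Or.inl ⟨p, q, hpq, rfl⟩))
      rw [commutatorElement_def, map_mul, map_mul, map_mul, map_inv, map_inv, mul_inv_eq_one,
        mul_inv_eq_iff_eq_mul, FreeGroup.lift_apply_of, FreeGroup.lift_apply_of] at this
      exact this
    · have := h _ (Or.inr (Or.inr ⟨i, j, rfl⟩))
      rwa [map_pow, FreeGroup.lift_apply_of] at this
  · rintro ⟨h2, h3, h4⟩ w (⟨i, rfl⟩ | ⟨p, q, hpq, rfl⟩ | ⟨i, j, rfl⟩)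
    · rw [h1]
      exact h2 i
    · rw [commutatorElement_def, map_mul, map_mul, map_mul, map_inv, map_inv, mul_inv_eq_one,
        mul_inv_eq_iff_eq_mul, FreeGroup.lift_apply_of, FreeGroup.lift_apply_of]
      exact h3 p q hpq
    · rw [map_pow, FreeGroup.lift_apply_of]
      exact h4 i j

variable (m : ∀ i, Fin (n i) → ℕ) (S : ∀ i, Set (Fin (n i)))
  (C : ∀ i, Fin (n i) → SpecialLinearGroup (Fin r) ℂ)

/-- The piece of `Y` that contains a given representation. -/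
theorem cover (X : Gens g n → SpecialLinearGroup (Fin r) ℂ)
    (hX : X ∈ Z m S C) :
    TP g (fun i j => j ∈ S i ∨ m i j ≠ 0) (fun i j => X (Sum.inr ⟨i, j⟩)) ⊆ Z m S C ∧
    X ∈ TP g (fun i j => j ∈ S i ∨ m i j ≠ 0) (fun i j => X (Sum.inr ⟨i, j⟩)) := by
  obtain ⟨⟨⟨h1, h2⟩, h3⟩, h4⟩ := hX
  rw [isRep_iff] at h1
  constructor
  · rintro Z ⟨z1, z2, z3, z4⟩
    refine ⟨⟨⟨(isRep_iff m Z).2 ⟨z1, z2, fun i j => ?_⟩, z4⟩, fun i j hj =>
      (h3 i j hj).trans (z3 i j (Or.inl hj))⟩, fun i => ?_⟩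
    · by_cases hm : m i j = 0
      · rw [hm, pow_zero]
      · obtain ⟨U, hU⟩ := isConj_iff.1 (z3 i j (Or.inr hm))
        rw [← hU, conj_pow, h1.2.2 i j, mul_one, mul_inv_cancel]
    · by_cases hf : ∃ j, m i j = 0 ∧ j ∉ S i
      · exact Or.inr (Or.inr (Or.inr (Or.inl hf)))
      have hc : ∀ j, IsConj (X (Sum.inr ⟨i, j⟩)) (Z (Sum.inr ⟨i, j⟩)) := by
        intro j
        refine z3 i j ?_
        by_contra hcon
        push Not at hcon
        exact hf ⟨j, hcon.2, hcon.1⟩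
      rcases h4 i with h | h | h | h | ⟨j, h⟩ | ⟨j₀, h⟩
      · exact Or.inl h
      · exact Or.inr (Or.inl h)
      · exact Or.inr (Or.inr (Or.inl h))
      · exact absurd h hf
      · exact Or.inr (Or.inr (Or.inr (Or.inr (Or.inl ⟨j, h.conj (hc j)⟩))))
      · refine Or.inr (Or.inr (Or.inr (Or.inr (Or.inr ⟨j₀, fun j hj => ?_⟩))))
        obtain ⟨z, hz⟩ := h j hj
        exact ⟨z, by rw [rank_conj (hc j)]; exact hz⟩
  · exact ⟨h1.1, h1.2.1, fun i j _ => IsConj.refl _, h2⟩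

theorem good_curve (X : Gens g n → SpecialLinearGroup (Fin r) ℂ) (hX : X ∈ Z m S C) (i : Fin k)
    (h : ∀ j, j ∈ S i ∨ m i j ≠ 0) :
    Product.OKCurve3 (g i) (n i) r fun j => X (Sum.inr ⟨i, j⟩) := by
  apply Product.okCurve3_of
  rcases hX.2 i with h' | h' | h' | ⟨j, h1, h2⟩ | ⟨j, h'⟩ | ⟨j₀, h'⟩
  · exact Or.inl h'
  · exact Or.inr (Or.inl h')
  · exact Or.inr (Or.inr (Or.inl h'))
  · exact ((h j).elim h2 fun h3 => h3 h1).elim
  · exact Or.inr (Or.inr (Or.inr (Or.inl ⟨j, h'⟩)))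
  · exact Or.inr (Or.inr (Or.inr (Or.inr ⟨j₀, h'⟩)))

/-- Existence of the field. -/
theorem exists_density_orb (h01 : G01Irr) (hR : G0R)
    (hC : ∀ i, ∀ j ∈ S i, ∀ z, IsEigenvalue (C i j) z → IsIntegral ℤ z ∧ IsIntegral ℤ z⁻¹) :
    ∃ L : IntermediateField ℚ ℂ, FiniteDimensional ℚ L ∧ IsDenseRep L (Z (g := g) m S C) := by
  obtain ⟨V, hV⟩ : ∃ V : Set ℂˣ, V = {z : ℂˣ | (∃ i, ∃ j ∈ S i, IsEigenvalue (C i j) (z : ℂ)) ∨
      ∃ i j, m i j ≠ 0 ∧ (z : ℂ) ^ m i j = 1} := ⟨_, rfl⟩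
  have hVf : V.Finite := by
    have h1 : (⋃ p : (i : Fin k) × Fin (n i), {z : ℂ | (C p.1 p.2).1.charpoly.IsRoot z}).Finite :=
      Set.finite_iUnion fun p => Polynomial.finite_setOfPred_isRoot
        (Matrix.charpoly_monic _).ne_zero
    have h2 : (⋃ p : (i : Fin k) × Fin (n i),
        {z : ℂ | m p.1 p.2 ≠ 0 ∧ z ^ m p.1 p.2 = 1}).Finite := by
      refine Set.finite_iUnion fun p => ?_
      by_cases hm : m p.1 p.2 = 0
      · refine Set.Finite.subset Set.finite_empty fun z hz => ?_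
        exact (hz.1 hm).elim
      · refine Set.Finite.subset (Polynomial.finite_setOfPred_isRoot
          (Polynomial.X_pow_sub_C_ne_zero (Nat.pos_of_ne_zero hm) (1 : ℂ))) fun z hz => ?_
        change Polynomial.eval z _ = 0
        rw [Polynomial.eval_sub, Polynomial.eval_pow, Polynomial.eval_X, Polynomial.eval_C, hz.2,
          sub_self]
    refine Set.Finite.of_injOn (f := fun z : ℂˣ => (z : ℂ)) ?_ (Units.val_injective.injOn)
      (h1.union h2)
    intro z hz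
    rw [hV] at hz
    rcases hz with ⟨i, j, -, hz⟩ | ⟨i, j, hz⟩
    · exact Or.inl (Set.mem_iUnion.2 ⟨⟨i, j⟩, hz⟩)
    · exact Or.inr (Set.mem_iUnion.2 ⟨⟨i, j⟩, hz⟩)
  obtain ⟨L, hL, hc, hT⟩ := exists_tor_field V hVf (fun z hz => by
    rw [hV] at hz
    rw [Units.val_inv_eq_inv_val]
    rcases hz with ⟨i, j, hj, hz⟩ | ⟨i, j, hm, hz⟩
    · exact hC i j hj z hz
    · refine ⟨IsIntegral.of_pow (Nat.pos_of_ne_zero hm) (by rw [hz]; exact isIntegral_one),
        IsIntegral.of_pow (Nat.pos_of_ne_zero hm) ?_⟩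
      rw [inv_pow, hz, inv_one]
      exact isIntegral_one) r
  refine ⟨L, hL, dense_of_cover _ fun X hX => ?_⟩
  obtain ⟨h1, h2⟩ := cover m S C X hX
  refine ⟨_, h1, h2, density_mixed h01 hR _ _ _ (fun i j hj z hz => ?_)
    (fun i h => good_curve m S C X hX i h) L hL hc (Or.inr hT)⟩
  have hz0 : z ≠ 0 := by
    rintro rfl
    have h3 : (X (Sum.inr ⟨i, j⟩)).1.charpoly.eval 0 = 0 := hz
    rw [Matrix.eval_charpoly, map_zero, zero_sub, Matrix.det_neg, (X (Sum.inr ⟨i, j⟩)).2,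
      mul_one] at h3
    exact pow_ne_zero _ (by norm_num) h3
  refine ⟨Units.mk0 z hz0, Subgroup.subset_closure (Set.mem_insert_of_mem _ ?_), rfl⟩
  rw [hV]
  rcases hj with hj | hj
  · exact Or.inl ⟨i, j, hj, eigenvalue_conj (hX.1.2 i j hj) hz⟩
  · exact Or.inr ⟨i, j, hj, eigenvalue_pow (((isRep_iff m X).1 hX.1.1.1).2.2 i j) hz⟩

/-- Quasi-unipotent classes: explicit fields. -/
theorem density_roots_orb (h01 : G01Irr) (hR : G0R)
    (hg1 : ∀ i, g i = 1 → n i = 0 ∨ ∃ j, m i j = 0 ∧ j ∉ S i) (N : ℕ) (hN : 0 < N)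
    (hm : ∀ i j, m i j ≠ 0 → m i j ∣ N)
    (hC : ∀ i, ∀ j ∈ S i, ∀ z, IsEigenvalue (C i j) z → z ^ N = 1)
    (L : IntermediateField ℚ ℂ) (hL : FiniteDimensional ℚ L)
    (hμ : ∀ z : ℂ, z ^ (2 * N * r.factorial) = 1 → z ∈ L) (hu : Infinite (𝓞 L)ˣ) :
    IsDenseRep L (Z (g := g) m S C) := by
  refine dense_of_cover _ fun X hX => ?_
  obtain ⟨h1, h2⟩ := cover m S C X hX
  refine ⟨_, h1, h2, density_mixed h01 hR _ _ _ (fun i j hj => ?_)
    (fun i h => good_curve m S C X hX i h) L hL (Product.coefOK_roots N hN r L hL hμ hu)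
    (Or.inl fun i hi hj => ?_)⟩
  · refine Product.eigIn_roots (X (Sum.inr ⟨i, j⟩)) N hN fun z hz => ?_
    rcases hj with hj | hj
    · exact hC i j hj z (eigenvalue_conj (hX.1.2 i j hj) hz)
    · obtain ⟨c, hc⟩ := hm i j hj
      rw [hc, pow_mul, eigenvalue_pow (((isRep_iff m X).1 hX.1.1.1).2.2 i j) hz, one_pow]
  · refine (hg1 i hi).resolve_right ?_
    rintro ⟨j, h3, h4⟩
    exact (hj j).elim h4 fun h5 => h5 h3

/-- The main theorem for products of orbifold curves. -/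
theorem main4 (h01 : G01Irr) (hR : G0R) (k : ℕ) (g n : Fin k → ℕ) (m : ∀ i, Fin (n i) → ℕ)
    (r : ℕ) (S : ∀ i, Set (Fin (n i))) (C : ∀ i, Fin (n i) → SpecialLinearGroup (Fin r) ℂ) :
    ((∀ i, ∀ j ∈ S i, ∀ z, IsEigenvalue (C i j) z → IsIntegral ℤ z ∧ IsIntegral ℤ z⁻¹) →
      ∃ L : IntermediateField ℚ ℂ, FiniteDimensional ℚ L ∧
        IsDense (Rels g n m) L (Z m S C) ∧ IsDenseRep L (Z (g := g) m S C)) ∧
    ((∀ i, g i = 1 → n i = 0 ∨ ∃ j, m i j = 0 ∧ j ∉ S i) →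
      ∀ N : ℕ, 0 < N → (∀ i j, m i j ≠ 0 → m i j ∣ N) →
      (∀ i, ∀ j ∈ S i, ∀ z, IsEigenvalue (C i j) z → z ^ N = 1) →
      ∀ L : IntermediateField ℚ ℂ, FiniteDimensional ℚ L →
        (∀ z : ℂ, z ^ (2 * N * r.factorial) = 1 → z ∈ L) → Infinite (𝓞 L)ˣ →
        IsDenseRep L (Z (g := g) m S C)) := by
  refine ⟨fun hC => ?_, fun hg1 N hN hm hC L hL hμ hu =>
    density_roots_orb m S C h01 hR hg1 N hN hm hC L hL hμ hu⟩
  obtain ⟨L, hL, h⟩ := exists_density_orb m S C h01 hR hC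
  exact ⟨L, hL, h.isDense, h⟩

end Vale.Agent.P002R.Orb
end

section

/-!
# P002, all classes: density for products of curves from the theorem in genus zero
-/

namespace Vale.Agent.P002B

open Matrix NumberField Vale.Agent.P002R Vale.Agent.P002R.Orb Vale.Agent.P002L

section curve

variable {g n : ℕ} {r : ℕ}

theorem CoefOK.of_sq {R : Type*} [CommRing R] {φ : R →+* ℂ} {E : Subgroup ℂˣ} {r r' : ℕ}
    (hc : CoefOK φ E (r * r)) (hr : r' ≤ r) : CoefOK φ E r' :=
  hc.le_mono (hr.trans (Nat.le_mul_self r))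

/-- One curve with prescribed classes. -/
theorem curve_irrDenseQ4 {R : Type} [CommRing R] (h01 : G01Irr) (hA : G0All)
    (φ : R →+* ℂ) (E : Subgroup ℂˣ) (hc : CoefOK φ E (r * r))
    (h1 : g = 1 → n = 0 ∨ TorOK φ E r) :
    ∀ r' ≤ r, 0 < r' → IrrDenseQ (fun _ : Fin n => QD E False False)
      ({relatorU g n} : Set (FreeGroup ((Fin g × Bool) ⊕ Fin n))) φ r' := by
  intro r' hr' hr'0
  by_cases hg : g = 0 ∧ 1 ≤ n
  · obtain ⟨rfl, hn⟩ := hg
    obtain ⟨m, rfl⟩ : ∃ m, n = m + 1 := ⟨n - 1, by (clear * - hn; omega)⟩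
    intro C' hC' x hx hirr f hf
    exact hA hr'0 φ E (hc.le_mono (Nat.mul_le_mul hr' hr')) C' (fun j => (hC' j).1) x hx hirr f hf
  by_cases h : 2 ≤ g ∨ n = 0
  · exact (surface_irrDense φ E (CoefOK.of_sq hc le_rfl) h r' hr' hr'0).toQ fun j M hM => hM.1
  · have h2 : g = 1 := by omega
    subst h2
    exact g1_irrDenseAll (g02_of_g01 h01) (by omega) φ E ((h1 rfl).resolve_left (by omega))
      (CoefOK.of_sq hc le_rfl) (fun j r M hM => hM.1) r' hr' hr'0

variable {P : Fin n → Prop} {o : Option (Fin n)}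

/-- One curve, general form. -/
theorem relO_irrDenseQ4 {R : Type} [CommRing R] (h01 : G01Irr) (hA : G0All)
    (φ : R →+* ℂ) (E : Subgroup ℂˣ) (hc : CoefOK φ E (r * r)) (hn : o = none → ∀ j, P j)
    (h1 : o = none → g = 1 → n = 0 ∨ TorOK φ E r) :
    ∀ r' ≤ r, 0 < r' → IrrDenseQ (fun _ : IO P => QD E False False) (RelO g P o) φ r' := by
  intro r' hr' hr'0
  rcases o with _ | j₀
  · have hE : IsEmpty {j : Fin n // ¬ P j ∧ (none : Option (Fin n)) ≠ some j} :=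
      ⟨fun j => j.2.1 (hn rfl j.1)⟩
    refine IrrDenseQ.congr (Equiv.sumEmpty (Fin g × Bool) _).symm
      (Equiv.subtypeUnivEquiv (hn rfl)).symm (fun j M hM => hM) _ _ (fun y => ?_)
      (curve_irrDenseQ4 h01 hA φ E hc (h1 rfl) r' hr' hr'0)
    have h2 : y (renE (Equiv.sumEmpty (Fin g × Bool) _).symm.symm
        (Equiv.subtypeUnivEquiv (hn rfl)).symm.symm (tO g P none)) =
        (List.ofFn fun l : Fin g => y (FreeGroup.of (Sum.inl (l, false))) *
          y (FreeGroup.of (Sum.inl (l, true))) * (y (FreeGroup.of (Sum.inl (l, false))))⁻¹ *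
          (y (FreeGroup.of (Sum.inl (l, true))))⁻¹).prod *
          (List.ofFn fun j : Fin n => y (FreeGroup.of (Sum.inr j))).prod := by
      rw [tO, hO, map_mul, map_mul, map_list_prod, map_list_prod, map_list_prod, map_list_prod,
        List.map_ofFn, List.map_ofFn, List.map_ofFn, List.map_ofFn]
      congr 3
      · funext l
        simp only [Function.comp, map_mul, map_inv, renE_inl]
        rfl
      · funext j
        simp only [Function.comp, gO]
        rw [dif_pos (hn rfl j), renE_inr]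
        rfl
    have h3 : y (relatorU g n) = (List.ofFn fun j : Fin n => y (FreeGroup.of (Sum.inr j))).prod *
        (List.ofFn fun l : Fin g => y (FreeGroup.of (Sum.inl (l, false))) *
          y (FreeGroup.of (Sum.inl (l, true))) * (y (FreeGroup.of (Sum.inl (l, false))))⁻¹ *
          (y (FreeGroup.of (Sum.inl (l, true))))⁻¹).prod := by
      rw [relatorU_eqn, map_mul, map_list_prod, map_list_prod, List.map_ofFn, List.map_ofFn]
      congr 3
      funext l
      simp only [Function.comp, map_mul, map_inv]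
    constructor
    · rintro hy w ⟨-, rfl⟩
      rw [h2]
      have := hy _ rfl
      rw [h3, mul_eq_one_iff_eq_inv] at this
      rw [this, mul_inv_cancel]
    · rintro hy w hw
      rw [Set.mem_singleton_iff.1 hw, h3]
      have := hy _ ⟨rfl, rfl⟩
      rw [h2, mul_eq_one_iff_eq_inv] at this
      rw [this, mul_inv_cancel]
  · have h2 : RelO g P (some j₀) = ∅ := by
      rw [Set.eq_empty_iff_forall_notMem]
      rintro w ⟨h, -⟩
      cases h
    rw [h2]
    exact (free_irrDense_cls φ E hr'0 (CoefOK.of_sq hc hr')).toQ fun j M hM => hM.1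

end curve

variable {k r : ℕ} {g n : Fin k → ℕ}

/-- Density of the integral representations. -/
theorem density_mixed4 (h01 : G01Irr) (hA : G0All) (P : ∀ i, Fin (n i) → Prop)
    (C : ∀ i, Fin (n i) → SpecialLinearGroup (Fin r) ℂ)
    (E : Subgroup ℂˣ) (hC : ∀ i j, P i j → EigIn E ((C i j).1))
    (L : IntermediateField ℚ ℂ)
    (hL : FiniteDimensional ℚ L) (hc : CoefOK (phiO (algebraMap L ℂ)) E (r * r))
    (hT : (∀ i, g i = 1 → (∀ j, P i j) → n i = 0) ∨ TorOK (phiO (algebraMap L ℂ)) E r) :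
    IsDenseRep L (Vale.Agent.P002R.Orb.TP g P C) := by
  have ho : ∀ i, ∃ o : Option (Fin (n i)), (∀ j, o = some j → ¬ P i j) ∧
      (o = none → ∀ j, P i j) := by
    intro i
    by_cases h : ∃ j, ¬ P i j
    · obtain ⟨j, hj⟩ := h
      refine ⟨some j, fun j' hj' => ?_, fun h => ?_⟩
      · rw [← Option.some.inj hj']
        exact hj
      · cases h
    · push Not at h
      exact ⟨none, fun j hj => (by cases hj), fun _ => h⟩
  choose o ho hn using ho
  refine tp_dense ho C ?_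
  refine density_gen (RelF g P o) ?_ _ E
    (fun _ => QD E False False)
    (fun p => classOK_QD E _ _) (fun p => ⟨hC _ _ p.2.2, False.elim, False.elim⟩) L hL
    (CoefOK.of_sq hc le_rfl) ?_
  · exact famRel_charOK _ fun i => RelO_charOK (hn i)
  · refine fam_irrDenseQ _ E r k _ _
      (fun i (_ : IO (P i)) => QD E False False)
      (fun i j => classOK_QD E _ _) _ fun i => ?_
    refine relO_irrDenseQ4 h01 hA _ E hc (hn i) fun h h1 => ?_
    exact hT.imp_left fun h2 => h2 i h1 (hn i h)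

end Vale.Agent.P002B
end

section

/-!
# P002, all classes: products of curves and orbifold curves, from the theorem in genus zero
-/

namespace Vale.Agent.P002B

open Matrix NumberField Vale.Agent.P002R Vale.Agent.P002R.Orb Vale.Agent.P002L commutatorElement

variable {k r : ℕ} {g n : Fin k → ℕ}
variable (m : ∀ i, Fin (n i) → ℕ) (S : ∀ i, Set (Fin (n i)))
  (C : ∀ i, Fin (n i) → SpecialLinearGroup (Fin r) ℂ)

/-- The piece of `Y` that contains a given representation. -/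
theorem coverY (X : Gens g n → SpecialLinearGroup (Fin r) ℂ) (hX : X ∈ Y m S C) :
    Orb.TP g (fun i j => j ∈ S i ∨ m i j ≠ 0) (fun i j => X (Sum.inr ⟨i, j⟩)) ⊆ Y m S C ∧
    X ∈ Orb.TP g (fun i j => j ∈ S i ∨ m i j ≠ 0) (fun i j => X (Sum.inr ⟨i, j⟩)) := by
  obtain ⟨⟨h1, h2⟩, h3⟩ := hX
  rw [isRep_iff] at h1
  constructor
  · rintro Z ⟨z1, z2, z3, z4⟩
    refine ⟨⟨(isRep_iff m Z).2 ⟨z1, z2, fun i j => ?_⟩, z4⟩, fun i j hj =>
      (h3 i j hj).trans (z3 i j (Or.inl hj))⟩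
    by_cases hm : m i j = 0
    · rw [hm, pow_zero]
    · obtain ⟨U, hU⟩ := isConj_iff.1 (z3 i j (Or.inr hm))
      rw [← hU, conj_pow, h1.2.2 i j, mul_one, mul_inv_cancel]
  · exact ⟨h1.1, h1.2.1, fun i j _ => IsConj.refl _, h2⟩

/-- Existence of the field. -/
theorem exists_density_all (h01 : G01Irr) (hA : G0All)
    (hC : ∀ i, ∀ j ∈ S i, ∀ z, IsEigenvalue (C i j) z → IsIntegral ℤ z ∧ IsIntegral ℤ z⁻¹) :
    ∃ L : IntermediateField ℚ ℂ, FiniteDimensional ℚ L ∧ IsDenseRep L (Y (g := g) m S C) := by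
  obtain ⟨V, hV⟩ : ∃ V : Set ℂˣ, V = {z : ℂˣ | (∃ i, ∃ j ∈ S i, IsEigenvalue (C i j) (z : ℂ)) ∨
      ∃ i j, m i j ≠ 0 ∧ (z : ℂ) ^ m i j = 1} := ⟨_, rfl⟩
  have hVf : V.Finite := by
    have h1 : (⋃ p : (i : Fin k) × Fin (n i), {z : ℂ | (C p.1 p.2).1.charpoly.IsRoot z}).Finite :=
      Set.finite_iUnion fun p => Polynomial.finite_setOfPred_isRoot
        (Matrix.charpoly_monic _).ne_zero
    have h2 : (⋃ p : (i : Fin k) × Fin (n i),
        {z : ℂ | m p.1 p.2 ≠ 0 ∧ z ^ m p.1 p.2 = 1}).Finite := by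
      refine Set.finite_iUnion fun p => ?_
      by_cases hm : m p.1 p.2 = 0
      · refine Set.Finite.subset Set.finite_empty fun z hz => ?_
        exact (hz.1 hm).elim
      · refine Set.Finite.subset (Polynomial.finite_setOfPred_isRoot
          (Polynomial.X_pow_sub_C_ne_zero (Nat.pos_of_ne_zero hm) (1 : ℂ))) fun z hz => ?_
        change Polynomial.eval z _ = 0
        rw [Polynomial.eval_sub, Polynomial.eval_pow, Polynomial.eval_X, Polynomial.eval_C, hz.2,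
          sub_self]
    refine Set.Finite.of_injOn (f := fun z : ℂˣ => (z : ℂ)) ?_ (Units.val_injective.injOn)
      (h1.union h2)
    intro z hz
    rw [hV] at hz
    rcases hz with ⟨i, j, -, hz⟩ | ⟨i, j, hz⟩
    · exact Or.inl (Set.mem_iUnion.2 ⟨⟨i, j⟩, hz⟩)
    · exact Or.inr (Set.mem_iUnion.2 ⟨⟨i, j⟩, hz⟩)
  obtain ⟨L, hL, hc, hT⟩ := exists_tor_field V hVf (fun z hz => by
    rw [hV] at hz
    rw [Units.val_inv_eq_inv_val]
    rcases hz with ⟨i, j, hj, hz⟩ | ⟨i, j, hm, hz⟩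
    · exact hC i j hj z hz
    · refine ⟨IsIntegral.of_pow (Nat.pos_of_ne_zero hm) (by rw [hz]; exact isIntegral_one),
        IsIntegral.of_pow (Nat.pos_of_ne_zero hm) ?_⟩
      rw [inv_pow, hz, inv_one]
      exact isIntegral_one) (r * r)
  refine ⟨L, hL, dense_of_cover _ fun X hX => ?_⟩
  obtain ⟨h1, h2⟩ := coverY m S C X hX
  refine ⟨_, h1, h2, density_mixed4 h01 hA _ _ _ (fun i j hj z hz => ?_)
    L hL hc (Or.inr (hT.mono (Nat.le_mul_self r)))⟩
  have hz0 : z ≠ 0 := by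
    rintro rfl
    have h3 : (X (Sum.inr ⟨i, j⟩)).1.charpoly.eval 0 = 0 := hz
    rw [Matrix.eval_charpoly, map_zero, zero_sub, Matrix.det_neg, (X (Sum.inr ⟨i, j⟩)).2,
      mul_one] at h3
    exact pow_ne_zero _ (by norm_num) h3
  refine ⟨Units.mk0 z hz0, Subgroup.subset_closure (Set.mem_insert_of_mem _ ?_), rfl⟩
  rw [hV]
  rcases hj with hj | hj
  · exact Or.inl ⟨i, j, hj, eigenvalue_conj (hX.2 i j hj) hz⟩
  · exact Or.inr ⟨i, j, hj, eigenvalue_pow (((isRep_iff m X).1 hX.1.1).2.2 i j) hz⟩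

/-- Quasi-unipotent classes: explicit fields. -/
theorem density_roots_all (h01 : G01Irr) (hA : G0All)
    (hg1 : ∀ i, g i = 1 → n i = 0 ∨ ∃ j, m i j = 0 ∧ j ∉ S i) (N : ℕ) (hN : 0 < N)
    (hm : ∀ i j, m i j ≠ 0 → m i j ∣ N)
    (hC : ∀ i, ∀ j ∈ S i, ∀ z, IsEigenvalue (C i j) z → z ^ N = 1)
    (L : IntermediateField ℚ ℂ) (hL : FiniteDimensional ℚ L)
    (hμ : ∀ z : ℂ, z ^ (2 * N * (r * r).factorial) = 1 → z ∈ L) (hu : Infinite (𝓞 L)ˣ) :
    IsDenseRep L (Y (g := g) m S C) := by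
  refine dense_of_cover _ fun X hX => ?_
  obtain ⟨h1, h2⟩ := coverY m S C X hX
  refine ⟨_, h1, h2, density_mixed4 h01 hA _ _ _ (fun i j hj => ?_)
    L hL (Product.coefOK_roots N hN (r * r) L hL hμ hu)
    (Or.inl fun i hi hj => ?_)⟩
  · refine Product.eigIn_roots (X (Sum.inr ⟨i, j⟩)) N hN fun z hz => ?_
    rcases hj with hj | hj
    · exact hC i j hj z (eigenvalue_conj (hX.2 i j hj) hz)
    · obtain ⟨c, hc⟩ := hm i j hj
      rw [hc, pow_mul, eigenvalue_pow (((isRep_iff m X).1 hX.1.1).2.2 i j) hz, one_pow]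
  · refine (hg1 i hi).resolve_right ?_
    rintro ⟨j, h3, h4⟩
    exact (hj j).elim h4 fun h5 => h5 h3

/-- The main theorem for products of curves and orbifold curves, all classes. -/
theorem main5 (h01 : G01Irr) (hA : G0All) (k : ℕ) (g n : Fin k → ℕ)
    (m : ∀ i, Fin (n i) → ℕ) (r : ℕ) (S : ∀ i, Set (Fin (n i)))
    (C : ∀ i, Fin (n i) → SpecialLinearGroup (Fin r) ℂ) :
    ((∀ i, ∀ j ∈ S i, ∀ z, IsEigenvalue (C i j) z → IsIntegral ℤ z ∧ IsIntegral ℤ z⁻¹) →
      ∃ L : IntermediateField ℚ ℂ, FiniteDimensional ℚ L ∧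
        IsDense (Rels g n m) L (Y m S C) ∧ IsDenseRep L (Y (g := g) m S C)) ∧
    ((∀ i, g i = 1 → n i = 0 ∨ ∃ j, m i j = 0 ∧ j ∉ S i) →
      ∀ N : ℕ, 0 < N → (∀ i j, m i j ≠ 0 → m i j ∣ N) →
      (∀ i, ∀ j ∈ S i, ∀ z, IsEigenvalue (C i j) z → z ^ N = 1) →
      ∀ L : IntermediateField ℚ ℂ, FiniteDimensional ℚ L →
        (∀ z : ℂ, z ^ (2 * N * (r * r).factorial) = 1 → z ∈ L) → Infinite (𝓞 L)ˣ →
        IsDenseRep L (Y (g := g) m S C)) := by
  refine ⟨fun hC => ?_, fun hg1 N hN hm hC L hL hμ hu =>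
    density_roots_all m S C h01 hA hg1 N hN hm hC L hL hμ hu⟩
  obtain ⟨L, hL, h⟩ := exists_density_all m S C h01 hA hC
  exact ⟨L, hL, h.isDense, h⟩

end Vale.Agent.P002B
end
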