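import Mathlib
import Vale.Agent.P002.Bd3.B11
import Vale.Agent.P002.Bd3.B4
import Vale.Agent.P002.Bd3.B16
import Vale.Agent.P002.Bd3.B10
import Vale.Agent.P002.Bd3.B1
import Vale.Agent.P002.Bd3.B14
import Vale.Agent.P002.Bd3.B8
import Vale.Agent.P002.Bd3.B15
import Vale.Agent.P002.Bd3.B3

set_option linter.all false

@[reducible] def Vale.Agent.P002Fast.coeU19 {M : Type*} [Monoid M] (u : Mˣ) : CoeT Mˣ u M := ⟨Units.val u⟩
attribute [local instance] Vale.Agent.P002Fast.coeU19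

section

/-!
# P002, genus 0, two regular classes: from the chart to all irreducible representations
-/

namespace Vale.Agent.P002R

open Matrix

/-- No coordinate subspace is stable. -/
def NoStab {r : ℕ} (Z : Mat r ℂ) : Prop :=
  ∀ I : Finset (Fin r), I.Nonempty → I ≠ Finset.univ → ∃ i, i ∉ I ∧ ∃ j ∈ I, Z i j ≠ 0

/-- Points of the class with prescribed diagonal are near those in the dual chart. -/
def DualNear {R : Type*} [CommRing R] (φ : R →+* ℂ) {r : ℕ} (J : Mat r ℂ) : Prop :=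
  ∀ X : Mat r ℂ, (∀ i, X i i ≠ 0) → CjM J (zZ X) → NoStab (zZ X) → ∀ N ∈ nhds X,
    ∃ X' ∈ N, (∀ i, X' i i = X i i) ∧ CjM J (zZ X') ∧ DualD φ J X'

/-- Density of the integral points in the chart, genus zero. -/
def ChartDensity3 : Prop :=
  ∀ {R : Type} [CommRing R] (φ : R →+* ℂ), Function.Injective φ → ∀ {r m : ℕ}
    (C : Fin (m + 3) → (Mat r ℂ)ˣ), (∀ j, EigU φ (C j : Mat r ℂ)) →
    (∀ j : Fin (m + 3), 1 ≤ (j : ℕ) → (j : ℕ) ≤ m → TotD φ (C j : Mat r ℂ)) →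
    (∃ v, P002G.Cyc (C 0 : Mat r ℂ) v) →
    (∃ v, P002G.Cyc (C (Fin.last (m + 2)) : Mat r ℂ) v) →
    (∀ μ : ℂ, (C ⟨m + 1, by omega⟩ : Mat r ℂ) ≠ μ • (1 : Mat r ℂ)) →
    DualNear φ (C ⟨m + 1, by omega⟩ : Mat r ℂ) →
    ∀ x : FU 0 (m + 3) →* (Mat r ℂ)ˣ, x (relatorU 0 (m + 3)) = 1 →
    (∀ j, IsConj (C j) (x (FreeGroup.of (Sum.inr j)))) →
    UpT (cseq x 0) → LoT (cseq x (m + 2)) →
    (∀ k ≤ m + 1, ∃ X : Mat r ℂ,
      (List.ofFn fun j : Fin k => cseq x ((j : ℕ) + 1)).prod = zZ X ∧ ∀ i, X i i ≠ 0) →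
    (∀ W : Submodule ℂ (Fin r → ℂ),
      (∀ j, ∀ w ∈ W, (x (FreeGroup.of (Sum.inr j)) : Mat r ℂ) *ᵥ w ∈ W) → W = ⊥ ∨ W = ⊤) →
    ∀ f : MvPolynomial (GenU 0 (m + 3) × Fin r × Fin r) ℂ,
    (∀ (y : FU 0 (m + 3) →* (Mat r ℂ)ˣ) (cR : ℕ → Mat r R), y (relatorU 0 (m + 3)) = 1 →
      (∀ j, IsConj (C j) (y (FreeGroup.of (Sum.inr j)))) →
      (∀ j : Fin (m + 3), (y (FreeGroup.of (Sum.inr j)) : Mat r ℂ) = (cR j).map φ) →
      (∀ j : Fin (m + 3), IsUnit (cR j).det) → UpT (cR 0) → LoT (cR (m + 2)) →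
      (∀ i, φ (cR 0 i i) = cseq x 0 i i) → (∀ i, φ (cR (m + 2) i i) = cseq x (m + 2) i i) →
      evalG y f = 0) → evalG x f = 0

/-- Reordering for one tuple of classes. -/
theorem reorder_one {g n r : ℕ} {R : Type*} [CommRing R] {φ : R →+* ℂ} (C : Fin n → (Mat r ℂ)ˣ)
    (e : Equiv.Perm (Fin n))
    (h : ∀ x ∈ YG ({relatorU g n} : Set (FreeGroup ((Fin g × Bool) ⊕ Fin n))) (fun j => C (e j)),
      (∀ M : Mat r ℂ, (∀ w, Commute M (x w : Mat r ℂ)) → ∃ c : ℂ, M = c • (1 : Mat r ℂ)) →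
      ∀ f : MvPolynomial (((Fin g × Bool) ⊕ Fin n) × Fin r × Fin r) ℂ,
      (∀ y ∈ DGT ({relatorU g n} : Set (FreeGroup ((Fin g × Bool) ⊕ Fin n))) φ (fun j => C (e j)),
        evalG y f = 0) → evalG x f = 0)
    (x : FU g n →* (Mat r ℂ)ˣ)
    (hx : x ∈ YG ({relatorU g n} : Set (FreeGroup ((Fin g × Bool) ⊕ Fin n))) C)
    (hirr : ∀ M : Mat r ℂ, (∀ w, Commute M (x w : Mat r ℂ)) → ∃ c : ℂ, M = c • (1 : Mat r ℂ))
    (f : MvPolynomial (((Fin g × Bool) ⊕ Fin n) × Fin r × Fin r) ℂ)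
    (hf : ∀ y ∈ DGT ({relatorU g n} : Set (FreeGroup ((Fin g × Bool) ⊕ Fin n))) φ C,
      evalG y f = 0) : evalG x f = 0 := by
  obtain ⟨Q, hQ⟩ : ∃ Q : Fin n → ∀ r' : ℕ, Mat r' ℂ → Prop, ∀ j (M : Mat r ℂ),
      Q j r M ↔ M = (C j : Mat r ℂ) :=
    ⟨fun j r' M => ∀ h : r' = r, h ▸ M = (C j : Mat r ℂ), fun j M =>
      ⟨fun h => h rfl, fun h _ => h⟩⟩
  refine irrDenseQ_reorder (Q := Q) (φ := φ) (r := r) e (fun C' hC' x hx hirr f hf => ?_) C
    (fun j => (hQ j _).2 rfl) x hx hirr f hf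
  have h1 : C' = fun j => C (e j) := by
    funext j
    ext1
    exact (hQ (e j) _).1 (hC' j)
  subst h1
  exact h x hx hirr f hf

end Vale.Agent.P002R
end

section

/-!
# P002, genus 0, two regular classes: density in the space of parameters, all cases
-/

namespace Vale.Agent.P002R

open Matrix

/-- Moving a tuple of the chart to general position. -/
def A4Core : Prop :=
  ∀ {r m : ℕ} (Y : Fin (m + 1) → Mat r ℂ), (∀ k i, Y k i i ≠ 0) → ∀ k₁ : Fin m,
    (∀ μ : ℂ, zZ (Y k₁.castSucc) ≠ μ • (1 : Mat r ℂ)) →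
    (∀ μ : ℂ, zZ (Y (Fin.last m)) ≠ μ • (1 : Mat r ℂ)) → ∀ N ∈ nhds Y,
    ∃ Y' ∈ N, (∀ k i, Y' k i i ≠ 0) ∧ (∀ k, CjM (zZ (Y k)) (zZ (Y' k))) ∧
      (∀ i, ∏ l, Y' l i i = ∏ l, Y l i i) ∧ NoStab (zZ (Y' (Fin.last m)))

theorem CjM.nonscalar {r : ℕ} {A B : Mat r ℂ} (h : CjM A B)
    (hA : ∀ μ : ℂ, A ≠ μ • (1 : Mat r ℂ)) (μ : ℂ) : B ≠ μ • (1 : Mat r ℂ) := by
  intro hB
  obtain ⟨g, hg⟩ := h.symm
  apply hA μ
  rw [hg, hB, mul_smul_comm, mul_one, smul_mul_assoc, Units.mul_inv]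

theorem continuous_evalY {κ : Type*} {r : ℕ} (F : MvPolynomial (κ × Fin r × Fin r) ℂ) :
    Continuous fun Y : κ → Mat r ℂ =>
      (MvPolynomial.aeval (fun p : κ × Fin r × Fin r => Y p.1 p.2.1 p.2.2) F : ℂ) := by
  have h1 : (fun Y : κ → Mat r ℂ =>
      (MvPolynomial.aeval (fun p : κ × Fin r × Fin r => Y p.1 p.2.1 p.2.2) F : ℂ)) =
      fun Y => MvPolynomial.eval (fun p : κ × Fin r × Fin r => Y p.1 p.2.1 p.2.2) F := by
    funext Y
    rw [← MvPolynomial.coe_aeval_eq_eval]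
    rfl
  rw [h1]
  refine (MvPolynomial.continuous_eval F).comp ?_
  exact continuous_pi fun p => ((continuous_apply p.2.2).comp
    ((continuous_apply p.2.1).comp (continuous_apply p.1)))

theorem core_density3 (hA4 : A4Core) {R : Type*} [CommRing R] (φ : R →+* ℂ) {r m : ℕ}
    (J : Fin m → Mat r ℂ) (hT : ∀ k, TotD φ (J k)) (Jl : Mat r ℂ)
    (hns : ∀ μ : ℂ, Jl ≠ μ • (1 : Mat r ℂ)) (hDN : DualNear φ Jl) (θ : Fin r → Rˣ)
    (F : MvPolynomial (Fin (m + 1) × Fin r × Fin r) ℂ)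
    (hF : ∀ Y : Fin (m + 1) → Mat r R, (∀ k i, IsUnit (Y k i i)) →
      (∀ k : Fin m, CjM (J k) (zZ ((Y k.castSucc).map φ))) →
      CjM Jl (zZ ((Y (Fin.last m)).map φ)) → (∀ i, ∏ l, Y l i i = θ i) →
      MvPolynomial.aeval (fun p => φ (Y p.1 p.2.1 p.2.2)) F = (0 : ℂ))
    (Y : Fin (m + 1) → Mat r ℂ) (hY0 : ∀ k i, Y k i i ≠ 0)
    (hY1 : ∀ k : Fin m, CjM (J k) (zZ (Y k.castSucc)))
    (hY2 : CjM Jl (zZ (Y (Fin.last m))))
    (hcase : (∃ k : Fin m, ∀ μ : ℂ, J k ≠ μ • (1 : Mat r ℂ)) ∨ NoStab (zZ (Y (Fin.last m))))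
    (hY4 : ∀ i, ∏ l, Y l i i = φ (θ i)) :
    MvPolynomial.aeval (fun p => Y p.1 p.2.1 p.2.2) F = (0 : ℂ) := by
  by_contra hne
  obtain ⟨Y', hN', h0', hC', hp', hS'⟩ : ∃ Y' : Fin (m + 1) → Mat r ℂ,
      (MvPolynomial.aeval (fun p => Y' p.1 p.2.1 p.2.2) F : ℂ) ≠ 0 ∧ (∀ k i, Y' k i i ≠ 0) ∧
      (∀ k, CjM (zZ (Y k)) (zZ (Y' k))) ∧ (∀ i, ∏ l, Y' l i i = ∏ l, Y l i i) ∧
      NoStab (zZ (Y' (Fin.last m))) := by
    rcases hcase with ⟨k, hk⟩ | h
    · obtain ⟨Y', h1, h2⟩ := hA4 Y hY0 k ((hY1 k).nonscalar hk) (hY2.nonscalar hns)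
        {Y' | (MvPolynomial.aeval (fun p => Y' p.1 p.2.1 p.2.2) F : ℂ) ≠ 0}
        ((continuous_evalY F).continuousAt.eventually_ne hne)
      exact ⟨Y', h1, h2⟩
    · exact ⟨Y, hne, hY0, fun k => ⟨1, by simp only [Units.val_one, one_mul, inv_one, mul_one]⟩, fun _ => rfl, h⟩
  -- the dual chart
  have hcont : Continuous fun X : Mat r ℂ => Function.update Y' (Fin.last m) X :=
    continuous_const.update (Fin.last m) continuous_id
  have hN2 : {X : Mat r ℂ | (MvPolynomial.aeval (fun p => (Function.update Y' (Fin.last m) X)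
      p.1 p.2.1 p.2.2) F : ℂ) ≠ 0} ∈ nhds (Y' (Fin.last m)) := by
    refine ((continuous_evalY F).comp hcont).continuousAt.eventually_ne ?_
    simp only [Function.comp_apply, Function.update_eq_self]
    exact hN'
  obtain ⟨X, hX, hXd, hXc, hXD⟩ := hDN (Y' (Fin.last m)) (h0' _) (hY2.trans (hC' _)) hS' _ hN2
  apply hX
  have hlast : Function.update Y' (Fin.last m) X (Fin.last m) = X := Function.update_self _ _ _
  have hcast : ∀ k : Fin m, Function.update Y' (Fin.last m) X k.castSucc = Y' k.castSucc :=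
    fun k => Function.update_of_ne (Fin.castSucc_lt_last k).ne _ _
  have hdiag : ∀ k i, Function.update Y' (Fin.last m) X k i i = Y' k i i := by
    intro k i
    refine Fin.lastCases ?_ (fun k => ?_) k
    · rw [hlast, hXd]
    · rw [hcast]
  refine core_density2 φ J hT Jl θ F hF _ (fun k i => ?_) (fun k => ?_) ?_ ?_ fun i => ?_
  · rw [hdiag]
    exact h0' k i
  · rw [hcast]
    exact (hY1 k).trans (hC' _)
  · rw [hlast]
    exact hXc
  · rw [hlast]
    exact hXD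
  · simp only [hdiag]
    rw [hp', hY4]

end Vale.Agent.P002R
end

section

/-!
# P002, genus 0, two regular classes: the case where the other classes are scalar
-/

namespace Vale.Agent.P002R

open Matrix

variable {r : ℕ}

/-- The coordinate subspace. -/
def wI (I : Finset (Fin r)) : Submodule ℂ (Fin r → ℂ) where
  carrier := {w | ∀ i, i ∉ I → w i = 0}
  add_mem' := fun {a b} ha hb i hi => by rw [Pi.add_apply, ha i hi, hb i hi, add_zero]
  zero_mem' := fun i _ => rfl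
  smul_mem' := fun c w hw i hi => by rw [Pi.smul_apply, hw i hi, smul_zero]

theorem wI_stable {I : Finset (Fin r)} {M : Mat r ℂ} (h : ∀ i, i ∉ I → ∀ j ∈ I, M i j = 0) :
    ∀ w ∈ wI I, M *ᵥ w ∈ wI I := by
  intro w hw i hi
  rw [Matrix.mulVec, dotProduct]
  refine Finset.sum_eq_zero fun j _ => ?_
  by_cases hj : j ∈ I
  · rw [h i hi j hj, zero_mul]
  · rw [hw j hj, mul_zero]

theorem wI_ne {I : Finset (Fin r)} (h1 : I.Nonempty) (h2 : I ≠ Finset.univ) :
    wI I ≠ ⊥ ∧ wI I ≠ ⊤ := by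
  constructor
  · obtain ⟨i, hi⟩ := h1
    intro h
    have h3 : (Pi.single i 1 : Fin r → ℂ) ∈ wI I := by
      intro j hj
      rw [Pi.single_apply, if_neg]
      rintro rfl
      exact hj hi
    rw [h, Submodule.mem_bot] at h3
    have h4 := congrFun h3 i
    rw [Pi.single_eq_same] at h4
    exact one_ne_zero h4
  · intro h
    apply h2
    rw [Finset.eq_univ_iff_forall]
    intro i
    by_contra hi
    have h3 : (Pi.single i 1 : Fin r → ℂ) ∈ wI I := by rw [h]; exact Submodule.mem_top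
    have h4 := h3 i hi
    rw [Pi.single_eq_same] at h4
    exact one_ne_zero h4

theorem stable_inv {M : Mat r ℂ} (hM : IsUnit M.det) (W : Submodule ℂ (Fin r → ℂ))
    (h : ∀ w ∈ W, M *ᵥ w ∈ W) : ∀ w ∈ W, M⁻¹ *ᵥ w ∈ W := by
  have h' : ∀ w ∈ W, Matrix.mulVecLin M w ∈ W := h
  have hinj : Function.Injective ((Matrix.mulVecLin M).restrict h') := by
    intro a b hab
    have h1 := congrArg Subtype.val hab
    have h2 : M *ᵥ (a : Fin r → ℂ) = M *ᵥ (b : Fin r → ℂ) := h1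
    have h3 := congrArg (fun v => M⁻¹ *ᵥ v) h2
    simp only [Matrix.mulVec_mulVec, Matrix.nonsing_inv_mul _ hM, Matrix.one_mulVec] at h3
    exact Subtype.ext h3
  have hsurj := LinearMap.injective_iff_surjective.1 hinj
  intro w hw
  obtain ⟨a, ha⟩ := hsurj ⟨w, hw⟩
  have h1 : M *ᵥ (a : Fin r → ℂ) = w := congrArg Subtype.val ha
  rw [← h1, Matrix.mulVec_mulVec, Matrix.nonsing_inv_mul _ hM, Matrix.one_mulVec]
  exact a.2

/-- The case of three classes, up to scalars. -/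
theorem noStab_of_irr {A B U L : Mat r ℂ} (hA : UpT A) (hB : LoT B) (hU : UpT U)
    (hU0 : ∀ i, U i i ≠ 0) (hL : LoT L) (hL0 : ∀ i, L i i ≠ 0) (s : ℂ)
    (hrel : A * (s • (U * L)) * B = 1)
    (hirr : ∀ W : Submodule ℂ (Fin r → ℂ), (∀ w ∈ W, A *ᵥ w ∈ W) → (∀ w ∈ W, (U * L) *ᵥ w ∈ W) →
      (∀ w ∈ W, B *ᵥ w ∈ W) → W = ⊥ ∨ W = ⊤) : NoStab (U * L) := by
  intro I hI1 hI2
  by_contra hcon
  push Not at hcon
  obtain ⟨hIU, hIL⟩ := stab_UL hU hU0 hL hL0 I hcon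
  have hUd : IsUnit U.det := by
    rw [hU.det, isUnit_iff_ne_zero, Finset.prod_ne_zero_iff]
    exact fun i _ => hU0 i
  have hLd : IsUnit L.det := by
    rw [hL.det, isUnit_iff_ne_zero, Finset.prod_ne_zero_iff]
    exact fun i _ => hL0 i
  obtain ⟨P, hP⟩ : ∃ P, P = A * U := ⟨_, rfl⟩
  obtain ⟨Q, hQ⟩ : ∃ Q, Q = L * B := ⟨_, rfl⟩
  have hPt : UpT P := hP ▸ hA.mul hU
  have hQt : LoT Q := hQ ▸ hL.mul hB
  have hPQ : P * (s • Q) = 1 := by
    rw [hP, hQ, Matrix.mul_smul, Matrix.mul_assoc, ← Matrix.mul_assoc U, ← hrel,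
      Matrix.mul_smul, Matrix.smul_mul, Matrix.mul_assoc A]
  have hPd : IsUnit P.det := by
    have h1 := congrArg Matrix.det hPQ
    rw [det_mul, det_one] at h1
    exact IsUnit.of_mul_eq_one _ h1
  have hP0 : ∀ i, P i i ≠ 0 := by
    rw [hPt.det, isUnit_iff_ne_zero, Finset.prod_ne_zero_iff] at hPd
    exact fun i => hPd i (Finset.mem_univ i)
  have hs : s ≠ 0 := by
    rintro rfl
    obtain ⟨i, hi⟩ := hI1
    have h1 := congrFun (congrFun hPQ i) i
    rw [zero_smul, Matrix.mul_zero, Matrix.one_apply_eq, Matrix.zero_apply] at h1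
    exact zero_ne_one h1
  have hsQ : s • Q = P⁻¹ := by
    have h1 := congrArg (fun M => P⁻¹ * M) hPQ
    simp only [← Matrix.mul_assoc, Matrix.nonsing_inv_mul _ hPd, Matrix.one_mul,
      Matrix.mul_one] at h1
    exact h1
  have hQd : ∀ i j, i ≠ j → Q i j = 0 := by
    intro i j hij
    rcases lt_or_gt_of_ne hij with h | h
    · exact hQt i j h
    · have h1 := hPt.inv hP0 i j h
      rw [← hsQ, Matrix.smul_apply, smul_eq_mul] at h1
      exact (mul_eq_zero.1 h1).resolve_left hs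
  have hPl : LoT P := by
    have h1 : LoT (s • Q) := fun i j h => by
      rw [Matrix.smul_apply, hQt i j h, smul_zero]
    have h2 : ∀ i, (s • Q) i i ≠ 0 := fun i => by
      rw [hsQ, inv_diag hPt hP0]
      exact inv_ne_zero (hP0 i)
    have h3 : P = (s • Q)⁻¹ := by
      rw [hsQ, Matrix.nonsing_inv_nonsing_inv _ hPd]
    rw [h3]
    exact h1.inv h2
  have hIP : ∀ i, i ∉ I → ∀ j ∈ I, P i j = 0 := by
    intro i hi j hj
    have hij : i ≠ j := fun h => hi (h ▸ hj)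
    rcases lt_or_gt_of_ne hij with h | h
    · exact hPl i j h
    · exact hPt i j h
  have hIQ : ∀ i, i ∉ I → ∀ j ∈ I, Q i j = 0 := by
    intro i hi j hj
    exact hQd i j fun h => hi (h ▸ hj)
  have hWA : ∀ w ∈ wI I, A *ᵥ w ∈ wI I := by
    intro w hw
    have h1 : A = P * U⁻¹ := by
      rw [hP, Matrix.mul_assoc, Matrix.mul_nonsing_inv _ hUd, Matrix.mul_one]
    rw [h1, ← Matrix.mulVec_mulVec]
    exact wI_stable hIP _ (stable_inv hUd _ (wI_stable hIU) w hw)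
  have hWB : ∀ w ∈ wI I, B *ᵥ w ∈ wI I := by
    intro w hw
    have h1 : B = L⁻¹ * Q := by
      rw [hQ, ← Matrix.mul_assoc, Matrix.nonsing_inv_mul _ hLd, Matrix.one_mul]
    rw [h1, ← Matrix.mulVec_mulVec]
    exact stable_inv hLd _ (wI_stable hIL) _ (wI_stable hIQ w hw)
  rcases hirr (wI I) hWA (wI_stable hcon) hWB with h | h
  · exact (wI_ne hI1 hI2).1 h
  · exact (wI_ne hI1 hI2).2 h

end Vale.Agent.P002R
end

section

/-!
# P002, genus 0, two regular classes: density in the chart, all cases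
-/

namespace Vale.Agent.P002R

open Matrix

theorem lL_of_scalar {r : ℕ} {X : Mat r ℂ} {s : ℂ} (h : zZ X = s • (1 : Mat r ℂ)) :
    lL X = s • (1 : Mat r ℂ) := by
  have hU : IsUnit (uU X).det := by rw [det_uU]; exact isUnit_one
  have h1 : lL X = s • (uU X)⁻¹ := by
    have h2 : (uU X)⁻¹ * zZ X = lL X := by
      rw [zZ_eqn, ← Matrix.mul_assoc, Matrix.nonsing_inv_mul _ hU, Matrix.one_mul]
    rw [← h2, h, mul_smul_comm, Matrix.mul_one]
  have hUd : ∀ i, uU X i i ≠ 0 := fun i => by rw [uU_diag]; exact one_ne_zero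
  have h3 : UpT (uU X)⁻¹ := (upT_uU X).inv hUd
  ext i j
  rcases lt_trichotomy i j with hij | rfl | hij
  · rw [loT_lL X i j hij, Matrix.smul_apply, Matrix.one_apply_ne hij.ne, smul_zero]
  · rw [h1, Matrix.smul_apply, Matrix.smul_apply, Matrix.one_apply_eq, inv_diag (upT_uU X) hUd,
      uU_diag, inv_one]
  · rw [h1, Matrix.smul_apply, h3 i j hij, Matrix.smul_apply, Matrix.one_apply_ne hij.ne']

/-- The product of the sequence. -/
theorem prod_split {r : ℕ} (m : ℕ) (c : ℕ → Mat r ℂ) :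
    (List.ofFn fun j : Fin (m + 3) => c j).prod =
      c 0 * (List.ofFn fun j : Fin m => c ((j : ℕ) + 1)).prod * c (m + 1) * c (m + 2) := by
  rw [List.ofFn_succ, List.prod_cons, List.ofFn_succ', List.prod_concat, List.ofFn_succ',
    List.prod_concat]
  simp only [Fin.val_succ, Fin.val_castSucc, Fin.val_last, Fin.val_zero, Matrix.mul_assoc]

theorem prod_scalar {r : ℕ} (m : ℕ) (c : ℕ → Mat r ℂ)
    (h : ∀ j < m, ∃ μ : ℂ, c (j + 1) = μ • (1 : Mat r ℂ)) :
    ∃ s : ℂ, (List.ofFn fun j : Fin m => c ((j : ℕ) + 1)).prod = s • (1 : Mat r ℂ) := by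
  induction m with
  | zero => exact ⟨1, by rw [List.ofFn_zero, List.prod_nil, one_smul]⟩
  | succ m ih =>
    obtain ⟨s, hs⟩ := ih fun j hj => h j (by omega)
    obtain ⟨μ, hμ⟩ := h m (by omega)
    refine ⟨s * μ, ?_⟩
    rw [List.ofFn_succ', List.prod_concat]
    simp only [Fin.val_castSucc, Fin.val_last]
    rw [hs, hμ, smul_mul_smul_comm, Matrix.mul_one]

/-- Density of the integral points in the chart. The integral points are triangular at both ends,
with the diagonals of the given point. -/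
theorem chart_density3 (hA4 : A4Core) {R : Type*} [CommRing R] (φ : R →+* ℂ)
    (hinj : Function.Injective φ)
    {r m : ℕ} (C : Fin (m + 3) → (Mat r ℂ)ˣ) (hE : ∀ j, EigU φ (C j : Mat r ℂ))
    (hT : ∀ j : Fin (m + 3), 1 ≤ (j : ℕ) → (j : ℕ) ≤ m → TotD φ (C j : Mat r ℂ))
    (h0 : ∃ v, P002G.Cyc (C 0 : Mat r ℂ) v)
    (hl : ∃ v, P002G.Cyc (C (Fin.last (m + 2)) : Mat r ℂ) v)
    (hns : ∀ μ : ℂ, (C ⟨m + 1, by omega⟩ : Mat r ℂ) ≠ μ • (1 : Mat r ℂ))
    (hDN : DualNear φ (C ⟨m + 1, by omega⟩ : Mat r ℂ))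
    (x : FU 0 (m + 3) →* (Mat r ℂ)ˣ) (hx1 : x (relatorU 0 (m + 3)) = 1)
    (hxC : ∀ j, IsConj (C j) (x (FreeGroup.of (Sum.inr j))))
    (hup : UpT (cseq x 0)) (hlo : LoT (cseq x (m + 2)))
    (hcell : ∀ k ≤ m + 1, ∃ X : Mat r ℂ,
      (List.ofFn fun j : Fin k => cseq x ((j : ℕ) + 1)).prod = zZ X ∧ ∀ i, X i i ≠ 0)
    (hirr : ∀ W : Submodule ℂ (Fin r → ℂ),
      (∀ j, ∀ w ∈ W, (x (FreeGroup.of (Sum.inr j)) : Mat r ℂ) *ᵥ w ∈ W) → W = ⊥ ∨ W = ⊤)
    (f : MvPolynomial (GenU 0 (m + 3) × Fin r × Fin r) ℂ)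
    (hf : ∀ (y : FU 0 (m + 3) →* (Mat r ℂ)ˣ) (cR : ℕ → Mat r R), y (relatorU 0 (m + 3)) = 1 →
      (∀ j, IsConj (C j) (y (FreeGroup.of (Sum.inr j)))) →
      (∀ j : Fin (m + 3), (y (FreeGroup.of (Sum.inr j)) : Mat r ℂ) = (cR j).map φ) →
      (∀ j : Fin (m + 3), IsUnit (cR j).det) → UpT (cR 0) → LoT (cR (m + 2)) →
      (∀ i, φ (cR 0 i i) = cseq x 0 i i) → (∀ i, φ (cR (m + 2) i i) = cseq x (m + 2) i i) →
      evalG y f = 0) :
    evalG x f = 0 := by
  -- the tuple in the chart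
  have hXex : ∀ k, ∃ X : Mat r ℂ, k ≤ m + 1 →
      (List.ofFn fun j : Fin k => cseq x ((j : ℕ) + 1)).prod = zZ X ∧ ∀ i, X i i ≠ 0 := by
    intro k
    by_cases hk : k ≤ m + 1
    · obtain ⟨X, hX⟩ := hcell k hk
      exact ⟨X, fun _ => hX⟩
    · exact ⟨0, fun h => absurd h hk⟩
  choose X hX using hXex
  obtain ⟨Y, κ, t, hκ, ht, hctup, hLc, hY0⟩ := exists_ctup (m + 1) (cseq x) X
    (fun k hk => (hX k hk).1) (fun k hk => (hX k hk).2) hup hlo (cseq_prod x hx1)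
  obtain ⟨t', ht'⟩ : ∃ t' : Fin r → ℂ, t' = fun i => cseq x 0 i i := ⟨_, rfl⟩
  rw [← ht'] at hctup
  have hcx : ∀ j (hj : j < m + 3), CjM (C ⟨j, hj⟩ : Mat r ℂ) (cseq x j) := by
    intro j hj
    have h1 : cseq x j = _ := cseq_of x ⟨j, hj⟩
    rw [h1]
    exact cjM_of_isConj (hxC ⟨j, hj⟩)
  -- eigenvalues
  have hξ0 : ∀ i, ∃ u : Rˣ, φ (u : R) = cseq x 0 i i := by
    intro i
    apply hE 0
    have h1 : (C 0 : Mat r ℂ).charpoly = (cseq x 0).charpoly :=
      ((hcx 0 (by omega)).charpoly).symm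
    rw [h1, charpoly_upT hup, Polynomial.IsRoot.def, Polynomial.eval_prod]
    exact Finset.prod_eq_zero (Finset.mem_univ i) (by simp only [Polynomial.eval_sub, Polynomial.eval_X, Polynomial.eval_C, sub_self])
  choose ξ hξ using hξ0
  have hξ0' : ∀ i, ∃ u : Rˣ, φ (u : R) = cseq x (m + 2) i i := by
    intro i
    apply hE (Fin.last (m + 2))
    have h1 : (C (Fin.last (m + 2)) : Mat r ℂ).charpoly = (cseq x (m + 2)).charpoly :=
      ((hcx (m + 2) (by omega)).charpoly).symm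
    rw [h1, charpoly_loT hlo, Polynomial.IsRoot.def, Polynomial.eval_prod]
    exact Finset.prod_eq_zero (Finset.mem_univ i) (by simp only [Polynomial.eval_sub, Polynomial.eval_X, Polynomial.eval_C, sub_self])
  choose ξ' hξ' using hξ0'
  have hδ0 : ∀ l, ∃ u : Rˣ, ∀ hl : l < m + 1, φ (u : R) =
      (C ⟨l + 1, by omega⟩ : Mat r ℂ).det := by
    intro l
    by_cases hl : l < m + 1
    · obtain ⟨u, hu⟩ := (hE ⟨l + 1, by omega⟩).det
      exact ⟨u, fun _ => hu⟩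
    · exact ⟨1, fun h => absurd h hl⟩
  choose δ hδ using hδ0
  -- the elements of the cell
  have hYC : ∀ k (hk : k < m + 1), CjM (C ⟨k + 1, by omega⟩ : Mat r ℂ) (zZ (Y k)) := by
    intro k hk
    obtain ⟨L, -, hL⟩ := ctup_mid_cjM (m + 1) t t' κ Y k hk (hκ k hk.le)
    refine (hcx (k + 1) (by omega)).trans ⟨L, ?_⟩
    rw [hctup (k + 1) (by omega)]
    exact hL
  have hκ' : ∀ k ≤ m + 1, κ k = φ (kap' δ k) := by
    intro k hk
    have h1 := kap'_mul δ φ Y k fun l hlk => by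
      rw [(hYC l (by omega)).det, hδ l (by omega)]
    have h2 := hκ k hk
    have h3 : (Lc Y k).det ≠ 0 := right_ne_zero_of_mul (by rw [h2]; exact one_ne_zero)
    exact mul_right_cancel₀ h3 (h2.trans h1.symm)
  have htt : t = fun i => φ ((ξ i)⁻¹ : Rˣ) := by
    funext i
    have h1 := ht i
    have h2 : φ (ξ i) * φ ((ξ i)⁻¹ : Rˣ) = 1 := by rw [← map_mul, Units.mul_inv, map_one]
    rw [hξ] at h2
    exact mul_left_cancel₀ (left_ne_zero_of_mul (by rw [h1]; exact one_ne_zero)) (h1.trans h2.symm)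
  have htt' : t' = fun i => φ (ξ i) := by
    rw [ht']
    funext i
    rw [hξ]
  have hlast : ∀ i, (∏ l ∈ Finset.range (m + 1), Y l i i) * φ (ξ i) * φ (ξ' i) = 1 := by
    intro i
    have h1 := (ctup_last_loT (m + 1) t t' κ Y (hκ (m + 1) le_rfl)).2 i
    rw [← hctup (m + 1 + 1) (by omega), Lc_diag] at h1
    have h2 := ht i
    rw [hξ, hξ', mul_comm (∏ l ∈ Finset.range (m + 1), Y l i i), mul_assoc,
      mul_comm (∏ l ∈ Finset.range (m + 1), Y l i i), h1, h2]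
  -- the two cases
  have hcase : (∃ k : Fin m, ∀ μ : ℂ, (C ⟨k + 1, by omega⟩ : Mat r ℂ) ≠ μ • (1 : Mat r ℂ)) ∨
      NoStab (zZ (Y m)) := by
    by_cases hc : ∃ k : Fin m, ∀ μ : ℂ, (C ⟨k + 1, by omega⟩ : Mat r ℂ) ≠ μ • (1 : Mat r ℂ)
    · exact Or.inl hc
    right
    push Not at hc
    have hsc : ∀ j < m, ∃ μ : ℂ, cseq x (j + 1) = μ • (1 : Mat r ℂ) := by
      intro j hj
      obtain ⟨μ, hμ⟩ := hc ⟨j, hj⟩
      obtain ⟨g, hg⟩ := hcx (j + 1) (by omega)
      refine ⟨μ, ?_⟩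
      rw [hg, hμ, mul_smul_comm, Matrix.mul_one, smul_mul_assoc, Units.mul_inv]
    obtain ⟨s, hs⟩ := prod_scalar m (cseq x) hsc
    have hXm := (hX m (Nat.le_succ m)).1
    have hL := lL_of_scalar (hXm.symm.trans hs)
    obtain ⟨L, hL1, hL2⟩ := ctup_mid_cjM (m + 1) t t' κ Y m (Nat.lt_succ_self m)
      (hκ m (Nat.le_succ m))
    rw [← hctup (m + 1) (by omega)] at hL2
    have hLs : (L : Mat r ℂ) = s • (1 : Mat r ℂ) := by
      rw [hL1, hLc m (Nat.le_succ m), hL]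
    have hZ : zZ (Y m) = cseq x (m + 1) := by
      rw [hL2, hLs, smul_mul_assoc, Matrix.one_mul, smul_mul_assoc, ← mul_smul_comm]
      have h1 : s • ((L⁻¹ : (Mat r ℂ)ˣ) : Mat r ℂ) = 1 := by
        have h2 : (L : Mat r ℂ) * ((L⁻¹ : (Mat r ℂ)ˣ) : Mat r ℂ) = 1 := Units.mul_inv L
        rw [hLs, smul_mul_assoc, Matrix.one_mul] at h2
        exact h2
      rw [h1, Matrix.mul_one]
    have hrel := cseq_prod x hx1
    rw [prod_split, hs] at hrel
    rw [zZ_eqn]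
    refine noStab_of_irr hup hlo (upT_uU _) (fun i => by rw [uU_diag]; exact one_ne_zero)
      (loT_lL _) (fun i => by rw [lL_diag]; exact hY0 m (Nat.lt_succ_self m) i) s ?_ ?_
    · rw [← zZ_eqn, hZ, ← hrel]
      simp only [smul_mul_assoc, mul_smul_comm, Matrix.mul_one]
    · intro W hW1 hW2 hW3
      rw [← zZ_eqn, hZ] at hW2
      refine hirr W fun j w hw => ?_
      rw [← cseq_of]
      rcases Nat.lt_trichotomy (j : ℕ) (m + 1) with h | h | h
      · rcases Nat.eq_zero_or_pos (j : ℕ) with h' | h'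
        · rw [h']
          exact hW1 w hw
        · obtain ⟨μ, hμ⟩ := hsc ((j : ℕ) - 1) (by omega)
          rw [Nat.sub_add_cancel h'] at hμ
          rw [hμ, smul_mulVec, one_mulVec]
          exact W.smul_mem _ hw
      · rw [h]
        exact hW2 w hw
      · have h' : (j : ℕ) = m + 2 := by
          have := j.2
          omega
        rw [h']
        exact hW3 w hw
  -- the polynomial
  obtain ⟨v, hv⟩ := (hcx 0 (by omega)).cyc h0
  obtain ⟨v', hv'⟩ := (hcx (m + 2) (by omega)).cyc hl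
  obtain ⟨F, hF⟩ := exists_chart_poly (m := m) t t' κ v v' f
  have hext : ∀ j, ctup (m + 1) t t' κ (extY fun k : Fin (m + 1) => Y k) j =
      ctup (m + 1) t t' κ Y j := fun j =>
    ctup_congr (fun l hl => extY_of _ l hl) (fun _ _ => rfl) j
  have hmain := core_density3 hA4 φ (fun k : Fin m => (C ⟨k + 1, by omega⟩ : Mat r ℂ))
    (fun k => hT _ (Nat.succ_le_succ (Nat.zero_le _)) (Nat.succ_le_of_lt k.2))
    (C ⟨m + 1, by omega⟩ : Mat r ℂ) hns hDN (fun i => (ξ i * ξ' i)⁻¹) F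
    (fun Y' hY1 hY2 hY3 hY5 => by
      obtain ⟨Z, hZ⟩ : ∃ Z : ℕ → Mat r R, Z = extY Y' := ⟨_, rfl⟩
      have hZk : ∀ k (hk : k < m + 1), Z k = Y' ⟨k, hk⟩ := fun k hk => by
        rw [hZ, extY_of _ k hk]
      have hZm : Z m = Y' (Fin.last m) := hZk m (Nat.lt_succ_self m)
      obtain ⟨hκZ, y, cR, hy1, hy2, hy2', hyu, hyl, hyu', hyl', hy3⟩ := chart_integral2 φ hinj C hE
        h0 hl δ ξ ξ' (fun l hl => hδ l hl)
        (by
          have h1 : (C 0 : Mat r ℂ).charpoly = (cseq x 0).charpoly :=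
            ((hcx 0 (by omega)).charpoly).symm
          rw [h1, charpoly_upT hup]
          exact Finset.prod_congr rfl fun i _ => by rw [hξ])
        (by
          have h1 : (C (Fin.last (m + 2)) : Mat r ℂ).charpoly = (cseq x (m + 2)).charpoly :=
            ((hcx (m + 2) (by omega)).charpoly).symm
          rw [h1, charpoly_loT hlo]
          exact Finset.prod_congr rfl fun i _ => by rw [hξ'])
        Z (fun k hk => by
          rcases Nat.lt_succ_iff_lt_or_eq.1 hk with h | rfl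
          · rw [hZk k (by omega)]
            exact hY2 ⟨k, h⟩
          · rw [hZm]
            exact hY3)
        (fun i => by
          have h1 : (∏ l ∈ Finset.range (m + 1), φ (Z l i i)) = φ ((ξ i * ξ' i)⁻¹ : Rˣ) := by
            rw [← hY5 i, map_prod, ← Fin.prod_univ_eq_prod_range (fun l => φ (Z l i i))]
            exact Finset.prod_congr rfl fun l _ => by rw [hZk l l.2]
          rw [h1, mul_assoc, ← map_mul, ← map_mul, ← Units.val_mul, ← Units.val_mul,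
            inv_mul_cancel, Units.val_one, map_one])
      have hcc : ∀ j, ctup (m + 1) (fun i => φ ((ξ i)⁻¹ : Rˣ)) (fun i => φ (ξ i))
          (fun k => φ (kap' δ k)) (fun k => (Z k).map φ) j =
          ctup (m + 1) t t' κ (extY fun k => (Y' k).map φ) j := by
        intro j
        rw [htt, htt', ← extY_map, ← hZ]
        exact ctup_congr (fun _ _ => rfl) (fun l hl => (hκ' l hl).symm) j
      have hFY := hF fun k => (Y' k).map φ
      simp only [map_apply] at hFY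
      rw [hFY]
      by_cases hk1 : (P002.kry (ctup (m + 1) t t' κ (extY fun k => (Y' k).map φ) 0) v).det = 0
      · rw [hk1, mul_zero, zero_mul]
      by_cases hk2 : (P002.kry (ctup (m + 1) t t' κ (extY fun k => (Y' k).map φ) (m + 2)) v').det = 0
      · rw [hk2, mul_zero]
      obtain ⟨hy4, hy5⟩ := hy3
        ⟨v, by
          rw [hcc, P002G.cyc_iff, Matrix.isUnit_iff_isUnit_det, isUnit_iff_ne_zero]
          exact hk1⟩
        ⟨v', by
          rw [hcc, P002G.cyc_iff, Matrix.isUnit_iff_isUnit_det, isUnit_iff_ne_zero]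
          exact hk2⟩
      have hy6 := hf y cR hy1 hy4 hy2' hy5 hyu hyl (fun i => by rw [hyu', hξ])
        (fun i => by rw [hyl', hξ'])
      rw [evalG_eq_evalT y _ hy2] at hy6
      have hcc' : (fun j => ctup (m + 1) (fun i => φ ((ξ i)⁻¹ : Rˣ)) (fun i => φ (ξ i))
          (fun k => φ (kap' δ k)) (fun k => (Z k).map φ) j) =
          fun j => ctup (m + 1) t t' κ (extY fun k => (Y' k).map φ) j := funext hcc
      have hy7 : evalT (ctup (m + 1) t t' κ (extY fun k => (Y' k).map φ)) f = 0 := by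
        rw [← hy6]
        exact congrArg (fun c => evalT c f) hcc'.symm
      rw [hy7, zero_mul, zero_mul])
    (fun k : Fin (m + 1) => Y k) (fun k i => hY0 k k.2 i) (fun k => hYC k (by (clear * -; omega)))
    (hYC m (Nat.lt_succ_self m)) hcase
    (fun i => by
      have h1 := hlast i
      have h2 : φ ((ξ i * ξ' i)⁻¹ : Rˣ) * (φ (ξ i) * φ (ξ' i)) = 1 := by
        rw [← map_mul, ← map_mul, ← Units.val_mul, ← Units.val_mul, inv_mul_cancel, Units.val_one,
          map_one]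
      rw [Fin.prod_univ_eq_prod_range (fun l => Y l i i)]
      rw [mul_assoc] at h1
      exact mul_right_cancel₀ (right_ne_zero_of_mul (by rw [h2]; exact one_ne_zero))
        (h1.trans h2.symm))
  have hmain' := (hF fun k : Fin (m + 1) => Y k).symm.trans hmain
  rw [hext, hext] at hmain'
  have hkv : (P002.kry (ctup (m + 1) t t' κ Y 0) v).det ≠ 0 := by
    rw [← hctup 0 (by omega), ← isUnit_iff_ne_zero, ← Matrix.isUnit_iff_isUnit_det,
      ← P002G.cyc_iff]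
    exact hv
  have hkv' : (P002.kry (ctup (m + 1) t t' κ Y (m + 2)) v').det ≠ 0 := by
    rw [← hctup (m + 1 + 1) le_rfl, ← isUnit_iff_ne_zero, ← Matrix.isUnit_iff_isUnit_det,
      ← P002G.cyc_iff]
    exact hv'
  have hev : evalT (N := m + 3) (ctup (m + 1) t t' κ (extY fun k : Fin (m + 1) => Y k)) f = 0 := by
    rcases mul_eq_zero.1 hmain' with h | h
    · exact (mul_eq_zero.1 h).resolve_right hkv
    · exact absurd h hkv'
  rw [evalG_eq_evalT x _ fun j => ?_]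
  · exact hev
  · rw [hext, ← hctup j (by omega), cseq_of]

end Vale.Agent.P002R
end

section

/-!
# P002, genus 0, rank one classes: lemmas
-/

namespace Vale.Agent.P002R

open Matrix

variable {r : ℕ}

/-! ### conjugacy of rank one perturbations of the identity -/

theorem exists_both_ne {w w' : Fin r → ℂ} (hw : w ≠ 0) (hw' : w' ≠ 0) :
    ∃ a : Fin r → ℂ, w ⬝ᵥ a ≠ 0 ∧ w' ⬝ᵥ a ≠ 0 := by
  obtain ⟨i, hi⟩ := Function.ne_iff.1 hw
  obtain ⟨j, hj⟩ := Function.ne_iff.1 hw'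
  rw [Pi.zero_apply] at hi hj
  by_cases h1 : w' i = 0
  · by_cases h2 : w j = 0
    · refine ⟨Pi.single i 1 + Pi.single j 1, ?_, ?_⟩
      · rw [dotProduct_add, dotProduct_single_one, dotProduct_single_one, h2, add_zero]
        exact hi
      · rw [dotProduct_add, dotProduct_single_one, dotProduct_single_one, h1, zero_add]
        exact hj
    · exact ⟨Pi.single j 1, by rwa [dotProduct_single_one], by rwa [dotProduct_single_one]⟩
  · exact ⟨Pi.single i 1, by rwa [dotProduct_single_one], by rwa [dotProduct_single_one]⟩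

theorem exists_both_ne' {w w' : Fin r → ℂ} (hw : w ≠ 0) (hw' : w' ≠ 0) :
    ∃ a : Fin r → ℂ, w ⬝ᵥ a ≠ 0 ∧ w' ⬝ᵥ a = 1 := by
  obtain ⟨a, h1, h2⟩ := exists_both_ne hw hw'
  refine ⟨(w' ⬝ᵥ a)⁻¹ • a, ?_, ?_⟩
  · rw [dotProduct_smul, smul_eq_mul]
    exact mul_ne_zero (inv_ne_zero h2) h1
  · rw [dotProduct_smul, smul_eq_mul, inv_mul_cancel₀ h2]

theorem det_one_add_vmv (u v : Fin r → ℂ) :
    (1 + vecMulVec u v : Mat r ℂ).det = 1 + v ⬝ᵥ u := by
  rw [Matrix.vecMulVec_eq Unit, Matrix.det_one_add_replicateCol_mul_replicateRow]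

theorem exists_conj_rankOne {v w v' w' : Fin r → ℂ} (hv : v ≠ 0) (hw : w ≠ 0) (hv' : v' ≠ 0)
    (hw' : w' ≠ 0) (h : w ⬝ᵥ v = w' ⬝ᵥ v') :
    ∃ g : (Mat r ℂ)ˣ, (g : Mat r ℂ) * vecMulVec v w = vecMulVec v' w' * (g : Mat r ℂ) := by
  obtain ⟨b, hb1, hb2⟩ := exists_both_ne' hv' hv
  obtain ⟨g1, hg1⟩ : ∃ g1 : (Mat r ℂ)ˣ, (g1 : Mat r ℂ) = 1 + vecMulVec (v' - v) b := by
    have h1 : IsUnit (1 + vecMulVec (v' - v) b : Mat r ℂ) := by
      rw [Matrix.isUnit_iff_isUnit_det, det_one_add_vmv, dotProduct_sub, dotProduct_comm b v,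
        hb2, add_sub_cancel, dotProduct_comm, isUnit_iff_ne_zero]
      exact hb1
    exact ⟨h1.unit, rfl⟩
  have hg1v : (g1 : Mat r ℂ) *ᵥ v = v' := by
    rw [hg1, add_mulVec, one_mulVec, vmv_mulVec, dotProduct_comm b v, hb2, one_smul,
      add_sub_cancel]
  obtain ⟨w1, hw1⟩ : ∃ w1 : Fin r → ℂ, w1 ᵥ* (g1 : Mat r ℂ) = w :=
    ⟨w ᵥ* ((g1⁻¹ : (Mat r ℂ)ˣ) : Mat r ℂ), by rw [vecMul_vecMul, Units.inv_mul, vecMul_one]⟩
  have hw10 : w1 ≠ 0 := by
    rintro rfl
    rw [zero_vecMul] at hw1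
    exact hw hw1.symm
  have hw1v : w1 ⬝ᵥ v' = w' ⬝ᵥ v' := by
    rw [← hg1v, dotProduct_mulVec, hw1, h, hg1v]
  obtain ⟨a, ha1, ha2⟩ := exists_both_ne' hw10 hw'
  obtain ⟨g2, hg2⟩ : ∃ g2 : (Mat r ℂ)ˣ, (g2 : Mat r ℂ) = 1 + vecMulVec a (w1 - w') := by
    have h1 : IsUnit (1 + vecMulVec a (w1 - w') : Mat r ℂ) := by
      rw [Matrix.isUnit_iff_isUnit_det, det_one_add_vmv, sub_dotProduct, ha2, add_sub_cancel,
        isUnit_iff_ne_zero]
      exact ha1
    exact ⟨h1.unit, rfl⟩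
  have hg2v : (g2 : Mat r ℂ) *ᵥ v' = v' := by
    rw [hg2, add_mulVec, one_mulVec, vmv_mulVec, sub_dotProduct, hw1v, sub_self, zero_smul,
      add_zero]
  have hg2w : w' ᵥ* (g2 : Mat r ℂ) = w1 := by
    rw [hg2, vecMul_add, vecMul_one, vecMul_vecMulVec, ha2, one_smul, add_sub_cancel]
  refine ⟨g2 * g1, ?_⟩
  rw [Units.val_mul, Matrix.mul_assoc, Matrix.mul_vecMulVec, hg1v, Matrix.mul_vecMulVec, hg2v,
    ← Matrix.mul_assoc, Matrix.vecMulVec_mul, hg2w, Matrix.vecMulVec_mul, hw1]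

theorem cjM_rankOne (z c : ℂ) {v w v' w' : Fin r → ℂ} (hv : v ≠ 0) (hw : w ≠ 0) (hv' : v' ≠ 0)
    (hw' : w' ≠ 0) (h : w ⬝ᵥ v = w' ⬝ᵥ v') :
    CjM (z • (1 - c • vecMulVec v w) : Mat r ℂ) (z • (1 - c • vecMulVec v' w')) := by
  obtain ⟨g, hg⟩ := exists_conj_rankOne hv hw hv' hw' h
  refine ⟨g, ?_⟩
  rw [Matrix.mul_smul, Matrix.smul_mul, Matrix.mul_sub, Matrix.mul_one, Matrix.mul_smul, hg,
    Matrix.sub_mul, Units.mul_inv, Matrix.smul_mul, Matrix.mul_assoc, Units.mul_inv,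
    Matrix.mul_one]

/-! ### coordinate subspaces -/

/-- The coordinate subspace is stable. -/
def CSt (I : Finset (Fin r)) (M : Mat r ℂ) : Prop := ∀ i, i ∉ I → ∀ j ∈ I, M i j = 0

theorem CSt.mul {I : Finset (Fin r)} {M N : Mat r ℂ} (hM : CSt I M) (hN : CSt I N) :
    CSt I (M * N) := coord_stable_mul I hM hN

theorem CSt.inv {I : Finset (Fin r)} {M : Mat r ℂ} (hM : CSt I M) (h : IsUnit M.det) :
    CSt I M⁻¹ := coord_stable_inv h I hM

theorem CSt.sub {I : Finset (Fin r)} {M N : Mat r ℂ} (hM : CSt I M) (hN : CSt I N) :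
    CSt I (M - N) := fun i hi j hj => by
  rw [Matrix.sub_apply, hM i hi j hj, hN i hi j hj, sub_zero]

theorem CSt.add {I : Finset (Fin r)} {M N : Mat r ℂ} (hM : CSt I M) (hN : CSt I N) :
    CSt I (M + N) := fun i hi j hj => by
  rw [Matrix.add_apply, hM i hi j hj, hN i hi j hj, add_zero]

theorem CSt.smul {I : Finset (Fin r)} {M : Mat r ℂ} (hM : CSt I M) (c : ℂ) : CSt I (c • M) :=
  fun i hi j hj => by rw [Matrix.smul_apply, hM i hi j hj, smul_zero]

theorem cSt_diagonal (I : Finset (Fin r)) (d : Fin r → ℂ) : CSt I (diagonal d) :=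
  fun _ hi _ hj => Matrix.diagonal_apply_ne _ fun h => hi (h ▸ hj)

theorem cSt_one (I : Finset (Fin r)) : CSt I (1 : Mat r ℂ) :=
  fun _ hi _ hj => Matrix.one_apply_ne fun h => hi (h ▸ hj)

/-- `1 + e_i t` preserves the coordinate subspace when `t` is a row of a matrix with this
property. -/
theorem CSt.refl {I : Finset (Fin r)} {T : Mat r ℂ} (hT : CSt I T) (i : Fin r) :
    CSt I (1 + vecMulVec (Pi.single i 1) (T i)) := by
  refine (cSt_one I).add fun k hk j hj => ?_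
  rw [vecMulVec_apply]
  by_cases h : k = i
  · rw [h] at hk ⊢
    rw [hT i hk j hj, mul_zero]
  · rw [Pi.single_eq_of_ne h, zero_mul]

/-! ### subspaces stable under the virtual ends -/

/-- Vectors of a stable subspace, in an eigenbasis. -/
theorem mem_iff_coeff {W : Submodule ℂ (Fin r → ℂ)} {M P : Mat r ℂ} {ω : Fin r → ℂ}
    (hω : Function.Injective ω) (hP : IsUnit P.det) (h : M * P = P * diagonal ω)
    (hW : ∀ v ∈ W, M *ᵥ v ∈ W) (I : Finset (Fin r)) (hI : ∀ i, i ∈ I ↔ P.col i ∈ W)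
    (v : Fin r → ℂ) : v ∈ W ↔ ∀ i, i ∉ I → (P⁻¹ *ᵥ v) i = 0 := by
  constructor
  · intro hv i hi
    by_contra hne
    exact hi ((hI i).2 (mem_of_coeff hω hP h hW v hv i hne))
  · intro hv
    have h2 : v = ∑ i, (P⁻¹ *ᵥ v) i • P.col i := by
      have h3 : v = P *ᵥ (P⁻¹ *ᵥ v) := by
        rw [Matrix.mulVec_mulVec, Matrix.mul_nonsing_inv P hP, Matrix.one_mulVec]
      conv_lhs => rw [h3]
      ext k
      rw [Matrix.mulVec, dotProduct, Finset.sum_apply]
      refine Finset.sum_congr rfl fun i _ => ?_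
      rw [Pi.smul_apply, smul_eq_mul, Matrix.col_apply, mul_comm]
    rw [h2]
    refine Submodule.sum_mem _ fun i _ => ?_
    by_cases hi : i ∈ I
    · exact W.smul_mem _ ((hI i).1 hi)
    · rw [hv i hi, zero_smul]
      exact W.zero_mem

theorem exists_coord_of_stable {W : Submodule ℂ (Fin r → ℂ)} {E : Subgroup ℂˣ} {U L : Mat r ℂ}
    (hU : UpT U) (hU1 : ∀ i, U i i = 1) (hL : LoT L) (hLE : ∀ i, ∃ e ∈ E, (e : ℂ) = L i i)
    (Δ : Fin r → ℂ) (hΔ0 : ∀ i, Δ i ≠ 0)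
    (hno : ∀ (I J : Finset (Fin r)), (∃ ε ∈ E, ∏ i ∈ I, Δ i = (ε : ℂ) * ∏ j ∈ J, Δ j) → I = J)
    (l : List (Mat r ℂ)) (hrel : l.prod = U * L) (hlE : ∀ M ∈ l, EigIn E M)
    (hW0 : ∀ v ∈ W, (diagonal Δ * U⁻¹) *ᵥ v ∈ W) (hWl : ∀ M ∈ l, ∀ v ∈ W, M *ᵥ v ∈ W)
    (hW1 : ∀ v ∈ W, (L⁻¹ * diagonal fun i => (Δ i)⁻¹) *ᵥ v ∈ W) :
    ∃ I : Finset (Fin r), ∀ v, v ∈ W ↔ ∀ i, i ∉ I → v i = 0 := by
  classical
  have hL0 : ∀ i, L i i ≠ 0 := fun i => by
    obtain ⟨e, _, he⟩ := hLE i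
    rw [← he]
    exact e.ne_zero
  have hU0 : ∀ i, U i i ≠ 0 := fun i => by rw [hU1]; exact one_ne_zero
  have hUd : IsUnit U.det := by
    rw [hU.det, isUnit_iff_ne_zero, Finset.prod_ne_zero_iff]
    exact fun i _ => hU0 i
  have hLd : IsUnit L.det := by
    rw [hL.det, isUnit_iff_ne_zero, Finset.prod_ne_zero_iff]
    exact fun i _ => hL0 i
  have hinj : Function.Injective Δ := by
    intro i j hij
    have h1 := hno {i} {j} ⟨1, E.one_mem, by
      rw [Finset.prod_singleton, Finset.prod_singleton, hij, Units.val_one, one_mul]⟩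
    exact Finset.singleton_inj.1 h1
  obtain ⟨b0, hb0⟩ : ∃ b0 : Mat r ℂ, b0 = diagonal Δ * U⁻¹ := ⟨_, rfl⟩
  obtain ⟨b1, hb1⟩ : ∃ b1 : Mat r ℂ, b1 = L⁻¹ * diagonal fun i => (Δ i)⁻¹ := ⟨_, rfl⟩
  rw [← hb0] at hW0
  rw [← hb1] at hW1
  have hb0u : UpT b0 := by
    rw [hb0]
    exact (upT_diagonal Δ).mul (hU.inv hU0)
  have hb0d : ∀ i, b0 i i = Δ i := fun i => by
    rw [hb0, (upT_diagonal Δ).mul_diag (hU.inv hU0), Matrix.diagonal_apply_eq,
      inv_diag hU hU0, hU1, inv_one, mul_one]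
  have hb1l : LoT b1 := by
    rw [hb1]
    exact (hL.inv hL0).mul (loT_diagonal _)
  have hb1d : ∀ i, b1 i i = (L i i)⁻¹ * (Δ i)⁻¹ := fun i => by
    rw [hb1, (hL.inv hL0).mul_diag (loT_diagonal _), Matrix.diagonal_apply_eq,
      LoT.inv_diag hL hL0]
  have hinj1 : Function.Injective fun i => b1 i i := by
    intro i j hij
    simp only [hb1d] at hij
    rw [← mul_inv, ← mul_inv] at hij
    have h1 := inv_injective hij
    obtain ⟨e, he, he'⟩ := hLE i
    obtain ⟨e', he1, he1'⟩ := hLE j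
    have h2 := hno {i} {j} ⟨e⁻¹ * e', E.mul_mem (E.inv_mem he) he1, by
      rw [Finset.prod_singleton, Finset.prod_singleton, Units.val_mul, Units.val_inv_eq_inv_val,
        he', he1', mul_assoc, ← h1, ← mul_assoc, inv_mul_cancel₀ (hL0 i), one_mul]⟩
    exact Finset.singleton_inj.1 h2
  obtain ⟨P0, hP0u, hP0d, hP0⟩ := exists_diag_upT hb0u fun i j hij => by
    rw [hb0d, hb0d]
    exact isUnit_iff_ne_zero.2 (sub_ne_zero.2 fun h => hij (hinj h))
  obtain ⟨P1, hP1l, hP1d, hP1⟩ := exists_diag_loT hb1l fun i j hij =>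
    isUnit_iff_ne_zero.2 (sub_ne_zero.2 fun h => hij (hinj1 h))
  have hP0D : IsUnit P0.det := by
    rw [hP0u.det, isUnit_iff_ne_zero, Finset.prod_ne_zero_iff]
    exact fun i _ => by rw [hP0d]; exact one_ne_zero
  have hP1D : IsUnit P1.det := by
    rw [hP1l.det, isUnit_iff_ne_zero, Finset.prod_ne_zero_iff]
    exact fun i _ => by rw [hP1d]; exact one_ne_zero
  have hinj0 : Function.Injective fun i => b0 i i := by
    intro i j hij
    simp only [hb0d] at hij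
    exact hinj hij
  obtain ⟨I, hI⟩ : ∃ I : Finset (Fin r), ∀ i, i ∈ I ↔ P0.col i ∈ W :=
    ⟨Finset.univ.filter fun i => P0.col i ∈ W, fun i => by simp only [Finset.mem_filter, Finset.mem_univ, true_and]⟩
  obtain ⟨J, hJ⟩ : ∃ J : Finset (Fin r), ∀ i, i ∈ J ↔ P1.col i ∈ W :=
    ⟨Finset.univ.filter fun i => P1.col i ∈ W, fun i => by simp only [Finset.mem_filter, Finset.mem_univ, true_and]⟩
  have d0 := detOn_diag hinj0 hP0D hP0 hW0 I hI
  have d1 := detOn_diag hinj1 hP1D hP1 hW1 J hJ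
  obtain ⟨e, he, dl⟩ := detOn_prod E l fun M hM => detOn_of_eigIn (hlE M hM) (hWl M hM)
  have hprod : b0 * l.prod * b1 = 1 := by
    rw [hrel, hb0, hb1]
    have h1 : U⁻¹ * (U * L) * L⁻¹ = 1 := by
      rw [← mul_assoc, Matrix.nonsing_inv_mul _ hUd, one_mul, Matrix.mul_nonsing_inv _ hLd]
    calc diagonal Δ * U⁻¹ * (U * L) * (L⁻¹ * diagonal fun i => (Δ i)⁻¹)
        = diagonal Δ * (U⁻¹ * (U * L) * L⁻¹) * diagonal (fun i => (Δ i)⁻¹) := by
          simp only [mul_assoc]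
      _ = 1 := by
          rw [h1, mul_one, Matrix.diagonal_mul_diagonal, ← Matrix.diagonal_one]
          congr 1
          funext i
          exact mul_inv_cancel₀ (hΔ0 i)
  have h1 := (d0.mul dl).mul d1
  rw [hprod] at h1
  have h2 := h1.unique detOn_one
  -- the index sets agree
  have hIJ : I = J := by
    choose θ hθE hθ using hLE
    refine hno I J ⟨e⁻¹ * ∏ j ∈ J, θ j, E.mul_mem (E.inv_mem he) (E.prod_mem fun j _ => hθE j), ?_⟩
    simp only [hb0d, hb1d] at h2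
    rw [Units.val_mul, Units.val_inv_eq_inv_val, Units.coe_prod]
    have h3 : (∏ j ∈ J, (L j j)⁻¹ * (Δ j)⁻¹) * (∏ j ∈ J, ((θ j : ℂ) * Δ j)) = 1 := by
      rw [← Finset.prod_mul_distrib]
      refine Finset.prod_eq_one fun j _ => ?_
      rw [hθ, mul_comm (L j j), ← mul_assoc, mul_assoc (L j j)⁻¹, inv_mul_cancel₀ (hΔ0 j), mul_one,
        inv_mul_cancel₀ (hL0 j)]
    have h4 : (∏ i ∈ I, Δ i) * (e : ℂ) = ∏ j ∈ J, ((θ j : ℂ) * Δ j) := by
      have h5 : (∏ i ∈ I, Δ i) * (e : ℂ) * (∏ j ∈ J, (L j j)⁻¹ * (Δ j)⁻¹) *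
          (∏ j ∈ J, ((θ j : ℂ) * Δ j)) = 1 * ∏ j ∈ J, ((θ j : ℂ) * Δ j) := by rw [h2]
      rwa [mul_assoc, h3, mul_one, one_mul] at h5
    rw [Finset.prod_mul_distrib] at h4
    rw [mul_assoc, ← h4, mul_comm (∏ i ∈ I, Δ i), ← mul_assoc, inv_mul_cancel₀ e.ne_zero, one_mul]
  subst hIJ
  have m0 := mem_iff_coeff hinj0 hP0D hP0 hW0 I hI
  have m1 := mem_iff_coeff hinj1 hP1D hP1 hW1 I hJ
  have hst : CSt I (P0⁻¹ * P1) := by
    intro i hi j hj
    have h3 := (m0 _).1 ((hJ j).1 hj) i hi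
    rw [Matrix.mul_apply]
    exact h3
  have hP00 : ∀ i, P0 i i ≠ 0 := fun i => by rw [hP0d]; exact one_ne_zero
  obtain ⟨-, s1⟩ := stab_UL (hP0u.inv hP00) (fun i => by
    rw [inv_diag hP0u hP00, hP0d, inv_one]; exact one_ne_zero) hP1l
    (fun i => by rw [hP1d]; exact one_ne_zero) I hst
  have s1' : CSt I P1 := s1
  refine ⟨I, fun v => ?_⟩
  rw [m1]
  constructor
  · intro h
    have h3 : v = P1 *ᵥ (P1⁻¹ *ᵥ v) := by
      rw [Matrix.mulVec_mulVec, Matrix.mul_nonsing_inv _ hP1D, Matrix.one_mulVec]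
    rw [h3]
    exact mulVec_mem_cSub (K := ℂ) s1' h
  · intro h
    exact mulVec_mem_cSub (K := ℂ) (s1'.inv hP1D) h

end Vale.Agent.P002R
end

section

/-!
# P002: perturbation of an element of the cell which preserves a pair of complementary coordinate
subspaces
-/

namespace Vale.Agent.P002R

open Matrix

variable {r : ℕ}

/-- The matrix commutes with no projector on a coordinate subspace. -/
def Conn (Z : Mat r ℂ) : Prop :=
  ∀ I : Finset (Fin r), I.Nonempty → I ≠ Finset.univ → ∃ i ∈ I, ∃ j, j ∉ I ∧ (Z i j ≠ 0 ∨ Z j i ≠ 0)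

/-- Block diagonal matrices. -/
def BlkD (I : Finset (Fin r)) (Z : Mat r ℂ) : Prop :=
  (∀ i, i ∉ I → ∀ j ∈ I, Z i j = 0) ∧ ∀ i ∈ I, ∀ j, j ∉ I → Z i j = 0

/-- The off-diagonal block. -/
def OffD (I : Finset (Fin r)) (Z : Mat r ℂ) : Prop := ∀ i j, ¬ (i ∈ I ∧ j ∉ I) → Z i j = 0

theorem BlkD.mulOff {I : Finset (Fin r)} {A B : Mat r ℂ} (hA : BlkD I A) (hB : OffD I B) :
    OffD I (A * B) := by
  intro i j h
  rw [Matrix.mul_apply]
  refine Finset.sum_eq_zero fun k _ => ?_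
  by_cases hk : k ∈ I ∧ j ∉ I
  · have hi : i ∉ I := fun hi => h ⟨hi, hk.2⟩
    rw [hA.1 i hi k hk.1, zero_mul]
  · rw [hB k j hk, mul_zero]

theorem OffD.mulBlk {I : Finset (Fin r)} {A B : Mat r ℂ} (hB : OffD I B) (hA : BlkD I A) :
    OffD I (B * A) := by
  intro i j h
  rw [Matrix.mul_apply]
  refine Finset.sum_eq_zero fun k _ => ?_
  by_cases hk : i ∈ I ∧ k ∉ I
  · have hj : j ∈ I := by
      by_contra hj
      exact h ⟨hk.1, hj⟩
    rw [hA.1 k hk.2 j hj, mul_zero]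
  · rw [hB i k hk, zero_mul]

theorem OffD.mulOff {I : Finset (Fin r)} {A B : Mat r ℂ} (hA : OffD I A) (hB : OffD I B) :
    A * B = 0 := by
  ext i j
  rw [Matrix.mul_apply, Matrix.zero_apply]
  refine Finset.sum_eq_zero fun k _ => ?_
  by_cases hk : k ∈ I
  · rw [hA i k fun h => h.2 hk, zero_mul]
  · rw [hB k j fun h => hk h.1, mul_zero]

theorem OffD.sub {I : Finset (Fin r)} {A B : Mat r ℂ} (hA : OffD I A) (hB : OffD I B) :
    OffD I (A - B) := fun i j h => by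
  rw [Matrix.sub_apply, hA i j h, hB i j h, sub_zero]

theorem offD_single {I : Finset (Fin r)} {i j : Fin r} (hi : i ∈ I) (hj : j ∉ I) :
    OffD I (Matrix.single i j (1 : ℂ)) := by
  intro a b h
  rw [Matrix.single_apply, if_neg]
  rintro ⟨rfl, rfl⟩
  exact h ⟨hi, hj⟩

theorem BlkD.inv {I : Finset (Fin r)} {A : Mat r ℂ} (hA : BlkD I A) (hd : IsUnit A.det) :
    BlkD I A⁻¹ := by
  have h1 : ∀ (I : Finset (Fin r)), (∀ i, i ∉ I → ∀ j ∈ I, A i j = 0) →
      ∀ i, i ∉ I → ∀ j ∈ I, A⁻¹ i j = 0 := by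
    intro I hI i hi j hj
    have h2 : (Pi.single j 1 : Fin r → ℂ) ∈ wI I := by
      intro k hk
      rw [Pi.single_apply, if_neg]
      rintro rfl
      exact hk hj
    have h3 := stable_inv hd _ (wI_stable hI) _ h2 i hi
    rwa [Matrix.mulVec_single_one] at h3
  refine ⟨h1 I hA.1, fun i hi j hj => ?_⟩
  refine h1 Iᶜ (fun i hi j hj => ?_) i ?_ j ?_
  · rw [Finset.mem_compl] at hj
    rw [Finset.mem_compl, not_not] at hi
    exact hA.2 i hi j hj
  · rw [Finset.mem_compl, not_not]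
    exact hi
  · rw [Finset.mem_compl]
    exact hj

theorem exists_perturb {X : Mat r ℂ} (hX : ∀ i, X i i ≠ 0) (I : Finset (Fin r))
    (hc : BlkD I (zZ X)) (x : Mat r ℂ) (hx : OffD I x) :
    ∃ E : Mat r ℂ, (∀ i, E i i = 0) ∧
      ∀ s : ℂ, zZ (X + s • E) = zZ X + s • (x * zZ X - zZ X * x) := by
  obtain ⟨U, hU⟩ : ∃ U, U = uU X := ⟨_, rfl⟩
  obtain ⟨L, hL⟩ : ∃ L, L = lL X := ⟨_, rfl⟩
  have hZ : zZ X = U * L := by rw [hU, hL]; rfl
  have hUt : UpT U := hU ▸ upT_uU X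
  have hLt : LoT L := hL ▸ loT_lL X
  have hU1 : ∀ i, U i i = 1 := fun i => by rw [hU, uU_diag]
  have hL1 : ∀ i, L i i = X i i := fun i => by rw [hL, lL_diag]
  have hU0 : ∀ i, U i i ≠ 0 := fun i => by rw [hU1]; exact one_ne_zero
  have hL0 : ∀ i, L i i ≠ 0 := fun i => by rw [hL1]; exact hX i
  have hUd : IsUnit U.det := by
    rw [hUt.det, isUnit_iff_ne_zero, Finset.prod_ne_zero_iff]
    exact fun i _ => hU0 i
  have hLd : IsUnit L.det := by
    rw [hLt.det, isUnit_iff_ne_zero, Finset.prod_ne_zero_iff]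
    exact fun i _ => hL0 i
  have hblk : BlkD I U ∧ BlkD I L := by
    obtain ⟨h1, h2⟩ := stab_UL hUt hU0 hLt hL0 I (hZ ▸ hc.1)
    obtain ⟨h3, h4⟩ := stab_UL hUt hU0 hLt hL0 Iᶜ (fun i hi j hj => by
      rw [Finset.mem_compl] at hj
      rw [Finset.mem_compl, not_not] at hi
      rw [← hZ]
      exact hc.2 i hi j hj)
    refine ⟨⟨h1, fun i hi j hj => h3 i ?_ j ?_⟩, ⟨h2, fun i hi j hj => h4 i ?_ j ?_⟩⟩
    · rw [Finset.mem_compl, not_not]; exact hi
    · rw [Finset.mem_compl]; exact hj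
    · rw [Finset.mem_compl, not_not]; exact hi
    · rw [Finset.mem_compl]; exact hj
  obtain ⟨hUb, hLb⟩ := hblk
  obtain ⟨n, hn⟩ : ∃ n, n = U⁻¹ * x * U - L * x * L⁻¹ := ⟨_, rfl⟩
  have hnO : OffD I n := by
    rw [hn]
    exact (((hUb.inv hUd).mulOff hx).mulBlk hUb).sub ((hLb.mulOff hx).mulBlk (hLb.inv hLd))
  obtain ⟨nU, hnU⟩ : ∃ nU, nU = upS n := ⟨_, rfl⟩
  obtain ⟨nL, hnL⟩ : ∃ nL, nL = lL n := ⟨_, rfl⟩
  have hsum : nU + nL = n := by rw [hnU, hnL, upS_add_lL]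
  have hnUO : OffD I nU := fun i j h => by
    rw [hnU, upS_apply, hnO i j h, ite_self]
  have hnLO : OffD I nL := fun i j h => by
    rw [hnL, lL_apply, hnO i j h, ite_self]
  have hnUL : nU * nL = 0 := hnUO.mulOff hnLO
  have hnL0 : ∀ i, nL i i = 0 := fun i => hnLO i i fun h => h.2 h.1
  have hnUt : UpT nU := fun i j h => by rw [hnU, upS_apply, if_neg h.not_gt]
  have hnU0 : ∀ i, nU i i = 0 := fun i => hnUO i i fun h => h.2 h.1
  have hnLt : LoT nL := hnL ▸ loT_lL n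
  obtain ⟨E, hE⟩ : ∃ E, E = U * nU + nL * L := ⟨_, rfl⟩
  have hUU : UpT (U * nU) := hUt.mul hnUt
  have hLL : LoT (nL * L) := hnLt.mul hLt
  have hUU0 : ∀ i, (U * nU) i i = 0 := fun i => by rw [hUt.mul_diag hnUt, hnU0, mul_zero]
  have hLL0 : ∀ i, (nL * L) i i = 0 := fun i => by rw [hnLt.mul_diag hLt, hnL0, zero_mul]
  refine ⟨E, fun i => by rw [hE, Matrix.add_apply, hUU0, hLL0, add_zero], fun s => ?_⟩
  have huU : uU (X + s • E) = U * (1 + s • nU) := by
    rw [Matrix.mul_add, Matrix.mul_one, Matrix.mul_smul]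
    ext i j
    rw [uU_apply, Matrix.add_apply, Matrix.smul_apply, Matrix.add_apply, Matrix.smul_apply, hE,
      Matrix.add_apply]
    by_cases h1 : i = j
    · rw [if_pos h1, ← h1, hUU0, smul_zero, add_zero, hU1]
    · rw [if_neg h1]
      by_cases h2 : i < j
      · rw [if_pos h2, hLL i j h2, add_zero, hU, uU_apply, if_neg h1, if_pos h2]
      · rw [if_neg h2, hUU i j (lt_of_le_of_ne (not_lt.1 h2) (Ne.symm h1)), smul_zero, add_zero,
          hU, uU_apply, if_neg h1, if_neg h2]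
  have hlL : lL (X + s • E) = (1 + s • nL) * L := by
    rw [Matrix.add_mul, Matrix.one_mul, Matrix.smul_mul]
    ext i j
    rw [lL_apply, Matrix.add_apply, Matrix.smul_apply, Matrix.add_apply, Matrix.smul_apply, hE,
      Matrix.add_apply]
    by_cases h1 : i = j
    · rw [if_pos (le_of_eq h1.symm), ← h1, hUU0, zero_add, hL1]
    · by_cases h2 : i < j
      · rw [if_neg h2.not_ge, hLL i j h2, smul_zero, add_zero, hL, lL_apply, if_neg h2.not_ge]
      · have h3 : j < i := lt_of_le_of_ne (not_lt.1 h2) (Ne.symm h1)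
        rw [if_pos h3.le, hUU i j h3, zero_add, hL, lL_apply, if_pos h3.le]
  have h1 : zZ (X + s • E) = U * (1 + s • n) * L := by
    rw [zZ, huU, hlL]
    have h2 : (1 + s • nU) * (1 + s • nL) = 1 + s • n := by
      rw [Matrix.add_mul, Matrix.one_mul, Matrix.mul_add, Matrix.mul_one, Matrix.smul_mul,
        Matrix.mul_smul, hnUL, smul_zero, smul_zero, add_zero, ← hsum, smul_add]
      abel
    rw [← h2]
    simp only [Matrix.mul_assoc]
  rw [h1, hZ, Matrix.mul_add, Matrix.add_mul, Matrix.mul_one, Matrix.mul_smul, Matrix.smul_mul]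
  congr 2
  rw [hn, Matrix.mul_sub, Matrix.sub_mul]
  congr 1
  · rw [← Matrix.mul_assoc, ← Matrix.mul_assoc, Matrix.mul_nonsing_inv _ hUd, Matrix.one_mul,
      Matrix.mul_assoc]
  · simp only [Matrix.mul_assoc]
    rw [Matrix.nonsing_inv_mul _ hLd, Matrix.mul_one]

end Vale.Agent.P002R
end

section

/-!
# P002: elements of the cell which commute with no coordinate projector
-/

namespace Vale.Agent.P002R

open Matrix

variable {r : ℕ}

theorem CjM.ns {A B : Mat r ℂ} (h : CjM A B) (hA : ∀ μ : ℂ, A ≠ μ • (1 : Mat r ℂ)) :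
    ∀ μ : ℂ, B ≠ μ • (1 : Mat r ℂ) := by
  obtain ⟨g, hg⟩ := h.symm
  intro μ hμ
  apply hA μ
  rw [hg, hμ, Matrix.mul_smul, Matrix.smul_mul, Matrix.mul_one, Units.mul_inv]

theorem exists_single_comm {Z : Mat r ℂ} (hZ : ∀ μ : ℂ, Z ≠ μ • (1 : Mat r ℂ))
    (I : Finset (Fin r)) (hI1 : I.Nonempty) (hI2 : I ≠ Finset.univ) (hc : BlkD I Z) :
    ∃ x, OffD I x ∧ x * Z - Z * x ≠ 0 := by
  by_contra hcon
  push Not at hcon
  have h1 : ∀ i ∈ I, ∀ j, j ∉ I → Matrix.single i j (1 : ℂ) * Z = Z * Matrix.single i j 1 :=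
    fun i hi j hj => sub_eq_zero.1 (hcon _ (offD_single hi hj))
  have h2 : ∀ i ∈ I, ∀ j, j ∉ I → (∀ a, a ≠ i → Z a i = 0) ∧ (∀ b, b ≠ j → Z j b = 0) ∧
      Z i i = Z j j := by
    intro i hi j hj
    have h3 := h1 i hi j hj
    refine ⟨fun a ha => ?_, fun b hb => ?_, ?_⟩
    · have h4 := congrFun (congrFun h3 a) j
      rw [Matrix.single_mul_apply_of_ne _ _ _ _ _ ha, Matrix.mul_single_apply_same, mul_one] at h4
      exact h4.symm
    · have h4 := congrFun (congrFun h3 i) b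
      rw [Matrix.single_mul_apply_same, one_mul, Matrix.mul_single_apply_of_ne _ _ _ _ _ hb] at h4
      exact h4
    · have h4 := congrFun (congrFun h3 i) j
      rw [Matrix.single_mul_apply_same, one_mul, Matrix.mul_single_apply_same, mul_one] at h4
      exact h4.symm
  obtain ⟨i₀, hi₀⟩ := hI1
  obtain ⟨j₀, hj₀⟩ : ∃ j, j ∉ I := by
    by_contra h
    push Not at h
    exact hI2 (Finset.eq_univ_iff_forall.2 h)
  apply hZ (Z i₀ i₀)
  have hdd : ∀ i, Z i i = Z i₀ i₀ := by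
    intro i
    by_cases hi : i ∈ I
    · rw [(h2 i hi j₀ hj₀).2.2, (h2 i₀ hi₀ j₀ hj₀).2.2]
    · exact (h2 i₀ hi₀ i hi).2.2.symm
  ext a b
  rw [Matrix.smul_apply, Matrix.one_apply]
  split_ifs with hab
  · rw [← hab, hdd, smul_eq_mul, mul_one]
  · rw [smul_zero]
    by_cases ha : a ∈ I
    · by_cases hb : b ∈ I
      · exact (h2 b hb j₀ hj₀).1 a hab
      · exact hc.2 a ha b hb
    · by_cases hb : b ∈ I
      · exact hc.1 a ha b hb
      · exact (h2 i₀ hi₀ a ha).2.1 b (Ne.symm hab)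

theorem exists_conn : ∀ (k : ℕ) (X : Mat r ℂ), (∀ i, X i i ≠ 0) →
    (∀ μ : ℂ, zZ X ≠ μ • (1 : Mat r ℂ)) →
    (Finset.univ.filter fun p : Fin r × Fin r => zZ X p.1 p.2 = 0).card ≤ k →
    ∀ N ∈ nhds X, ∃ X' ∈ N, (∀ i, X' i i = X i i) ∧ CjM (zZ X) (zZ X') ∧ Conn (zZ X') := by
  intro k
  induction k with
  | zero =>
    intro X hX hns hk N hN
    refine ⟨X, mem_of_mem_nhds hN, fun _ => rfl, ⟨1, by simp⟩, ?_⟩
    intro I hI1 hI2
    obtain ⟨i, hi⟩ := hI1
    obtain ⟨j, hj⟩ : ∃ j, j ∉ I := by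
      by_contra h
      push Not at h
      exact hI2 (Finset.eq_univ_iff_forall.2 h)
    refine ⟨i, hi, j, hj, Or.inl fun h => ?_⟩
    have h1 : ((i, j) : Fin r × Fin r) ∈
        Finset.univ.filter fun p : Fin r × Fin r => zZ X p.1 p.2 = 0 :=
      Finset.mem_filter.2 ⟨Finset.mem_univ _, h⟩
    rw [Nat.le_zero, Finset.card_eq_zero] at hk
    rw [hk] at h1
    exact absurd h1 (Finset.notMem_empty _)
  | succ k ih =>
    intro X hX hns hk N hN
    by_cases hcn : Conn (zZ X)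
    · exact ⟨X, mem_of_mem_nhds hN, fun _ => rfl, ⟨1, by simp only [Units.val_one, one_mul, inv_one, mul_one]⟩, hcn⟩
    rw [Conn] at hcn
    push Not at hcn
    obtain ⟨I, hI1, hI2, hI⟩ := hcn
    have hblk : BlkD I (zZ X) :=
      ⟨fun i hi j hj => (hI j hj i hi).2, fun i hi j hj => (hI i hi j hj).1⟩
    obtain ⟨x, hx, hx0⟩ := exists_single_comm hns I hI1 hI2 hblk
    obtain ⟨E, hE0, hE⟩ := exists_perturb hX I hblk x hx
    have hcont : Continuous fun s : ℂ => X + s • E :=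
      continuous_const.add (continuous_id.smul continuous_const)
    have hmem : {s : ℂ | X + s • E ∈ interior N} ∈ nhds (0 : ℂ) := by
      apply hcont.continuousAt.preimage_mem_nhds
      rw [zero_smul, add_zero]
      exact interior_mem_nhds.2 hN
    have hmem' : {s : ℂ | X + s • E ∈ interior N} ∩ {(0 : ℂ)}ᶜ ∈ nhdsWithin (0 : ℂ) {(0 : ℂ)}ᶜ :=
      Filter.inter_mem (mem_nhdsWithin_of_mem_nhds hmem) self_mem_nhdsWithin
    obtain ⟨s, hs1, hs2⟩ := Filter.nonempty_of_mem hmem'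
    have hs0 : s ≠ 0 := hs2
    have hdiag : ∀ i, (X + s • E) i i = X i i := fun i => by
      rw [Matrix.add_apply, Matrix.smul_apply, hE0, smul_zero, add_zero]
    obtain ⟨Z, hZ⟩ : ∃ Z, Z = zZ X := ⟨_, rfl⟩
    have hE' : zZ (X + s • E) = Z + s • (x * Z - Z * x) := by rw [hE, hZ]
    rw [← hZ] at hx0 hblk
    have hxO : OffD I (x * Z - Z * x) := (hx.mulBlk hblk).sub (hblk.mulOff hx)
    have hxx : x * x = 0 := hx.mulOff hx
    have hxZx : x * Z * x = 0 := (hx.mulBlk hblk).mulOff hx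
    have hcj : CjM (zZ X) (zZ (X + s • E)) := by
      have h1 : (1 + s • x) * (1 - s • x) = 1 := by
        rw [Matrix.mul_sub, Matrix.mul_one, Matrix.add_mul, Matrix.one_mul, Matrix.mul_smul,
          Matrix.smul_mul, hxx, smul_zero, smul_zero, add_zero, add_sub_cancel_right]
      have h2 : (1 - s • x) * (1 + s • x) = 1 := by
        rw [Matrix.mul_add, Matrix.mul_one, Matrix.sub_mul, Matrix.one_mul, Matrix.mul_smul,
          Matrix.smul_mul, hxx, smul_zero, smul_zero, sub_zero, sub_add_cancel]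
      refine ⟨⟨1 + s • x, 1 - s • x, h1, h2⟩, ?_⟩
      rw [hE', ← hZ]
      change _ = (1 + s • x) * Z * (1 - s • x)
      rw [Matrix.mul_sub, Matrix.mul_one, Matrix.add_mul, Matrix.one_mul, Matrix.add_mul,
        Matrix.mul_smul, Matrix.smul_mul, Matrix.smul_mul, Matrix.mul_smul, hxZx, smul_zero,
        smul_zero, add_zero, smul_sub]
      abel
    obtain ⟨X', hX'1, hX'2, hX'3, hX'4⟩ := ih (X + s • E) (fun i => by rw [hdiag]; exact hX i)
      (hcj.ns hns) (by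
        have hlt : (Finset.univ.filter fun p : Fin r × Fin r => zZ (X + s • E) p.1 p.2 = 0) ⊂
            Finset.univ.filter fun p : Fin r × Fin r => zZ X p.1 p.2 = 0 := by
          rw [Finset.ssubset_iff_of_subset]
          · obtain ⟨a, b, hab⟩ : ∃ a b, (x * Z - Z * x) a b ≠ 0 := by
              by_contra h
              push Not at h
              exact hx0 (Matrix.ext h)
            have hIab : a ∈ I ∧ b ∉ I := by
              by_contra h
              exact hab (hxO a b h)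
            refine ⟨(a, b), Finset.mem_filter.2 ⟨Finset.mem_univ _, ?_⟩, fun h => ?_⟩
            · rw [← hZ]
              exact hblk.2 a hIab.1 b hIab.2
            · have h1 := (Finset.mem_filter.1 h).2
              simp only at h1
              rw [hE', Matrix.add_apply, hblk.2 a hIab.1 b hIab.2, zero_add, Matrix.smul_apply,
                smul_eq_mul] at h1
              rcases mul_eq_zero.1 h1 with h2 | h2
              · exact hs0 h2
              · exact hab h2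
          · intro p hp
            rw [Finset.mem_filter] at hp ⊢
            refine ⟨Finset.mem_univ _, ?_⟩
            rw [← hZ]
            by_cases h : p.1 ∈ I ∧ p.2 ∉ I
            · exact hblk.2 _ h.1 _ h.2
            · have h1 := hp.2
              rwa [hE', Matrix.add_apply, Matrix.smul_apply, hxO _ _ h, smul_zero, add_zero] at h1
        exact Nat.le_of_lt_succ (lt_of_lt_of_le (Finset.card_lt_card hlt) hk))
      (interior N) (isOpen_interior.mem_nhds hs1)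
    exact ⟨X', interior_subset hX'1, fun i => by rw [hX'2, hdiag], hcj.trans hX'3, hX'4⟩

end Vale.Agent.P002R
end

section

/-!
# P002, genus 0: moving the diagonal of the cell coordinates inside a conjugacy class
-/

namespace Vale.Agent.P002R

open Matrix Module Vale.Agent.P002

variable {r : ℕ}

/-- strictly upper + strictly lower = 0 -/
theorem upS_lL_zero {A B : P002R.Mat r ℂ} (hA : ∀ i j, j ≤ i → A i j = 0)
    (hB : ∀ i j, i < j → B i j = 0) (h : A + B = 0) : A = 0 ∧ B = 0 := by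
  have h1 : ∀ i j, A i j + B i j = 0 := fun i j => congrFun (congrFun h i) j
  constructor
  · ext i j
    rcases lt_or_ge i j with hij | hij
    · have := h1 i j
      rwa [hB i j hij, add_zero] at this
    · exact hA i j hij
  · ext i j
    rcases lt_or_ge i j with hij | hij
    · exact hB i j hij
    · have := h1 i j
      rwa [hA i j hij, zero_add] at this

theorem uU_eq_add (X : P002R.Mat r ℂ) : uU X = 1 + upS X := by
  ext i j
  rw [uU_apply, Matrix.add_apply, upS_apply, Matrix.one_apply]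
  by_cases h : i = j
  · rw [if_pos h, if_pos h, h, if_neg (lt_irrefl j), add_zero]
  · rw [if_neg h, if_neg h, zero_add]

theorem isUnit_uU' (X : P002R.Mat r ℂ) : IsUnit (uU X) := by
  rw [Matrix.isUnit_iff_isUnit_det, (upT_uU X).det]
  simp only [uU_diag, Finset.prod_const_one, isUnit_iff_ne_zero, ne_eq, one_ne_zero, not_false_eq_true]

theorem isUnit_lL' {X : P002R.Mat r ℂ} (hX : ∀ i, X i i ≠ 0) : IsUnit (lL X) := by
  rw [Matrix.isUnit_iff_isUnit_det, (loT_lL X).det, isUnit_iff_ne_zero, Finset.prod_ne_zero_iff]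
  intro i _
  rw [lL_diag]
  exact hX i

theorem det_zZ' (X : P002R.Mat r ℂ) : (zZ X).det = ∏ i, X i i := by
  rw [zZ_eqn, Matrix.det_mul, (upT_uU X).det, (loT_lL X).det]
  simp only [uU_diag, Finset.prod_const_one, lL_diag, one_mul]

section normed

open scoped Matrix.Norms.Operator

/-- the strict derivative of the cell coordinates -/
theorem deriv_zZ (X : P002R.Mat r ℂ) : ∃ D : P002R.Mat r ℂ →L[ℂ] P002R.Mat r ℂ,
    HasStrictFDerivAt (fun X : P002R.Mat r ℂ => zZ X) D X ∧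
      ∀ H, D H = upS H * lL X + uU X * lL H := by
  obtain ⟨S, hS⟩ : ∃ S : P002R.Mat r ℂ →L[ℂ] P002R.Mat r ℂ, ∀ H, S H = upS H := by
    refine ⟨LinearMap.toContinuousLinearMap
      { toFun := upS
        map_add' := fun A B => ?_
        map_smul' := fun a A => ?_ }, fun H => rfl⟩
    · ext i j
      simp only [upS_apply, Matrix.add_apply]
      split_ifs <;> simp
    · ext i j
      simp only [upS_apply, Matrix.smul_apply, RingHom.id_apply]
      split_ifs <;> simp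
  obtain ⟨T, hT⟩ : ∃ T : P002R.Mat r ℂ →L[ℂ] P002R.Mat r ℂ, ∀ H, T H = lL H := by
    refine ⟨LinearMap.toContinuousLinearMap
      { toFun := lL
        map_add' := fun A B => ?_
        map_smul' := fun a A => ?_ }, fun H => rfl⟩
    · ext i j
      simp only [lL_apply, Matrix.add_apply]
      split_ifs <;> simp
    · ext i j
      simp only [lL_apply, Matrix.smul_apply, RingHom.id_apply]
      split_ifs <;> simp
  have h1 : HasStrictFDerivAt (fun X : P002R.Mat r ℂ => uU X) S X := by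
    have h2 : (fun X : P002R.Mat r ℂ => uU X) = fun X => 1 + S X := by
      funext X; rw [hS, uU_eq_add]
    rw [h2]
    exact S.hasStrictFDerivAt.const_add 1
  have h2 : HasStrictFDerivAt (fun X : P002R.Mat r ℂ => lL X) T X := by
    have h3 : (fun X : P002R.Mat r ℂ => lL X) = fun X => T X := by
      funext X; rw [hT]
    rw [h3]
    exact T.hasStrictFDerivAt
  obtain ⟨D, hD, e⟩ := exists_deriv_mul h1 h2
  refine ⟨D, ?_, fun H => (e H).trans (congrArg₂ (· + ·) (congrArg (· * lL X) (hS H))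
    (congrArg (uU X * ·) (hT H)))⟩
  have h3 : (fun X : P002R.Mat r ℂ => zZ X) = fun X => uU X * lL X := by
    funext X; rw [zZ_eqn]
  rw [h3]
  exact hD

/-- the coordinates are open -/
theorem zZ_open_norm {X : P002R.Mat r ℂ} (hX : ∀ i, X i i ≠ 0) {N : Set (P002R.Mat r ℂ)}
    (hN : N ∈ nhds X) : zZ '' N ∈ nhds (zZ X) := by
  obtain ⟨D, hD, e⟩ := deriv_zZ X
  have hsurj : D.range = ⊤ := by
    have hinj : Function.Injective (D.toLinearMap) := by
      rw [injective_iff_map_eq_zero]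
      intro H hH
      have h1 : upS H * lL X + uU X * lL H = 0 := by rw [← e]; exact hH
      have hU := isUnit_uU' X
      have hL := isUnit_lL' hX
      have hUd := (Matrix.isUnit_iff_isUnit_det _).1 hU
      have hLd := (Matrix.isUnit_iff_isUnit_det _).1 hL
      have h2 : (uU X)⁻¹ * upS H + lL H * (lL X)⁻¹ = 0 := by
        calc (uU X)⁻¹ * upS H + lL H * (lL X)⁻¹
            = (uU X)⁻¹ * (upS H * lL X + uU X * lL H) * (lL X)⁻¹ := by
              rw [Matrix.mul_add, Matrix.add_mul, ← Matrix.mul_assoc, ← Matrix.mul_assoc,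
                Matrix.nonsing_inv_mul _ hUd, Matrix.one_mul,
                Matrix.mul_assoc ((uU X)⁻¹ * upS H), Matrix.mul_nonsing_inv _ hLd,
                Matrix.mul_one]
          _ = 0 := by rw [h1, Matrix.mul_zero, Matrix.zero_mul]
      have hUi : UpT (uU X)⁻¹ := (upT_uU X).inv fun i => by rw [uU_diag]; exact one_ne_zero
      have hLi : LoT (lL X)⁻¹ := (loT_lL X).inv fun i => by rw [lL_diag]; exact hX i
      obtain ⟨h3, h4⟩ := upS_lL_zero (fun i j hij => by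
          rw [Matrix.mul_apply]
          refine Finset.sum_eq_zero fun k _ => ?_
          rw [upS_apply]
          rcases lt_or_ge k i with h | h
          · rw [hUi i k h, zero_mul]
          · rw [if_neg (not_lt.2 (hij.trans h)), mul_zero])
        ((loT_lL H).mul hLi) h2
      have h5 : upS H = 0 := by
        have := congrArg (fun M => uU X * M) h3
        simpa only [← Matrix.mul_assoc, Matrix.mul_nonsing_inv _ hUd, one_mul, mul_zero] using this
      have h6 : lL H = 0 := by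
        have := congrArg (fun M => M * lL X) h4
        simpa [Matrix.mul_assoc, Matrix.nonsing_inv_mul _ hLd] using this
      rw [← upS_add_lL H, h5, h6, add_zero]
    exact LinearMap.range_eq_top.2 (LinearMap.injective_iff_surjective.1 hinj)
  exact (hD.map_nhds_eq_of_surj hsurj).ge (Filter.image_mem_map hN)


/-- Connectedness of the support. -/
def ConnD (X : P002R.Mat r ℂ) : Prop :=
  ∀ D : Fin r → ℂ, (∀ i j, X i j ≠ 0 → D i = D j) → ∀ i j, D i = D j

theorem single_trace (A : P002R.Mat r ℂ) (i j : Fin r) :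
    trace (A * Matrix.single i j 1) = A j i := by
  simp only [trace_mul_single, MulOpposite.op_one, one_smul]

/-- The dual statement for the diagonal map. -/
theorem diag_dual (hr : 0 < r) {X : P002R.Mat r ℂ} (hX : ∀ i, X i i ≠ 0) (hc : ConnD X)
    (A : P002R.Mat r ℂ) (κ : Fin r → ℂ) (h1 : ∀ x, trace (A * (x * zZ X - zZ X * x)) = 0)
    (h2 : trace (A * zZ X) = 0)
    (h3 : ∀ H : P002R.Mat r ℂ, ∑ i, κ i * H i i = trace (A * (upS H * lL X + uU X * lL H))) :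
    A = 0 ∧ κ = 0 := by
  obtain ⟨U, hU⟩ : ∃ U, U = uU X := ⟨_, rfl⟩
  obtain ⟨L, hL⟩ : ∃ L, L = lL X := ⟨_, rfl⟩
  have hUu : IsUnit U := hU ▸ isUnit_uU' X
  have hLu : IsUnit L := hL ▸ isUnit_lL' hX
  have hUd := (Matrix.isUnit_iff_isUnit_det _).1 hUu
  have hLd := (Matrix.isUnit_iff_isUnit_det _).1 hLu
  have hUt : UpT U := hU ▸ upT_uU X
  have hLt : LoT L := hL ▸ loT_lL X
  have hU1 : ∀ i, U i i = 1 := fun i => by rw [hU, uU_diag]
  have hZ : zZ X = U * L := by rw [zZ_eqn, hU, hL]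
  rw [← hU, ← hL] at h3
  rw [hZ] at h1 h2
  have hcomm : U * L * A = A * (U * L) := by
    have : ∀ x, trace ((U * L * A - A * (U * L)) * x) = trace ((0 : P002R.Mat r ℂ) * x) := by
      intro x
      have h4 := tr_comm A 1 1 (U * L) x
      rw [Matrix.one_mul, Matrix.mul_one, Matrix.one_mul, Matrix.mul_one] at h4
      rw [← h4, h1, Matrix.zero_mul, trace_zero]
    exact sub_eq_zero.1 (eq_of_trace_eq this)
  have hLA : UpT (L * A) := by
    intro j i hij
    have h4 := h3 (Matrix.single i j 1)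
    have h5 : upS (Matrix.single i j (1 : ℂ)) = Matrix.single i j 1 := by
      ext a b
      rw [upS_apply, Matrix.single_apply]
      by_cases h6 : a < b
      · rw [if_pos h6]
      · rw [if_neg h6, if_neg]
        rintro ⟨rfl, rfl⟩
        exact h6 hij
    have h6 : lL (Matrix.single i j (1 : ℂ)) = 0 := by
      ext a b
      rw [lL_apply, Matrix.single_apply, Matrix.zero_apply]
      by_cases h6 : b ≤ a
      · rw [if_pos h6, if_neg]
        rintro ⟨rfl, rfl⟩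
        exact h6.not_gt hij
      · rw [if_neg h6]
    rw [h5, h6, Matrix.mul_zero, add_zero, ← Matrix.mul_assoc, Matrix.trace_mul_comm,
      ← Matrix.mul_assoc, single_trace] at h4
    rw [← h4]
    refine (Finset.sum_eq_zero fun k _ => ?_)
    rw [Matrix.single_apply, if_neg, mul_zero]
    rintro ⟨rfl, rfl⟩
    exact lt_irrefl _ hij
  have hAU : LoT (A * U) := by
    intro j i hij
    have h4 := h3 (Matrix.single i j 1)
    have h5 : upS (Matrix.single i j (1 : ℂ)) = 0 := by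
      ext a b
      rw [upS_apply, Matrix.single_apply, Matrix.zero_apply]
      by_cases h6 : a < b
      · rw [if_pos h6, if_neg]
        rintro ⟨rfl, rfl⟩
        exact h6.not_gt hij
      · rw [if_neg h6]
    have h6 : lL (Matrix.single i j (1 : ℂ)) = Matrix.single i j 1 := by
      ext a b
      rw [lL_apply, Matrix.single_apply]
      by_cases h6 : b ≤ a
      · rw [if_pos h6]
      · rw [if_neg h6, if_neg]
        rintro ⟨rfl, rfl⟩
        exact h6 hij.le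
    rw [h5, h6, Matrix.zero_mul, zero_add, ← Matrix.mul_assoc, single_trace] at h4
    rw [← h4]
    refine (Finset.sum_eq_zero fun k _ => ?_)
    rw [Matrix.single_apply, if_neg, mul_zero]
    rintro ⟨rfl, rfl⟩
    exact lt_irrefl _ hij
  have hκ : ∀ i, κ i = (A * U) i i := by
    intro i
    have h4 := h3 (Matrix.single i i 1)
    have h5 : upS (Matrix.single i i (1 : ℂ)) = 0 := by
      ext a b
      rw [upS_apply, Matrix.single_apply, Matrix.zero_apply]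
      by_cases h6 : a < b
      · rw [if_pos h6, if_neg]
        rintro ⟨rfl, rfl⟩
        exact lt_irrefl _ h6
      · rw [if_neg h6]
    have h6 : lL (Matrix.single i i (1 : ℂ)) = Matrix.single i i 1 := by
      ext a b
      rw [lL_apply, Matrix.single_apply]
      by_cases h6 : b ≤ a
      · rw [if_pos h6]
      · rw [if_neg h6, if_neg]
        rintro ⟨rfl, rfl⟩
        exact h6 le_rfl
    rw [h5, h6, Matrix.zero_mul, zero_add, ← Matrix.mul_assoc, single_trace] at h4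
    rw [← h4, Finset.sum_eq_single i]
    · rw [Matrix.single_apply_same, mul_one]
    · intro k _ hk
      rw [Matrix.single_apply, if_neg, mul_zero]
      rintro ⟨rfl, -⟩
      exact hk rfl
    · intro h; exact absurd (Finset.mem_univ _) h
  -- the diagonal matrix
  obtain ⟨M, hM⟩ : ∃ M, M = L * A * U := ⟨_, rfl⟩
  have hMu : UpT M := hM ▸ hLA.mul hUt
  have hMl : LoT M := by
    rw [hM, Matrix.mul_assoc]
    exact hLt.mul hAU
  have hMd : ∀ i j, i ≠ j → M i j = 0 := by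
    intro i j hij
    rcases lt_or_gt_of_ne hij with h | h
    · exact hMl i j h
    · exact hMu i j h
  have hE : U * M * U⁻¹ = L⁻¹ * M * L := by
    have h5 : U * M * U⁻¹ = U * L * A := by
      rw [hM]
      calc U * (L * A * U) * U⁻¹ = U * L * A * (U * U⁻¹) := by simp only [Matrix.mul_assoc]
        _ = U * L * A := by rw [Matrix.mul_nonsing_inv _ hUd, Matrix.mul_one]
    have h6 : L⁻¹ * M * L = A * (U * L) := by
      rw [hM]
      calc L⁻¹ * (L * A * U) * L = (L⁻¹ * L) * A * (U * L) := by simp only [Matrix.mul_assoc]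
        _ = A * (U * L) := by rw [Matrix.nonsing_inv_mul _ hLd, Matrix.one_mul]
    rw [h5, h6, hcomm]
  obtain ⟨E, hEd⟩ : ∃ E, E = U * M * U⁻¹ := ⟨_, rfl⟩
  have hUit : UpT U⁻¹ := hUt.inv fun i => by rw [hU1]; exact one_ne_zero
  have hLit : LoT L⁻¹ := hLt.inv fun i => by rw [hL, lL_diag]; exact hX i
  have hEu : UpT E := hEd ▸ (hUt.mul hMu).mul hUit
  have hEl : LoT E := by
    rw [hEd, hE]
    exact (hLit.mul hMl).mul hLt
  have hEU : E * U = U * M := by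
    rw [hEd, Matrix.mul_assoc, Matrix.nonsing_inv_mul _ hUd, Matrix.mul_one]
  have hEL : L * E = M * L := by
    rw [hEd, hE, ← Matrix.mul_assoc, ← Matrix.mul_assoc, Matrix.mul_nonsing_inv _ hLd,
      Matrix.one_mul]
  have hEM : E = M := by
    ext i j
    rcases lt_trichotomy i j with h | h | h
    · rw [hEl i j h, hMl i j h]
    · subst h
      have h5 := congrFun (congrFun hEU i) i
      rw [hEu.mul_diag hUt, hUt.mul_diag hMu, hU1, mul_one, one_mul] at h5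
      exact h5
    · rw [hEu i j h, hMu i j h]
  rw [hEM] at hEU hEL
  have hMdiag : M = diagonal fun i => M i i := by
    ext i j
    by_cases h : i = j
    · subst h; rw [Matrix.diagonal_apply_eq]
    · rw [hMd i j h, Matrix.diagonal_apply_ne _ h]
  have hconst := hc (fun i => M i i) (fun i j hij => by
    by_cases hij' : i = j
    · rw [hij']
    rcases lt_or_gt_of_ne hij' with h | h
    · have h5 := congrFun (congrFun hEU i) j
      rw [hMdiag, Matrix.diagonal_mul, Matrix.mul_diagonal, hU, uU_apply, if_neg hij', if_pos h,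
        mul_comm] at h5
      exact mul_left_cancel₀ hij h5
    · have h5 := congrFun (congrFun hEL i) j
      rw [hMdiag, Matrix.diagonal_mul, Matrix.mul_diagonal, hL, lL_apply, if_pos h.le,
        mul_comm] at h5
      exact (mul_right_cancel₀ hij h5).symm)
  obtain ⟨t, ht⟩ : ∃ t : ℂ, ∀ i, M i i = t := ⟨M ⟨0, hr⟩ ⟨0, hr⟩, fun i => hconst i _⟩
  have hMt : M = t • (1 : P002R.Mat r ℂ) := by
    rw [hMdiag, Matrix.smul_one_eq_diagonal]
    congr 1
    funext i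
    exact ht i
  have hAM : A = L⁻¹ * M * U⁻¹ := by
    rw [hM]
    calc A = (L⁻¹ * L) * A * (U * U⁻¹) := by
          rw [Matrix.nonsing_inv_mul _ hLd, Matrix.mul_nonsing_inv _ hUd, Matrix.one_mul,
            Matrix.mul_one]
      _ = _ := by simp only [Matrix.mul_assoc]
  have ht0 : t = 0 := by
    have h5 : A * (U * L) = t • (1 : P002R.Mat r ℂ) := by
      rw [hAM, hMt]
      calc L⁻¹ * t • (1 : P002R.Mat r ℂ) * U⁻¹ * (U * L)
          = t • (L⁻¹ * (U⁻¹ * U) * L) := by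
            simp only [Matrix.mul_smul, Matrix.smul_mul, Matrix.mul_one, Matrix.mul_assoc]
        _ = _ := by rw [Matrix.nonsing_inv_mul _ hUd, Matrix.mul_one,
              Matrix.nonsing_inv_mul _ hLd]
    rw [h5, trace_smul, trace_one, smul_eq_mul, Fintype.card_fin] at h2
    rcases mul_eq_zero.1 h2 with h | h
    · exact h
    · exact absurd (Nat.cast_eq_zero.1 h) hr.ne'
  have hA0 : A = 0 := by
    rw [hAM, hMt, ht0, zero_smul, Matrix.mul_zero, Matrix.zero_mul]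
  refine ⟨hA0, ?_⟩
  funext i
  rw [hκ, hA0, Matrix.zero_mul]
  rfl

theorem surj_nhds {E F : Type*} [NormedAddCommGroup E] [NormedSpace ℂ E] [FiniteDimensional ℂ E]
    [NormedAddCommGroup F] [NormedSpace ℂ F] [FiniteDimensional ℂ F] {f : E → F} {f' : E →L[ℂ] F}
    {a : E} (hf : HasStrictFDerivAt f f' a) (h : f'.range = ⊤) :
    Filter.map f (nhds a) = nhds (f a) := by
  have : CompleteSpace E := FiniteDimensional.complete ℂ E
  have : CompleteSpace F := FiniteDimensional.complete ℂ F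
  exact hf.map_nhds_eq_of_surj h

/-- If the support is connected, the diagonal is open on the conjugacy class. -/
theorem diag_open_norm (hr : 0 < r) {X : P002R.Mat r ℂ} (hX : ∀ i, X i i ≠ 0) (hc : ConnD X)
    {N : Set (P002R.Mat r ℂ)} (hN : N ∈ nhds X) :
    ∃ V ∈ nhds (fun i => X i i), ∀ p ∈ V, ∏ i, p i = ∏ i, X i i →
      ∃ X' ∈ N, P002G.Cj (zZ X) (zZ X') ∧ ∀ i, X' i i = p i := by
  obtain ⟨Z, hZ⟩ : ∃ Z, Z = zZ X := ⟨_, rfl⟩
  have hZd : Z.det ≠ 0 := by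
    rw [hZ, det_zZ', Finset.prod_ne_zero_iff]
    exact fun i _ => hX i
  obtain ⟨DZ, hDZ, eDZ⟩ := deriv_zZ X
  have hfst : HasStrictFDerivAt (fun p : (P002R.Mat r ℂ × P002R.Mat r ℂ) × ℂ => p.1.1)
      ((ContinuousLinearMap.fst ℂ (P002R.Mat r ℂ) (P002R.Mat r ℂ)).comp
        (ContinuousLinearMap.fst ℂ (P002R.Mat r ℂ × P002R.Mat r ℂ) ℂ))
      (((1 : P002R.Mat r ℂ), X), (1 : ℂ)) :=
    ((ContinuousLinearMap.fst ℂ (P002R.Mat r ℂ) (P002R.Mat r ℂ)).comp
        (ContinuousLinearMap.fst ℂ (P002R.Mat r ℂ × P002R.Mat r ℂ) ℂ)).hasStrictFDerivAt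
  have hsnd : HasStrictFDerivAt (fun p : (P002R.Mat r ℂ × P002R.Mat r ℂ) × ℂ => p.1.2)
      ((ContinuousLinearMap.snd ℂ (P002R.Mat r ℂ) (P002R.Mat r ℂ)).comp
        (ContinuousLinearMap.fst ℂ (P002R.Mat r ℂ × P002R.Mat r ℂ) ℂ))
      (((1 : P002R.Mat r ℂ), X), (1 : ℂ)) :=
    ((ContinuousLinearMap.snd ℂ (P002R.Mat r ℂ) (P002R.Mat r ℂ)).comp
        (ContinuousLinearMap.fst ℂ (P002R.Mat r ℂ × P002R.Mat r ℂ) ℂ)).hasStrictFDerivAt
  have hscal : HasStrictFDerivAt (fun p : (P002R.Mat r ℂ × P002R.Mat r ℂ) × ℂ => p.2)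
      (ContinuousLinearMap.snd ℂ (P002R.Mat r ℂ × P002R.Mat r ℂ) ℂ)
      (((1 : P002R.Mat r ℂ), X), (1 : ℂ)) :=
    (ContinuousLinearMap.snd ℂ (P002R.Mat r ℂ × P002R.Mat r ℂ) ℂ).hasStrictFDerivAt
  have hzz : HasStrictFDerivAt (fun p : (P002R.Mat r ℂ × P002R.Mat r ℂ) × ℂ => zZ p.1.2)
      (DZ.comp ((ContinuousLinearMap.snd ℂ (P002R.Mat r ℂ) (P002R.Mat r ℂ)).comp
        (ContinuousLinearMap.fst ℂ (P002R.Mat r ℂ × P002R.Mat r ℂ) ℂ)))
      (((1 : P002R.Mat r ℂ), X), (1 : ℂ)) :=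
    HasStrictFDerivAt.comp (((1 : P002R.Mat r ℂ), X), (1 : ℂ)) (g := fun X => zZ X) hDZ hsnd
  obtain ⟨D1, h1, e1⟩ := exists_deriv_mul hfst
    (hasStrictFDerivAt_const Z (((1 : P002R.Mat r ℂ), X), (1 : ℂ)))
  obtain ⟨D2, h2, e2⟩ := exists_deriv_mul hzz hfst
  obtain ⟨dg, hdg⟩ : ∃ dg : P002R.Mat r ℂ →L[ℂ] (Fin r → ℂ), ∀ H i, dg H i = H i i :=
    ⟨LinearMap.toContinuousLinearMap (LinearMap.pi fun i =>
      (Matrix.entryLinearMap ℂ ℂ i i : P002R.Mat r ℂ →ₗ[ℂ] ℂ)), fun H i => rfl⟩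
  obtain ⟨G, hG⟩ : ∃ G : ((P002R.Mat r ℂ × P002R.Mat r ℂ) × ℂ) → P002R.Mat r ℂ × (Fin r → ℂ),
      ∀ p, G p = (p.2 • (p.1.1 * Z) - zZ p.1.2 * p.1.1, dg p.1.2) := ⟨_, fun _ => rfl⟩
  obtain ⟨D, hD, e⟩ : ∃ D : ((P002R.Mat r ℂ × P002R.Mat r ℂ) × ℂ) →L[ℂ]
      P002R.Mat r ℂ × (Fin r → ℂ), HasStrictFDerivAt G D (((1 : P002R.Mat r ℂ), X), (1 : ℂ)) ∧
      ∀ (x H : P002R.Mat r ℂ) (σ : ℂ), D ((x, H), σ) = (σ • Z + x * Z - (upS H * lL X + uU X * lL H) - Z * x, dg H) := by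
    have h3 := (hscal.smul h1).sub h2
    have h4 : HasStrictFDerivAt (fun p : (P002R.Mat r ℂ × P002R.Mat r ℂ) × ℂ => dg p.1.2)
        (dg.comp ((ContinuousLinearMap.snd ℂ (P002R.Mat r ℂ) (P002R.Mat r ℂ)).comp
          (ContinuousLinearMap.fst ℂ (P002R.Mat r ℂ × P002R.Mat r ℂ) ℂ)))
        (((1 : P002R.Mat r ℂ), X), (1 : ℂ)) :=
      HasStrictFDerivAt.comp (((1 : P002R.Mat r ℂ), X), (1 : ℂ)) (g := dg)
        dg.hasStrictFDerivAt hsnd
    have h5 : G = fun p => (p.2 • (p.1.1 * Z) - zZ p.1.2 * p.1.1, dg p.1.2) := funext hG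
    rw [h5]
    refine ⟨_, h3.prodMk h4, fun x H σ => ?_⟩
    refine Prod.ext ?_ rfl
    have h6 : D1 ((x, H), σ) = x * Z + 1 * 0 := e1 ((x, H), σ)
    have h7 : D2 ((x, H), σ) = DZ H * 1 + zZ X * x := e2 ((x, H), σ)
    have h8 : DZ H = upS H * lL X + uU X * lL H := eDZ H
    have h9 : (1 : ℂ) • D1 ((x, H), σ) + σ • ((1 : P002R.Mat r ℂ) * Z) - D2 ((x, H), σ) =
        (σ • Z + x * Z - (upS H * lL X + uU X * lL H) - Z * x : P002R.Mat r ℂ) := by
      rw [h6, h7, h8, ← hZ]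
      simp only [one_smul, Matrix.mul_zero, add_zero, Matrix.one_mul, Matrix.mul_one]
      abel
    exact h9
  have hsurj : D.range = ⊤ := by
    by_contra hne
    obtain ⟨φ, hφ, hle⟩ := Submodule.exists_le_ker_of_lt_top _ (lt_top_iff_ne_top.2 hne)
    obtain ⟨A, hA⟩ := exists_trace_repr (φ.comp (LinearMap.inl ℂ (P002R.Mat r ℂ) (Fin r → ℂ)))
    obtain ⟨κ, hκ⟩ : ∃ κ : Fin r → ℂ, ∀ d : Fin r → ℂ, φ (0, d) = ∑ i, κ i * d i := by
      refine ⟨fun i => φ (0, Pi.single i 1), fun d => ?_⟩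
      have h1 : ((0 : P002R.Mat r ℂ), d) = ∑ i, d i • ((0 : P002R.Mat r ℂ), Pi.single i 1) := by
        refine Prod.ext ?_ ?_
        · rw [Prod.fst_sum]; simp only [Prod.smul_mk, smul_zero, Finset.sum_const_zero]
        · rw [Prod.snd_sum]
          funext j
          simp only [Prod.smul_mk, smul_zero, Finset.sum_apply, Pi.smul_apply, Pi.single_apply, smul_eq_mul, mul_ite, mul_one, mul_zero, Finset.sum_ite_eq, Finset.mem_univ, ↓reduceIte]
      conv_lhs => rw [h1]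
      rw [map_sum]
      exact Finset.sum_congr rfl fun i _ => by rw [map_smul, smul_eq_mul, mul_comm]
    have h0 : ∀ (x H : P002R.Mat r ℂ) (σ : ℂ), trace (A * (σ • Z + x * Z - (upS H * lL X + uU X * lL H) - Z * x)) +
        ∑ i, κ i * H i i = 0 := by
      intro x H σ
      have h1 : φ (D ((x, H), σ)) = 0 := hle (LinearMap.mem_range_self D.toLinearMap _)
      rw [e] at h1
      have h2 : ((σ • Z + x * Z - (upS H * lL X + uU X * lL H) - Z * x, dg H) :
          P002R.Mat r ℂ × (Fin r → ℂ)) =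
          (σ • Z + x * Z - (upS H * lL X + uU X * lL H) - Z * x, 0) + (0, dg H) := by
        rw [Prod.mk_add_mk, add_zero, zero_add]
      rw [h2, map_add, hκ] at h1
      have h3 := hA (σ • Z + x * Z - (upS H * lL X + uU X * lL H) - Z * x)
      have h4 : ∑ i, κ i * H i i = ∑ i, κ i * dg H i :=
        Finset.sum_congr rfl fun i _ => by rw [hdg]
      rw [← h3, h4]
      exact h1
    have hup0 : upS (0 : P002R.Mat r ℂ) = 0 := by
      ext i j; rw [upS_apply]; split_ifs <;> rfl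
    have hlo0 : lL (0 : P002R.Mat r ℂ) = 0 := by
      ext i j; rw [lL_apply]; split_ifs <;> rfl
    obtain ⟨hA0, hκ0⟩ := diag_dual hr hX hc A κ (fun x => by
        have h1 := h0 x 0 0
        rw [hup0, hlo0] at h1
        simpa only [hZ, zero_smul, zero_add, zero_mul, mul_zero, add_zero, sub_zero, Matrix.zero_apply,     Finset.sum_const_zero] using h1)
      (by
        have h1 := h0 0 0 1
        rw [hup0, hlo0] at h1
        simpa only [hZ, one_smul, zero_mul, add_zero, mul_zero, sub_zero, Matrix.zero_apply,     Finset.sum_const_zero] using h1)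
      (fun H => by
        have h1 := h0 0 H 0
        rw [zero_smul, Matrix.zero_mul, Matrix.mul_zero, zero_add, sub_zero, zero_sub,
          Matrix.mul_neg, trace_neg] at h1
        linear_combination h1)
    apply hφ
    ext1
    · ext1 M
      rw [hA, hA0, Matrix.zero_mul, trace_zero]
      rfl
    · refine LinearMap.ext fun d => ?_
      show φ (0, d) = 0
      rw [hκ, hκ0]
      simp only [Pi.zero_apply, zero_mul, Finset.sum_const_zero]
  -- the neighbourhood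
  have hUn : {A : P002R.Mat r ℂ | A.det ≠ 0} ∈ nhds (1 : P002R.Mat r ℂ) := by
    refine (isOpen_ne.preimage (Continuous.matrix_det continuous_id)).mem_nhds ?_
    show (1 : P002R.Mat r ℂ).det ≠ 0
    rw [Matrix.det_one]
    exact one_ne_zero
  have hCn : {c : ℂ | c ^ r = 1 → c = 1} ∈ nhds (1 : ℂ) := by
    have hfin : ({c : ℂ | c ^ r = 1 ∧ c ≠ 1}).Finite := by
      refine (Multiset.finite_toSet (Polynomial.nthRoots r (1 : ℂ))).subset ?_
      rintro c ⟨h1, -⟩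
      exact (Polynomial.mem_nthRoots hr).2 h1
    have h1 : {c : ℂ | c ^ r = 1 → c = 1} = {c : ℂ | c ^ r = 1 ∧ c ≠ 1}ᶜ := by
      ext c
      simp only [Set.mem_ofPred_eq, Set.mem_compl_iff, not_and, not_not]
    rw [h1]
    refine hfin.isClosed.isOpen_compl.mem_nhds ?_
    simp only [ne_eq, Set.mem_compl_iff, Set.mem_ofPred_eq, one_pow, not_true_eq_false, and_false, not_false_eq_true]
  have hprod : ({A : P002R.Mat r ℂ | A.det ≠ 0} ×ˢ N) ×ˢ {c : ℂ | c ^ r = 1 → c = 1} ∈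
      nhds (((1 : P002R.Mat r ℂ), X), (1 : ℂ)) :=
    prod_mem_nhds (prod_mem_nhds hUn hN) hCn
  have himg := (surj_nhds hD hsurj).ge (Filter.image_mem_map hprod)
  have hbase : G (((1 : P002R.Mat r ℂ), X), (1 : ℂ)) = (0, fun i => X i i) := by
    rw [hG]
    refine Prod.ext ?_ ?_
    · show (1 : ℂ) • ((1 : P002R.Mat r ℂ) * Z) - zZ X * 1 = 0
      rw [one_smul, Matrix.one_mul, Matrix.mul_one, hZ, sub_self]
    · funext i
      exact hdg X i
  rw [hbase, nhds_prod_eq] at himg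
  obtain ⟨V₁, hV₁, V₂, hV₂, hV⟩ := Filter.mem_prod_iff.1 himg
  refine ⟨V₂, hV₂, fun p hp hprod => ?_⟩
  obtain ⟨⟨⟨g, X'⟩, s⟩, ⟨⟨hg, hX'N⟩, hs⟩, hGp⟩ := hV (Set.mk_mem_prod (mem_of_mem_nhds hV₁) hp)
  rw [hG] at hGp
  have hg0 : g.det ≠ 0 := hg
  have hE1 : s • (g * Z) = zZ X' * g := sub_eq_zero.1 (congrArg Prod.fst hGp)
  have hE2 : ∀ i, X' i i = p i := fun i => by
    exact (hdg X' i).symm.trans (congrFun (congrArg Prod.snd hGp) i)
  have hs1 : s = 1 := by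
    apply hs
    have h1 := congrArg Matrix.det hE1
    rw [Matrix.det_smul, Matrix.det_mul, Matrix.det_mul, det_zZ', Fintype.card_fin, hZ, det_zZ',
      Finset.prod_congr rfl fun i _ => hE2 i, hprod] at h1
    have h2 : ∏ i, X i i ≠ 0 := Finset.prod_ne_zero_iff.2 fun i _ => hX i
    have h3 : (s ^ r - 1) * (g.det * ∏ i, X i i) = 0 := by linear_combination h1
    rcases mul_eq_zero.1 h3 with h4 | h4
    · exact sub_eq_zero.1 h4
    · exact absurd h4 (mul_ne_zero hg0 h2)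
  refine ⟨X', hX'N, ⟨g, (Matrix.isUnit_iff_isUnit_det _).2 (isUnit_iff_ne_zero.2 hg0), ?_⟩, hE2⟩
  rw [← hZ, ← hE1, hs1, one_smul]

end normed

theorem zZ_open {X : P002R.Mat r ℂ} (hX : ∀ i, X i i ≠ 0) {N : Set (P002R.Mat r ℂ)}
    (hN : N ∈ nhds X) : zZ '' N ∈ nhds (zZ X) := zZ_open_norm hX hN

/-- If the support is connected, the diagonal is open on the conjugacy class. -/
theorem diag_open (hr : 0 < r) {X : P002R.Mat r ℂ} (hX : ∀ i, X i i ≠ 0) (hc : ConnD X)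
    {N : Set (P002R.Mat r ℂ)} (hN : N ∈ nhds X) :
    ∃ V ∈ nhds (fun i => X i i), ∀ p ∈ V, ∏ i, p i = ∏ i, X i i →
      ∃ X' ∈ N, P002G.Cj (zZ X) (zZ X') ∧ ∀ i, X' i i = p i := diag_open_norm hr hX hc hN

/-- Connectedness of `zZ X` gives connectedness of `X`. -/
theorem connD_of {X : P002R.Mat r ℂ} (h : ∀ I : Finset (Fin r), I.Nonempty → I ≠ Finset.univ →
    ∃ i ∈ I, ∃ j, j ∉ I ∧ (zZ X i j ≠ 0 ∨ zZ X j i ≠ 0)) : ConnD X := by
  classical
  intro D hD i₀ j₀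
  by_contra hne
  obtain ⟨i, hi, j, hj, hij⟩ := h (Finset.univ.filter fun i => D i = D i₀) ⟨i₀, by simp only [Finset.mem_filter, Finset.mem_univ, and_self]⟩
    (fun h => by
      have h1 := Finset.mem_univ j₀
      rw [← h, Finset.mem_filter] at h1
      exact hne h1.2.symm)
  simp only [Finset.mem_filter, Finset.mem_univ, true_and] at hi hj
  have hzero : ∀ a b, D a ≠ D b → zZ X a b = 0 := by
    intro a b hab
    rw [zZ_eqn, Matrix.mul_apply]
    refine Finset.sum_eq_zero fun k _ => ?_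
    by_cases h1 : D a = D k
    · have h2 : X k b = 0 := by
        by_contra h'
        exact hab (h1.trans (hD k b h'))
      rw [lL_apply, h2]
      simp only [ite_self, mul_zero]
    · have h2 : X a k = 0 := by
        by_contra h'
        exact h1 (hD a k h')
      have h3 : a ≠ k := fun h' => h1 (by rw [h'])
      rw [uU_apply, if_neg h3, h2]
      simp only [ite_self, zero_mul]
  rcases hij with h1 | h1
  · exact h1 (hzero i j fun h' => hj (h'.symm.trans hi))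
  · exact h1 (hzero j i fun h' => hj (h'.trans hi))

end Vale.Agent.P002R
end

section

/-!
# P002, A4: conjugates with nonzero off-diagonal entries
-/

namespace Vale.Agent.P002R

open Matrix P002G

variable {r : ℕ}

/-- A permutation with two prescribed values. -/
theorem exists_perm_two {i j a b : Fin r} (hij : i ≠ j) (hab : a ≠ b) :
    ∃ σ : Equiv.Perm (Fin r), σ i = a ∧ σ j = b := by
  obtain ⟨j', hj'⟩ : ∃ j', j' = Equiv.swap i a j := ⟨_, rfl⟩
  have h1 : j' ≠ a := by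
    intro h
    rw [hj'] at h
    have h2 : Equiv.swap i a j = Equiv.swap i a i := by rw [h, Equiv.swap_apply_left]
    exact hij ((Equiv.swap i a).injective h2).symm
  refine ⟨Equiv.swap j' b * Equiv.swap i a, ?_, ?_⟩
  · rw [Equiv.Perm.mul_apply, Equiv.swap_apply_left, Equiv.swap_apply_of_ne_of_ne h1.symm hab]
  · rw [Equiv.Perm.mul_apply, ← hj', Equiv.swap_apply_left]

/-- Every off-diagonal entry of some conjugate of a nonscalar matrix is nonzero. -/
theorem exists_conj_entry {Z : Mat r ℂ} (hns : ∀ μ : ℂ, Z ≠ μ • (1 : Mat r ℂ)) {i j : Fin r}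
    (hij : i ≠ j) : ∃ G G' : Mat r ℂ, G * G' = 1 ∧ (G * Z * G') i j ≠ 0 := by
  by_contra hcon
  push Not at hcon
  -- all off-diagonal entries of all conjugates vanish
  have hall : ∀ G G' : Mat r ℂ, G * G' = 1 → ∀ a b, a ≠ b → (G * Z * G') a b = 0 := by
    intro G G' hG a b hab
    obtain ⟨σ, hσi, hσj⟩ := exists_perm_two hij hab
    obtain ⟨P, hP⟩ : ∃ P : Mat r ℂ, P = σ.toPEquiv.toMatrix := ⟨_, rfl⟩
    obtain ⟨P', hP'⟩ : ∃ P' : Mat r ℂ, P' = σ.symm.toPEquiv.toMatrix := ⟨_, rfl⟩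
    have hPM : ∀ M : Mat r ℂ, P * M * P' = M.submatrix σ σ := by
      intro M
      rw [hP, hP', PEquiv.toMatrix_toPEquiv_mul, PEquiv.mul_toMatrix_toPEquiv,
        Matrix.submatrix_submatrix]
      rfl
    have hPP : P * P' = 1 := by
      have := hPM 1
      rw [Matrix.mul_one] at this
      rw [this]
      exact Matrix.submatrix_one_equiv σ
    have h1 := hcon (P * G) (G' * P') (by
      calc P * G * (G' * P') = P * (G * G') * P' := by simp only [Matrix.mul_assoc]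
        _ = 1 := by rw [hG, Matrix.mul_one, hPP])
    have h2 : P * G * Z * (G' * P') = P * (G * Z * G') * P' := by
      simp only [Matrix.mul_assoc]
    rw [h2, hPM, Matrix.submatrix_apply, hσi, hσj] at h1
    exact h1
  have hd : ∀ a b, a ≠ b → Z a b = 0 := by
    intro a b hab
    have := hall 1 1 (Matrix.one_mul 1) a b hab
    rwa [Matrix.one_mul, Matrix.mul_one] at this
  have hdd : ∀ a b, Z a a = Z b b := by
    intro a b
    by_cases hab : a = b
    · rw [hab]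
    have h1 : (1 + Matrix.single a b (1 : ℂ)) * (1 - Matrix.single a b (1 : ℂ)) = 1 := by
      rw [Matrix.add_mul, Matrix.mul_sub, Matrix.mul_sub, Matrix.one_mul, Matrix.mul_one,
        Matrix.one_mul, Matrix.single_mul_single_of_ne _ _ _ _ (Ne.symm hab)]
      abel
    have h2 := hall _ _ h1 a b hab
    have h3 : ((1 + Matrix.single a b (1 : ℂ)) * Z * (1 - Matrix.single a b (1 : ℂ))) a b =
        Z a b + Z b b - Z a a - Z b a := by
      rw [Matrix.add_mul, Matrix.add_mul, Matrix.one_mul, Matrix.mul_sub, Matrix.mul_sub,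
        Matrix.mul_one, Matrix.mul_one]
      simp only [Matrix.add_apply, Matrix.sub_apply]
      rw [Matrix.mul_single_apply_same, Matrix.single_mul_apply_same, Matrix.mul_single_apply_same,
        Matrix.single_mul_apply_same]
      ring
    rw [h3, hd a b hab, hd b a (Ne.symm hab)] at h2
    linear_combination -h2
  apply hns (Z i i)
  ext a b
  rw [Matrix.smul_apply, smul_eq_mul]
  by_cases hab : a = b
  · subst hab
    rw [Matrix.one_apply_eq, mul_one]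
    exact hdd a i
  · rw [Matrix.one_apply_ne hab, mul_zero]
    exact hd a b hab

/-- Nonzero polynomial functions do not vanish on open sets. -/
theorem exists_near_ne {V : Type*} [AddCommGroup V] [Module ℂ V] [TopologicalSpace V]
    [ContinuousAdd V] [ContinuousSMul ℂ V] {f : V → ℂ} (hf : IsPoly f) {y : V} (hy : f y ≠ 0)
    {x : V} {N : Set V} (hN : N ∈ nhds x) : ∃ z ∈ N, f z ≠ 0 := by
  have hl : Continuous fun t : ℂ => x + t • (y - x) := by (clear f hf hy N hN; fun_prop)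
  have h0 : (fun t : ℂ => x + t • (y - x)) ⁻¹' N ∈ nhds (0 : ℂ) := by
    apply hl.continuousAt.preimage_mem_nhds
    rwa [zero_smul, add_zero]
  by_contra hcon
  push Not at hcon
  have h1 := ((polyMap_line x y).comp hf).eq_zero_of_infinite _ (infinite_of_mem_nhds _ h0)
    (fun t ht => hcon _ ht) 1
  rw [one_smul, add_sub_cancel] at h1
  exact hy h1

/-- All off-diagonal entries at once. -/
theorem exists_conj_all {Z : Mat r ℂ} (hns : ∀ μ : ℂ, Z ≠ μ • (1 : Mat r ℂ)) :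
    ∃ G : Mat r ℂ, ∏ p : Fin r × Fin r, (if p.1 = p.2 then 1 else
      (G * Z * G.adjugate) p.1 p.2) ≠ 0 := by
  classical
  have hfac : ∀ p : Fin r × Fin r, IsPoly fun G : Mat r ℂ => (if p.1 = p.2 then (1 : ℂ) else
      (G * Z * G.adjugate) p.1 p.2) := by
    intro p
    by_cases hp : p.1 = p.2
    · simp only [hp, if_true]
      exact isPoly_const 1
    · simp only [hp, if_false]
      have h1 : PolyMap fun G : Mat r ℂ => G * Z :=
        IsPoly.matrix_mul (polyMap_linear LinearMap.id) (polyMap_const Z)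
      exact (IsPoly.matrix_mul h1 (polyMap_adjugate (polyMap_linear LinearMap.id))).entry _ _
  have key : ∀ s : Finset (Fin r × Fin r), ∃ G : Mat r ℂ, ∏ p ∈ s, (if p.1 = p.2 then 1 else
      (G * Z * G.adjugate) p.1 p.2) ≠ 0 := by
    intro s
    induction s using Finset.induction_on with
    | empty => exact ⟨0, by simp only [zero_mul, Matrix.zero_apply, Finset.prod_empty, ne_eq, one_ne_zero, not_false_eq_true]⟩
    | insert p s hp ih =>
      obtain ⟨G₀, hG₀⟩ := ih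
      by_contra hcon
      push Not at hcon
      have h1 := (hfac p).eq_zero_of_mul (IsPoly.prod s fun q _ => hfac q) (fun G => by
        have := hcon G
        rwa [Finset.prod_insert hp] at this) G₀ hG₀
      by_cases hpp : p.1 = p.2
      · have := h1 0
        rw [if_pos hpp] at this
        exact one_ne_zero this
      · obtain ⟨G, G', hGG, hG⟩ := exists_conj_entry hns hpp
        have h2 := h1 G
        rw [if_neg hpp] at h2
        apply hG
        have h3 : G' = (G.det)⁻¹ • G.adjugate := by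
          have h4 : G' = G⁻¹ := (Matrix.inv_eq_right_inv hGG).symm
          rw [h4, Matrix.inv_def, Ring.inverse_eq_inv']
        rw [h3, Matrix.mul_smul, Matrix.smul_apply, h2, smul_zero]
  exact key Finset.univ

/-- Near a nonscalar element of the cell there is a conjugate element of the cell all of whose
off-diagonal entries are nonzero. -/
theorem exists_off_diag {X : Mat r ℂ} (hX : ∀ i, X i i ≠ 0)
    (hns : ∀ μ : ℂ, zZ X ≠ μ • (1 : Mat r ℂ)) :
    ∀ N ∈ nhds X, ∃ X' ∈ N, CjM (zZ X) (zZ X') ∧ ∀ i j, i ≠ j → zZ X' i j ≠ 0 := by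
  classical
  intro N hN
  obtain ⟨G₀, hG₀⟩ := exists_conj_all hns
  obtain ⟨F, hF⟩ : ∃ F : Mat r ℂ → ℂ, ∀ G, F G = ∏ p : Fin r × Fin r,
      (if p.1 = p.2 then 1 else (G * zZ X * G.adjugate) p.1 p.2) := ⟨_, fun _ => rfl⟩
  have hFp : IsPoly F := by
    refine (IsPoly.prod Finset.univ (f := fun (p : Fin r × Fin r) (G : Mat r ℂ) =>
      (if p.1 = p.2 then (1 : ℂ) else (G * zZ X * G.adjugate) p.1 p.2))
      fun p _ => ?_).congr fun G => (hF G).symm
    by_cases hp : p.1 = p.2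
    · simp only [hp, if_true]
      exact isPoly_const 1
    · simp only [hp, if_false]
      have h1 : PolyMap fun G : Mat r ℂ => G * zZ X :=
        IsPoly.matrix_mul (polyMap_linear LinearMap.id) (polyMap_const (zZ X))
      exact (IsPoly.matrix_mul h1 (polyMap_adjugate (polyMap_linear LinearMap.id))).entry _ _
  -- conjugation is continuous at `1`
  have hinv : ContinuousAt (fun G : Mat r ℂ => G * zZ X * G⁻¹) 1 := by
    have h1 : (fun G : Mat r ℂ => G * zZ X * G⁻¹) =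
        fun G : Mat r ℂ => (G.det)⁻¹ • (G * zZ X * G.adjugate) := by
      funext G
      rw [Matrix.inv_def, Ring.inverse_eq_inv', Matrix.mul_smul]
    rw [h1]
    have h2 : Continuous fun A : Mat r ℂ => A.det := Continuous.matrix_det continuous_id
    have h3 : Continuous fun A : Mat r ℂ => A.adjugate :=
      Continuous.matrix_adjugate continuous_id
    have h4 : (1 : Mat r ℂ).det ≠ 0 := by rw [Matrix.det_one]; exact one_ne_zero
    have h5 : Continuous fun A : Mat r ℂ => A * zZ X * A.adjugate :=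
      (Continuous.matrix_mul continuous_id continuous_const).matrix_mul h3
    exact (h2.continuousAt.inv₀ h4).smul h5.continuousAt
  have hU1 : (fun G : Mat r ℂ => G * zZ X * G⁻¹) ⁻¹' (zZ '' N) ∈ nhds (1 : Mat r ℂ) := by
    apply hinv.preimage_mem_nhds
    have h1 : (1 : Mat r ℂ) * zZ X * (1 : Mat r ℂ)⁻¹ = zZ X := by
      rw [Matrix.one_mul, inv_one, Matrix.mul_one]
    rw [h1]
    exact zZ_open hX hN
  have hU2 : {G : Mat r ℂ | G.det ≠ 0} ∈ nhds (1 : Mat r ℂ) := by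
    have h2 : Continuous fun A : Mat r ℂ => A.det := Continuous.matrix_det continuous_id
    apply h2.continuousAt.eventually_ne
    rw [Matrix.det_one]
    exact one_ne_zero
  obtain ⟨G, ⟨⟨X', hX'N, hX'⟩, hGd⟩, hFG⟩ := exists_near_ne hFp (y := G₀) (by
    rw [hF]
    exact hG₀) (Filter.inter_mem hU1 hU2)
  have hGd' : G.det ≠ 0 := hGd
  have hX'' : zZ X' = G * zZ X * G⁻¹ := hX'
  have hGu : IsUnit G := (Matrix.isUnit_iff_isUnit_det _).2 (isUnit_iff_ne_zero.2 hGd')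
  refine ⟨X', hX'N, ?_, fun i j hij => ?_⟩
  · obtain ⟨g, hg⟩ := hGu
    refine ⟨g, ?_⟩
    rw [hX'', ← hg, Matrix.coe_units_inv]
  · rw [hF] at hFG
    have h1 := Finset.prod_ne_zero_iff.1 hFG (i, j) (Finset.mem_univ _)
    rw [if_neg hij] at h1
    rw [hX'', Matrix.inv_def, Ring.inverse_eq_inv', Matrix.mul_smul, Matrix.smul_apply]
    exact mul_ne_zero (inv_ne_zero hGd') h1

end Vale.Agent.P002R
end

section

/-!
# P002: near a tuple of the chart there is one without stable coordinate subspaces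
-/

namespace Vale.Agent.P002R

open Matrix

variable {r : ℕ}

theorem noStab_of_off {Z : Mat r ℂ} (h : ∀ i j, i ≠ j → Z i j ≠ 0) : NoStab Z := by
  intro I hI1 hI2
  obtain ⟨j, hj⟩ := hI1
  obtain ⟨i, hi⟩ : ∃ i, i ∉ I := by
    by_contra h
    push Not at h
    exact hI2 (Finset.eq_univ_iff_forall.2 h)
  exact ⟨i, hi, j, hj, h i j fun h => hi (h ▸ hj)⟩

theorem cjM_of_cj {A B : Mat r ℂ} (h : P002G.Cj A B) : CjM A B := by
  obtain ⟨g, hg, h⟩ := h
  obtain ⟨g, rfl⟩ := hg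
  exact ⟨g, by rw [h, mul_assoc, Units.mul_inv, mul_one]⟩

theorem a4core {m : ℕ} (Y : Fin (m + 1) → Mat r ℂ) (hY0 : ∀ k i, Y k i i ≠ 0) (k₁ : Fin m)
    (h1 : ∀ μ : ℂ, zZ (Y k₁.castSucc) ≠ μ • (1 : Mat r ℂ))
    (h2 : ∀ μ : ℂ, zZ (Y (Fin.last m)) ≠ μ • (1 : Mat r ℂ)) (N : Set (Fin (m + 1) → Mat r ℂ))
    (hN : N ∈ nhds Y) : ∃ Y' ∈ N, (∀ k i, Y' k i i ≠ 0) ∧ (∀ k, CjM (zZ (Y k)) (zZ (Y' k))) ∧
      (∀ i, ∏ l, Y' l i i = ∏ l, Y l i i) ∧ NoStab (zZ (Y' (Fin.last m))) := by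
  have hr : 0 < r := by
    apply Nat.pos_of_ne_zero
    rintro rfl
    exact h2 0 (Subsingleton.elim _ _)
  obtain ⟨Ψ, hΨ⟩ : ∃ Ψ : Mat r ℂ × Mat r ℂ → Fin (m + 1) → Mat r ℂ, Ψ = fun p =>
    Function.update (Function.update Y k₁.castSucc p.1) (Fin.last m) p.2 := ⟨_, rfl⟩
  have hne : k₁.castSucc ≠ Fin.last m := (Fin.castSucc_lt_last k₁).ne
  have hΨc : Continuous Ψ := by
    rw [hΨ]
    have h3 : Continuous fun p : Mat r ℂ × Mat r ℂ => Function.update Y k₁.castSucc p.1 :=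
      Continuous.update continuous_const _ continuous_fst
    exact Continuous.update h3 _ continuous_snd
  have hΨ0 : Ψ (Y k₁.castSucc, Y (Fin.last m)) = Y := by
    rw [hΨ]
    simp only [Function.update_eq_self]
  have hpre : Ψ ⁻¹' N ∈ nhds (Y k₁.castSucc, Y (Fin.last m)) := by
    apply hΨc.continuousAt.preimage_mem_nhds
    rw [hΨ0]
    exact hN
  obtain ⟨N₁, hN₁, N₂, hN₂, hNN⟩ := mem_nhds_prod_iff.1 hpre
  obtain ⟨X₁, hX₁N, hX₁d, hX₁c, hX₁o⟩ := exists_conn _ (Y k₁.castSucc) (hY0 _) h1 le_rfl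
    (interior N₁) (interior_mem_nhds.2 hN₁)
  have hX₁0 : ∀ i, X₁ i i ≠ 0 := fun i => by rw [hX₁d]; exact hY0 _ i
  obtain ⟨V, hV, hVX⟩ := diag_open hr hX₁0 (connD_of hX₁o)
    (mem_interior_iff_mem_nhds.1 hX₁N)
  obtain ⟨q, hq⟩ : ∃ q : Mat r ℂ → Fin r → ℂ, q = fun B i =>
    X₁ i i * Y (Fin.last m) i i / B i i := ⟨_, rfl⟩
  have hqc : ContinuousAt q (Y (Fin.last m)) := by
    rw [hq]
    refine continuousAt_pi.2 fun i => ?_
    exact continuousAt_const.div (continuous_apply_apply i i).continuousAt (hY0 _ i)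
  have hq0 : q (Y (Fin.last m)) = fun i => X₁ i i := by
    rw [hq]
    funext i
    exact mul_div_cancel_right₀ _ (hY0 _ i)
  have hqV : q ⁻¹' V ∈ nhds (Y (Fin.last m)) := hqc.preimage_mem_nhds (by rw [hq0]; exact hV)
  obtain ⟨B, hBN, hBc, hBo⟩ := exists_off_diag (hY0 _) h2 _ (Filter.inter_mem hN₂ hqV)
  have hBd : ∏ i, B i i = ∏ i, Y (Fin.last m) i i := by
    rw [← det_zZ, ← det_zZ, hBc.det]
  have hB0 : ∀ i, B i i ≠ 0 := by
    have h3 : ∏ i, B i i ≠ 0 := by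
      rw [hBd, Finset.prod_ne_zero_iff]
      exact fun i _ => hY0 _ i
    rw [Finset.prod_ne_zero_iff] at h3
    exact fun i => h3 i (Finset.mem_univ i)
  obtain ⟨A, hAN, hAc, hAd⟩ := hVX (q B) hBN.2 (by
    rw [hq]
    simp only
    rw [Finset.prod_div_distrib, Finset.prod_mul_distrib, ← hBd, mul_div_cancel_right₀]
    rw [Finset.prod_ne_zero_iff]
    exact fun i _ => hB0 i)
  have hAd' : ∀ i, A i i = Y k₁.castSucc i i * Y (Fin.last m) i i / B i i := fun i => by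
    rw [hAd, hq, ← hX₁d]
  have hA0 : ∀ i, A i i ≠ 0 := fun i => by
    rw [hAd']
    exact div_ne_zero (mul_ne_zero (hY0 _ i) (hY0 _ i)) (hB0 i)
  have hv1 : Ψ (A, B) (Fin.last m) = B := by
    rw [hΨ]
    simp only [Function.update_self]
  have hv2 : Ψ (A, B) k₁.castSucc = A := by
    rw [hΨ]
    simp only
    rw [Function.update_of_ne hne, Function.update_self]
  have hv3 : ∀ k, k ≠ Fin.last m → k ≠ k₁.castSucc → Ψ (A, B) k = Y k := fun k hk hk' => by
    rw [hΨ]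
    simp only
    rw [Function.update_of_ne hk, Function.update_of_ne hk']
  refine ⟨Ψ (A, B), hNN ⟨hAN, hBN.1⟩, fun k i => ?_, fun k => ?_, fun i => ?_, ?_⟩
  · by_cases hk : k = Fin.last m
    · rw [hk, hv1]
      exact hB0 i
    · by_cases hk' : k = k₁.castSucc
      · rw [hk', hv2]
        exact hA0 i
      · rw [hv3 k hk hk']
        exact hY0 k i
  · by_cases hk : k = Fin.last m
    · rw [hk, hv1]
      exact hBc
    · by_cases hk' : k = k₁.castSucc
      · rw [hk', hv2]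
        exact hX₁c.trans (cjM_of_cj hAc)
      · rw [hv3 k hk hk']
        exact ⟨1, by simp only [Units.val_one, one_mul, inv_one, mul_one]⟩
  · rw [Fin.prod_univ_castSucc, Fin.prod_univ_castSucc, hv1]
    have h3 : ∀ k : Fin m, Ψ (A, B) k.castSucc i i =
        Function.update (fun k : Fin m => Y k.castSucc i i) k₁ (A i i) k := by
      intro k
      by_cases hk : k = k₁
      · rw [hk, hv2, Function.update_self]
      · rw [Function.update_of_ne hk, hv3 _ (Fin.castSucc_lt_last k).ne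
          fun h => hk (Fin.castSucc_injective _ h)]
    have h4 : ∀ k : Fin m, Y k.castSucc i i =
        Function.update (fun k : Fin m => Y k.castSucc i i) k₁ (Y k₁.castSucc i i) k := by
      intro k
      rw [Function.update_eq_self]
    rw [Finset.prod_congr rfl fun k _ => h3 k, Finset.prod_congr rfl fun k _ => h4 k,
      Finset.prod_update_of_mem (Finset.mem_univ k₁),
      Finset.prod_update_of_mem (Finset.mem_univ k₁), hAd']
    have h5 := hB0 i
    (clear * - h5; field_simp)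
  · rw [hv1]
    exact noStab_of_off hBo

end Vale.Agent.P002R
end

section

/-!
# P002, genus 0, rank one classes: the tuple with virtual ends
-/

namespace Vale.Agent.P002R

open Matrix

variable {r : ℕ} {S T : Type*} [CommRing S] [CommRing T]

/-- The rows of the reflections, from the virtual ends. -/
def rT (s' δ' : S) (Δ' : Fin r → S) (B0 B1 : Mat r S) : Mat r S :=
  s' • (diagonal Δ' * (δ' • B1.adjugate)) - diagonal Δ' * B0

/-- The inverses of the reflections. -/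
def rS (a κ : S) (t : Fin r → S) (i : Fin r) : Mat r S :=
  a • (1 - κ • vecMulVec (Pi.single i 1) t)

/-- The tuple given by the tuple with virtual ends. -/
def rtup (m : ℕ) (s' δ' : S) (Δ' a κ : Fin r → S) (c : ℕ → Mat r S) (j : ℕ) : Mat r S :=
  if j < m + 1 then c (j + 1)
  else if h : j - (m + 1) < r then
    rS (a (Fin.rev ⟨j - (m + 1), h⟩)) (κ (Fin.rev ⟨j - (m + 1), h⟩))
      (rT s' δ' Δ' (c 0) (c (m + 2)) (Fin.rev ⟨j - (m + 1), h⟩)) (Fin.rev ⟨j - (m + 1), h⟩)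
  else 0

theorem rtup_lt {m : ℕ} (s' δ' : S) (Δ' a κ : Fin r → S) (c : ℕ → Mat r S) {j : ℕ}
    (h : j < m + 1) : rtup m s' δ' Δ' a κ c j = c (j + 1) := by
  rw [rtup, if_pos h]

theorem rtup_ge (m : ℕ) (s' δ' : S) (Δ' a κ : Fin r → S) (c : ℕ → Mat r S) (i : Fin r) :
    rtup m s' δ' Δ' a κ c (m + 1 + (Fin.rev i : ℕ)) =
      rS (a i) (κ i) (rT s' δ' Δ' (c 0) (c (m + 2)) i) i := by
  have h1 : m + 1 + (Fin.rev i : ℕ) - (m + 1) < r := by
    rw [Nat.add_sub_cancel_left]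
    exact (Fin.rev i).2
  have h2 : (⟨m + 1 + (Fin.rev i : ℕ) - (m + 1), h1⟩ : Fin r) = Fin.rev i := by
    ext
    exact Nat.add_sub_cancel_left _ _
  rw [rtup, if_neg (by omega), dif_pos h1, h2, Fin.rev_rev]

theorem smulM_map (φ : S →+* T) (c : S) (A : Mat r S) : (c • A).map φ = φ c • A.map φ := by
  ext i j
  rw [Matrix.map_apply, Matrix.smul_apply, Matrix.smul_apply, smul_eq_mul, smul_eq_mul, map_mul,
    Matrix.map_apply]

theorem rT_map (φ : S →+* T) (s' δ' : S) (Δ' : Fin r → S) (B0 B1 : Mat r S) :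
    (rT s' δ' Δ' B0 B1).map φ = rT (φ s') (φ δ') (fun i => φ (Δ' i)) (B0.map φ) (B1.map φ) := by
  have hd : (diagonal Δ').map φ = diagonal fun i => φ (Δ' i) := by
    rw [Matrix.diagonal_map (map_zero φ)]
  rw [rT, rT, Matrix.map_sub φ (map_sub φ), Matrix.map_mul, hd, smulM_map, Matrix.map_mul, hd,
    smulM_map, adjugate_map]

theorem rS_map (φ : S →+* T) (a κ : S) (t : Fin r → S) (i : Fin r) :
    (rS a κ t i).map φ = rS (φ a) (φ κ) (fun j => φ (t j)) i := by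
  ext k j
  rw [rS, rS, Matrix.map_apply, Matrix.smul_apply, Matrix.smul_apply, Matrix.sub_apply,
    Matrix.sub_apply, Matrix.smul_apply, Matrix.smul_apply, vecMulVec_apply, vecMulVec_apply,
    smul_eq_mul, smul_eq_mul, smul_eq_mul, smul_eq_mul, map_mul, map_sub, map_mul, map_mul]
  congr 2
  · rw [Matrix.one_apply, Matrix.one_apply]
    split_ifs
    · exact map_one φ
    · exact map_zero φ
  · congr 2
    rw [Pi.single_apply, Pi.single_apply]
    split_ifs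
    · exact map_one φ
    · exact map_zero φ

theorem rtup_map (φ : S →+* T) (m : ℕ) (s' δ' : S) (Δ' a κ : Fin r → S) (c : ℕ → Mat r S)
    (j : ℕ) : (rtup m s' δ' Δ' a κ c j).map φ =
      rtup m (φ s') (φ δ') (fun i => φ (Δ' i)) (fun i => φ (a i)) (fun i => φ (κ i))
        (fun j => (c j).map φ) j := by
  rw [rtup, rtup]
  split_ifs with h1 h2
  · rfl
  · rw [rS_map, ← rT_map]
    rfl
  · ext a b
    exact map_zero φ

/-- The polynomial of the tuple. -/
theorem exists_rtup_poly {m : ℕ} (s' δ' : ℂ) (Δ' a κ : Fin r → ℂ) (β : Fin r → Fin r)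
    (f : MvPolynomial (GenU 0 (m + 1 + r) × Fin r × Fin r) ℂ) :
    ∃ F : MvPolynomial (GenU 0 (m + 3) × Fin r × Fin r) ℂ, ∀ y : FU 0 (m + 3) →* (Mat r ℂ)ˣ,
      evalG y F = evalT (rtup m s' δ' Δ' a κ (cseq y)) f *
        ∏ i, rT s' δ' Δ' (cseq y 0) (cseq y (m + 2)) i (β i) := by
  obtain ⟨cg, hcg⟩ : ∃ cg : ℕ → Mat r (MvPolynomial (GenU 0 (m + 3) × Fin r × Fin r) ℂ),
    cg = fun j => if h : j < m + 3 then
      Matrix.of fun a b => MvPolynomial.X (Sum.inr ⟨j, h⟩, (a, b)) else 1 := ⟨_, rfl⟩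
  refine ⟨evalT (rtup m (MvPolynomial.C s') (MvPolynomial.C δ') (fun i => MvPolynomial.C (Δ' i))
    (fun i => MvPolynomial.C (a i)) (fun i => MvPolynomial.C (κ i)) cg) f *
    ∏ i, rT (MvPolynomial.C s') (MvPolynomial.C δ') (fun i => MvPolynomial.C (Δ' i))
      (cg 0) (cg (m + 2)) i (β i), fun y => ?_⟩
  have h1 : ∀ j, (cg j).map (evalG y) = cseq y j := by
    intro j
    rw [hcg]
    by_cases h : j < m + 3
    · simp only [dif_pos h]
      ext a b
      rw [Matrix.map_apply, Matrix.of_apply, evalG_eqn, MvPolynomial.aeval_X, cseq, dif_pos h]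
    · simp only [dif_neg h]
      rw [cseq, dif_neg h]
      exact Matrix.map_one _ (map_zero _) (map_one _)
  have h3 : ∀ z : ℂ, (evalG y : MvPolynomial (GenU 0 (m + 3) × Fin r × Fin r) ℂ →+* ℂ)
      (MvPolynomial.C z) = z := fun z => (evalG y).commutes z
  have h4 : ∀ j, (rtup m (MvPolynomial.C s') (MvPolynomial.C δ') (fun i => MvPolynomial.C (Δ' i))
      (fun i => MvPolynomial.C (a i)) (fun i => MvPolynomial.C (κ i)) cg j).map (evalG y) =
      rtup m s' δ' Δ' a κ (cseq y) j := by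
    intro j
    have h5 := rtup_map (evalG y : MvPolynomial (GenU 0 (m + 3) × Fin r × Fin r) ℂ →+* ℂ) m
      (MvPolynomial.C s') (MvPolynomial.C δ') (fun i => MvPolynomial.C (Δ' i))
      (fun i => MvPolynomial.C (a i)) (fun i => MvPolynomial.C (κ i)) cg j
    simp only [h3] at h5
    have h6 : (fun j => (cg j).map (evalG y :
        MvPolynomial (GenU 0 (m + 3) × Fin r × Fin r) ℂ →+* ℂ)) = cseq y := funext h1
    rw [h6] at h5
    exact h5
  have h7 : (rT (MvPolynomial.C s') (MvPolynomial.C δ') (fun i => MvPolynomial.C (Δ' i))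
      (cg 0) (cg (m + 2))).map (evalG y) = rT s' δ' Δ' (cseq y 0) (cseq y (m + 2)) := by
    have h5 := rT_map (evalG y : MvPolynomial (GenU 0 (m + 3) × Fin r × Fin r) ℂ →+* ℂ)
      (MvPolynomial.C s') (MvPolynomial.C δ') (fun i => MvPolynomial.C (Δ' i)) (cg 0) (cg (m + 2))
    simp only [h3] at h5
    have h8 : ∀ j, (cg j).map (evalG y :
        MvPolynomial (GenU 0 (m + 3) × Fin r × Fin r) ℂ →+* ℂ) = cseq y j := h1
    rw [h8, h8] at h5
    exact h5
  rw [map_mul, evalT_map, map_prod]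
  simp only [h4]
  congr 1
  refine Finset.prod_congr rfl fun i _ => ?_
  rw [← h7]
  rfl

/-! ### from the virtual ends to the reflections -/

theorem prod_smul_ofFn {n : ℕ} (s : Fin n → S) (A : Fin n → Mat r S) :
    (List.ofFn fun i => s i • A i).prod = (∏ i, s i) • (List.ofFn A).prod := by
  induction n with
  | zero => simp only [List.ofFn_zero, List.prod_nil, Finset.univ_eq_empty, Finset.prod_empty, one_smul]
  | succ n ih =>
    rw [List.ofFn_succ, List.prod_cons, ih, List.ofFn_succ, List.prod_cons, Fin.prod_univ_succ,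
      smul_mul_smul_comm]

theorem prod_single_ofFn (s : Fin r → S) (A : Mat r S) :
    (List.ofFn fun i => s i • (1 + vecMulVec (Pi.single i 1) (A i))).prod =
      (∏ i, s i) • (1 + dU A * A) := by
  rw [prod_smul_ofFn]
  have h1 := prod_refl (1 : Mat r S) A
  rw [Matrix.one_mul, Matrix.mul_one] at h1
  rw [← h1]
  congr 3
  funext i
  congr 2
  funext a
  rw [Matrix.one_apply, Pi.single_apply]

theorem upS_sub {L V : Mat r S} (hL : LoT L) (hV : UpT V) (hV1 : ∀ i, V i i = 1) (z : S) :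
    upS (z • L - V) = 1 - V := by
  ext i j
  rw [upS_apply, Matrix.sub_apply, Matrix.smul_apply, Matrix.sub_apply, Matrix.one_apply]
  by_cases hij : i < j
  · rw [if_pos hij, hL i j hij, if_neg hij.ne, smul_zero]
  · rw [if_neg hij]
    rcases eq_or_lt_of_le (not_lt.1 hij) with h2 | h2
    · rw [← h2, if_pos rfl, hV1, sub_self]
    · rw [if_neg h2.ne', hV i j h2, sub_zero]

theorem smul_one_add_dU {L V : Mat r ℂ} (hL : LoT L) (hV : UpT V) (hV1 : ∀ i, V i i = 1) {s : ℂ}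
    (hs : s ≠ 0) {P : Mat r ℂ} (hP : V * P = L) :
    s • (1 + dU (s⁻¹ • L - V) * (s⁻¹ • L - V)) = P := by
  have h1 := dU_mul (s⁻¹ • L - V)
  rw [upS_sub hL hV hV1, sub_sub_cancel] at h1
  have h2 : dU (s⁻¹ • L - V) * (s⁻¹ • L - V) = s⁻¹ • P - 1 := by
    rw [Matrix.mul_sub, h1, mul_smul_comm]
    congr 2
    conv_lhs => rw [← hP, ← Matrix.mul_assoc]
    rw [hP, h1, Matrix.one_mul]
  rw [h2, add_sub_cancel, smul_smul, mul_inv_cancel₀ hs, one_smul]

theorem rT_spec {s κ Δ : Fin r → ℂ} (hs : ∀ i, s i ≠ 0) (hκ : ∀ i, κ i ≠ 0) (hΔ : ∀ i, Δ i ≠ 0)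
    {B0 B1 P : Mat r ℂ} (h0 : UpT B0) (h0d : ∀ i, B0 i i = Δ i) (h1 : LoT B1)
    (h1d : ∀ i, B1 i i = ((∏ l, s l) * κ i * Δ i)⁻¹) (hP : B0 * P * B1 = 1) :
    (∀ i, 1 + rT (∏ l, s l)⁻¹ (∏ i, ((∏ l, s l) * κ i * Δ i)) (fun i => (Δ i)⁻¹) B0 B1 i i = κ i) ∧
    P = (List.ofFn fun i => s i • (1 + vecMulVec (Pi.single i 1)
      (rT (∏ l, s l)⁻¹ (∏ i, ((∏ l, s l) * κ i * Δ i)) (fun i => (Δ i)⁻¹) B0 B1 i))).prod := by
  obtain ⟨sP, hsP⟩ : ∃ sP, sP = ∏ l, s l := ⟨_, rfl⟩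
  have hsP0 : sP ≠ 0 := by
    rw [hsP, Finset.prod_ne_zero_iff]
    exact fun i _ => hs i
  rw [prod_single_ofFn]
  rw [← hsP] at h1d ⊢
  obtain ⟨δ, hδ⟩ : ∃ δ, δ = ∏ i, (sP * κ i * Δ i) := ⟨_, rfl⟩
  rw [← hδ]
  have hδ1 : δ * B1.det = 1 := by
    rw [h1.det, hδ, ← Finset.prod_mul_distrib]
    refine Finset.prod_eq_one fun i _ => ?_
    rw [h1d]
    exact mul_inv_cancel₀ (mul_ne_zero (mul_ne_zero hsP0 (hκ i)) (hΔ i))
  have hB1 : B1 * (δ • B1.adjugate) = 1 := by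
    rw [mul_smul_comm, Matrix.mul_adjugate, smul_smul, hδ1, one_smul]
  have hB1' : δ • B1.adjugate = B1⁻¹ := (Matrix.inv_eq_right_inv hB1).symm
  have hB10 : ∀ i, B1 i i ≠ 0 := fun i => by
    rw [h1d]
    exact inv_ne_zero (mul_ne_zero (mul_ne_zero hsP0 (hκ i)) (hΔ i))
  have hPB : B0 * P = δ • B1.adjugate := by
    calc B0 * P = B0 * P * (B1 * (δ • B1.adjugate)) := by rw [hB1, Matrix.mul_one]
      _ = (B0 * P * B1) * (δ • B1.adjugate) := by simp only [Matrix.mul_assoc]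
      _ = _ := by rw [hP, Matrix.one_mul]
  obtain ⟨V, hV⟩ : ∃ V : Mat r ℂ, V = diagonal (fun i => (Δ i)⁻¹) * B0 := ⟨_, rfl⟩
  obtain ⟨L, hL⟩ : ∃ L : Mat r ℂ, L = diagonal (fun i => (Δ i)⁻¹) * (δ • B1.adjugate) := ⟨_, rfl⟩
  have hVu : UpT V := by
    rw [hV]
    exact (upT_diagonal _).mul h0
  have hV1 : ∀ i, V i i = 1 := fun i => by
    rw [hV, (upT_diagonal _).mul_diag h0, Matrix.diagonal_apply_eq, h0d, inv_mul_cancel₀ (hΔ i)]
  have hLl : LoT L := by
    rw [hL, hB1']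
    exact (loT_diagonal _).mul (h1.inv hB10)
  have hLd : ∀ i, L i i = sP * κ i := fun i => by
    rw [hL, hB1', (loT_diagonal _).mul_diag (h1.inv hB10), Matrix.diagonal_apply_eq,
      LoT.inv_diag h1 hB10, h1d, inv_inv, mul_comm, mul_assoc, mul_inv_cancel₀ (hΔ i), mul_one]
  have hVP : V * P = L := by
    rw [hV, hL, Matrix.mul_assoc, hPB]
  have hT : rT sP⁻¹ δ (fun i => (Δ i)⁻¹) B0 B1 = sP⁻¹ • L - V := by rw [rT, ← hL, ← hV]
  rw [hT]
  refine ⟨fun i => ?_, (smul_one_add_dU hLl hVu hV1 hsP0 hVP).symm⟩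
  rw [Matrix.sub_apply, Matrix.smul_apply, hLd, hV1, smul_eq_mul, ← mul_assoc,
    inv_mul_cancel₀ hsP0, one_mul, add_sub_cancel]

end Vale.Agent.P002R
end

section

/-!
# P002, genus 0, rank one classes: back from the tuple with virtual ends
-/

namespace Vale.Agent.P002R

open Matrix

variable {r : ℕ}

theorem prod_mul_rev {G : Type*} [Monoid G] {n : ℕ} (M N : Fin n → G) (h : ∀ i, M i * N i = 1) :
    (List.ofFn M).prod * (List.ofFn fun l => N (Fin.rev l)).prod = 1 := by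
  induction n with
  | zero => simp only [List.ofFn_zero, List.prod_nil, mul_one]
  | succ n ih =>
    rw [List.ofFn_succ, List.prod_cons, List.ofFn_succ', List.prod_concat]
    simp only [Fin.rev_castSucc, Fin.rev_last]
    rw [mul_assoc, ← mul_assoc (List.ofFn fun i => M i.succ).prod,
      ih (fun i => M i.succ) (fun i => N i.succ) (fun i => h _), one_mul, h]

theorem rS_mul {s : ℂ} (hs : s ≠ 0) (t : Fin r → ℂ) (i : Fin r) (hκ : 1 + t i ≠ 0) :
    s • (1 + vecMulVec (Pi.single i 1) t) * rS s⁻¹ (1 + t i)⁻¹ t i = (1 : Mat r ℂ) := by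
  have h1 : vecMulVec (Pi.single i 1) t * vecMulVec (Pi.single i 1) t =
      t i • (vecMulVec (Pi.single i 1) t : Mat r ℂ) := by
    rw [Matrix.vecMulVec_mul_vecMulVec, dotProduct_single_one, Matrix.vecMulVec_smul]
  obtain ⟨N, hN⟩ : ∃ N : Mat r ℂ, N = vecMulVec (Pi.single i 1) t := ⟨_, rfl⟩
  rw [rS, smul_mul_smul_comm, mul_inv_cancel₀ hs, one_smul, ← hN]
  rw [← hN] at h1
  rw [add_mul, one_mul, mul_sub, mul_one, mul_smul_comm, h1, smul_smul]
  have h2 : N = ((1 + t i)⁻¹ + (1 + t i)⁻¹ * t i) • N := by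
    have h3 : (1 + t i)⁻¹ + (1 + t i)⁻¹ * t i = 1 := by
      rw [← mul_one_add, inv_mul_cancel₀ hκ]
    rw [h3, one_smul]
  have h4 : (1 : Mat r ℂ) - (1 + t i)⁻¹ • N + (N - ((1 + t i)⁻¹ * t i) • N) =
      1 + (N - ((1 + t i)⁻¹ + (1 + t i)⁻¹ * t i) • N) := by
    rw [add_smul]
    abel
  rw [h4, ← h2, sub_self, add_zero]

theorem rtup_prod (m : ℕ) (c : ℕ → Mat r ℂ) {s κ Δ : Fin r → ℂ} (hs : ∀ i, s i ≠ 0)
    (hκ : ∀ i, κ i ≠ 0) (hΔ : ∀ i, Δ i ≠ 0) (h0 : UpT (c 0)) (h0d : ∀ i, c 0 i i = Δ i)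
    (h1 : LoT (c (m + 2))) (h1d : ∀ i, c (m + 2) i i = ((∏ l, s l) * κ i * Δ i)⁻¹)
    (hP : (List.ofFn fun j : Fin (m + 3) => c j).prod = 1) :
    (List.ofFn fun j : Fin (m + 1 + r) => rtup m (∏ l, s l)⁻¹ (∏ i, ((∏ l, s l) * κ i * Δ i))
      (fun i => (Δ i)⁻¹) (fun i => (s i)⁻¹) (fun i => (κ i)⁻¹) c j).prod = 1 := by
  have e0 : (List.ofFn fun j : Fin (m + 3) => c j).prod =
      c 0 * (List.ofFn fun j : Fin (m + 1) => c (j + 1)).prod * c (m + 2) := by
    rw [List.ofFn_succ, List.prod_cons, List.ofFn_succ', List.prod_concat, ← Matrix.mul_assoc]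
    rfl
  rw [e0] at hP
  obtain ⟨hT1, hT2⟩ := rT_spec hs hκ hΔ h0 h0d h1 h1d hP
  have e1 : (List.ofFn fun j : Fin (m + 1) => rtup m (∏ l, s l)⁻¹
      (∏ i, ((∏ l, s l) * κ i * Δ i)) (fun i => (Δ i)⁻¹) (fun i => (s i)⁻¹) (fun i => (κ i)⁻¹) c
      (Fin.castLE (Nat.le_add_right (m + 1) r) j : ℕ)) =
      List.ofFn fun j : Fin (m + 1) => c (j + 1) := by
    congr 1
    funext j
    exact rtup_lt _ _ _ _ _ c j.2
  have e2 : ∀ l : Fin r, rtup m (∏ l, s l)⁻¹
      (∏ i, ((∏ l, s l) * κ i * Δ i)) (fun i => (Δ i)⁻¹) (fun i => (s i)⁻¹) (fun i => (κ i)⁻¹) c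
      (Fin.natAdd (m + 1) l : ℕ) = rS (s (Fin.rev l))⁻¹ (κ (Fin.rev l))⁻¹
        (rT (∏ l, s l)⁻¹ (∏ i, ((∏ l, s l) * κ i * Δ i)) (fun i => (Δ i)⁻¹) (c 0) (c (m + 2))
          (Fin.rev l)) (Fin.rev l) := by
    intro l
    have h2 := rtup_ge m (∏ l, s l)⁻¹ (∏ i, ((∏ l, s l) * κ i * Δ i)) (fun i => (Δ i)⁻¹)
      (fun i => (s i)⁻¹) (fun i => (κ i)⁻¹) c (Fin.rev l)
    rw [Fin.rev_rev] at h2
    exact h2
  rw [List.ofFn_add, List.prod_append, e1, hT2]
  simp only [e2]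
  obtain ⟨T', hT'⟩ : ∃ T' : Mat r ℂ, T' = rT (∏ l, s l)⁻¹ (∏ i, ((∏ l, s l) * κ i * Δ i))
    (fun i => (Δ i)⁻¹) (c 0) (c (m + 2)) := ⟨_, rfl⟩
  rw [← hT'] at hT1
  rw [← hT']
  exact prod_mul_rev (fun i => s i • (1 + vecMulVec (Pi.single i 1) (T' i)))
    (fun i => rS (s i)⁻¹ (κ i)⁻¹ (T' i) i) fun i => by
      have h3 := rS_mul (hs i) (T' i) i (by rw [hT1]; exact hκ i)
      rw [hT1] at h3
      exact h3

theorem rtup_congr {m : ℕ} (s' δ' : ℂ) (Δ' a κ : Fin r → ℂ) {c c' : ℕ → Mat r ℂ}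
    (h : ∀ k, k < m + 3 → c k = c' k) (j : ℕ) :
    rtup m s' δ' Δ' a κ c j = rtup m s' δ' Δ' a κ c' j := by
  rw [rtup, rtup]
  by_cases h1 : j < m + 1
  · rw [if_pos h1, if_pos h1, h _ (by (clear * - h1; omega))]
  · rw [if_neg h1, if_neg h1, h 0 (by omega), h (m + 2) (by omega)]

theorem map_units_inv {R : Type*} [CommRing R] (φ : R →+* ℂ) (u : Rˣ) :
    φ ((u⁻¹ : Rˣ) : R) = (φ (u : R))⁻¹ := by
  have h1 : φ (u : R) * φ ((u⁻¹ : Rˣ) : R) = 1 := by rw [← map_mul, Units.mul_inv, map_one]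
  exact eq_inv_of_mul_eq_one_right h1

theorem map_units_ne {R : Type*} [CommRing R] (φ : R →+* ℂ) (u : Rˣ) : φ (u : R) ≠ 0 := by
  have h1 : φ (u : R) * φ ((u⁻¹ : Rˣ) : R) = 1 := by rw [← map_mul, Units.mul_inv, map_one]
  exact left_ne_zero_of_mul (by rw [h1]; exact one_ne_zero)

theorem single_ne (i : Fin r) : (Pi.single i 1 : Fin r → ℂ) ≠ 0 := by
  intro h
  have h1 := congrFun h i
  rw [Pi.single_eq_same, Pi.zero_apply] at h1
  exact one_ne_zero h1

theorem refl_back {R : Type*} [CommRing R] {φ : R →+* ℂ} {E : Subgroup ℂˣ} (hr : 0 < r)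
    (hc : CoefOK φ E r) {m : ℕ} (C : Fin (m + 1 + r) → (Mat r ℂ)ˣ)
    (hE : ∀ j, EigIn E (C j : Mat r ℂ)) (s κ Δ : Fin r → Rˣ) (T : Mat r ℂ)
    (hT : ∀ i, 1 + T i i = φ (κ i)) (hT0 : ∀ i, T i ≠ 0)
    (hCR : ∀ i, CjM (C (Fin.natAdd (m + 1) (Fin.rev i)) : Mat r ℂ)
      (rS (φ (s i))⁻¹ (φ (κ i))⁻¹ (T i) i))
    (y : FU 0 (m + 3) →* (Mat r ℂ)ˣ) (cR : ℕ → Mat r R) (hy1 : y (relatorU 0 (m + 3)) = 1)
    (hyC : ∀ j : Fin (m + 1), CjM (C (Fin.castAdd r j) : Mat r ℂ) (cseq y (j + 1)))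
    (hy2 : ∀ j : Fin (m + 3), (y (FreeGroup.of (Sum.inr j)) : Mat r ℂ) = (cR j).map φ)
    (hup : UpT (cR 0)) (hlo : LoT (cR (m + 2))) (hd0 : ∀ i, φ (cR 0 i i) = φ (Δ i))
    (hd1 : ∀ i, φ (cR (m + 2) i i) = ((∏ l, φ (s l)) * φ (κ i) * φ (Δ i))⁻¹)
    (hβ : ∀ i, rT (∏ l, φ (s l))⁻¹ (∏ i, ((∏ l, φ (s l)) * φ (κ i) * φ (Δ i)))
      (fun i => (φ (Δ i))⁻¹) (cseq y 0) (cseq y (m + 2)) i ≠ 0) :
    ∃ z : FU 0 (m + 1 + r) →* (Mat r ℂ)ˣ, z (relatorU 0 (m + 1 + r)) = 1 ∧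
      (∀ j, IsConj (C j) (z (FreeGroup.of (Sum.inr j)))) ∧
      (∀ k, z (FreeGroup.of k) ∈ GR r φ) ∧
      ∀ j : Fin (m + 1 + r), (z (FreeGroup.of (Sum.inr j)) : Mat r ℂ) =
        rtup m (∏ l, φ (s l))⁻¹ (∏ i, ((∏ l, φ (s l)) * φ (κ i) * φ (Δ i)))
          (fun i => (φ (Δ i))⁻¹) (fun i => (φ (s i))⁻¹) (fun i => (φ (κ i))⁻¹) (cseq y) j := by
  have hcy : ∀ k, k < m + 3 → cseq y k = (cR k).map φ := fun k hk =>
    (cseq_of y ⟨k, hk⟩).trans (hy2 ⟨k, hk⟩)
  have hup' : UpT (cseq y 0) := by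
    rw [hcy 0 (by omega)]
    intro i j hij
    rw [Matrix.map_apply, hup i j hij, map_zero]
  have hlo' : LoT (cseq y (m + 2)) := by
    rw [hcy (m + 2) (by omega)]
    intro i j hij
    rw [Matrix.map_apply, hlo i j hij, map_zero]
  have hd0' : ∀ i, cseq y 0 i i = φ (Δ i) := fun i => by
    rw [hcy 0 (by omega), Matrix.map_apply, hd0]
  have hd1' : ∀ i, cseq y (m + 2) i i = ((∏ l, φ (s l)) * φ (κ i) * φ (Δ i))⁻¹ := fun i => by
    rw [hcy (m + 2) (by omega), Matrix.map_apply, hd1]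
  have hprod := rtup_prod (s := fun i => φ (s i)) (κ := fun i => φ (κ i)) (Δ := fun i => φ (Δ i))
    m (cseq y) (fun i => map_units_ne φ (s i)) (fun i => map_units_ne φ (κ i))
    (fun i => map_units_ne φ (Δ i)) hup' hd0' hlo' hd1' (cseq_prod y hy1)
  obtain ⟨z, hz1, hz2⟩ := exists_hom (m + 1 + r) _ hprod
  have hclass : ∀ j, IsConj (C j) (z (FreeGroup.of (Sum.inr j))) := by
    intro j
    refine Fin.addCases (fun j => ?_) (fun l => ?_) j
    · apply isConj_of_cjM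
      rw [hz2]
      have h1 : rtup m (∏ l, φ (s l))⁻¹ (∏ i, ((∏ l, φ (s l)) * φ (κ i) * φ (Δ i)))
          (fun i => (φ (Δ i))⁻¹) (fun i => (φ (s i))⁻¹) (fun i => (φ (κ i))⁻¹) (cseq y)
          (Fin.castAdd r j : ℕ) = cseq y (j + 1) := rtup_lt _ _ _ _ _ _ j.2
      rw [h1]
      exact hyC j
    · apply isConj_of_cjM
      rw [hz2]
      have h1 := rtup_ge m (∏ l, φ (s l))⁻¹ (∏ i, ((∏ l, φ (s l)) * φ (κ i) * φ (Δ i)))
        (fun i => (φ (Δ i))⁻¹) (fun i => (φ (s i))⁻¹) (fun i => (φ (κ i))⁻¹) (cseq y) (Fin.rev l)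
      have h2 := hCR (Fin.rev l)
      rw [Fin.rev_rev] at h1 h2
      refine h2.trans ?_
      have h3 : rtup m (∏ l, φ (s l))⁻¹ (∏ i, ((∏ l, φ (s l)) * φ (κ i) * φ (Δ i)))
          (fun i => (φ (Δ i))⁻¹) (fun i => (φ (s i))⁻¹) (fun i => (φ (κ i))⁻¹) (cseq y)
          (Fin.natAdd (m + 1) l : ℕ) = _ := h1
      rw [h3]
      refine cjM_rankOne _ _ (single_ne _) (hT0 _) (single_ne _) (hβ _) ?_
      rw [dotProduct_single_one, dotProduct_single_one]
      have h4 := (rT_spec (s := fun i => φ (s i)) (κ := fun i => φ (κ i)) (Δ := fun i => φ (Δ i))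
        (fun i => map_units_ne φ (s i)) (fun i => map_units_ne φ (κ i))
        (fun i => map_units_ne φ (Δ i)) (P := (cseq y 0)⁻¹ * (cseq y (m + 2))⁻¹) hup' hd0' hlo'
        hd1' (by
          have hU : IsUnit (cseq y 0).det := by
            rw [hup'.det, isUnit_iff_ne_zero, Finset.prod_ne_zero_iff]
            exact fun i _ => by rw [hd0']; exact map_units_ne φ (Δ i)
          have hL : IsUnit (cseq y (m + 2)).det := by
            rw [hlo'.det, isUnit_iff_ne_zero, Finset.prod_ne_zero_iff]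
            intro i _
            rw [hd1']
            exact inv_ne_zero (mul_ne_zero (mul_ne_zero (Finset.prod_ne_zero_iff.2
              fun l _ => map_units_ne φ (s l)) (map_units_ne φ (κ i))) (map_units_ne φ (Δ i)))
          rw [← Matrix.mul_assoc, Matrix.mul_nonsing_inv _ hU, Matrix.one_mul,
            Matrix.nonsing_inv_mul _ hL])).1 (Fin.rev l)
      exact add_left_cancel ((hT (Fin.rev l)).trans h4.symm)
  refine ⟨z, hz1, hclass, ?_, hz2⟩
  rintro (k | j)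
  · exact k.1.elim0
  · obtain ⟨Y, hY⟩ : ∃ Y : Mat r R, Y = rtup m (((∏ l, s l)⁻¹ : Rˣ) : R)
      ((∏ i, ((∏ l, s l) * κ i * Δ i) : Rˣ) : R) (fun i => (((Δ i)⁻¹ : Rˣ) : R))
      (fun i => (((s i)⁻¹ : Rˣ) : R)) (fun i => (((κ i)⁻¹ : Rˣ) : R)) cR j := ⟨_, rfl⟩
    have hYz : (z (FreeGroup.of (Sum.inr j)) : Mat r ℂ) = Y.map φ := by
      rw [hz2, hY, rtup_map]
      simp only [map_units_inv, Units.coe_prod, map_prod, Units.val_mul, map_mul]
      exact rtup_congr _ _ _ _ _ (fun k hk => hcy k hk) j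
    obtain ⟨e, he, hed⟩ := (hE j).det
    obtain ⟨c, hcc⟩ := exists_unit_root_of_mem hc hr Y.det e he (by
      rw [hed, RingHom.map_det]
      change (Y.map φ).det = _
      rw [← hYz]
      exact (cjM_of_isConj (hclass j)).det)
    exact mem_GR_of φ _ Y hYz c hcc

end Vale.Agent.P002R
end

section

/-!
# P002: duality, rational charts near every element without stable coordinate subspace
-/

namespace Vale.Agent.P002R

open Matrix

variable {n e : ℕ}

theorem dR_gauge {r : ℕ} (Ξ : Matrix (Fin n) (Fin r) ℂ) (Υ : Matrix (Fin r) (Fin n) ℂ)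
    (g g' : Mat n ℂ) (h : g * g' = 1) (i : Fin r) :
    dR (g * Ξ) (Υ * g') i = g * dR Ξ Υ i * g' := by
  have h1 : (fun a => (g * Ξ) a i) = g *ᵥ fun a => Ξ a i := rfl
  have h2 : (Υ * g') i = Υ i ᵥ* g' := rfl
  rw [dR, dR, Matrix.mul_add, Matrix.mul_one, Matrix.add_mul, h, Matrix.mul_vecMulVec,
    Matrix.vecMulVec_mul, h1, h2]

theorem prod_gauge_list (g g' : Mat n ℂ) (h : g * g' = 1) (h' : g' * g = 1) (l : List (Mat n ℂ)) :
    (l.map fun M => g * M * g').prod = g * l.prod * g' := by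
  induction l with
  | nil => rw [List.map_nil, List.prod_nil, Matrix.mul_one, h]
  | cons a l ih =>
    rw [List.map_cons, List.prod_cons, List.prod_cons, ih]
    calc g * a * g' * (g * l.prod * g') = g * a * (g' * g) * (l.prod * g') := by
          simp only [Matrix.mul_assoc]
      _ = _ := by
          rw [h', Matrix.mul_one]
          simp only [Matrix.mul_assoc]

theorem dualD_good {R : Type*} [CommRing R] (φ : R →+* ℂ) (hinj : Function.Injective φ)
    (hn : 0 < n) (he : 0 < e) (hinf : (Set.range fun u : Rˣ => φ u).Infinite)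
    (J : Mat (n + e) ℂ) (ζ : Rˣ) (W0 : Mat n ℂ) (Y0 : Matrix (Fin e) (Fin n) ℂ)
    (h : DualCls (φ ζ) J W0 Y0) (hT : TotD φ W0) (Ξ : Matrix (Fin n) (Fin (n + e)) ℂ)
    (Υ : Matrix (Fin (n + e)) (Fin n) ℂ) (hΥ : ∀ v, Υ *ᵥ v = 0 → v = 0)
    (hκ : ∀ i, 1 + Υ i ⬝ᵥ (fun a => Ξ a i) ≠ 0) (hg : DGood Ξ Υ)
    (hW : P002G.Cj W0 (List.ofFn (dR Ξ Υ)).prod) :
    DualD φ J (dX (φ ζ) (Υ * Ξ)) := by
  obtain ⟨B, hBd⟩ : ∃ B : Mat n ℂ, B = dB Ξ := ⟨_, rfl⟩
  have hB : IsUnit B.det := by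
    rw [hBd]
    exact isUnit_iff_ne_zero.2 hg.basis
  have hBB : B⁻¹ * B = 1 := Matrix.nonsing_inv_mul _ hB
  have hBB' : B * B⁻¹ = 1 := Matrix.mul_nonsing_inv _ hB
  obtain ⟨x, hx⟩ : ∃ x : Matrix (Fin n) (Fin e) ℂ, x = Matrix.of fun i j =>
    (B⁻¹ * Ξ) i (Fin.natAdd n j) := ⟨_, rfl⟩
  have h1 : B⁻¹ * Ξ = oneX x := by
    ext i j
    refine Fin.addCases (fun j => ?_) (fun j => ?_) j
    · rw [oneX_left, ← hBB, Matrix.mul_apply, Matrix.mul_apply]
      exact Finset.sum_congr rfl fun a _ => by rw [hBd]; rfl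
    · rw [oneX_right, hx]
      rfl
  have h2 : (Υ * B) * oneX x = Υ * Ξ := by
    rw [← h1]
    exact prod_gauge Ξ Υ B⁻¹ B hBB'
  have hdR : ∀ i, dR (oneX x) (Υ * B) i = B⁻¹ * dR Ξ Υ i * B := fun i => by
    rw [← h1]
    exact dR_gauge Ξ Υ B⁻¹ B hBB i
  have hlist : List.ofFn (dR (oneX x) (Υ * B)) =
      (List.ofFn (dR Ξ Υ)).map fun M => B⁻¹ * M * B := by
    rw [List.map_ofFn]
    exact congrArg List.ofFn (funext hdR)
  have h3 := dualD_oneX φ hinj hn he hinf J ζ W0 Y0 h hT x (Υ * B) (fun v hv => by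
    have h4 : B *ᵥ v = 0 := hΥ _ (by rw [Matrix.mulVec_mulVec]; exact hv)
    have h5 : (B⁻¹ * B) *ᵥ v = 0 := by rw [← Matrix.mulVec_mulVec, h4, Matrix.mulVec_zero]
    rwa [hBB, Matrix.one_mulVec] at h5) (fun i => by
    have h4 : (Υ * B) i ⬝ᵥ (fun a => oneX x a i) = Υ i ⬝ᵥ fun a => Ξ a i := by
      have h5 : ((Υ * B) * oneX x) i i = (Υ * Ξ) i i := by rw [h2]
      exact h5
    rw [h4]
    exact hκ i) (fun l => by
    obtain ⟨X, hX1, hX2, hX3⟩ := hg.cell l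
    refine ⟨X, hX1, ?_, ?_⟩
    · rw [hlist, ← List.map_take, prod_gauge_list _ _ hBB hBB']
      rw [← hBd] at hX2
      rw [Matrix.mul_assoc, ← hX2, ← Matrix.mul_assoc, hBB, Matrix.one_mul]
    · have h4 : (fun a => x a l) = (dB Ξ)⁻¹ *ᵥ fun a => Ξ a (Fin.natAdd n l) := by
        rw [← hBd, hx]
        rfl
      rw [h4]
      exact hX3) (by
    have h4 := prod_refl (oneX x) (Υ * B)
    have h5 : 1 + oneX x * (dU (Υ * B * oneX x) * (Υ * B)) =
        B⁻¹ * (List.ofFn (dR Ξ Υ)).prod * B := by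
      rw [← h4, ← prod_gauge_list _ _ hBB hBB', ← hlist]
      rfl
    rw [h5]
    refine hW.trans ⟨B⁻¹, Matrix.isUnit_nonsing_inv_iff.2
      ((Matrix.isUnit_iff_isUnit_det _).2 hB), ?_⟩
    rw [Matrix.mul_assoc _ B, hBB', Matrix.mul_one])
  rw [h2] at h3
  exact h3

theorem continuous_upS {r : ℕ} : Continuous fun A : Mat r ℂ => upS A := by
  refine continuous_matrix fun i j => ?_
  simp only [upS_apply]
  split_ifs
  · exact continuous_id.matrix_elem i j
  · exact continuous_const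

theorem continuous_dX {r : ℕ} (ζ : ℂ) : Continuous fun A : Mat r ℂ => dX ζ A := by
  refine continuous_matrix fun i j => ?_
  simp only [dX_apply]
  split_ifs
  · have h1 : Continuous fun A : Mat r ℂ => dU A := by
      unfold dU
      exact (continuous_const.sub continuous_upS).matrix_adjugate
    exact h1.matrix_elem i j
  · exact continuous_const.mul (continuous_const.add (continuous_id.matrix_elem i j))

/-- Rational charts with integral points near every element of the cell without stable coordinate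
subspace. -/
theorem dualD_near_aux {R : Type*} [CommRing R] (φ : R →+* ℂ) (hinj : Function.Injective φ)
    (hDN : DNear n e) (hn : 0 < n) (he : 0 < e)
    (hinf : (Set.range fun u : Rˣ => φ u).Infinite)
    (J : Mat (n + e) ℂ) (ζ : Rˣ) (W0 : Mat n ℂ) (Y0 : Matrix (Fin e) (Fin n) ℂ)
    (h : DualCls (φ ζ) J W0 Y0) (hT : TotD φ W0) (X : Mat (n + e) ℂ) (hX0 : ∀ i, X i i ≠ 0)
    (hX : CjM J (zZ X)) (hI : ∀ I : Finset (Fin (n + e)), I.Nonempty → I ≠ Finset.univ →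
      ∃ i, i ∉ I ∧ ∃ j ∈ I, zZ X i j ≠ 0) (N : Set (Mat (n + e) ℂ)) (hN : N ∈ nhds X) :
    ∃ X' ∈ N, (∀ i, X' i i = X i i) ∧ CjM J (zZ X') ∧ DualD φ J X' := by
  obtain ⟨Ξ, Υ, hXd, hW, hΥ, hΞ⟩ := h.exists_dual X hX
  rw [hXd] at hI
  have hne := dual_ne (φ ζ) Ξ Υ (by omega) hI
  have hirr := dual_irred (φ ζ) Ξ Υ hΥ hΞ hI
  have hζ : φ ζ ≠ 0 := h.zeta
  have hdiag : ∀ i, (Υ * Ξ) i i = Υ i ⬝ᵥ fun a => Ξ a i := fun i => rfl
  have hκ : ∀ i, 1 + Υ i ⬝ᵥ (fun a => Ξ a i) ≠ 0 := by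
    intro i h0
    apply hX0 i
    rw [hXd, dX_diag, hdiag, h0, mul_zero]
  obtain ⟨Λ, hΛ⟩ := exists_left_inv Υ hΥ
  have hc1 : Continuous fun z : Matrix (Fin n) (Fin (n + e)) ℂ × Matrix (Fin (n + e)) (Fin n) ℂ =>
      dX (φ ζ) (z.2 * z.1) := (continuous_dX (φ ζ)).comp (continuous_snd.matrix_mul continuous_fst)
  have hc2 : Continuous fun z : Matrix (Fin n) (Fin (n + e)) ℂ × Matrix (Fin (n + e)) (Fin n) ℂ =>
      (Λ * z.2).det := (continuous_const.matrix_mul continuous_snd).matrix_det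
  have hN1 : (fun z : Matrix (Fin n) (Fin (n + e)) ℂ × Matrix (Fin (n + e)) (Fin n) ℂ =>
      dX (φ ζ) (z.2 * z.1)) ⁻¹' N ∈ nhds (Ξ, Υ) := by
    refine hc1.continuousAt.preimage_mem_nhds ?_
    simp only
    rw [← hXd]
    exact hN
  have hN2 : (fun z : Matrix (Fin n) (Fin (n + e)) ℂ × Matrix (Fin (n + e)) (Fin n) ℂ =>
      (Λ * z.2).det) ⁻¹' {0}ᶜ ∈ nhds (Ξ, Υ) := by
    refine hc2.continuousAt.preimage_mem_nhds (isOpen_compl_singleton.mem_nhds ?_)
    rw [Set.mem_compl_iff, Set.mem_singleton_iff]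
    simp only
    rw [hΛ, Matrix.det_one]
    exact one_ne_zero
  obtain ⟨z, hzN, hzg, hzd, hzW⟩ := hDN Ξ Υ (fun i => (hne i).1) (fun i => (hne i).2) hκ hirr _
    (Filter.inter_mem hN1 hN2)
  have hz2 : ∀ v, z.2 *ᵥ v = 0 → v = 0 := by
    intro v hv
    have h3 : (Λ * z.2) *ᵥ v = 0 := by
      rw [← Matrix.mulVec_mulVec, hv, Matrix.mulVec_zero]
    exact Matrix.eq_zero_of_mulVec_eq_zero hzN.2 h3
  have hWz : P002G.Cj W0 (List.ofFn (dR z.1 z.2)).prod := by
    rw [← hW, ← prod_refl]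
    exact hzW
  have hκz : ∀ i, 1 + z.2 i ⬝ᵥ (fun a => z.1 a i) ≠ 0 := fun i => by rw [hzd]; exact hκ i
  refine ⟨dX (φ ζ) (z.2 * z.1), hzN.1, fun i => ?_, ?_, ?_⟩
  · rw [hXd, dX_diag, dX_diag, hdiag]
    congr 2
    exact hzd i
  · refine h.cj_dX z.1 z.2 hz2 (isUnit_iff_ne_zero.2 hzg.basis) ?_
    rw [← prod_refl]
    exact hWz
  · exact dualD_good φ hinj hn he hinf J ζ W0 Y0 h hT z.1 z.2 hz2 hκz hzg hWz

/-- Rational charts with integral points near every element of the cell without stable coordinate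
subspace. -/
theorem dualD_near {R : Type*} [CommRing R] (φ : R →+* ℂ) (hinj : Function.Injective φ)
    (hDN : ∀ n e : ℕ, 0 < n → 0 < e → DNear n e) {r : ℕ}
    (u : Rˣ) (hu : ∀ k : ℕ, 0 < k → φ u ^ k ≠ 1) (J : Mat r ℂ) (hJu : IsUnit J)
    (hJ : ∀ z, J.charpoly.IsRoot z → ∃ e : Rˣ, φ e = z) (hns : ∀ μ : ℂ, J ≠ μ • 1)
    (X : Mat r ℂ) (hX0 : ∀ i, X i i ≠ 0)
    (hX : CjM J (zZ X)) (hI : ∀ I : Finset (Fin r), I.Nonempty → I ≠ Finset.univ →
      ∃ i, i ∉ I ∧ ∃ j ∈ I, zZ X i j ≠ 0) (N : Set (Mat r ℂ)) (hN : N ∈ nhds X) :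
    ∃ X' ∈ N, (∀ i, X' i i = X i i) ∧ CjM J (zZ X') ∧ DualD φ J X' := by
  have hr : 0 < r := by
    rcases Nat.eq_zero_or_pos r with h | h
    · subst h
      exact absurd (Subsingleton.elim _ _) (hns 1)
    · exact h
  have hinf : (Set.range fun u : Rˣ => φ u).Infinite := by
    refine Set.infinite_of_injective_forall_mem (f := fun k : ℕ => φ u ^ k) ?_ ?_
    · intro a b hab
      by_contra hne
      simp only at hab
      have h0 : φ u ≠ 0 := (u.isUnit.map φ).ne_zero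
      rcases lt_or_gt_of_ne hne with h | h
      · apply hu (b - a) (by omega)
        have h1 : φ u ^ b = φ u ^ a * φ u ^ (b - a) := by rw [← pow_add]; congr 1; omega
        rw [h1] at hab
        exact (mul_left_cancel₀ (pow_ne_zero a h0) (by rw [mul_one]; exact hab)).symm
      · apply hu (a - b) (by omega)
        have h1 : φ u ^ a = φ u ^ b * φ u ^ (a - b) := by rw [← pow_add]; congr 1; omega
        rw [h1] at hab
        exact mul_left_cancel₀ (pow_ne_zero b h0) (by rw [mul_one]; exact hab)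
    · intro k
      exact ⟨u ^ k, by simp only [Units.val_pow_eq_pow_val, map_pow]⟩
  obtain ⟨ζ, hζ⟩ := IsAlgClosed.exists_root J.charpoly (by
    rw [Matrix.charpoly_degree_eq_dim, Fintype.card_fin]
    exact_mod_cast hr.ne')
  obtain ⟨z, hz⟩ := hJ ζ hζ
  have hζ0 : ζ ≠ 0 := by rw [← hz]; exact (z.isUnit.map φ).ne_zero
  obtain ⟨p, hp⟩ : ∃ p, Module.finrank ℂ (LinearMap.ker (J - ζ • 1).mulVecLin) = p := ⟨_, rfl⟩
  have hp0 : 0 < p := by
    rw [← hp]
    apply Module.finrank_pos_iff_exists_ne_zero.2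
    obtain ⟨v, hv0, hv⟩ := Matrix.exists_mulVec_eq_zero_iff.2 ((P002G.isRoot_iff J ζ).1 hζ)
    exact ⟨⟨v, by rw [LinearMap.mem_ker, Matrix.mulVecLin_apply]; exact hv⟩,
      fun h => hv0 (congrArg Subtype.val h)⟩
  have hpn : p < r := by
    refine lt_of_le_of_ne ?_ ?_
    · rw [← hp]
      refine (Submodule.finrank_le _).trans ?_
      rw [Module.finrank_fin_fun]
    · intro h
      apply hns ζ
      rw [h] at hp
      have h1 : LinearMap.ker (J - ζ • 1).mulVecLin = ⊤ := by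
        apply Submodule.eq_top_of_finrank_eq
        rw [hp, Module.finrank_fin_fun]
      have h2 : (J - ζ • 1).mulVecLin = 0 := LinearMap.ker_eq_top.1 h1
      have h3 : J - ζ • 1 = 0 := by
        ext i j
        have h4 := congrFun (LinearMap.congr_fun h2 (Pi.single j 1)) i
        rw [Matrix.mulVecLin_apply, Matrix.mulVec_single_one] at h4
        exact h4
      exact sub_eq_zero.1 h3
  obtain ⟨m, rfl⟩ : ∃ m, r = m + p := ⟨r - p, by (clear * - hpn; omega)⟩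
  obtain ⟨W0, Y0, h⟩ := exists_dualCls hζ0 J hp
  have hT : TotD φ W0 := P002G.totD φ u hu W0 (h.isUnit hJu) (h.root φ hz hJ)
  subst hz
  exact dualD_near_aux φ hinj (hDN m p (by omega) hp0) (by omega) hp0 hinf J z W0 Y0 h hT X hX0 hX
    hI N hN

end Vale.Agent.P002R
end

section

/-!
# P002: duality, final form
-/

namespace Vale.Agent.P002R

open Matrix

/-- Rational charts with integral points near every element of the cell without stable coordinate
subspace. -/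
theorem dual_near {R : Type*} [CommRing R] (φ : R →+* ℂ) (hinj : Function.Injective φ)
    (u : Rˣ) (hu : ∀ k : ℕ, 0 < k → φ u ^ k ≠ 1) {r : ℕ} (J : Mat r ℂ) (hJu : IsUnit J)
    (hJ : EigU φ J) (hns : ∀ μ : ℂ, J ≠ μ • 1) :
    ∀ X : Mat r ℂ, (∀ i, X i i ≠ 0) → CjM J (zZ X) →
      (∀ I : Finset (Fin r), I.Nonempty → I ≠ Finset.univ →
        ∃ i, i ∉ I ∧ ∃ j ∈ I, zZ X i j ≠ 0) → ∀ N ∈ nhds X,
      ∃ X' ∈ N, (∀ i, X' i i = X i i) ∧ CjM J (zZ X') ∧ DualD φ J X' :=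
  fun X h0 h1 h2 N hN => dualD_near φ hinj (fun _ _ hn he => dNear hn he) u hu J hJu hJ hns X h0 h1
    h2 N hN

end Vale.Agent.P002R
end

section

/-!
# P002, genus 0: the main theorem for irreducible representations, two nonderogatory classes
-/

namespace Vale.Agent.P002R

theorem dualNear_of_eigIn {r : ℕ} {R : Type} [CommRing R] (φ : R →+* ℂ) (E : Subgroup ℂˣ)
    (hc : CoefOK φ E r) (hr : 0 < r) (J : (Mat r ℂ)ˣ) (hJ : EigIn E (J : Mat r ℂ))
    (hns : ∀ μ : ℂ, (J : Mat r ℂ) ≠ μ • (1 : Mat r ℂ)) : DualNear φ (J : Mat r ℂ) := by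
  obtain ⟨u, hu⟩ := hc.exists_free
  intro X h0 h1 h2 N hN
  refine dual_near φ hc.inj u hu (J : Mat r ℂ) J.isUnit (fun z hz => ?_) hns X h0 h1 h2 N hN
  obtain ⟨e, he, rfl⟩ := hJ z hz
  exact hc.exists_unit hr he

end Vale.Agent.P002R
end

section

/-!
# P002, genus 0, rank one classes: the virtual ends of a given tuple
-/

namespace Vale.Agent.P002R

open Matrix

variable {r : ℕ}

theorem eigU_of_diag {R : Type*} [CommRing R] {φ : R →+* ℂ} {M : Mat r ℂ}
    (h : M.charpoly = ∏ i, (Polynomial.X - Polynomial.C (M i i)))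
    (hd : ∀ i, ∃ e : Rˣ, φ (e : R) = M i i) : EigU φ M := by
  intro z hz
  rw [h, Polynomial.IsRoot.def, Polynomial.eval_prod, Finset.prod_eq_zero_iff] at hz
  obtain ⟨i, -, hi⟩ := hz
  rw [Polynomial.eval_sub, Polynomial.eval_X, Polynomial.eval_C, sub_eq_zero] at hi
  rw [hi]
  exact hd i

theorem cyc_of_upT {M : Mat r ℂ} (h : UpT M) (hd : Function.Injective fun i => M i i) :
    ∃ v, P002G.Cyc M v := by
  obtain ⟨P, hPu, hPd, hP⟩ := exists_diag_upT h fun i j hij =>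
    isUnit_iff_ne_zero.2 (sub_ne_zero.2 fun h => hij (hd h))
  refine ⟨_, cyc_of_diag ?_ hP hd⟩
  rw [Matrix.isUnit_iff_isUnit_det, hPu.det, isUnit_iff_ne_zero, Finset.prod_ne_zero_iff]
  exact fun i _ => by rw [hPd]; exact one_ne_zero

theorem cyc_of_loT {M : Mat r ℂ} (h : LoT M) (hd : Function.Injective fun i => M i i) :
    ∃ v, P002G.Cyc M v := by
  obtain ⟨P, hPu, hPd, hP⟩ := exists_diag_loT h fun i j hij =>
    isUnit_iff_ne_zero.2 (sub_ne_zero.2 fun h => hij (hd h))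
  refine ⟨_, cyc_of_diag ?_ hP hd⟩
  rw [Matrix.isUnit_iff_isUnit_det, hPu.det, isUnit_iff_ne_zero, Finset.prod_ne_zero_iff]
  exact fun i _ => by rw [hPd]; exact one_ne_zero

theorem two_pow_free {E : Subgroup ℂˣ} (U : ℂˣ) (hU : ∀ k : ℕ, 0 < k → U ^ k ∉ E)
    (I J : Finset (Fin r)) (h : ∃ ε ∈ E, ∏ i ∈ I, ((U ^ 2 ^ (i : ℕ) : ℂˣ) : ℂ) =
      (ε : ℂ) * ∏ j ∈ J, ((U ^ 2 ^ (j : ℕ) : ℂˣ) : ℂ)) : I = J := by
  obtain ⟨ε, hε, h⟩ := h
  rw [← Units.coe_prod, ← Units.coe_prod, ← Units.val_mul, Units.val_inj,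
    Finset.prod_pow_eq_pow_sum, Finset.prod_pow_eq_pow_sum] at h
  apply sum_two_pow_inj
  by_contra hne
  rcases lt_or_gt_of_ne hne with h1 | h1
  · refine hU (∑ i ∈ J, 2 ^ (i : ℕ) - ∑ i ∈ I, 2 ^ (i : ℕ)) (by (clear * - h1; omega)) ?_
    have h2 : U ^ (∑ i ∈ J, 2 ^ (i : ℕ) - ∑ i ∈ I, 2 ^ (i : ℕ)) = ε⁻¹ := by
      rw [eq_comm, inv_eq_iff_mul_eq_one]
      have h3 : U ^ (∑ i ∈ I, 2 ^ (i : ℕ)) * (ε *
          U ^ (∑ i ∈ J, 2 ^ (i : ℕ) - ∑ i ∈ I, 2 ^ (i : ℕ))) =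
          U ^ (∑ i ∈ I, 2 ^ (i : ℕ)) * 1 := by
        rw [mul_left_comm, ← pow_add, Nat.add_sub_cancel' h1.le, ← h, mul_one]
      exact mul_left_cancel h3
    rw [h2]
    exact E.inv_mem hε
  · refine hU (∑ i ∈ I, 2 ^ (i : ℕ) - ∑ i ∈ J, 2 ^ (i : ℕ)) (by omega) ?_
    have h2 : U ^ (∑ i ∈ I, 2 ^ (i : ℕ) - ∑ i ∈ J, 2 ^ (i : ℕ)) = ε := by
      have h3 : U ^ (∑ i ∈ J, 2 ^ (i : ℕ)) *
          U ^ (∑ i ∈ I, 2 ^ (i : ℕ) - ∑ i ∈ J, 2 ^ (i : ℕ)) =
          U ^ (∑ i ∈ J, 2 ^ (i : ℕ)) * ε := by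
        rw [← pow_add, Nat.add_sub_cancel' h1.le, h, mul_comm]
      exact mul_left_cancel h3
    rw [h2]
    exact hε

theorem dU_inv (T : Mat r ℂ) : (dU T)⁻¹ = 1 - upS T := Matrix.inv_eq_left_inv (mul_dU T)

theorem lL_dX_sub {T : Mat r ℂ} {z : ℂ} (hz : z ≠ 0) :
    z⁻¹ • lL (dX z T) - (1 - upS T) = T := by
  rw [lL_dX, smul_smul, inv_mul_cancel₀ hz, one_smul]
  have h1 := upS_add_lL T
  calc 1 + lL T - (1 - upS T) = upS T + lL T := by abel
    _ = T := h1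

/-- The product of the first classes. -/
theorem refl_pm {m : ℕ} (x : FU 0 (m + 1 + r) →* (Mat r ℂ)ˣ) (hx1 : x (relatorU 0 (m + 1 + r)) = 1)
    (s : Fin r → ℂ) (T : Mat r ℂ)
    (hS : ∀ i, (((x (FreeGroup.of (Sum.inr (Fin.natAdd (m + 1) (Fin.rev i)))))⁻¹ : (Mat r ℂ)ˣ) :
      Mat r ℂ) = s i • (1 + vecMulVec (Pi.single i 1) (T i))) :
    (List.ofFn fun j : Fin (m + 1) => cseq x j).prod = dU T * lL (dX (∏ i, s i) T) := by
  have h1 := cseq_prod x hx1
  rw [List.ofFn_add, List.prod_append] at h1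
  obtain ⟨Q, hQ⟩ : ∃ Q : Mat r ℂ, Q = (List.ofFn fun l : Fin r =>
    (x (FreeGroup.of (Sum.inr (Fin.natAdd (m + 1) l))) : Mat r ℂ)).prod := ⟨_, rfl⟩
  have h2 : (List.ofFn fun i : Fin r => cseq x (Fin.natAdd (m + 1) i : ℕ)).prod = Q := by
    rw [hQ]
    congr 2
    funext l
    exact cseq_of x _
  obtain ⟨Pm, hPm⟩ : ∃ Pm : Mat r ℂ, Pm = (List.ofFn fun j : Fin (m + 1) => cseq x j).prod :=
    ⟨_, rfl⟩
  have h3 : (List.ofFn fun i : Fin (m + 1) =>
      cseq x (Fin.castLE (Nat.le_add_right (m + 1) r) i : ℕ)).prod = Pm := by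
    rw [hPm]
    rfl
  rw [h2, h3] at h1
  have h4 := prod_mul_rev (fun i => s i • (1 + vecMulVec (Pi.single i 1) (T i) : Mat r ℂ))
    (fun i => (x (FreeGroup.of (Sum.inr (Fin.natAdd (m + 1) (Fin.rev i)))) : Mat r ℂ)) fun i => by
      rw [← hS, Units.inv_mul]
  simp only [Fin.rev_rev] at h4
  rw [← hQ, prod_single_ofFn] at h4
  have h5 : Q * Pm = 1 := mul_eq_one_comm.1 h1
  rw [← hPm]
  calc Pm = ((∏ i, s i) • (1 + dU T * T) * Q) * Pm := by rw [h4, Matrix.one_mul]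
    _ = (∏ i, s i) • (1 + dU T * T) * (Q * Pm) := by rw [Matrix.mul_assoc]
    _ = zZ (dX (∏ i, s i) T) := by rw [h5, Matrix.mul_one, zZ_dX]
    _ = _ := by rw [zZ, uU_dX]

theorem cSt_of_stable {W : Submodule ℂ (Fin r → ℂ)} {I : Finset (Fin r)}
    (hI : ∀ v, v ∈ W ↔ ∀ i, i ∉ I → v i = 0) {M : Mat r ℂ} (hM : ∀ v ∈ W, M *ᵥ v ∈ W) :
    CSt I M := by
  intro i hi j hj
  have h1 : (Pi.single j 1 : Fin r → ℂ) ∈ W := by
    rw [hI]
    intro k hk
    have h1 : k ≠ j := fun h => hk (by rw [h]; exact hj)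
    exact Pi.single_eq_of_ne h1 _
  have h2 := (hI _).1 (hM _ h1) i hi
  rwa [Matrix.mulVec_single_one] at h2

theorem stable_of_cSt {W : Submodule ℂ (Fin r → ℂ)} {I : Finset (Fin r)}
    (hI : ∀ v, v ∈ W ↔ ∀ i, i ∉ I → v i = 0) {M : Mat r ℂ} (hM : CSt I M) :
    ∀ v ∈ W, M *ᵥ v ∈ W := by
  intro v hv
  rw [hI] at hv ⊢
  exact mulVec_mem_cSub (K := ℂ) hM hv

theorem refl_irr {m : ℕ} {E : Subgroup ℂˣ} (x : FU 0 (m + 1 + r) →* (Mat r ℂ)ˣ)
    (hx1 : x (relatorU 0 (m + 1 + r)) = 1)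
    (hadj : Algebra.adjoin ℂ (Set.range fun w => (x w : Mat r ℂ)) = ⊤)
    (hEx : ∀ j : Fin (m + 1), EigIn E (cseq x j)) (s κ : Fin r → ℂˣ) (hsE : ∀ i, s i ∈ E)
    (hκE : ∀ i, κ i ∈ E) (T : Mat r ℂ) (hκ : ∀ i, (κ i : ℂ) = 1 + T i i)
    (hS : ∀ i, (((x (FreeGroup.of (Sum.inr (Fin.natAdd (m + 1) (Fin.rev i)))))⁻¹ : (Mat r ℂ)ˣ) :
      Mat r ℂ) = (s i : ℂ) • (1 + vecMulVec (Pi.single i 1) (T i)))
    (Δ : Fin r → ℂ) (hΔ0 : ∀ i, Δ i ≠ 0)
    (hno : ∀ (I J : Finset (Fin r)), (∃ ε ∈ E, ∏ i ∈ I, Δ i = (ε : ℂ) * ∏ j ∈ J, Δ j) → I = J)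
    (W : Submodule ℂ (Fin r → ℂ)) (hW0 : ∀ v ∈ W, (diagonal Δ * (1 - upS T)) *ᵥ v ∈ W)
    (hWl : ∀ j : Fin (m + 1), ∀ v ∈ W, cseq x j *ᵥ v ∈ W)
    (hW1 : ∀ v ∈ W, ((lL (dX (∏ i, (s i : ℂ)) T))⁻¹ * diagonal fun i => (Δ i)⁻¹) *ᵥ v ∈ W) :
    W = ⊥ ∨ W = ⊤ := by
  obtain ⟨sP, hsP⟩ : ∃ sP : ℂˣ, sP = ∏ i, s i := ⟨_, rfl⟩
  have hsP' : ∏ i, (s i : ℂ) = sP := by rw [hsP, Units.coe_prod]
  obtain ⟨L, hL⟩ : ∃ L : Mat r ℂ, L = lL (dX (∏ i, (s i : ℂ)) T) := ⟨_, rfl⟩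
  have hLl : LoT L := by rw [hL]; exact loT_lL _
  have hLd : ∀ i, L i i = sP * κ i := fun i => by
    rw [hL, lL_diag, dX_diag, hsP', hκ]
  have hL0 : ∀ i, L i i ≠ 0 := fun i => by
    rw [hLd]
    exact mul_ne_zero sP.ne_zero (κ i).ne_zero
  have hLdet : IsUnit L.det := by
    rw [hLl.det, isUnit_iff_ne_zero, Finset.prod_ne_zero_iff]
    exact fun i _ => hL0 i
  have hpm := refl_pm x hx1 (fun i => (s i : ℂ)) T hS
  rw [← hL] at hW1 hpm
  obtain ⟨I, hI⟩ := exists_coord_of_stable (W := W) (E := E) (U := dU T) (L := L) (upT_dU T)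
    (dU_diag T) hLl (fun i => ⟨sP * κ i, E.mul_mem (hsP ▸ E.prod_mem fun i _ => hsE i) (hκE i), by
      rw [hLd, Units.val_mul]⟩) Δ hΔ0 hno (List.ofFn fun j : Fin (m + 1) => cseq x j) hpm
    (fun M hM => by
      obtain ⟨j, rfl⟩ := List.mem_ofFn.1 hM
      exact hEx j) (by rwa [dU_inv]) (fun M hM => by
      obtain ⟨j, rfl⟩ := List.mem_ofFn.1 hM
      exact hWl j) hW1
  have hdd : (diagonal fun i => (Δ i)⁻¹) * diagonal Δ = (1 : Mat r ℂ) := by
    rw [Matrix.diagonal_mul_diagonal, ← Matrix.diagonal_one]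
    congr 1
    funext i
    exact inv_mul_cancel₀ (hΔ0 i)
  have c0 : CSt I (1 - upS T) := by
    have h1 := (cSt_diagonal I fun i => (Δ i)⁻¹).mul (cSt_of_stable hI hW0)
    rwa [← Matrix.mul_assoc, hdd, Matrix.one_mul] at h1
  have c1 : CSt I L := by
    have h1 := (cSt_of_stable hI hW1).mul (cSt_diagonal I Δ)
    rw [Matrix.mul_assoc, hdd, Matrix.mul_one] at h1
    have h2 := h1.inv (by
      rw [Matrix.isUnit_nonsing_inv_det_iff]
      exact hLdet)
    rwa [Matrix.nonsing_inv_nonsing_inv _ hLdet] at h2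
  have cT : CSt I T := by
    have h1 := (c1.smul (sP : ℂ)⁻¹).sub c0
    rw [hL, hsP', lL_dX_sub sP.ne_zero] at h1
    exact h1
  have h6 := adjoin_gen_eq_top x hadj
  refine eq_bot_or_top_of_adjoin _ h6 W ?_
  rintro (k | j)
  · exact k.1.elim0
  · refine Fin.addCases (fun j => ?_) (fun l => ?_) j
    · intro v hv
      have h1 := hWl j v hv
      rwa [show cseq x (j : ℕ) = _ from cseq_of x (Fin.castAdd r j)] at h1
    · have h1 : CSt I (((x (FreeGroup.of (Sum.inr (Fin.natAdd (m + 1) (Fin.rev (Fin.rev l))))))⁻¹ :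
          (Mat r ℂ)ˣ) : Mat r ℂ) := by
        rw [hS]
        exact (cT.refl _).smul _
      rw [Fin.rev_rev] at h1
      have h2 := h1.inv (Matrix.isUnits_det_units _)
      rw [← Matrix.coe_units_inv, inv_inv] at h2
      exact stable_of_cSt hI h2

end Vale.Agent.P002R
end

section

/-!
# P002, genus 0, rank one classes: density in the chart
-/

namespace Vale.Agent.P002R

open Matrix

variable {r : ℕ}

theorem prod_split_ends (m : ℕ) (c : ℕ → Mat r ℂ) :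
    (List.ofFn fun j : Fin (m + 3) => c j).prod =
      c 0 * (List.ofFn fun j : Fin (m + 1) => c (j + 1)).prod * c (m + 2) := by
  rw [List.ofFn_succ, List.prod_cons, List.ofFn_succ', List.prod_concat, ← Matrix.mul_assoc]
  rfl

theorem diag_inv_mul {Δ : Fin r → ℂ} (hΔ : ∀ i, Δ i ≠ 0) :
    (diagonal fun i => (Δ i)⁻¹) * diagonal Δ = (1 : Mat r ℂ) := by
  rw [Matrix.diagonal_mul_diagonal, ← Matrix.diagonal_one]
  congr 1
  funext i
  exact inv_mul_cancel₀ (hΔ i)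

/-- The virtual ends. -/
theorem virtual_ends {sP : ℂ} {κ Δ : Fin r → ℂ} {T : Mat r ℂ} (hsP : sP ≠ 0)
    (hκ : ∀ i, κ i = 1 + T i i) (hκ0 : ∀ i, κ i ≠ 0) (hΔ : ∀ i, Δ i ≠ 0) :
    ∃ b0 b1 : Mat r ℂ, b0 = diagonal Δ * (1 - upS T) ∧
      b1 = (lL (dX sP T))⁻¹ * (diagonal fun i => (Δ i)⁻¹) ∧ UpT b0 ∧ (∀ i, b0 i i = Δ i) ∧
      LoT b1 ∧ (∀ i, b1 i i = (sP * κ i * Δ i)⁻¹) ∧ b0 * (dU T * lL (dX sP T)) * b1 = 1 ∧
      rT sP⁻¹ (∏ i, (sP * κ i * Δ i)) (fun i => (Δ i)⁻¹) b0 b1 = T := by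
  obtain ⟨L, hL⟩ : ∃ L : Mat r ℂ, L = lL (dX sP T) := ⟨_, rfl⟩
  have hLl : LoT L := by rw [hL]; exact loT_lL _
  have hLd : ∀ i, L i i = sP * κ i := fun i => by rw [hL, lL_diag, dX_diag, hκ]
  have hL0 : ∀ i, L i i ≠ 0 := fun i => by
    rw [hLd]
    exact mul_ne_zero hsP (hκ0 i)
  have hLdet : IsUnit L.det := by
    rw [hLl.det, isUnit_iff_ne_zero, Finset.prod_ne_zero_iff]
    exact fun i _ => hL0 i
  obtain ⟨D, hD⟩ : ∃ D : Mat r ℂ, D = diagonal Δ := ⟨_, rfl⟩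
  obtain ⟨D', hD'⟩ : ∃ D' : Mat r ℂ, D' = diagonal fun i => (Δ i)⁻¹ := ⟨_, rfl⟩
  have hDD : D' * D = 1 := by rw [hD, hD']; exact diag_inv_mul hΔ
  have hDD' : D * D' = 1 := mul_eq_one_comm.1 hDD
  obtain ⟨b0, hb0⟩ : ∃ b0 : Mat r ℂ, b0 = D * (1 - upS T) := ⟨_, rfl⟩
  obtain ⟨b1, hb1⟩ : ∃ b1 : Mat r ℂ, b1 = L⁻¹ * D' := ⟨_, rfl⟩
  have hb1l : LoT b1 := by
    rw [hb1, hD']
    exact (hLl.inv hL0).mul (loT_diagonal _)
  have hb1d : ∀ i, b1 i i = (sP * κ i * Δ i)⁻¹ := fun i => by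
    rw [hb1, hD', (hLl.inv hL0).mul_diag (loT_diagonal _), Matrix.diagonal_apply_eq,
      LoT.inv_diag hLl hL0, hLd, ← mul_inv]
  refine ⟨b0, b1, by rw [hb0, hD], by rw [hb1, hD', hL], ?_, fun i => ?_, hb1l, hb1d, ?_, ?_⟩
  · rw [hb0, hD]
    exact (upT_diagonal _).mul (upT_one_sub_upS T)
  · rw [hb0, hD, (upT_diagonal _).mul_diag (upT_one_sub_upS T), Matrix.diagonal_apply_eq,
      one_sub_upS_diag, mul_one]
  · rw [← hL, hb0, hb1]
    calc D * (1 - upS T) * (dU T * L) * (L⁻¹ * D')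
        = D * ((1 - upS T) * dU T) * (L * L⁻¹) * D' := by simp only [Matrix.mul_assoc]
      _ = 1 := by
        rw [mul_dU, Matrix.mul_nonsing_inv _ hLdet, Matrix.mul_one, Matrix.mul_one, hDD']
  · have h1 : (∏ i, (sP * κ i * Δ i)) • b1.adjugate = D * L := by
      have h2 : b1 * (D * L) = 1 := by
        rw [hb1, Matrix.mul_assoc, ← Matrix.mul_assoc D', hDD, Matrix.one_mul,
          Matrix.nonsing_inv_mul _ hLdet]
      have h3 : b1.det * (∏ i, (sP * κ i * Δ i)) = 1 := by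
        rw [hb1l.det, ← Finset.prod_mul_distrib]
        refine Finset.prod_eq_one fun i _ => ?_
        rw [hb1d]
        exact inv_mul_cancel₀ (mul_ne_zero (mul_ne_zero hsP (hκ0 i)) (hΔ i))
      calc (∏ i, (sP * κ i * Δ i)) • b1.adjugate
          = ((∏ i, (sP * κ i * Δ i)) • b1.adjugate) * (b1 * (D * L)) := by rw [h2, Matrix.mul_one]
        _ = ((∏ i, (sP * κ i * Δ i)) * b1.det) • (D * L) := by
          rw [← Matrix.mul_assoc, Matrix.smul_mul, Matrix.adjugate_mul, smul_smul,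
            Matrix.smul_mul, Matrix.one_mul]
        _ = _ := by rw [mul_comm, h3, one_smul]
    rw [rT, h1, ← hD', ← Matrix.mul_assoc, hDD, Matrix.one_mul, hb0, ← Matrix.mul_assoc, hDD,
      Matrix.one_mul, hL, lL_dX_sub hsP]

theorem eq_rS {s : ℂ} (hs : s ≠ 0) (T : Mat r ℂ) (i : Fin r) (hκ : 1 + T i i ≠ 0) (U : (Mat r ℂ)ˣ)
    (hU : ((U⁻¹ : (Mat r ℂ)ˣ) : Mat r ℂ) = s • (1 + vecMulVec (Pi.single i 1) (T i))) :
    (U : Mat r ℂ) = rS s⁻¹ (1 + T i i)⁻¹ (T i) i := by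
  have h1 := rS_mul hs (T i) i hκ
  rw [← hU] at h1
  calc (U : Mat r ℂ) = (U : Mat r ℂ) * (((U⁻¹ : (Mat r ℂ)ˣ) : Mat r ℂ) *
        rS s⁻¹ (1 + T i i)⁻¹ (T i) i) := by rw [h1, Matrix.mul_one]
    _ = _ := by rw [← Matrix.mul_assoc, Units.mul_inv, Matrix.one_mul]

end Vale.Agent.P002R
end

section

/-!
# P002, genus 0, rank one classes: density in the chart
-/

namespace Vale.Agent.P002R

open Matrix

variable {r : ℕ}

theorem refl_chart {R : Type} [CommRing R] (φ : R →+* ℂ) {E : Subgroup ℂˣ} {m : ℕ} (hr : 0 < r)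
    (hc : CoefOK φ E r) (C : Fin (m + 1 + r) → (Mat r ℂ)ˣ) (hE : ∀ j, EigIn E (C j : Mat r ℂ))
    (hns : ∀ μ : ℂ, (C (Fin.castAdd r (Fin.last m)) : Mat r ℂ) ≠ μ • (1 : Mat r ℂ))
    (x : FU 0 (m + 1 + r) →* (Mat r ℂ)ˣ) (hx1 : x (relatorU 0 (m + 1 + r)) = 1)
    (hxC : ∀ j, IsConj (C j) (x (FreeGroup.of (Sum.inr j))))
    (hadj : Algebra.adjoin ℂ (Set.range fun w => (x w : Mat r ℂ)) = ⊤)
    (s κ : Fin r → ℂˣ) (hsE : ∀ i, s i ∈ E) (hκE : ∀ i, κ i ∈ E) (T : Mat r ℂ)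
    (hκ : ∀ i, (κ i : ℂ) = 1 + T i i)
    (hS : ∀ i, (((x (FreeGroup.of (Sum.inr (Fin.natAdd (m + 1) (Fin.rev i)))))⁻¹ : (Mat r ℂ)ˣ) :
      Mat r ℂ) = (s i : ℂ) • (1 + vecMulVec (Pi.single i 1) (T i)))
    (hT0 : ∀ i, T i ≠ 0)
    (hcell : ∀ k ≤ m + 1, ∃ X : Mat r ℂ, (∀ i, X i i ≠ 0) ∧
      (List.ofFn fun j : Fin k => cseq x j).prod = zZ X)
    (f : MvPolynomial (GenU 0 (m + 1 + r) × Fin r × Fin r) ℂ)
    (hf : ∀ y : FU 0 (m + 1 + r) →* (Mat r ℂ)ˣ, y (relatorU 0 (m + 1 + r)) = 1 →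
      (∀ j, IsConj (C j) (y (FreeGroup.of (Sum.inr j)))) →
      (∀ k, y (FreeGroup.of k) ∈ GR r φ) → evalG y f = 0) : evalG x f = 0 := by
  obtain ⟨u, hu⟩ := hc.unit
  obtain ⟨U, hU⟩ : ∃ U : ℂˣ, U = Units.map (φ : R →* ℂ) u := ⟨_, rfl⟩
  rw [← hU] at hu
  obtain ⟨Δ, hΔ⟩ : ∃ Δ : Fin r → ℂ, Δ = fun i : Fin r => ((U ^ 2 ^ (i : ℕ) : ℂˣ) : ℂ) := ⟨_, rfl⟩
  have hΔR : ∀ i : Fin r, φ ((u ^ 2 ^ (i : ℕ) : Rˣ) : R) = Δ i := fun i => by
    simp only [Units.val_pow_eq_pow_val, map_pow, hΔ, hU]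
    rfl
  have hΔ0 : ∀ i, Δ i ≠ 0 := fun i => by
    rw [hΔ]
    exact Units.ne_zero _
  have hno : ∀ (I J : Finset (Fin r)),
      (∃ ε ∈ E, ∏ i ∈ I, Δ i = (ε : ℂ) * ∏ j ∈ J, Δ j) → I = J := by
    rw [hΔ]
    exact two_pow_free U hu
  choose sR hsR using fun i => hc.exists_unit hr (hsE i)
  choose κR hκR using fun i => hc.exists_unit hr (hκE i)
  have hs0 : ∀ i, (s i : ℂ) ≠ 0 := fun i => (s i).ne_zero
  have hκ0 : ∀ i, (κ i : ℂ) ≠ 0 := fun i => (κ i).ne_zero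
  have hsP : ∏ l, (s l : ℂ) ≠ 0 := Finset.prod_ne_zero_iff.2 fun i _ => hs0 i
  obtain ⟨b0, b1, hb0, hb1, hb0u, hb0d, hb1l, hb1d, hbP, hbT⟩ := virtual_ends hsP hκ hκ0 hΔ0
  -- the tuple with virtual ends
  obtain ⟨v, hv⟩ : ∃ v : ℕ → Mat r ℂ, v = fun j => if j = 0 then b0 else if j = m + 2 then b1
    else cseq x (j - 1) := ⟨_, rfl⟩
  have hv0 : v 0 = b0 := by rw [hv]; rfl
  have hvl : v (m + 2) = b1 := by
    rw [hv]
    simp
  have hvm : ∀ j < m + 1, v (j + 1) = cseq x j := by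
    intro j hj
    rw [hv]
    simp only [Nat.succ_ne_zero, if_false]
    rw [if_neg (by omega), Nat.add_sub_cancel]
  have hvm' : (List.ofFn fun j : Fin (m + 1) => v (j + 1)) =
      List.ofFn fun j : Fin (m + 1) => cseq x j := by
    congr 1
    funext j
    exact hvm j j.2
  have hvprod : (List.ofFn fun j : Fin (m + 3) => v j).prod = 1 := by
    rw [prod_split_ends, hv0, hvl, hvm', refl_pm x hx1 (fun i => (s i : ℂ)) T hS, hbP]
  obtain ⟨x', hx'1, hx'2⟩ := exists_hom (m + 3) (fun j : Fin (m + 3) => v j) hvprod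
  have hcx' : ∀ j, j < m + 3 → cseq x' j = v j := fun j hj =>
    (cseq_of x' ⟨j, hj⟩).trans (hx'2 ⟨j, hj⟩)
  have hc0 : cseq x' 0 = b0 := (hcx' 0 (by omega)).trans hv0
  have hcl : cseq x' (m + 2) = b1 := (hcx' (m + 2) (by omega)).trans hvl
  have hcm : ∀ j < m + 1, cseq x' (j + 1) = cseq x j := fun j hj =>
    (hcx' (j + 1) (by omega)).trans (hvm j hj)
  have hEx : ∀ j : Fin (m + 1), EigIn E (cseq x j) := by
    intro j
    rw [show cseq x (j : ℕ) = _ from cseq_of x (Fin.castAdd r j)]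
    exact (hE _).conj (hxC _)
  have hCx : ∀ j : Fin (m + 1), CjM (C (Fin.castAdd r j) : Mat r ℂ) (cseq x j) := by
    intro j
    rw [show cseq x (j : ℕ) = _ from cseq_of x (Fin.castAdd r j)]
    exact cjM_of_isConj (hxC _)
  have hinj : Function.Injective Δ := by
    intro i j hij
    have h1 := hno {i} {j} ⟨1, E.one_mem, by
      rw [Finset.prod_singleton, Finset.prod_singleton, hij, Units.val_one, one_mul]⟩
    exact Finset.singleton_inj.1 h1
  have hinj1 : Function.Injective fun i => b1 i i := by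
    intro i j hij
    simp only [hb1d] at hij
    have h1 := inv_injective hij
    have h2 := hno {i} {j} ⟨(κ i)⁻¹ * κ j, E.mul_mem (E.inv_mem (hκE i)) (hκE j), by
      rw [Finset.prod_singleton, Finset.prod_singleton, Units.val_mul, Units.val_inv_eq_inv_val,
        mul_assoc]
      rw [mul_assoc, mul_assoc] at h1
      rw [← mul_left_cancel₀ hsP h1, ← mul_assoc, inv_mul_cancel₀ (hκ0 i), one_mul]⟩
    exact Finset.singleton_inj.1 h2
  -- the polynomial
  have hβ : ∀ i, ∃ b, T i b ≠ 0 := fun i => by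
    obtain ⟨b, hb⟩ := Function.ne_iff.1 (hT0 i)
    exact ⟨b, hb⟩
  choose β hβ using hβ
  obtain ⟨F, hF⟩ := exists_rtup_poly (m := m) (∏ l, (s l : ℂ))⁻¹
    (∏ i, ((∏ l, (s l : ℂ)) * (κ i : ℂ) * Δ i)) (fun i => (Δ i)⁻¹) (fun i => (s i : ℂ)⁻¹)
    (fun i => (κ i : ℂ)⁻¹) β f
  have hmain : evalG x' F = 0 := by
    refine chart_density3 (fun Y hY0 k₁ h1 h2 N hN => a4core Y hY0 k₁ h1 h2 N hN) φ hc.inj
      (fun j => x' (FreeGroup.of (Sum.inr j))) (fun j => ?_) (fun j hj1 hj2 => ?_) ?_ ?_ ?_ ?_ x'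
      hx'1 (fun j => IsConj.refl _) ?_ ?_ ?_ ?_ F fun y cR hy1 hy2 hy3 hy4 hy5 hy6 hy7 hy8 => ?_
    · rw [← cseq_of]
      rcases Nat.eq_zero_or_pos (j : ℕ) with h | h
      · rw [h, hc0]
        exact eigU_of_diag (charpoly_upT hb0u) fun i => ⟨u ^ 2 ^ (i : ℕ), by rw [hΔR, hb0d]⟩
      · by_cases h' : (j : ℕ) = m + 2
        · rw [h', hcl]
          refine eigU_of_diag (charpoly_loT hb1l) fun i =>
            ⟨((∏ l, sR l) * κR i * u ^ 2 ^ (i : ℕ))⁻¹, ?_⟩
          rw [map_units_inv, hb1d, Units.val_mul, Units.val_mul, map_mul, map_mul, hΔR,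
            Units.coe_prod, map_prod, hκR]
          simp only [hsR]
        · have h2 := j.2
          rw [show (j : ℕ) = ((j : ℕ) - 1) + 1 by omega, hcm _ (by omega)]
          intro z hz
          obtain ⟨e, he, rfl⟩ := hEx ⟨(j : ℕ) - 1, by omega⟩ z hz
          exact hc.exists_unit hr he
    · refine totD_of_eigIn hc hr _ ?_
      rw [← cseq_of, show (j : ℕ) = ((j : ℕ) - 1) + 1 by (clear * - hj1; omega), hcm _ (by omega)]
      exact hEx ⟨(j : ℕ) - 1, by omega⟩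
    · rw [← cseq_of]
      exact (congrArg (fun M : Mat r ℂ => ∃ v, P002G.Cyc M v) hc0).mpr
        (cyc_of_upT hb0u (by simpa only [hb0d] using hinj))
    · rw [← cseq_of]
      exact (congrArg (fun M : Mat r ℂ => ∃ v, P002G.Cyc M v) hcl).mpr
        (cyc_of_loT hb1l hinj1)
    · intro μ hμ
      rw [← cseq_of] at hμ
      have h2 : cseq x' (m + 1) = cseq x m := hcm m (Nat.lt_succ_self m)
      exact (hCx (Fin.last m)).nonscalar hns μ (h2.symm.trans hμ)
    · refine dualNear_of_eigIn φ E hc hr _ ?_ fun μ hμ => ?_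
      · rw [← cseq_of]
        have h2 : cseq x' (m + 1) = cseq x m := hcm m (Nat.lt_succ_self m)
        exact (congrArg (EigIn E) h2).mpr (hEx (Fin.last m))
      · rw [← cseq_of] at hμ
        have h2 : cseq x' (m + 1) = cseq x m := hcm m (Nat.lt_succ_self m)
        exact (hCx (Fin.last m)).nonscalar hns μ (h2.symm.trans hμ)
    · rw [hc0]
      exact hb0u
    · rw [hcl]
      exact hb1l
    · intro k hk
      obtain ⟨X, hX1, hX2⟩ := hcell k hk
      refine ⟨X, ?_, hX1⟩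
      rw [← hX2]
      congr 2
      funext j
      exact hcm j (lt_of_lt_of_le j.2 hk)
    · intro W hW
      refine refl_irr x hx1 hadj hEx s κ hsE hκE T hκ hS Δ hΔ0 hno W ?_ (fun j => ?_) ?_
      · intro v hv
        have h2 := hW 0 v hv
        rw [← cseq_of] at h2
        rw [← hb0, ← hc0]
        exact h2
      · intro v hv
        have h2 := hW ⟨j + 1, by omega⟩ v hv
        rw [← cseq_of] at h2
        rw [← hcm j j.2]
        exact h2
      · intro v hv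
        have h2 := hW (Fin.last (m + 2)) v hv
        rw [← cseq_of] at h2
        rw [← hb1, ← hcl]
        exact h2
    · rw [hF]
      by_cases hz : ∏ i, rT (∏ l, (s l : ℂ))⁻¹ (∏ i, ((∏ l, (s l : ℂ)) * (κ i : ℂ) * Δ i))
          (fun i => (Δ i)⁻¹) (cseq y 0) (cseq y (m + 2)) i (β i) = 0
      · rw [hz, mul_zero]
      · have hz' := Finset.prod_ne_zero_iff.1 hz
        obtain ⟨z, hz1, hz2, hz3, hz4⟩ := refl_back hr hc C hE sR κR (fun i => u ^ 2 ^ (i : ℕ)) T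
          (fun i => by rw [hκR, hκ]) hT0 (fun i => by
            rw [hsR, hκR, hκ]
            rw [← eq_rS (hs0 i) T i (by rw [← hκ]; exact hκ0 i) _ (hS i)]
            exact cjM_of_isConj (hxC _)) y cR hy1 (fun j => by
            have h2 : CjM (cseq x' (j + 1)) (cseq y (j + 1)) := by
              have h3 := cjM_of_isConj (hy2 ⟨j + 1, by omega⟩)
              rw [← cseq_of, ← cseq_of] at h3
              exact h3
            rw [hcm j j.2] at h2
            exact (hCx j).trans h2) hy3 hy5 hy6 (fun i => by rw [hy7, hc0, hb0d, hΔR])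
          (fun i => by
            rw [hy8, hcl, hb1d, hκR, hΔR]
            simp only [hsR]) fun i => by
            simp only [hsR, hκR, hΔR]
            intro h2
            exact hz' i (Finset.mem_univ i) (by rw [h2, Pi.zero_apply])
        have h2 := hf z hz1 hz2 hz3
        rw [evalG_eq_evalT z _ hz4] at h2
        simp only [hsR, hκR, hΔR] at h2
        rw [h2, zero_mul]
  rw [hF, hc0, hcl, hbT] at hmain
  have h1 := (mul_eq_zero.1 hmain).resolve_right (Finset.prod_ne_zero_iff.2 fun i _ => hβ i)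
  rw [evalG_eq_evalT x _ fun j => ?_]
  · exact h1
  refine Fin.addCases (fun j => ?_) (fun l => ?_) j
  · have h2 : rtup m (∏ l, (s l : ℂ))⁻¹ (∏ i, ((∏ l, (s l : ℂ)) * (κ i : ℂ) * Δ i))
        (fun i => (Δ i)⁻¹) (fun i => (s i : ℂ)⁻¹) (fun i => (κ i : ℂ)⁻¹) (cseq x')
        (Fin.castAdd r j : ℕ) = cseq x' (j + 1) := rtup_lt _ _ _ _ _ _ j.2
    rw [h2, hcm j j.2]
    exact (cseq_of x (Fin.castAdd r j)).symm
  · have h2 := rtup_ge m (∏ l, (s l : ℂ))⁻¹ (∏ i, ((∏ l, (s l : ℂ)) * (κ i : ℂ) * Δ i))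
      (fun i => (Δ i)⁻¹) (fun i => (s i : ℂ)⁻¹) (fun i => (κ i : ℂ)⁻¹) (cseq x') (Fin.rev l)
    have h3 := eq_rS (hs0 (Fin.rev l)) T (Fin.rev l) (by rw [← hκ]; exact hκ0 _) _ (hS (Fin.rev l))
    rw [hc0, hcl, hbT] at h2
    rw [← hκ] at h3
    rw [Fin.rev_rev] at h2 h3
    rw [h3]
    exact h2.symm

end Vale.Agent.P002R
end

section

/-!
# P002, genus 0: generic position of tuples with at least as many reflections as the rank
-/

namespace Vale.Agent.P002R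

open Matrix Module Vale.Agent.P002

section key

variable {n N m : ℕ} {c : Fin N → P002R.Mat n ℂ} {ξ w : Fin N → Fin n → ℂ}

/-- Downward step, for prefixes which contain all the reflections. -/
theorem RP.beta_eq_zero' (h : RP m c ξ w) (j : ℕ) (hmj : m ≤ j) (hjN : j ≤ N) (k : Fin N)
    (hk : k.val < m) (α β : Fin N → ℂ) (y : Fin n → ℂ)
    (hv : ∑ i, α i • ξ i + pre c j *ᵥ ∑ i, β i • ξ i = 0)
    (hα : ∀ i, α i ≠ 0 → i.val < k.val ∧ y ⬝ᵥ ξ i = 0)
    (hβ : ∀ i, β i ≠ 0 → (k.val ≤ i.val ∧ i.val < m) ∧ y ⬝ᵥ (pre c j *ᵥ ξ i) = 0)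
    (hyk : y ⬝ᵥ ξ k ≠ 0) : β = 0 := by
  obtain ⟨Λ, hΛP, -, hΛ⟩ := h.key j hjN α β y hv
    (fun i hi => ⟨((hα i hi).1.trans hk).trans_le hmj, (hα i hi).2⟩)
    (fun i hi => ⟨(hβ i hi).1.2.trans_le hmj, (hβ i hi).2⟩)
  have hαk : ∀ i : Fin N, k.val ≤ i.val → α i = 0 := by
    intro i hi
    by_contra h'
    exact absurd (hα i h').1 (by (clear * - hi; omega))
  -- the equations for `i < m` when `β` vanishes before `i`
  have hE : ∀ i : Fin N, k.val ≤ i.val → i.val < m → (∀ l : Fin N, l.val < i.val → β l = 0) →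
      ∃ γ : ℂ, Λ *ᵥ ξ i = γ • ξ i ∧
        w i ᵥ* Λ = γ • w i + (1 + w i ⬝ᵥ ξ i) • β i • (y ᵥ* pre c j) := by
    intro i hki him hl
    have h1 := hΛ i (him.trans_le hmj)
    have h2 := dG_succ Λ (pre c j *ᵥ ∑ i, β i • ξ i) y (y ᵥ* pre c j) ξ α β i
    rw [hαk i hki, zero_smul, zero_add] at h2
    have h3 : dG Λ (pre c j *ᵥ ∑ i, β i • ξ i) y (y ᵥ* pre c j) ξ α β i = Λ :=
      dG_eq Λ y _ hv i (fun l hl' => lt_of_lt_of_le (hα l hl').1 hki) hl
    rw [h3] at h1 h2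
    exact refl_eq (h.refl i him) (h.xi_ne i him) (h.w_ne i him) h1 h2
  obtain ⟨z, hz⟩ : ∃ z, pre c j *ᵥ z = ξ k := by
    refine ⟨suf c j *ᵥ ξ k, ?_⟩
    rw [Matrix.mulVec_mulVec, pre_mul_suf h.rel, Matrix.one_mulVec]
  have hηz : (y ᵥ* pre c j) ⬝ᵥ z ≠ 0 := by
    rwa [← Matrix.dotProduct_mulVec, hz]
  have hβlt : ∀ i : Fin N, i.val < k.val → β i = 0 := by
    intro i hi
    by_contra h'
    exact absurd (hβ i h').1.1 (by omega)
  obtain ⟨γ, hγ1, hγ2⟩ := hE k le_rfl hk hβlt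
  have hΛz : Λ *ᵥ z = γ • z := by
    have h1 : pre c j *ᵥ (Λ *ᵥ z) = pre c j *ᵥ (γ • z) := by
      rw [Matrix.mulVec_mulVec, ← hΛP, ← Matrix.mulVec_mulVec, hz, hγ1, Matrix.mulVec_smul, hz]
    have h2 : ∀ v : Fin n → ℂ, suf c j *ᵥ (pre c j *ᵥ v) = v := fun v => by
      rw [Matrix.mulVec_mulVec, suf_mul_pre h.rel, Matrix.one_mulVec]
    rw [← h2 (Λ *ᵥ z), h1, h2]
  -- conclusion for one index
  have hC : ∀ i : Fin N, i.val < m → w i ᵥ* Λ = γ • w i +
      (1 + w i ⬝ᵥ ξ i) • β i • (y ᵥ* pre c j) → β i = 0 := by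
    intro i him hi
    have h1 : (w i ᵥ* Λ) ⬝ᵥ z = γ * (w i ⬝ᵥ z) := by
      rw [← Matrix.dotProduct_mulVec, hΛz, dotProduct_smul, smul_eq_mul]
    rw [hi, add_dotProduct, smul_dotProduct, smul_dotProduct, smul_dotProduct, smul_eq_mul,
      smul_eq_mul, smul_eq_mul] at h1
    have h2 : (1 + w i ⬝ᵥ ξ i) * (β i * ((y ᵥ* pre c j) ⬝ᵥ z)) = 0 := by
      linear_combination h1
    rcases mul_eq_zero.1 h2 with h3 | h3
    · exact absurd h3 (h.unit i him)
    · rcases mul_eq_zero.1 h3 with h4 | h4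
      · exact h4
      · exact absurd h4 hηz
  have hβk : β k = 0 := hC k hk hγ2
  have hwk : w k ᵥ* Λ = γ • w k := by
    rw [hγ2, hβk, zero_smul, smul_zero, add_zero]
  have hmain : ∀ s : ℕ, ∀ i : Fin N, i.val = s → β i = 0 := by
    intro s
    induction s using Nat.strong_induction_on with
    | _ s ih =>
      rintro i rfl
      by_contra hne
      obtain ⟨⟨hki, him⟩, -⟩ := hβ i hne
      have hik : k ≠ i := by
        rintro rfl
        exact hne hβk
      obtain ⟨γ', h1, h2⟩ := hE i hki him fun l hl => ih l hl l rfl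
      have h3 : γ' = γ := by
        have h4 : (w k ᵥ* Λ) ⬝ᵥ ξ i = w k ⬝ᵥ (Λ *ᵥ ξ i) := (Matrix.dotProduct_mulVec _ _ _).symm
        rw [hwk, h1, smul_dotProduct, dotProduct_smul, smul_eq_mul, smul_eq_mul] at h4
        exact (mul_right_cancel₀ (h.pair k i hk him hik) h4).symm
      rw [h3] at h2
      exact hne (hC i him h2)
  funext i
  exact hmain i i rfl

/-- The vectors of the reflections have no relation which is killed by a covector that kills all
of them. -/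
theorem RP.indep' (h : RP m c ξ w) (α : Fin N → ℂ)
    (y : Fin n → ℂ) (hy : y ≠ 0) (hv : ∑ i, α i • ξ i = 0)
    (hα : ∀ i, α i ≠ 0 → i.val < m) (hys : ∀ i : Fin N, i.val < m → y ⬝ᵥ ξ i = 0) : α = 0 := by
  have hv' : ∑ i, α i • ξ i + pre c N *ᵥ ∑ i, (0 : Fin N → ℂ) i • ξ i = 0 := by
    simp only [hv, Pi.zero_apply, zero_smul, Finset.sum_const_zero, mulVec_zero, add_zero]
  obtain ⟨Λ, -, -, hΛ⟩ := h.key N le_rfl α 0 y hv' (fun i hi => ⟨i.isLt, hys i (hα i hi)⟩)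
    (fun i hi => absurd rfl hi)
  obtain ⟨a, ha⟩ : ∃ a, a = pre c N *ᵥ ∑ i, (0 : Fin N → ℂ) i • ξ i := ⟨_, rfl⟩
  have ha0 : a = 0 := by rw [ha]; simp only [Pi.zero_apply, zero_smul, Finset.sum_const_zero, mulVec_zero]
  rw [← ha] at hv' hΛ
  have hG : ∀ i : ℕ, m ≤ i → dG Λ a y (y ᵥ* pre c N) ξ α 0 i = Λ := fun i hi =>
    dG_eq Λ y _ hv' i (fun l hl' => lt_of_lt_of_le (hα l hl') hi) (fun _ _ => rfl)
  have hcomm : ∀ i : Fin N, m ≤ i.val → c i * Λ = Λ * c i := by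
    intro i hi
    have h1 := hΛ i i.isLt
    rwa [hG _ hi, hG _ (by omega)] at h1
  have hE : ∀ i : Fin N, i.val < m → ∃ γ : ℂ,
      dG Λ a y (y ᵥ* pre c N) ξ α 0 i *ᵥ ξ i = γ • ξ i ∧
      w i ᵥ* dG Λ a y (y ᵥ* pre c N) ξ α 0 i = γ • w i + (1 + w i ⬝ᵥ ξ i) • α i • y := by
    intro i him
    have h1 := hΛ i i.isLt
    have h2 := dG_succ Λ a y (y ᵥ* pre c N) ξ α 0 i
    rw [Pi.zero_apply, zero_smul, add_zero] at h2
    exact refl_eq (h.refl i him) (h.xi_ne i him) (h.w_ne i him) h1 h2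
  -- the first coefficient
  by_contra hne
  obtain ⟨i₁, hi₁⟩ := Function.ne_iff.1 hne
  rw [Pi.zero_apply] at hi₁
  have hex : ∃ p : ℕ, ∃ i : Fin N, i.val = p ∧ α i ≠ 0 := ⟨i₁, i₁, rfl, hi₁⟩
  classical
  obtain ⟨t, ht, hαt⟩ := Nat.find_spec hex
  have hmin : ∀ l : Fin N, l.val < t.val → α l = 0 := by
    intro l hl
    by_contra h'
    exact Nat.find_min hex (ht ▸ hl) ⟨l, rfl, h'⟩
  have htm : t.val < m := hα t hαt
  have hGt : dG Λ a y (y ᵥ* pre c N) ξ α 0 t = Λ := by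
    rw [dG, ha0, Finset.sum_eq_zero]
    · ext; simp only [zero_vecMulVec, sub_zero, Matrix.sub_apply, Matrix.zero_apply]
    · intro l hl
      rw [Finset.mem_filter] at hl
      rw [hmin l hl.2, Pi.zero_apply, zero_smul, zero_smul, add_zero]
      ext; simp [vecMulVec_apply]
  have hvec : ∀ (i : Fin N) (v : Fin n → ℂ), y ⬝ᵥ v = 0 →
      dG Λ a y (y ᵥ* pre c N) ξ α 0 i *ᵥ v = Λ *ᵥ v := fun i v hv0 =>
    dG_mulVec Λ _ _ hv0
  obtain ⟨γ, hγ1, hγ2⟩ := hE t htm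
  rw [hGt] at hγ1 hγ2
  -- all the vectors are eigenvectors for the same eigenvalue
  have heig : ∀ i : Fin N, i.val < m → Λ *ᵥ ξ i = γ • ξ i := by
    intro i him
    by_cases hit : i = t
    · rw [hit]; exact hγ1
    obtain ⟨γ', h1, -⟩ := hE i him
    rw [hvec i _ (hys i him)] at h1
    have h3 : (w t ᵥ* Λ) ⬝ᵥ ξ i = w t ⬝ᵥ (Λ *ᵥ ξ i) := (Matrix.dotProduct_mulVec _ _ _).symm
    rw [hγ2, h1, add_dotProduct, smul_dotProduct, smul_dotProduct, smul_dotProduct,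
      hys i him, smul_zero, smul_zero, add_zero, dotProduct_smul, smul_eq_mul, smul_eq_mul] at h3
    rw [h1, mul_right_cancel₀ (h.pair t i htm him (Ne.symm hit)) h3]
  -- `Λ` is scalar
  have hscal : ∀ v, Λ *ᵥ v = γ • v := by
    obtain ⟨W, hW⟩ : ∃ W : Submodule ℂ (Fin n → ℂ), ∀ v, v ∈ W ↔ Λ *ᵥ v = γ • v := by
      refine ⟨LinearMap.ker (Matrix.mulVecLin Λ - γ • LinearMap.id), fun v => ?_⟩
      rw [LinearMap.mem_ker, LinearMap.sub_apply, LinearMap.smul_apply, LinearMap.id_apply,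
        Matrix.mulVecLin_apply, sub_eq_zero]
    have h1 := h.irr W fun i v hv => by
      rw [hW] at hv ⊢
      by_cases him : i.val < m
      · rw [h.refl i him, Matrix.add_mulVec, Matrix.one_mulVec, Matrix.vecMulVec_mulVec,
          Matrix.mulVec_add, hv, smul_add]
        congr 1
        rw [op_smul_eq_smul, Matrix.mulVec_smul, heig i him, smul_comm]
      · rw [Matrix.mulVec_mulVec, ← hcomm i (by omega), ← Matrix.mulVec_mulVec, hv,
          Matrix.mulVec_smul]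
    rcases h1 with h1 | h1
    · exfalso
      have h2 : ξ t ∈ W := (hW _).2 hγ1
      rw [h1, Submodule.mem_bot] at h2
      exact h.xi_ne t htm h2
    · intro v
      exact (hW v).1 (h1 ▸ Submodule.mem_top)
  have hscal' : ∀ v : Fin n → ℂ, v ᵥ* Λ = γ • v := by
    intro v
    have h1 : Λ = γ • (1 : P002R.Mat n ℂ) := by
      ext p q
      have := congrFun (hscal (Pi.single q 1)) p
      rw [Matrix.mulVec_single_one] at this
      rw [Matrix.smul_apply, Matrix.one_apply, smul_eq_mul]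
      have h2 : Λ p q = γ * (Pi.single q 1 : Fin n → ℂ) p := this
      rw [h2]
      by_cases hpq : p = q
      · subst hpq; simp
      · rw [Pi.single_eq_of_ne hpq, if_neg hpq]
    rw [h1, Matrix.vecMul_smul, Matrix.vecMul_one]
  rw [hscal'] at hγ2
  have h5 : (1 + w t ⬝ᵥ ξ t) • α t • y = 0 := by
    have := hγ2
    rwa [left_eq_add] at this
  rw [smul_smul] at h5
  rcases smul_eq_zero.1 h5 with h6 | h6
  · rcases mul_eq_zero.1 h6 with h7 | h7
    · exact h.unit t htm h7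
    · exact hαt h7
  · exact hy h6

end key

section good

variable {n N : ℕ} {c : Fin N → P002R.Mat n ℂ} {ξ w : Fin N → Fin n → ℂ}

theorem RP.det_bM' (h : RP n c ξ w) (hN : n ≤ N) : (bM hN ξ).det ≠ 0 := by
  intro hdet
  obtain ⟨u, hu, hBu⟩ := Matrix.exists_mulVec_eq_zero_iff.2 hdet
  obtain ⟨y, hy, hyB⟩ := Matrix.exists_vecMul_eq_zero_iff.2 hdet
  have h1 := h.indep' (extv N u) y hy (by rw [← bM_mulVec hN, hBu])
    (fun i hi => extv_ne hi) (fun i hi => by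
      have := congrFun hyB ⟨i, hi⟩
      rw [vecMul_bM] at this
      exact this)
  apply hu
  funext i
  rw [← extv_castLE hN u i, h1]
  rfl

/-- a vector in the span of the vectors with indices at least `k` -/
theorem RP.corner' (h : RP n c ξ w) (hN : n ≤ N) (j : ℕ) (hnj : n ≤ j) (hjN : j ≤ N)
    (k : Fin n) (g t : Fin n → ℂ) (y : Fin n → ℂ)
    (hg : ∀ i, g i ≠ 0 → i < k) (ht : ∀ i, t i ≠ 0 → k ≤ i)
    (hrel : bM hN ξ *ᵥ g + pre c j *ᵥ (bM hN ξ *ᵥ t) = 0)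
    (hy1 : ∀ i, i < k → (y ᵥ* bM hN ξ) i = 0)
    (hy2 : ∀ i, k ≤ i → (y ᵥ* (pre c j * bM hN ξ)) i = 0)
    (hyk : (y ᵥ* bM hN ξ) k ≠ 0) : t = 0 := by
  have hkN : k.val < N := lt_of_lt_of_le k.isLt hN
  have hξB : ∀ i : Fin N, ∀ hi : i.val < n, ξ i = bM hN ξ *ᵥ Pi.single ⟨i, hi⟩ 1 := by
    intro i hi
    rw [Matrix.mulVec_single_one]
    rfl
  have hβz := h.beta_eq_zero' j hnj hjN ⟨k, hkN⟩ k.isLt (extv N g) (extv N t) y
    (by rw [← bM_mulVec hN, ← bM_mulVec hN]; exact hrel)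
    (fun i hi => by
      have h1 := extv_ne hi
      rw [extv, dif_pos h1] at hi
      have h2 := hg _ hi
      refine ⟨h2, ?_⟩
      have h3 := hy1 ⟨i, h1⟩ h2
      rwa [vecMul_bM] at h3)
    (fun i hi => by
      have h1 := extv_ne hi
      rw [extv, dif_pos h1] at hi
      have h2 := ht _ hi
      refine ⟨⟨h2, h1⟩, ?_⟩
      have h3 := hy2 ⟨i, h1⟩ h2
      rw [← h3, hξB i h1, Matrix.mulVec_mulVec, Matrix.dotProduct_mulVec,
        dotProduct_single_one])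
    (by rw [vecMul_bM] at hyk; exact hyk)
  funext i
  rw [← extv_castLE hN t i, hβz]
  rfl

theorem RP.exists_cell' (h : RP n c ξ w) (hN : n ≤ N) (j : ℕ) (hnj : n ≤ j) (hjN : j ≤ N) :
    ∃ X : P002R.Mat n ℂ, (bM hN ξ)⁻¹ * pre c j * bM hN ξ = zZ X ∧ ∀ i, X i i ≠ 0 := by
  obtain ⟨B, hB⟩ : ∃ B, B = bM hN ξ := ⟨_, rfl⟩
  have hdet : IsUnit B.det := by rw [hB]; exact (h.det_bM' hN).isUnit
  have hB1 : B * B⁻¹ = 1 := Matrix.mul_nonsing_inv _ hdet
  have hB2 : B⁻¹ * B = 1 := Matrix.nonsing_inv_mul _ hdet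
  obtain ⟨M, hM⟩ : ∃ M, M = B⁻¹ * pre c j * B := ⟨_, rfl⟩
  have hBM : B * M = pre c j * B := by
    rw [hM, ← Matrix.mul_assoc, ← Matrix.mul_assoc, hB1, Matrix.one_mul]
  rw [← hB, ← hM]
  refine exists_UL M fun k hk => ?_
  induction hk using Nat.decreasingInduction with
  | self =>
    have : IsEmpty {i : Fin n // n ≤ (i : ℕ)} := ⟨fun i => absurd i.1.isLt (not_lt.2 i.2)⟩
    rw [Matrix.det_isEmpty]
    exact one_ne_zero
  | of_succ k hk ih =>
    intro hd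
    obtain ⟨v, hv0, hv1, hv2⟩ := (corner_iff M k).1 hd
    obtain ⟨z, hz0, hz1, hz2⟩ := (corner_iff' M k).1 hd
    have hzk : z ⟨k, hk⟩ ≠ 0 := by
      intro h0
      refine ih ((corner_iff' M (k + 1)).2 ⟨z, hz0, fun i hi => ?_, fun i hi => hz2 i (by (clear * - hi; omega))⟩)
      rcases Nat.lt_succ_iff_lt_or_eq.1 hi with h | h
      · exact hz1 i h
      · rw [show i = ⟨k, hk⟩ from Fin.ext h]; exact h0
    have hyB : (z ᵥ* B⁻¹) ᵥ* B = z := by
      rw [Matrix.vecMul_vecMul, hB2, Matrix.vecMul_one]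
    have hyP : (z ᵥ* B⁻¹) ᵥ* (pre c j * B) = z ᵥ* M := by
      rw [Matrix.vecMul_vecMul, hM, ← Matrix.mul_assoc]
    refine hv0 (h.corner' hN j hnj hjN ⟨k, hk⟩ (-(M *ᵥ v)) v (z ᵥ* B⁻¹) (fun i hi => ?_)
      (fun i hi => ?_) ?_ (fun i hi => ?_) (fun i hi => ?_) ?_)
    · by_contra h'
      rw [Fin.lt_def, not_lt] at h'
      apply hi
      rw [Pi.neg_apply, hv2 i h', neg_zero]
    · by_contra h'
      rw [Fin.le_def, not_le] at h'
      exact hi (hv1 i h')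
    · rw [← hB, Matrix.mulVec_neg, Matrix.mulVec_mulVec, hBM, Matrix.mulVec_mulVec,
        neg_add_cancel]
    · rw [← hB, hyB]
      exact hz1 i hi
    · rw [← hB, hyP]
      exact hz2 i hi
    · rw [← hB, hyB]
      exact hzk

/-- Generic position near an irreducible tuple whose first members are reflections. -/
theorem exists_refl_generic (hn : 0 < n) (hN : n ≤ N) (J : Fin N → P002R.Mat n ℂ)
    (hJu : ∀ j, IsUnit (J j)) (hJrel : ((List.finRange N).map J).prod = 1)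
    (hadj : Algebra.adjoin ℂ (Set.range J) = ⊤) (ξ0 w0 : Fin N → Fin n → ℂ)
    (hJ1 : ∀ i : Fin N, i.val < n → J i = 1 + vecMulVec (ξ0 i) (w0 i))
    (hξ : ∀ i : Fin N, i.val < n → ξ0 i ≠ 0) (hw : ∀ i : Fin N, i.val < n → w0 i ≠ 0)
    (hu : ∀ i : Fin N, i.val < n → 1 + w0 i ⬝ᵥ ξ0 i ≠ 0)
    (V : Set (Fin N → P002R.Mat n ℂ)) (hV : V ∈ nhds (fun _ => 1)) :
    ∃ Y ∈ V, (∀ j, IsUnit (Y j)) ∧ ((List.finRange N).map (cj J Y)).prod = 1 ∧
      Algebra.adjoin ℂ (Set.range (cj J Y)) = ⊤ ∧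
      ∃ B : P002R.Mat n ℂ, IsUnit B.det ∧
        (∀ i : Fin n, ∃ t : Fin n → ℂ,
          B⁻¹ * cj J Y (Fin.castLE hN i) * B = 1 + vecMulVec (Pi.single i 1) t) ∧
        ∀ j, n ≤ j → j ≤ N →
          ∃ X : P002R.Mat n ℂ, B⁻¹ * pre (cj J Y) j * B = zZ X ∧ ∀ i, X i i ≠ 0 := by
  have hcj1 : cj J (fun _ => 1) = J := by
    funext j
    rw [cj_apply, inv_one, Matrix.one_mul, Matrix.mul_one]
  -- the field
  obtain ⟨K₀, hK₀, hsub⟩ := exists_countable_subfield'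
    ((Set.range fun p : Fin N × Fin n × Fin n => J p.1 p.2.1 p.2.2) ∪
      ((Set.range fun p : Fin N × Fin n => ξ0 p.1 p.2) ∪
        Set.range fun p : Fin N × Fin n => w0 p.1 p.2))
    ((Set.countable_range _).union ((Set.countable_range _).union (Set.countable_range _)))
  have hJK : ∀ j a b, J j a b ∈ K₀ := fun j a b => hsub (Or.inl ⟨(j, a, b), rfl⟩)
  have hξK : ∀ j a, ξ0 j a ∈ K₀ := fun j a => hsub (Or.inr (Or.inl ⟨(j, a), rfl⟩))
  have hwK : ∀ j a, w0 j a ∈ K₀ := fun j a => hsub (Or.inr (Or.inr ⟨(j, a), rfl⟩))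
  obtain ⟨Y, hYV, hYu, hYrel, hYadj, hgen⟩ := generic_point hn (List.finRange N)
    (List.nodup_finRange _) (fun j => List.mem_finRange j) K₀ hK₀ J hJK (fun _ => 1)
    (fun _ => isUnit_one) (by rw [hcj1]; exact hJrel) (by rw [hcj1]; exact hadj) _ hV
  have hYd : ∀ j, IsUnit (Y j).det := fun j => (Matrix.isUnit_iff_isUnit_det _).1 (hYu j)
  obtain ⟨ξ, hξe⟩ : ∃ ξ : Fin N → Fin n → ℂ, ∀ i, ξ i = Y i *ᵥ ξ0 i := ⟨_, fun _ => rfl⟩
  obtain ⟨w, hwe⟩ : ∃ w : Fin N → Fin n → ℂ, ∀ i, w i = w0 i ᵥ* (Y i)⁻¹ := ⟨_, fun _ => rfl⟩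
  have hwξ : ∀ i, w i ⬝ᵥ ξ i = w0 i ⬝ᵥ ξ0 i := by
    intro i
    rw [hwe, hξe, Matrix.dotProduct_mulVec, Matrix.vecMul_vecMul,
      Matrix.nonsing_inv_mul _ (hYd i), Matrix.vecMul_one]
  have hRP : RP n (cj J Y) ξ w := by
    refine ⟨hYrel, fun H hH => eq_bot_or_top_of_adjoin (cj J Y) hYadj H hH, fun i hi => ?_,
      fun i hi => ?_, fun i hi => ?_, fun i hi => ?_, fun i l hi hl hil => ?_,
      fun j hj α β y hv hα hβ => ?_⟩
    · rw [cj_apply, hJ1 i hi, conj_refl (hYu _), hξe, hwe]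
    · intro h0
      apply hξ i hi
      rw [← Matrix.one_mulVec (ξ0 i), ← Matrix.nonsing_inv_mul _ (hYd i),
        ← Matrix.mulVec_mulVec, ← hξe, h0, Matrix.mulVec_zero]
    · intro h0
      apply hw i hi
      rw [← Matrix.vecMul_one (w0 i), ← Matrix.nonsing_inv_mul _ (hYd i),
        ← Matrix.vecMul_vecMul, ← hwe, h0, Matrix.zero_vecMul]
    · rw [hwξ]
      exact hu i hi
    · have h1 := generic_pair hJK hJu hYu hYrel hYadj hgen l i hil
        (ξ0 l) (w0 i) (hξK _) (hwK _) (hξ l hl) (hw i hi)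
      rwa [← Matrix.mulVec_mulVec, Matrix.dotProduct_mulVec, ← hξe, ← hwe] at h1
    · have hξ' : ξ = fun i => Y i *ᵥ ξ0 i := funext hξe
      subst hξ'
      obtain ⟨Λ, h1, h2, h3, -⟩ := dual_eqs hYrel (fun i => Y i *ᵥ ξ0 i) α β y j hj
        (fun i hi => (hα i hi).1) (fun i hi => (hβ i hi).1)
        (generic_rel hJK hYu hgen ξ0 hξK j α β y hv (fun i hi => (hα i hi).2)
          fun i hi => (hβ i hi).2)
      exact ⟨Λ, h1, h2, h3⟩
  have hBd : IsUnit (bM hN ξ).det := (hRP.det_bM' hN).isUnit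
  refine ⟨Y, hYV, hYu, hYrel, hYadj, bM hN ξ, hBd, fun i => ⟨w (Fin.castLE hN i) ᵥ* bM hN ξ, ?_⟩,
    fun j hj1 hj2 => hRP.exists_cell' hN j hj1 hj2⟩
  have h1 : ξ (Fin.castLE hN i) = bM hN ξ *ᵥ Pi.single i 1 := by
    rw [Matrix.mulVec_single_one]
    rfl
  rw [hRP.refl (Fin.castLE hN i) i.isLt, Matrix.mul_add, Matrix.mul_one, Matrix.add_mul,
    Matrix.nonsing_inv_mul _ hBd, Matrix.mul_vecMulVec, Matrix.vecMulVec_mul, h1,
    Matrix.mulVec_mulVec, Matrix.nonsing_inv_mul _ hBd, Matrix.one_mulVec]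

end good

end Vale.Agent.P002R
end

section

/-!
# P002, genus 0, at least `r` classes of rank one type: generic position
-/

namespace Vale.Agent.P002R

open Matrix Module Vale.Agent.P002

variable {r : ℕ}

/-- Inverse of a rank one perturbation. -/
theorem inv_refl {v w : Fin r → ℂ} (h : 1 + w ⬝ᵥ v ≠ 0) :
    (1 + vecMulVec v w : P002R.Mat r ℂ)⁻¹ = 1 + vecMulVec (-((1 + w ⬝ᵥ v)⁻¹ • v)) w := by
  refine Matrix.inv_eq_right_inv ?_
  have hq : vecMulVec v w * vecMulVec (-((1 + w ⬝ᵥ v)⁻¹ • v)) w =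
      (-((1 + w ⬝ᵥ v)⁻¹ * (w ⬝ᵥ v))) • vecMulVec v w := by
    ext a b
    simp only [Matrix.mul_apply, vecMulVec_apply, Matrix.smul_apply, smul_eq_mul, dotProduct,
      Finset.mul_sum, Finset.sum_mul, Pi.neg_apply, Pi.smul_apply, ← Finset.sum_neg_distrib]
    exact Finset.sum_congr rfl fun i _ => by ring
  rw [Matrix.add_mul, Matrix.one_mul, Matrix.mul_add, Matrix.mul_one, hq]
  ext a b
  simp only [Matrix.add_apply, vecMulVec_apply, Matrix.smul_apply, smul_eq_mul, Pi.neg_apply,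
    Pi.smul_apply]
  have h1 : (1 + w ⬝ᵥ v)⁻¹ * (1 + w ⬝ᵥ v) = 1 := inv_mul_cancel₀ h
  linear_combination (v a * w b) * (-h1)

/-- Products in the reverse order. -/
theorem pre_rev {N : ℕ} (c : ℕ → P002R.Mat r ℂ) (hc : ∀ j, IsUnit (c j)) (l : Fin N → ℂ) :
    ∀ j k : ℕ, j + k = N → (List.ofFn fun i : Fin N => c i).prod *
      pre (fun i : Fin N => l i • (c ((Fin.rev i : Fin N) : ℕ))⁻¹) j =
      (((List.finRange N).take j).map l).prod • (List.ofFn fun i : Fin k => c i).prod := by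
  intro j
  induction j with
  | zero =>
    intro k hk
    rw [Nat.zero_add] at hk
    subst hk
    rw [pre_zero, Matrix.mul_one, List.take_zero, List.map_nil, List.prod_nil, one_smul]
  | succ j ih =>
    intro k hk
    rw [pre_succ _ (by omega : j < N), ← Matrix.mul_assoc, ih (k + 1) (by omega),
      take_succ_finRange (by omega : j < N), List.map_append, List.prod_append, List.map_singleton,
      List.prod_singleton, Matrix.smul_mul, Matrix.mul_smul, smul_smul]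
    congr 1
    rw [List.ofFn_succ', List.concat_eq_append, List.prod_append, List.prod_singleton]
    have h1 : ((Fin.rev (⟨j, by omega⟩ : Fin N) : Fin N) : ℕ) = k := by
      rw [Fin.val_rev]
      simp only
      omega
    simp only [Fin.val_last, Fin.val_castSucc]
    rw [h1, Matrix.mul_assoc, Matrix.mul_nonsing_inv _ ((Matrix.isUnit_iff_isUnit_det _).1 (hc k)),
      Matrix.mul_one]

theorem stable_invA {M : P002R.Mat r ℂ} (hM : IsUnit M.det) (W : Submodule ℂ (Fin r → ℂ))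
    (h : ∀ w ∈ W, M *ᵥ w ∈ W) : ∀ w ∈ W, M⁻¹ *ᵥ w ∈ W := by
  have h' : ∀ w ∈ W, Matrix.mulVecLin M w ∈ W := h
  have hinj : Function.Injective ((Matrix.mulVecLin M).restrict h') := by
    intro a b hab
    have h1 := congrArg Subtype.val hab
    have h2 : M *ᵥ (a : Fin r → ℂ) = M *ᵥ (b : Fin r → ℂ) := h1
    have h3 := congrArg (fun v => M⁻¹ *ᵥ v) h2
    simp only [Matrix.mulVec_mulVec, Matrix.nonsing_inv_mul _ hM, Matrix.one_mulVec] at h3
    exact Subtype.ext h3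
  have hsurj := LinearMap.injective_iff_surjective.1 hinj
  intro w hw
  obtain ⟨a, ha⟩ := hsurj ⟨w, hw⟩
  have h1 : M *ᵥ (a : Fin r → ℂ) = w := congrArg Subtype.val ha
  rw [← h1, Matrix.mulVec_mulVec, Matrix.nonsing_inv_mul _ hM, Matrix.one_mulVec]
  exact a.2

theorem cseq_isUnit {N : ℕ} (x : FU 0 N →* (Mat r ℂ)ˣ) (j : ℕ) : IsUnit (cseq x j) := by
  rw [cseq]
  split_ifs
  · exact Units.isUnit _
  · exact isUnit_one

/-- The product relation. -/
theorem relU_iff' {N : ℕ} (x : FU 0 N →* (Mat r ℂ)ˣ) :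
    x (relatorU 0 N) = 1 ↔ (List.ofFn fun i : Fin N => cseq x i).prod = 1 := by
  rw [relU_iff, List.ofFn_eq_map]
  have h1 : (fun i : Fin N => cseq x i) = bt x := funext fun i => cseq_of x i
  rw [h1]

theorem exists_scalars {N r : ℕ} (hN : r < N) (z : Fin N → ℂ) (hz : ∀ i, z i ≠ 0) :
    ∃ l : Fin N → ℂ, (∀ i : Fin N, i.val < r → l i = z i) ∧ (∀ i, l i ≠ 0) ∧ ∏ i, l i = 1 := by
  obtain ⟨P, hP⟩ : ∃ P, P = ∏ i ∈ Finset.univ.filter (fun i : Fin N => i.val < r), z i := ⟨_, rfl⟩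
  have hP0 : P ≠ 0 := by
    rw [hP, Finset.prod_ne_zero_iff]
    exact fun i _ => hz i
  obtain ⟨l, hl⟩ : ∃ l : Fin N → ℂ, l = fun i => if i.val < r then z i else
      if i.val = N - 1 then P⁻¹ else 1 := ⟨_, rfl⟩
  refine ⟨l, fun i hi => ?_, fun i => ?_, ?_⟩
  · rw [hl]
    simp only
    rw [if_pos hi]
  · rw [hl]
    simp only
    split_ifs
    · exact hz i
    · exact inv_ne_zero hP0
    · exact one_ne_zero
  · rw [← Finset.prod_filter_mul_prod_filter_not Finset.univ (fun i : Fin N => i.val < r)]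
    have h1 : ∏ i ∈ Finset.univ.filter (fun i : Fin N => i.val < r), l i = P := by
      rw [hP]
      refine Finset.prod_congr rfl fun i hi => ?_
      rw [hl]
      simp only
      rw [if_pos (Finset.mem_filter.1 hi).2]
    have h2 : ∏ i ∈ Finset.univ.filter (fun i : Fin N => ¬ i.val < r), l i = P⁻¹ := by
      rw [Finset.prod_eq_single (⟨N - 1, by omega⟩ : Fin N)]
      · rw [hl]
        simp only
        rw [if_neg (by omega), if_true]
      · intro i hi hne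
        rw [hl]
        simp only
        rw [if_neg (Finset.mem_filter.1 hi).2, if_neg]
        intro h
        exact hne (Fin.ext h)
      · intro h
        exact absurd (Finset.mem_filter.2 ⟨Finset.mem_univ _, by simp only; omega⟩) h
    rw [h1, h2, mul_inv_cancel₀ hP0]

/-- Density of the representations in reflection form. -/
theorem exists_reflForm {m : ℕ} (hr : 0 < r) (C : Fin (m + 1 + r) → (Mat r ℂ)ˣ)
    (hR : ∀ j : Fin r, ∃ z : ℂ, z ≠ 0 ∧ ∃ v w : Fin r → ℂ, v ≠ 0 ∧ w ≠ 0 ∧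
      (C (Fin.natAdd (m + 1) j) : Mat r ℂ) = z • (1 + vecMulVec v w))
    (x : FU 0 (m + 1 + r) →* (Mat r ℂ)ˣ) (hrel : x (relatorU 0 (m + 1 + r)) = 1)
    (hcl : ∀ j, IsConj (C j) (x (FreeGroup.of (Sum.inr j))))
    (hadj : Algebra.adjoin ℂ (Set.range fun w => (x w : Mat r ℂ)) = ⊤)
    (f : MvPolynomial (GenU 0 (m + 1 + r) × Fin r × Fin r) ℂ) (hf : evalG x f ≠ 0) :
    ∃ (x' : FU 0 (m + 1 + r) →* (Mat r ℂ)ˣ) (g : (Mat r ℂ)ˣ), evalG (conjH g x') f ≠ 0 ∧
      x' (relatorU 0 (m + 1 + r)) = 1 ∧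
      (∀ j, IsConj (C j) (x' (FreeGroup.of (Sum.inr j)))) ∧
      Algebra.adjoin ℂ (Set.range fun w => (x' w : Mat r ℂ)) = ⊤ ∧
      ∃ (s : Fin r → ℂ) (T : Mat r ℂ),
        (∀ i : Fin r, s i ≠ 0 ∧
          (((x' (FreeGroup.of (Sum.inr (Fin.natAdd (m + 1) (Fin.rev i)))))⁻¹ : (Mat r ℂ)ˣ) :
            Mat r ℂ) = s i • (1 + vecMulVec (Pi.single i 1) (T i))) ∧
        ∀ k ≤ m + 1, ∃ X : Mat r ℂ, (∀ i, X i i ≠ 0) ∧
          (List.ofFn fun j : Fin k => cseq x' j).prod = zZ X := by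
  have hnat : ∀ i : Fin (m + 1 + r), i.val < r → ∃ i' : Fin r, i'.val = i.val ∧
      Fin.rev i = Fin.natAdd (m + 1) (Fin.rev i') := by
    intro i hi
    refine ⟨⟨i.val, hi⟩, rfl, Fin.ext ?_⟩
    rw [Fin.val_rev, Fin.val_natAdd, Fin.val_rev]
    simp only
    (clear * - hi; omega)
  -- the reflections
  have hx1 : ∀ i : Fin (m + 1 + r), ∃ z : ℂ, z ≠ 0 ∧ (i.val < r → ∃ v w : Fin r → ℂ, v ≠ 0 ∧
      w ≠ 0 ∧ 1 + w ⬝ᵥ v ≠ 0 ∧ z • (cseq x (Fin.rev i : Fin (m + 1 + r)))⁻¹ =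
        1 + vecMulVec v w) := by
    intro i
    by_cases hi : i.val < r
    · obtain ⟨i', -, hi'⟩ := hnat i hi
      obtain ⟨z, hz, v, w, hv, hw, hzvw⟩ := hR (Fin.rev i')
      obtain ⟨g, hg⟩ := isConj_iff.1 (hcl (Fin.rev i))
      have h1 : (x (FreeGroup.of (Sum.inr (Fin.rev i))) : Mat r ℂ) =
          z • (1 + vecMulVec ((g : Mat r ℂ) *ᵥ v) (w ᵥ* (g : Mat r ℂ)⁻¹)) := by
        rw [← hg, hi', Units.val_mul, Units.val_mul, hzvw, Matrix.coe_units_inv, Matrix.mul_smul,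
          Matrix.smul_mul, conj_refl g.isUnit]
      obtain ⟨v', hv'⟩ : ∃ v', v' = (g : Mat r ℂ) *ᵥ v := ⟨_, rfl⟩
      obtain ⟨w', hw'⟩ : ∃ w', w' = w ᵥ* (g : Mat r ℂ)⁻¹ := ⟨_, rfl⟩
      have hg2 : (g : Mat r ℂ)⁻¹ * (g : Mat r ℂ) = 1 := by
        rw [← Matrix.coe_units_inv, Units.inv_mul]
      have hv0 : v' ≠ 0 := by
        intro h
        apply hv
        rw [← Matrix.one_mulVec v, ← hg2, ← Matrix.mulVec_mulVec, ← hv', h, Matrix.mulVec_zero]
      have hw0 : w' ≠ 0 := by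
        intro h
        apply hw
        have h2 : (w ᵥ* (g : Mat r ℂ)⁻¹) ᵥ* (g : Mat r ℂ) = w := by
          rw [Matrix.vecMul_vecMul, hg2, Matrix.vecMul_one]
        rw [← h2, ← hw', h, Matrix.zero_vecMul]
      rw [← hv', ← hw'] at h1
      have hd : 1 + w' ⬝ᵥ v' ≠ 0 := by
        intro h0
        have h2 : ((x (FreeGroup.of (Sum.inr (Fin.rev i))) : Mat r ℂ)) *ᵥ v' = 0 := by
          rw [h1, Matrix.smul_mulVec, Matrix.add_mulVec, Matrix.one_mulVec,
            Matrix.vecMulVec_mulVec, op_smul_eq_smul]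
          have h3 : v' + (w' ⬝ᵥ v') • v' = (1 + w' ⬝ᵥ v') • v' := by rw [add_smul, one_smul]
          rw [h3, h0, zero_smul, smul_zero]
        have h3 := congrArg (fun u => ((x (FreeGroup.of (Sum.inr (Fin.rev i)))) : Mat r ℂ)⁻¹ *ᵥ u)
          h2
        simp only [← coe_units_inv, mulVec_mulVec, Units.inv_mul, one_mulVec, mulVec_zero] at h3
        exact hv0 h3
      refine ⟨z, hz, fun _ => ⟨-((1 + w' ⬝ᵥ v')⁻¹ • v'), w', ?_, hw0, ?_, ?_⟩⟩
      · rw [neg_ne_zero]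
        exact smul_ne_zero (inv_ne_zero hd) hv0
      · rw [dotProduct_neg, dotProduct_smul, smul_eq_mul]
        have h3 : 1 + -((1 + w' ⬝ᵥ v')⁻¹ * w' ⬝ᵥ v') = (1 + w' ⬝ᵥ v')⁻¹ := by
          field_simp
          ring
        rw [h3]
        exact inv_ne_zero hd
      · rw [cseq_of, h1, ← inv_refl hd]
        have h4 : IsUnit (1 + vecMulVec v' w' : P002R.Mat r ℂ).det :=
          (Matrix.isUnit_iff_isUnit_det _).1 (isUnit_refl hd)
        refine (Matrix.inv_eq_right_inv ?_).symm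
        have h5 : (z • (1 + vecMulVec v' w' : P002R.Mat r ℂ)) *
            (z • (1 + vecMulVec v' w' : P002R.Mat r ℂ))⁻¹ = 1 := by
          rw [← h1, ← Matrix.coe_units_inv, Units.mul_inv]
        rw [Matrix.mul_smul, ← Matrix.smul_mul]
        exact h5
    · exact ⟨1, one_ne_zero, fun h => absurd h hi⟩
  choose z hz hzr using hx1
  obtain ⟨l, hl1, hl0, hlp⟩ := exists_scalars (r := r) (by omega) z hz
  have hvw : ∀ i : Fin (m + 1 + r), ∃ v w : Fin r → ℂ, i.val < r → (v ≠ 0 ∧ w ≠ 0 ∧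
      1 + w ⬝ᵥ v ≠ 0 ∧ l i • (cseq x (Fin.rev i : Fin (m + 1 + r)))⁻¹ = 1 + vecMulVec v w) := by
    intro i
    by_cases hi : i.val < r
    · obtain ⟨v, w, h⟩ := hzr i hi
      exact ⟨v, w, fun _ => by rw [hl1 i hi]; exact h⟩
    · exact ⟨0, 0, fun h => absurd h hi⟩
  choose ξ0 w0 hvw using hvw
  obtain ⟨J, hJ⟩ : ∃ J : Fin (m + 1 + r) → Mat r ℂ, J = fun i =>
    l i • (cseq x (Fin.rev i : Fin (m + 1 + r)))⁻¹ := ⟨_, rfl⟩
  have hJi : ∀ i, J i = l i • (cseq x (Fin.rev i : Fin (m + 1 + r)))⁻¹ := fun i => by rw [hJ]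
  have hJu : ∀ j, IsUnit (J j) := by
    intro j
    rw [hJi]
    have h1 : IsUnit (cseq x (Fin.rev j : Fin (m + 1 + r)))⁻¹ :=
      Matrix.isUnit_nonsing_inv_iff.2 (cseq_isUnit x _)
    obtain ⟨u, hu⟩ := h1
    rw [← hu]
    exact (Units.mk0 (l j) (hl0 j) • u).isUnit
  have hlist : (((List.finRange (m + 1 + r)).take (m + 1 + r)).map l).prod = 1 := by
    rw [List.take_of_length_le (by simp), ← List.ofFn_eq_map, List.prod_ofFn, hlp]
  have hpreN : ∀ c : Fin (m + 1 + r) → Mat r ℂ, pre c (m + 1 + r) =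
      ((List.finRange (m + 1 + r)).map c).prod := by
    intro c
    rw [pre, List.take_of_length_le (by simp only [List.length_finRange, Std.le_refl])]
  have hJrel : ((List.finRange (m + 1 + r)).map J).prod = 1 := by
    have h1 := pre_rev (cseq x) (cseq_isUnit x) l (m + 1 + r) 0 (Nat.add_zero _)
    rw [(relU_iff' x).1 hrel, Matrix.one_mul, hlist, one_smul, List.ofFn_zero, List.prod_nil,
      hpreN, ← hJ] at h1
    exact h1
  have hadjJ : ∀ (y : FU 0 (m + 1 + r) →* (Mat r ℂ)ˣ),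
      Algebra.adjoin ℂ (Set.range fun w => (y w : Mat r ℂ)) = ⊤ ↔
      Algebra.adjoin ℂ (Set.range fun i : Fin (m + 1 + r) =>
        l i • (cseq y (Fin.rev i : Fin (m + 1 + r)))⁻¹) = ⊤ := by
    intro y
    constructor
    · intro h
      have h1 := adjoin_gen_eq_top y h
      obtain ⟨A, hA⟩ : ∃ A, A = Algebra.adjoin ℂ (Set.range fun i : Fin (m + 1 + r) =>
        l i • (cseq y (Fin.rev i : Fin (m + 1 + r)))⁻¹) := ⟨_, rfl⟩
      rw [← hA, eq_top_iff]
      -- irreducibility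
      have hirr : ∀ W : Submodule ℂ (Fin r → ℂ), (∀ i : Fin (m + 1 + r), ∀ v ∈ W,
          (l i • (cseq y (Fin.rev i : Fin (m + 1 + r)))⁻¹) *ᵥ v ∈ W) → W = ⊥ ∨ W = ⊤ := by
        intro W hW
        refine eq_bot_or_top_of_adjoin (fun k => (y (FreeGroup.of k) : Mat r ℂ)) h1 W ?_
        rintro (k | j)
        · exact k.1.elim0
        · intro v hv
          have h2 : ∀ v ∈ W, (cseq y j)⁻¹ *ᵥ v ∈ W := by
            intro v hv
            have h3 := hW (Fin.rev j) v hv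
            rw [Fin.rev_rev, Matrix.smul_mulVec] at h3
            have h4 := W.smul_mem (l (Fin.rev j))⁻¹ h3
            rwa [smul_smul, inv_mul_cancel₀ (hl0 _), one_smul] at h4
          have h5 : IsUnit ((cseq y j)⁻¹).det := (Matrix.isUnit_iff_isUnit_det _).1
            (Matrix.isUnit_nonsing_inv_iff.2 (cseq_isUnit y j))
          have h6 := stable_invA h5 W h2 v hv
          rw [Matrix.nonsing_inv_nonsing_inv _ ((Matrix.isUnit_iff_isUnit_det _).1
            (cseq_isUnit y j)), cseq_of] at h6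
          exact h6
      have h7 : ∀ i : Fin (m + 1 + r), IsUnit
          (l i • (cseq y (Fin.rev i : Fin (m + 1 + r)))⁻¹ : Mat r ℂ) := by
        intro i
        obtain ⟨u, hu⟩ := Matrix.isUnit_nonsing_inv_iff.2
          (cseq_isUnit y (Fin.rev i : Fin (m + 1 + r)))
        rw [← hu]
        exact (Units.mk0 (l i) (hl0 i) • u).isUnit
      obtain ⟨y', hy'⟩ : ∃ y' : FreeGroup (Fin (m + 1 + r)) →* (Mat r ℂ)ˣ, ∀ i,
          (y' (FreeGroup.of i) : Mat r ℂ) =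
            l i • (cseq y (Fin.rev i : Fin (m + 1 + r)))⁻¹ :=
        ⟨FreeGroup.lift fun i => (h7 i).unit, fun i => by rw [FreeGroup.lift_apply_of]; rfl⟩
      have h8 := adjoin_gen_eq_top y' (adjoin_top_of_simple hr y' fun W hW =>
        hirr W fun i v hv => by
          rw [← hy']
          exact hW _ v hv)
      have h9 : (fun i => (y' (FreeGroup.of i) : Mat r ℂ)) = fun i : Fin (m + 1 + r) =>
        l i • (cseq y (Fin.rev i : Fin (m + 1 + r)))⁻¹ := funext hy'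
      rw [h9, ← hA] at h8
      rw [h8]
    · intro h
      rw [eq_top_iff, ← h, Algebra.adjoin_le_iff]
      rintro _ ⟨i, rfl⟩
      have h1 : (cseq y (Fin.rev i : Fin (m + 1 + r)))⁻¹ ∈
          Algebra.adjoin ℂ (Set.range fun w => (y w : Mat r ℂ)) := by
        refine Algebra.subset_adjoin ⟨(FreeGroup.of (Sum.inr (Fin.rev i)))⁻¹, ?_⟩
        simp only
        rw [map_inv, Matrix.coe_units_inv, cseq_of]
      exact Subalgebra.smul_mem _ h1 _
  have hJadj : Algebra.adjoin ℂ (Set.range J) = ⊤ := by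
    rw [hJ]
    exact (hadjJ x).1 hadj
  -- the neighbourhood
  have hbu : ∀ j, IsUnit (bt x j) := fun j => Units.isUnit _
  have hV : {Y : Fin (m + 1 + r) → Mat r ℂ | evT f (cj (bt x) fun j => Y (Fin.rev j)) ≠ 0} ∈
      nhds (fun _ => 1) := by
    have h0 : cj (bt x) (fun _ => 1) = bt x := by
      funext j
      rw [cj_apply, inv_one, Matrix.one_mul, Matrix.mul_one]
    have h1 : ContinuousAt (fun Y : Fin (m + 1 + r) → Mat r ℂ => evT f (cj (bt x) Y))
        (fun _ => 1) :=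
      ContinuousAt.comp (f := fun Y : Fin (m + 1 + r) → Mat r ℂ => cj (bt x) Y)
        (evT_continuous f).continuousAt (continuousAt_cj (bt x) fun _ => isUnit_one)
    have h2 : Continuous fun Y : Fin (m + 1 + r) → Mat r ℂ => fun j => Y (Fin.rev j) :=
      continuous_pi fun j => continuous_apply _
    have h3 : ContinuousAt (fun Y : Fin (m + 1 + r) → Mat r ℂ =>
        evT f (cj (bt x) fun j => Y (Fin.rev j))) (fun _ => 1) :=
      ContinuousAt.comp (f := fun Y : Fin (m + 1 + r) → Mat r ℂ => fun j => Y (Fin.rev j))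
        (g := fun Y : Fin (m + 1 + r) → Mat r ℂ => evT f (cj (bt x) Y)) h1 h2.continuousAt
    refine h3.eventually_ne ?_
    rw [h0, ← evalG_eq_evT]
    exact hf
  obtain ⟨Y, hYV, hYu, hYrel, hYadj, B, hB, hBr, hBc⟩ := exists_refl_generic hr
    (by omega : r ≤ m + 1 + r) J hJu hJrel hJadj ξ0 w0
    (fun i hi => by rw [hJi]; exact (hvw i hi).2.2.2) (fun i hi => (hvw i hi).1)
    (fun i hi => (hvw i hi).2.1) (fun i hi => (hvw i hi).2.2.1) _ hV
  have hYV' : evT f (cj (bt x) fun j => Y (Fin.rev j)) ≠ 0 := hYV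
  choose yy hyy using hYu
  obtain ⟨z', hz'⟩ : ∃ z' : FU 0 (m + 1 + r) →* (Mat r ℂ)ˣ, ∀ j,
      z' (FreeGroup.of (Sum.inr j)) =
        yy (Fin.rev j) * x (FreeGroup.of (Sum.inr j)) * (yy (Fin.rev j))⁻¹ :=
    ⟨mkR fun j => yy (Fin.rev j) * x (FreeGroup.of (Sum.inr j)) * (yy (Fin.rev j))⁻¹,
      fun j => mkR_inr _ j⟩
  have hbz : bt z' = cj (bt x) fun j => Y (Fin.rev j) := by
    funext j
    rw [cj_apply, ← hyy, bt_eqn, hz', Units.val_mul, Units.val_mul, Matrix.coe_units_inv, bt_eqn]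
  have hcj : cj J Y = fun i : Fin (m + 1 + r) =>
      l i • (cseq z' (Fin.rev i : Fin (m + 1 + r)))⁻¹ := by
    funext i
    rw [cj_apply, hJi, cseq_of, cseq_of, hz', ← hyy, ← Matrix.coe_units_inv,
      ← Matrix.coe_units_inv, ← Matrix.coe_units_inv, Fin.rev_rev, Matrix.mul_smul,
      Matrix.smul_mul, ← Units.val_mul, ← Units.val_mul]
    congr 2
    group
  have hz'rel : (List.ofFn fun i : Fin (m + 1 + r) => cseq z' i).prod = 1 := by
    have h1 := pre_rev (cseq z') (cseq_isUnit z') l (m + 1 + r) 0 (Nat.add_zero _)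
    rw [hlist, one_smul, List.ofFn_zero, List.prod_nil, hpreN, ← hcj, hYrel, Matrix.mul_one] at h1
    exact h1
  obtain ⟨g, hg⟩ : ∃ g : (Mat r ℂ)ˣ, (g : Mat r ℂ) = B :=
    ⟨((Matrix.isUnit_iff_isUnit_det _).2 hB).unit, rfl⟩
  have hcs : ∀ j : ℕ, j < m + 1 + r → cseq (conjH g⁻¹ z') j = B⁻¹ * cseq z' j * B := by
    intro j hj
    have h1 := cseq_of (conjH g⁻¹ z') ⟨j, hj⟩
    have h2 := cseq_of z' ⟨j, hj⟩
    simp only at h1 h2
    rw [h1, h2, conjH_apply, inv_inv, unit_conj, hg]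
  refine ⟨conjH g⁻¹ z', g, ?_, ?_, ?_, ?_, fun i => (l (Fin.castLE (by omega) i))⁻¹, ?_⟩
  · have h1 : conjH g (conjH g⁻¹ z') = z' := by
      ext1 w
      simp only [conjH_apply]
      group
    rw [h1, evalG_eq_evT, hbz]
    exact hYV'
  · rw [conjH_apply, (relU_iff' z').2 hz'rel, mul_one, inv_inv, inv_mul_cancel]
  · intro j
    refine (hcl j).trans ?_
    rw [conjH_apply, hz', isConj_iff]
    exact ⟨g⁻¹ * yy (Fin.rev j), by group⟩
  · refine adjoin_conj_top z' g⁻¹ ?_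
    rw [hadjJ, ← hcj]
    exact hYadj
  · choose t ht using hBr
    refine ⟨Matrix.of t, fun i => ⟨inv_ne_zero (hl0 _), ?_⟩, fun k hk => ?_⟩
    · have h1 : Fin.natAdd (m + 1) (Fin.rev i) =
          Fin.rev (Fin.castLE (by omega : r ≤ m + 1 + r) i) := by
        apply Fin.ext
        rw [Fin.val_rev, Fin.val_natAdd, Fin.val_rev, Fin.val_castLE]
        omega
      have h2 := ht i
      rw [hcj] at h2
      simp only at h2
      rw [cseq_of, ← Matrix.coe_units_inv, Matrix.mul_smul, Matrix.smul_mul] at h2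
      rw [h1, conjH_apply, inv_inv, _root_.mul_inv_rev, _root_.mul_inv_rev, inv_inv, ← mul_assoc,
        unit_conj, hg]
      change _ = (l (Fin.castLE _ i))⁻¹ • (1 + vecMulVec (Pi.single i 1) (t i))
      rw [← h2, smul_smul, inv_mul_cancel₀ (hl0 _), one_smul]
    · obtain ⟨j, hj⟩ : ∃ j, j + k = m + 1 + r := ⟨m + 1 + r - k, by omega⟩
      obtain ⟨X, hX, hX0⟩ := hBc j (by omega) (by omega)
      have h1 := pre_rev (cseq z') (cseq_isUnit z') l j k hj
      rw [hz'rel, Matrix.one_mul, ← hcj] at h1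
      obtain ⟨Λ, hΛ⟩ : ∃ Λ, Λ = (((List.finRange (m + 1 + r)).take j).map l).prod := ⟨_, rfl⟩
      have hΛ0 : Λ ≠ 0 := by
        rw [hΛ]
        refine List.prod_ne_zero ?_
        intro h
        rw [List.mem_map] at h
        obtain ⟨i, -, hi⟩ := h
        exact hl0 i hi
      rw [← hΛ] at h1
      have h2 : (List.ofFn fun j : Fin k => cseq (conjH g⁻¹ z') j).prod =
          B⁻¹ * (List.ofFn fun i : Fin k => cseq z' i).prod * B := by
        rw [List.ofFn_eq_map, List.ofFn_eq_map]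
        have h3 : ((List.finRange k).map fun j : Fin k => cseq (conjH g⁻¹ z') j) =
            (List.finRange k).map fun j : Fin k =>
              (g : Mat r ℂ)⁻¹ * cseq z' j * (g : Mat r ℂ) := by
          refine List.map_congr_left fun j _ => ?_
          rw [hcs j (by omega), hg]
        rw [h3, prod_conj g (fun j : Fin k => cseq z' j), hg]
      have h4 : (List.ofFn fun i : Fin k => cseq z' i).prod = Λ⁻¹ • pre (cj J Y) j := by
        rw [h1, smul_smul, inv_mul_cancel₀ hΛ0, one_smul]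
      obtain ⟨X', h5, h6, h7⟩ := exists_coord (uU X) (Λ⁻¹ • lL X) (upT_uU X) (uU_diag X)
        (fun a b hab => by rw [Matrix.smul_apply, loT_lL X a b hab, smul_zero])
      refine ⟨X', fun i => ?_, ?_⟩
      · rw [h7, Matrix.smul_apply, lL_diag]
        exact mul_ne_zero (inv_ne_zero hΛ0) (hX0 i)
      · rw [h2, h4, Matrix.mul_smul, Matrix.smul_mul, hX, zZ_eqn, zZ_eqn, h5, h6, Matrix.mul_smul]

end Vale.Agent.P002R
end

section

/-!
# P002, genus 0, rank one classes: the main theorem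
-/

namespace Vale.Agent.P002R

open Matrix

variable {r : ℕ}

theorem rank_one_form {A : Mat r ℂ} (h : A.rank ≤ 1) (hA : A ≠ 0) :
    ∃ v w : Fin r → ℂ, v ≠ 0 ∧ w ≠ 0 ∧ A = vecMulVec v w := by
  have h1 : Module.finrank ℂ (LinearMap.range A.mulVecLin) ≤ 1 := h
  obtain ⟨u, hu⟩ := finrank_le_one_iff.1 h1
  have h2 : ∀ j, ∃ c : ℂ, ∀ i, A i j = (u : Fin r → ℂ) i * c := by
    intro j
    obtain ⟨c, hc⟩ := hu ⟨A *ᵥ Pi.single j 1, ⟨Pi.single j 1, rfl⟩⟩
    refine ⟨c, fun i => ?_⟩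
    have h3 : (c • (u : Fin r → ℂ)) i = (A *ᵥ Pi.single j 1) i :=
      congrFun (congrArg Subtype.val hc) i
    rw [Matrix.mulVec_single_one] at h3
    rw [mul_comm]
    exact h3.symm
  choose c hc using h2
  have h3 : A = vecMulVec (u : Fin r → ℂ) c := by
    ext i j
    rw [vecMulVec_apply, hc]
  refine ⟨u, c, ?_, ?_, h3⟩
  · intro h0
    apply hA
    rw [h3, h0, Matrix.zero_vecMulVec]
  · intro h0
    apply hA
    rw [h3, h0, Matrix.vecMulVec_zero]

theorem ro_form (hr : 2 ≤ r) (M : (Mat r ℂ)ˣ) (h : RO r (M : Mat r ℂ))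
    (hns : ∀ c : ℂ, (M : Mat r ℂ) ≠ c • (1 : Mat r ℂ)) :
    ∃ z : ℂ, z ≠ 0 ∧ ∃ v w : Fin r → ℂ, v ≠ 0 ∧ w ≠ 0 ∧
      (M : Mat r ℂ) = z • (1 + vecMulVec v w) := by
  obtain ⟨z, hz⟩ := h
  obtain ⟨v, w, hv, hw, hvw⟩ := rank_one_form hz (sub_ne_zero.2 (hns z))
  have hz0 : z ≠ 0 := by
    rintro rfl
    rw [zero_smul, sub_zero, Matrix.rank_of_isUnit _ M.isUnit, Fintype.card_fin] at hz
    omega
  refine ⟨z, hz0, v, z⁻¹ • w, hv, smul_ne_zero (inv_ne_zero hz0) hw, ?_⟩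
  rw [Matrix.vecMulVec_smul, smul_add, smul_smul, mul_inv_cancel₀ hz0, one_smul, ← hvw]
  abel

theorem eig_of_inv {E : Subgroup ℂˣ} (U : (Mat r ℂ)ˣ) (hU : EigIn E (U : Mat r ℂ)) {c : ℂ}
    {v : Fin r → ℂ} (hv : v ≠ 0) (h : ((U⁻¹ : (Mat r ℂ)ˣ) : Mat r ℂ) *ᵥ v = c • v) :
    ∃ e ∈ E, (e : ℂ) = c := by
  have h1 : c • ((U : Mat r ℂ) *ᵥ v) = v := by
    rw [← Matrix.mulVec_smul, ← h, Matrix.mulVec_mulVec, Units.mul_inv, Matrix.one_mulVec]
  have hc : c ≠ 0 := by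
    rintro rfl
    rw [zero_smul] at h1
    exact hv h1.symm
  have h2 : (U : Mat r ℂ) *ᵥ v = c⁻¹ • v := by
    conv_rhs => rw [← h1]
    rw [smul_smul, inv_mul_cancel₀ hc, one_smul]
  obtain ⟨e, he, he'⟩ := hU c⁻¹ (isRoot_charpoly_of_mulVec hv h2)
  exact ⟨e⁻¹, E.inv_mem he, by rw [Units.val_inv_eq_inv_val, he', inv_inv]⟩

theorem refl_eig {E : Subgroup ℂˣ} (hr : 2 ≤ r) (U : (Mat r ℂ)ˣ) (hU : EigIn E (U : Mat r ℂ))
    {s : ℂ} {t : Fin r → ℂ} {i : Fin r}
    (h : ((U⁻¹ : (Mat r ℂ)ˣ) : Mat r ℂ) = s • (1 + vecMulVec (Pi.single i 1) t)) :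
    (∃ e ∈ E, (e : ℂ) = s) ∧ ∃ e ∈ E, (e : ℂ) = 1 + t i := by
  have h1 : ∀ v : Fin r → ℂ, ((U⁻¹ : (Mat r ℂ)ˣ) : Mat r ℂ) *ᵥ v =
      s • (v + (t ⬝ᵥ v) • Pi.single i 1) := by
    intro v
    rw [h, Matrix.smul_mulVec, Matrix.add_mulVec, Matrix.one_mulVec, vmv_mulVec]
  have h2 : ∃ e ∈ E, (e : ℂ) = s := by
    obtain ⟨v, hv, htv⟩ : ∃ v : Fin r → ℂ, v ≠ 0 ∧ t ⬝ᵥ v = 0 := by
      by_cases hti : t i = 0
      · exact ⟨Pi.single i 1, single_ne i, by rw [dotProduct_single_one, hti]⟩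
      · obtain ⟨j, hj⟩ : ∃ j : Fin r, j ≠ i := by
          by_cases h0 : (i : ℕ) = 0
          · exact ⟨⟨1, by omega⟩, fun h => by rw [← h] at h0; simp at h0⟩
          · exact ⟨⟨0, by omega⟩, fun h => h0 (by rw [← h])⟩
        refine ⟨t j • Pi.single i 1 - t i • Pi.single j 1, ?_, ?_⟩
        · intro h0
          have h3 := congrFun h0 j
          rw [Pi.sub_apply, Pi.smul_apply, Pi.smul_apply, Pi.single_eq_same,
            Pi.single_eq_of_ne hj, Pi.zero_apply, smul_zero, zero_sub, smul_eq_mul, mul_one,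
            neg_eq_zero] at h3
          exact hti h3
        · rw [dotProduct_sub, dotProduct_smul, dotProduct_smul, dotProduct_single_one,
            dotProduct_single_one, smul_eq_mul, smul_eq_mul, mul_comm, sub_self]
    refine eig_of_inv U hU hv ?_
    rw [h1, htv, zero_smul, add_zero]
  obtain ⟨e, he, hes⟩ := h2
  refine ⟨⟨e, he, hes⟩, ?_⟩
  obtain ⟨e', he', hes'⟩ := eig_of_inv U hU (c := s * (1 + t i)) (single_ne i) (by
    rw [h1, dotProduct_single_one, mul_smul, add_smul, one_smul])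
  refine ⟨e⁻¹ * e', E.mul_mem (E.inv_mem he) he', ?_⟩
  rw [Units.val_mul, Units.val_inv_eq_inv_val, hes, hes', ← mul_assoc, inv_mul_cancel₀, one_mul]
  rw [← hes]
  exact e.ne_zero

/-- The last of the other classes is not scalar. -/
theorem g0R_pos {m : ℕ} (hr : 2 ≤ r) {R : Type} [CommRing R] (φ : R →+* ℂ) (E : Subgroup ℂˣ)
    (hc : CoefOK φ E r) (C : Fin (m + 1 + r) → (Mat r ℂ)ˣ)
    (hE : ∀ j, EigIn E (C j : Mat r ℂ))
    (hRO : ∀ j : Fin r, RO r (C (Fin.natAdd (m + 1) j) : Mat r ℂ) ∧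
      ∀ c : ℂ, (C (Fin.natAdd (m + 1) j) : Mat r ℂ) ≠ c • (1 : Mat r ℂ))
    (hns : ∀ μ : ℂ, (C (Fin.castAdd r (Fin.last m)) : Mat r ℂ) ≠ μ • (1 : Mat r ℂ))
    (x : FU 0 (m + 1 + r) →* (Mat r ℂ)ˣ)
    (hx : x ∈ YG ({relatorU 0 (m + 1 + r)} :
      Set (FreeGroup ((Fin 0 × Bool) ⊕ Fin (m + 1 + r)))) C)
    (hirr : ∀ M : Mat r ℂ, (∀ w, Commute M (x w : Mat r ℂ)) → ∃ c : ℂ, M = c • (1 : Mat r ℂ))
    (f : MvPolynomial (((Fin 0 × Bool) ⊕ Fin (m + 1 + r)) × Fin r × Fin r) ℂ)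
    (hf : ∀ y ∈ DGT ({relatorU 0 (m + 1 + r)} :
      Set (FreeGroup ((Fin 0 × Bool) ⊕ Fin (m + 1 + r)))) φ C, evalG y f = 0) :
    evalG x f = 0 := by
  have hr0 : 0 < r := by omega
  obtain ⟨hx1, hx2, hx3⟩ := hx
  have hadj := adjoin_top_of_irr x hx3 hirr
  have hxrel : x (relatorU 0 (m + 1 + r)) = 1 := hx1 _ rfl
  refine upgrade x hadj {y | y (relatorU 0 (m + 1 + r)) = 1 ∧
    (∀ j, IsConj (C j) (y (FreeGroup.of (Sum.inr j)))) ∧
    ∀ k, y (FreeGroup.of k) ∈ GR r φ} ?_ f ?_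
  · intro f' hf'
    by_contra hne
    obtain ⟨x', g, h1, h2, h3, h4, s, T, hs, hcell⟩ := exists_reflForm hr0 C
      (fun j => ro_form hr _ (hRO j).1 (hRO j).2) x hxrel hx2 hadj f' hne
    obtain ⟨f'', hf''⟩ := exists_conjP g f'
    apply h1
    rw [← hf'']
    have h5 : ∀ i : Fin r, EigIn E
        (x' (FreeGroup.of (Sum.inr (Fin.natAdd (m + 1) (Fin.rev i)))) : Mat r ℂ) :=
      fun i => (hE _).conj (h3 _)
    have h6 : ∀ i, ∃ e ∈ E, (e : ℂ) = s i := fun i => (refl_eig hr _ (h5 i) (hs i).2).1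
    have h7 : ∀ i, ∃ e ∈ E, (e : ℂ) = 1 + T i i := fun i => (refl_eig hr _ (h5 i) (hs i).2).2
    choose s' hs'E hs' using h6
    choose κ hκE hκ using h7
    refine refl_chart φ hr0 hc C hE hns x' h2 h3 h4 s' κ hs'E hκE T hκ
      (fun i => by rw [hs']; exact (hs i).2) (fun i h0 => ?_) hcell f'' fun y hy1 hy2 hy3 => ?_
    · have h8 := (hs i).2
      rw [h0, Matrix.vecMulVec_zero, add_zero] at h8
      have h9 : (x' (FreeGroup.of (Sum.inr (Fin.natAdd (m + 1) (Fin.rev i)))) : Mat r ℂ) =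
          (s i)⁻¹ • (1 : Mat r ℂ) := by
        have h10 := Units.mul_inv (x' (FreeGroup.of (Sum.inr (Fin.natAdd (m + 1) (Fin.rev i)))))
        rw [h8, mul_smul_comm, Matrix.mul_one] at h10
        rw [← h10, smul_smul, inv_mul_cancel₀ (hs i).1, one_smul]
      exact (hRO (Fin.rev i)).2 (s i)⁻¹ (conj_scalar' (h3 _).symm h9)
    · rw [hf'']
      refine conj_vanish_gen {y | y (relatorU 0 (m + 1 + r)) = 1 ∧
        (∀ j, IsConj (C j) (y (FreeGroup.of (Sum.inr j)))) ∧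
        ∀ k, y (FreeGroup.of k) ∈ GR r φ} ?_ f' hf' y ⟨hy1, hy2, hy3⟩ g
      rintro z ⟨hz1, hz2, hz3⟩ X
      refine ⟨?_, fun j => ?_, fun k => ?_⟩
      · rw [conjH_apply, hz1, mul_one, mul_inv_cancel]
      · refine (hz2 j).trans ?_
        rw [isConj_iff]
        exact ⟨slU (Int.castRingHom ℂ) X, (conjH_apply _ _ _).symm⟩
      · rw [conjH_apply]
        exact (GR r φ).mul_mem ((GR r φ).mul_mem (slU_int_mem_GR φ X) (hz3 k))
          ((GR r φ).inv_mem (slU_int_mem_GR φ X))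
  · rintro y ⟨hy1, hy2, hy3⟩ hy4
    refine hf y ⟨⟨⟨?_, hy2, ss_of_adjoin y hy4⟩, hy3⟩, hy4⟩
    rintro w rfl
    exact hy1

end Vale.Agent.P002R
end

section

/-!
# P002, genus 0, at least `r` classes of rank one type: the main theorem
-/

namespace Vale.Agent.P002R

open Matrix

variable {r : ℕ}

/-- Not all other classes are scalar. -/
theorem exists_nonscalar {m : ℕ} (hr : 2 ≤ r) (C : Fin (m + 1 + r) → (Mat r ℂ)ˣ)
    (hRO : ∀ j : Fin r, RO r (C (Fin.natAdd (m + 1) j) : Mat r ℂ))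
    (x : FU 0 (m + 1 + r) →* (Mat r ℂ)ˣ) (hx1 : x (relatorU 0 (m + 1 + r)) = 1)
    (hx2 : ∀ j, IsConj (C j) (x (FreeGroup.of (Sum.inr j))))
    (hadj : Algebra.adjoin ℂ (Set.range fun w => (x w : Mat r ℂ)) = ⊤) :
    ∃ j : Fin (m + 1), ∀ μ : ℂ, (C (Fin.castAdd r j) : Mat r ℂ) ≠ μ • (1 : Mat r ℂ) := by
  classical
  by_contra hcon
  push Not at hcon
  obtain ⟨S, hS, hj₀, hS'⟩ := exists_refl_set hr C (Fin.natAdd (m + 1) ⟨0, by omega⟩)
    (fun j _ => by
      refine Fin.addCases (fun j => ?_) (fun l => hRO l) j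
      obtain ⟨μ, hμ⟩ := hcon j
      refine ⟨μ, ?_⟩
      rw [hμ, sub_self, Matrix.rank_zero]
      exact Nat.zero_le 1) x hx1 hx2 hadj
  have h1 : S ⊆ ((Finset.univ : Finset (Fin r)).erase ⟨0, by omega⟩).map
      (Fin.natAddEmb (m + 1)) := by
    intro j hj
    obtain ⟨-, hj2⟩ := hS' j hj
    revert hj hj2
    refine Fin.addCases (fun j => ?_) (fun l => ?_) j
    · intro _ hj2
      obtain ⟨μ, hμ⟩ := hcon j
      exact absurd hμ (hj2 μ)
    · intro hj _
      rw [Finset.mem_map]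
      refine ⟨l, Finset.mem_erase.2 ⟨?_, Finset.mem_univ _⟩, rfl⟩
      rintro rfl
      exact hj₀ hj
  have h2 := Finset.card_le_card h1
  rw [Finset.card_map, Finset.card_erase_of_mem (Finset.mem_univ _), Finset.card_univ,
    Fintype.card_fin] at h2
  omega

/-- Genus zero, the last `r` classes are scalar plus rank one and not scalar. -/
theorem g0R : P002L.G0R := by
  intro m r hr R _ φ E hc _ C hE hRO x hx hirr f hf
  have hr2 : 2 ≤ r := by
    by_contra h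
    have h1 : r = 1 := by omega
    subst h1
    refine (hRO 0).2 ((C (Fin.natAdd (m + 1) 0) : Mat 1 ℂ) 0 0) ?_
    ext i j
    rw [Subsingleton.elim i 0, Subsingleton.elim j 0, Matrix.smul_apply, Matrix.one_apply_eq,
      smul_eq_mul, mul_one]
  obtain ⟨j₀, hj₀⟩ := exists_nonscalar hr2 C (fun j => (hRO j).1) x (hx.1 _ rfl) hx.2.1
    (adjoin_top_of_irr x hx.2.2 hirr)
  refine reorder_one C (Equiv.swap (Fin.castAdd r (Fin.last m)) (Fin.castAdd r j₀))
    (fun x hx hirr f hf => ?_) x hx hirr f hf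
  have hswap : ∀ j : Fin r, Equiv.swap (Fin.castAdd r (Fin.last m)) (Fin.castAdd r j₀)
      (Fin.natAdd (m + 1) j) = Fin.natAdd (m + 1) j := by
    intro j
    refine Equiv.swap_apply_of_ne_of_ne ?_ ?_
    · intro h
      have := congrArg Fin.val h
      rw [Fin.val_natAdd, Fin.val_castAdd, Fin.val_last] at this
      omega
    · intro h
      have := congrArg Fin.val h
      rw [Fin.val_natAdd, Fin.val_castAdd] at this
      omega
  refine g0R_pos hr2 φ E hc _ (fun j => hE _) (fun j => ?_) ?_ x hx hirr f hf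
  · rw [hswap]
    exact hRO j
  · rw [Equiv.swap_apply_left]
    exact hj₀

end Vale.Agent.P002R
end
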